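import Vale.Agent.P022K.WB.YSt

/-!
# Block WB: no common kernel on the fibre of a point (also at reducible points)

`β : V × M → Y` is a balanced pairing, equivariant for `P` on `M` and for `H` on `V`; `V = V₁ + V₂`
are the eigenspaces of an element `τ` with residually distinct eigenvalues.
`r1`: if `r V₁` is orthogonal to the fibre `M₀[P]`, then `r ^ k c` kills `M[P ^ k]` for all `k`.
-/

set_option linter.all false

noncomputable section

namespace Vale.Agent.P022K.WB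

namespace R1

variable (p : ℕ) [Fact p.Prime] (C : Type) [NontriviallyNormedField C] [IsUltrametricDist C]
  [CharZero C]

/-- row EX: equivariant maps separate points -/
def Ex : Prop := ∀ [CompleteSpace C] [IsAlgClosed C] (ψ : ℚ_[p] → C) (H A : Type) [Group H]
  [AddCommGroup A] [Finite A] (act : H →* Iso C) (ρ : H →* AddMonoid.End A), Ok p ψ act →
  Opn act ρ → (∃ m : ℕ, ∀ a : A, p ^ m • a = 0) → ∀ a : A, a ≠ 0 → ∃ x : A →+ Y p C,
    Eqv act ρ x ∧ x a ≠ 0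

/-- the rows which are used -/
structure Rows : Prop where
  surj : SURJ p C
  ex : Ex p C
  nfix : NFIX p C

variable {p C}

section quo

variable {H V : Type} [Group H] [AddCommGroup V]

/-- the action on a quotient -/
def qr (ρ : H → V →+ V) (A : AddSubgroup V) (hs : ∀ h, ∀ v ∈ A, ρ h v ∈ A)
    (h1 : ∀ v, ρ 1 v - v ∈ A) (hm : ∀ h h' v, ρ (h * h') v - ρ h (ρ h' v) ∈ A) :
    H →* AddMonoid.End (V ⧸ A) where
  toFun h := QuotientAddGroup.map A A (ρ h) (hs h)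
  map_one' := by
    refine AddMonoidHom.ext fun x => ?_
    obtain ⟨v, rfl⟩ := QuotientAddGroup.mk_surjective x
    exact (QuotientAddGroup.eq_iff_sub_mem).2 (h1 v)
  map_mul' h h' := by
    refine AddMonoidHom.ext fun x => ?_
    obtain ⟨v, rfl⟩ := QuotientAddGroup.mk_surjective x
    exact (QuotientAddGroup.eq_iff_sub_mem).2 (hm h h' v)

theorem qr_mk (ρ : H → V →+ V) (A : AddSubgroup V) (hs) (h1) (hm) (h : H) (v : V) :
    qr ρ A hs h1 hm h (v : V ⧸ A) = (ρ h v : V ⧸ A) := rfl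

end quo

variable [CompleteSpace C] [IsAlgClosed C] {ψ : ℚ_[p] → C} {H : Type} [Group H]
  {act : H →* Iso C}

/-- separation of a vector from a stable subgroup -/
theorem sj (rw : Rows p C) (ok : Ok p ψ act) {V : Type} [AddCommGroup V] (ρ : H → V →+ V)
    (U : AddSubgroup (V →+ Y p C)) (K : AddSubgroup V) (hK : ∀ v, v ∈ K ↔ ∀ u ∈ U, u v = 0)
    (hf : Finite (V ⧸ K)) (hm : ∃ m : ℕ, ∀ v, p ^ m • v ∈ K)
    (hO : ∃ s : Finset C, (∀ a ∈ s, Alg a) ∧ ∀ h, (∀ a ∈ s, (act h).1 a = a) →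
      ∀ v, ρ h v - v ∈ K)
    (he : ∀ u ∈ U, ∀ h v, u (ρ h v) = Y.gal (act h) (u v))
    (hn : ∀ u ∈ U, ∀ b, (ok.psi.n b).comp u ∈ U)
    (hp : ∀ u ∈ U, (Y.phi p C).toAddMonoidHom.comp u ∈ U)
    (hq : ∀ u ∈ U, (Y.phi p C).symm.toAddMonoidHom.comp u ∈ U)
    (A : AddSubgroup V) (hKA : K ≤ A) (hA : ∀ h, ∀ v ∈ A, ρ h v ∈ A) (a : V) (ha : a ∉ A) :
    ∃ u ∈ U, (∀ v ∈ A, u v = 0) ∧ u a ≠ 0 := by
  have k0 : ∀ h, ∀ v ∈ K, ρ h v ∈ K := fun h v hv => (hK _).2 fun u hu => by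
    rw [he u hu, (hK v).1 hv u hu, map_zero]
  have k1 : ∀ v, ρ 1 v - v ∈ K := fun v => (hK _).2 fun u hu => by
    rw [map_sub, he u hu, map_one, Y.gal_one, sub_self]
  have k2 : ∀ h h' v, ρ (h * h') v - ρ h (ρ h' v) ∈ K := fun h h' v => (hK _).2 fun u hu => by
    rw [map_sub, he u hu, he u hu, he u hu, map_mul, Y.gal_mul, sub_self]
  obtain ⟨m, hm⟩ := hm
  obtain ⟨s, hs, hO⟩ := hO
  have hfA : Finite (V ⧸ A) := Finite.of_surjective (QuotientAddGroup.map K A (AddMonoidHom.id V)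
    hKA) fun x => by
      obtain ⟨v, rfl⟩ := QuotientAddGroup.mk_surjective x
      exact ⟨v, rfl⟩
  have op : ∀ (B : AddSubgroup V) (hB : K ≤ B) h0,
      Opn act (qr ρ B h0 (fun v => hB (k1 v)) fun h h' v => hB (k2 h h' v)) := fun B hB h0 =>
    ⟨s, hs, fun h hh => AddMonoidHom.ext fun x => by
      obtain ⟨v, rfl⟩ := QuotientAddGroup.mk_surjective x
      exact (QuotientAddGroup.eq_iff_sub_mem).2 (hB (hO h hh v))⟩
  have tr : ∀ (B : AddSubgroup V), K ≤ B → ∀ x : V ⧸ B, p ^ m • x = 0 := fun B hB x => by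
    obtain ⟨v, rfl⟩ := QuotientAddGroup.mk_surjective x
    rw [← QuotientAddGroup.mk_nsmul, QuotientAddGroup.eq_zero_iff]
    exact hB (hm v)
  obtain ⟨x, hx, hxa⟩ := rw.ex ψ H (V ⧸ A) act _ ok (op A hKA hA) ⟨m, tr A hKA⟩ (a : V ⧸ A)
    (fun e => ha ((QuotientAddGroup.eq_zero_iff _).1 e))
  obtain ⟨b, hb⟩ : ∃ b, ok.psi.n b (x a) ≠ x a := by
    by_contra hc
    push Not at hc
    exact hxa (rw.nfix ψ ok.psi ok.np _ ⟨m, by rw [← map_nsmul, tr A hKA, map_zero]⟩ hc)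
  let x' : V ⧸ K →+ Y p C := x.comp (QuotientAddGroup.map K A (AddMonoidHom.id V) hKA)
  let U' : AddSubgroup (V ⧸ K →+ Y p C) :=
    U.comap ((AddMonoidHom.compHom (M := V) (N := V ⧸ K) (P := Y p C)).flip
      (QuotientAddGroup.mk' K))
  have hU' : ∀ y, y ∈ U' ↔ y.comp (QuotientAddGroup.mk' K) ∈ U := fun y => Iff.rfl
  have key := rw.surj ψ H (V ⧸ K) act (qr ρ K k0 k1 k2) ok (op K le_rfl k0) ⟨m, tr K le_rfl⟩ U'
    (fun u hu h z => by
      obtain ⟨v, rfl⟩ := QuotientAddGroup.mk_surjective z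
      exact he _ ((hU' u).1 hu) h v)
    (fun u hu b => (hU' _).2 (hn _ ((hU' u).1 hu) b))
    (fun u hu => (hU' _).2 (hp _ ((hU' u).1 hu))) (fun u hu => (hU' _).2 (hq _ ((hU' u).1 hu)))
    (fun z hz => by
      obtain ⟨v, rfl⟩ := QuotientAddGroup.mk_surjective z
      refine (QuotientAddGroup.eq_zero_iff _).2 ((hK v).2 fun u hu => ?_)
      exact hz (QuotientAddGroup.lift K u fun w hw => (hK w).1 hw u hu) ((hU' _).2 (by
        convert hu using 1
        rfl)))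
    x' (fun h z => by
      obtain ⟨v, rfl⟩ := QuotientAddGroup.mk_surjective z
      exact hx h (v : V ⧸ A)) b
  refine ⟨_, (hU' _).1 key, fun v hv => ?_, fun e => hb (sub_eq_zero.1 e)⟩
  have : x (v : V ⧸ A) = 0 := by rw [(QuotientAddGroup.eq_zero_iff _).2 hv, map_zero]
  show ok.psi.n b (x (v : V ⧸ A)) - x (v : V ⧸ A) = 0
  rw [this, map_zero, sub_zero]

variable {R M V : Type} [CommRing R] [AddCommGroup M] [Module R M] [AddCommGroup V] [Module R V]

variable (p R M) in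
/-- the operators on the module: `n(b)`, `φ` and the diagonal element which goes with `τ` -/
structure Md where
  nb : ℚ_[p] → M →ₗ[R] M
  ph : M ≃ₗ[R] M
  D : M ≃ₗ[R] M

/-- stable submodules -/
structure Md.St (d : Md p R M) (S : Submodule R M) : Prop where
  nb : ∀ b, ∀ θ ∈ S, d.nb b θ ∈ S
  ph : ∀ θ ∈ S, d.ph θ ∈ S
  ph' : ∀ θ ∈ S, d.ph.symm θ ∈ S
  D : ∀ θ ∈ S, d.D.symm θ ∈ S

variable (M) in
/-- the vectors killed by an ideal -/
abbrev Kl (I : Ideal R) : Submodule R M := Submodule.torsionBySet R M I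

theorem mem_Kl {I : Ideal R} {θ : M} : θ ∈ Kl M I ↔ ∀ u ∈ I, u • θ = 0 := by
  simp [Submodule.mem_torsionBySet_iff]

theorem Kl_map {M' : Type} [AddCommGroup M'] [Module R M'] (f : M →ₗ[R] M') {I : Ideal R} {θ : M}
    (h : θ ∈ Kl M I) : f θ ∈ Kl M' I :=
  mem_Kl.2 fun u hu => by rw [← map_smul, mem_Kl.1 h u hu, map_zero]

theorem Md.st_Kl (d : Md p R M) (I : Ideal R) : d.St (Kl M I) :=
  ⟨fun b _ h => Kl_map (d.nb b) h, fun _ h => Kl_map d.ph.toLinearMap h,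
    fun _ h => Kl_map d.ph.symm.toLinearMap h, fun _ h => Kl_map d.D.symm.toLinearMap h⟩

theorem Md.St.inf {d : Md p R M} {S T : Submodule R M} (h : d.St S) (h' : d.St T) :
    d.St (S ⊓ T) :=
  ⟨fun b θ a => ⟨h.nb b θ a.1, h'.nb b θ a.2⟩, fun θ a => ⟨h.ph θ a.1, h'.ph θ a.2⟩,
    fun θ a => ⟨h.ph' θ a.1, h'.ph' θ a.2⟩, fun θ a => ⟨h.D θ a.1, h'.D θ a.2⟩⟩

theorem Md.St.smul {d : Md p R M} {S : Submodule R M} (h : d.St S) (r : R) :
    d.St (S.map (r • LinearMap.id)) := by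
  refine ⟨fun b _ => ?_, fun _ => ?_, fun _ => ?_, fun _ => ?_⟩ <;> rintro ⟨θ, hθ, rfl⟩
  · exact ⟨_, h.nb b θ hθ, by simp⟩
  · exact ⟨_, h.ph θ hθ, by simp⟩
  · exact ⟨_, h.ph' θ hθ, by simp⟩
  · exact ⟨_, h.D θ hθ, by simp⟩

variable (R) in
/-- the data which do not depend on the modules: `S` is the action of the element `τ` on the
target, `η, η'` are its eigenvalues, `I N` is a system of ideals of finite index -/
structure Bs (p : ℕ) [Fact p.Prime] (C : Type) [NontriviallyNormedField C]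
    [IsUltrametricDist C] [CharZero C] where
  S : Y p C →+ Y p C
  inj : Function.Injective S
  η : R
  η' : R
  un : IsUnit (η - η')
  I : ℕ → Ideal R
  pI : ∀ N, ∃ m : ℕ, (p : R) ^ m ∈ I N

variable (R H V) in
/-- the Galois side -/
structure Vd where
  ρ : H → V →ₗ[R] V
  τ : V →ₗ[R] V
  V1 : Submodule R V
  V2 : Submodule R V

/-- **the pairing** -/
structure Pg (ok : Ok p ψ act) (B : Bs R p C) (d : Md p R M) (e : Vd H R V)
    (β : V →+ M →+ Y p C) : Prop where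
  bal : ∀ (r : R) v θ, β (r • v) θ = β v (r • θ)
  eqv : ∀ h v θ, β (e.ρ h v) θ = Y.gal (act h) (β v θ)
  nb : ∀ b v θ, β v (d.nb b θ) = ok.psi.n b (β v θ)
  ph : ∀ v θ, β v (d.ph θ) = Y.phi p C (β v θ)
  tau : ∀ v θ, β (e.τ v) (d.D θ) = B.S (β v θ)
  sup : e.V1 ⊔ e.V2 = ⊤
  t1 : ∀ v ∈ e.V1, ∀ θ, β (e.τ v) θ = β (B.η • v) θ
  t2 : ∀ v ∈ e.V2, ∀ θ, β (e.τ v) θ = β (B.η' • v) θ
  fin : ∀ N, Finite (V ⧸ (B.I N • ⊤ : Submodule R V))
  opn : ∀ N, ∃ s : Finset C, (∀ a ∈ s, Alg a) ∧ ∀ h, (∀ a ∈ s, (act h).1 a = a) →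
    ∀ v, ∀ θ ∈ Kl M (B.I N), β (e.ρ h v) θ = β v θ
  nil : ∀ θ : M, ∃ N, θ ∈ Kl M (B.I N)

namespace Pg

variable {ok : Ok p ψ act} {B : Bs R p C} {d : Md p R M} {e : Vd H R V} {β : V →+ M →+ Y p C}
  (h : Pg ok B d e β)

/-- the left kernel -/
def lk (S : Submodule R M) : Submodule R V where
  carrier := {v | ∀ θ ∈ S, β v θ = 0}
  add_mem' {a b} ha hb θ hθ := by rw [map_add, AddMonoidHom.add_apply, ha θ hθ, hb θ hθ, add_zero]
  zero_mem' θ _ := by rw [map_zero, AddMonoidHom.zero_apply]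
  smul_mem' r v hv θ hθ := by rw [h.bal, hv _ (S.smul_mem r hθ)]

/-- the right kernel -/
def rk (W : Submodule R V) : Submodule R M where
  carrier := {θ | ∀ v ∈ W, β v θ = 0}
  add_mem' {a b} ha hb v hv := by rw [map_add, ha v hv, hb v hv, add_zero]
  zero_mem' v _ := map_zero _
  smul_mem' r θ hθ v hv := by rw [← h.bal, hθ _ (W.smul_mem r hv)]

theorem mem_lk {S : Submodule R M} {v : V} : v ∈ h.lk S ↔ ∀ θ ∈ S, β v θ = 0 := Iff.rfl

theorem mem_rk {W : Submodule R V} {θ : M} : θ ∈ h.rk W ↔ ∀ v ∈ W, β v θ = 0 := Iff.rfl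

include h

theorem ph' (v : V) (θ : M) : β v (d.ph.symm θ) = (Y.phi p C).symm (β v θ) := by
  rw [AddEquiv.eq_symm_apply, ← h.ph, LinearEquiv.apply_symm_apply]

theorem tau_lk {S : Submodule R M} (hS : d.St S) {v : V} (hv : v ∈ h.lk S) : e.τ v ∈ h.lk S :=
  fun θ hθ => by
    rw [← d.D.apply_symm_apply θ, h.tau, hv _ (hS.D θ hθ), map_zero]

/-- the two components of a vector of the left kernel -/
theorem split {S : Submodule R M} (hS : d.St S) {a b : V} (ha : a ∈ e.V1) (hb : b ∈ e.V2)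
    (hv : a + b ∈ h.lk S) : a ∈ h.lk S ∧ b ∈ h.lk S := by
  have h1 : a ∈ h.lk S := by
    obtain ⟨u, hu⟩ := B.un
    have h2 : (B.η - B.η') • a ∈ h.lk S := fun θ hθ => by
      have h3 := h.tau_lk hS hv θ hθ
      have h4 := (h.lk S).smul_mem B.η' hv θ hθ
      rw [map_add, map_add, AddMonoidHom.add_apply, h.t1 a ha, h.t2 b hb] at h3
      rw [smul_add, map_add, AddMonoidHom.add_apply] at h4
      rw [sub_smul, map_sub, AddMonoidHom.sub_apply]
      rw [sub_eq_zero, eq_neg_of_add_eq_zero_left h3, eq_neg_of_add_eq_zero_left h4]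
    have := (h.lk S).smul_mem (↑u⁻¹ : R) h2
    rwa [smul_smul, ← hu, Units.inv_mul, one_smul] at this
  exact ⟨h1, by simpa using (h.lk S).sub_mem hv h1⟩

theorem st_rk {W : Submodule R V} (hW : W ≤ e.V1) : d.St (h.rk W) :=
  ⟨fun b θ a v hv => by rw [h.nb, a v hv, map_zero],
    fun θ a v hv => by rw [h.ph, a v hv, map_zero],
    fun θ a v hv => by rw [h.ph', a v hv, map_zero],
    fun θ a v hv => B.inj (by
      rw [← h.tau, LinearEquiv.apply_symm_apply, h.t1 v (hW hv), a _ (W.smul_mem _ hv), map_zero])⟩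

/-- separation for the pairing -/
theorem sep (rw : Rows p C) {S : Submodule R M} (hS : d.St S) {N : ℕ} (hN : S ≤ Kl M (B.I N))
    {W : Submodule R V} (hW : ∀ g, ∀ v ∈ W, e.ρ g v ∈ W ⊔ h.lk S) {a : V}
    (ha : ∀ θ ∈ S, θ ∈ h.rk W → β a θ = 0) : a ∈ W ⊔ h.lk S := by
  by_contra hc
  have hI : (B.I N • ⊤ : Submodule R V) ≤ h.lk S := Submodule.smul_le.2 fun u hu v _ θ hθ => by
    rw [h.bal, mem_Kl.1 (hN hθ) u hu, map_zero]
  have k0 : ∀ g, ∀ v ∈ h.lk S, e.ρ g v ∈ h.lk S := fun g v hv θ hθ => by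
    rw [h.eqv, hv θ hθ, map_zero]
  obtain ⟨u, ⟨θ, hθ, rfl⟩, h1, h2⟩ := sj rw ok (fun g => (e.ρ g).toAddMonoidHom)
    (S.toAddSubgroup.map β.flip) (h.lk S).toAddSubgroup
    (fun v => ⟨by rintro a _ ⟨θ, hθ, rfl⟩; exact a θ hθ, fun a θ hθ => a _ ⟨θ, hθ, rfl⟩⟩)
    (by
      have := h.fin N
      refine Finite.of_surjective (fun x : V ⧸ (B.I N • ⊤ : Submodule R V) =>
        (Submodule.mapQ _ (h.lk S) LinearMap.id hI x : V ⧸ h.lk S)) fun x => ?_
      obtain ⟨v, rfl⟩ := Submodule.mkQ_surjective _ x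
      exact ⟨Submodule.mkQ _ v, rfl⟩)
    (by
      obtain ⟨m, hm⟩ := B.pI N
      refine ⟨m, fun v => hI ?_⟩
      have := Submodule.smul_mem_smul hm (Submodule.mem_top (x := v))
      rwa [← Nat.cast_pow, Nat.cast_smul_eq_nsmul] at this)
    (by
      obtain ⟨s, hs, hO⟩ := h.opn N
      refine ⟨s, hs, fun g hg v θ hθ => ?_⟩
      rw [map_sub, AddMonoidHom.sub_apply, sub_eq_zero]
      exact hO g hg v θ (hN hθ))
    (by rintro _ ⟨θ, -, rfl⟩ g v; exact h.eqv g v θ)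
    (by rintro _ ⟨θ, hθ, rfl⟩ b; exact ⟨_, hS.nb b θ hθ, AddMonoidHom.ext fun v => h.nb b v θ⟩)
    (by rintro _ ⟨θ, hθ, rfl⟩; exact ⟨_, hS.ph θ hθ, AddMonoidHom.ext fun v => h.ph v θ⟩)
    (by rintro _ ⟨θ, hθ, rfl⟩; exact ⟨_, hS.ph' θ hθ, AddMonoidHom.ext fun v => h.ph' v θ⟩)
    (W ⊔ h.lk S).toAddSubgroup (fun v hv => Submodule.mem_sup_right hv)
    (fun g v hv => by
      obtain ⟨x, hx, y, hy, rfl⟩ := Submodule.mem_sup.1 hv
      show e.ρ g (x + y) ∈ W ⊔ h.lk S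
      rw [map_add]
      exact add_mem (hW g x hx) (Submodule.mem_sup_right (k0 g y hy))) a hc
  exact h2 (ha θ hθ fun v hv => h1 v (Submodule.mem_sup_left hv))

/-- the basic lemma -/
theorem sp (rw : Rows p C) {S : Submodule R M} (hS : d.St S) {N : ℕ} (hN : S ≤ Kl M (B.I N))
    {W : Submodule R V} (hW : ∀ g, ∀ v ∈ W, e.ρ g v ∈ W ⊔ h.lk S) (h2 : W ≤ e.V2 ⊔ h.lk S) {a : V}
    (h1 : a ∈ e.V1) (ha : ∀ θ ∈ S, θ ∈ h.rk W → β a θ = 0) : a ∈ h.lk S := by
  obtain ⟨x, hx, y, hy, hxy⟩ := Submodule.mem_sup.1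
    ((sup_le h2 le_sup_right : W ⊔ h.lk S ≤ e.V2 ⊔ h.lk S) (h.sep rw hS hN hW ha))
  refine (h.split hS h1 (neg_mem hx) ?_).1
  rw [← hxy]
  simpa using hy

/-- from the fibre to the vectors killed by `P V₁` -/
theorem step (rw : Rows p C) (inj : ∀ θ, (∀ v, β v θ = 0) → θ = 0) (P : Ideal R) {a : V}
    (h1 : a ∈ e.V1) (ha : a ∈ h.lk (Kl M P)) : a ∈ h.lk (h.rk (P • e.V1)) := fun θ hθ => by
  obtain ⟨N, hN⟩ := h.nil θ
  refine h.sp rw ((h.st_rk Submodule.smul_le_right).inf (d.st_Kl (B.I N))) inf_le_right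
    (W := P • ⊤) (fun g v hv => Submodule.mem_sup_left ?_) ?_ h1 (fun x _ hx => ha x ?_) θ ⟨hθ, hN⟩
  · exact Submodule.smul_induction_on hv
      (fun u hu w _ => by rw [map_smul]; exact Submodule.smul_mem_smul hu trivial)
      fun x y a b => by rw [map_add]; exact add_mem a b
  · rw [← h.sup, Submodule.smul_sup, sup_comm]
    exact sup_le_sup Submodule.smul_le_right fun v hv x hx => hx.1 v hv
  · exact mem_Kl.2 fun u hu => inj _ fun v => by
      rw [← h.bal]; exact hx _ (Submodule.smul_mem_smul hu trivial)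

theorem pow (rw : Rows p C) (inj : ∀ θ, (∀ v, β v θ = 0) → θ = 0) (P : Ideal R) {r : R}
    (hr : ∀ v ∈ e.V1, r • v ∈ h.lk (Kl M P)) (k : ℕ) :
    ∀ θ ∈ h.rk (P ^ k • e.V1), r ^ k • θ ∈ h.rk e.V1 := by
  induction k with
  | zero => intro θ hθ; simpa using hθ
  | succ k ih =>
    intro θ hθ
    rw [pow_succ, mul_smul]
    refine ih _ fun v hv => ?_
    refine Submodule.smul_induction_on hv (fun f hf w hw => ?_) fun x y a b => by
      rw [map_add, AddMonoidHom.add_apply, a, b, add_zero]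
    rw [h.bal, smul_comm, ← h.bal]
    refine h.step rw inj P (e.V1.smul_mem r hw) (hr w hw) _ fun x hx => ?_
    rw [← h.bal]
    refine hθ _ ?_
    rw [pow_succ, mul_smul]
    exact Submodule.smul_mem_smul hf hx

/-- `c V` lies in the span of the translates of `V₁` -/
def Cc (c : R) : Prop := ∀ v, c • v ∈ (e.V1 ⊔ ⨆ g, e.V1.map (e.ρ g)) ⊔ h.lk ⊤

theorem kill (inj : ∀ θ, (∀ v, β v θ = 0) → θ = 0) {c : R} (hc : h.Cc c) {θ : M}
    (hθ : θ ∈ h.rk e.V1) : c • θ = 0 := inj _ fun v => by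
  rw [← h.bal]
  have : (e.V1 ⊔ ⨆ g, e.V1.map (e.ρ g)) ⊔ h.lk ⊤ ≤ h.lk (h.rk e.V1) := by
    refine sup_le (sup_le (fun x hx y hy => hy x hx) (iSup_le fun g => ?_))
      fun x hx y _ => hx y trivial
    rintro _ ⟨x, hx, rfl⟩ y hy
    rw [h.eqv, hy x hx, map_zero]
  exact this (hc v) θ hθ

/-- one module -/
theorem one (rw : Rows p C) (inj : ∀ θ, (∀ v, β v θ = 0) → θ = 0) (P : Ideal R) {r c : R}
    (hr : ∀ v ∈ e.V1, r • v ∈ h.lk (Kl M P)) (hc : h.Cc c) (k : ℕ) :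
    ∀ θ ∈ Kl M (P ^ k), (r ^ k * c) • θ = 0 := fun θ hθ => by
  rw [mul_comm, mul_smul]
  refine h.kill inj hc (h.pow rw inj P hr k θ fun v hv => ?_)
  refine Submodule.smul_induction_on hv (fun f hf w _ => ?_) fun x y a b => by
    rw [map_add, AddMonoidHom.add_apply, a, b, add_zero]
  rw [h.bal, mem_Kl.1 hθ f hf, map_zero]

end Pg

section two

variable {M₀ V' : Type} [AddCommGroup M₀] [Module R M₀] [AddCommGroup V'] [Module R V']

/-- maps which are compatible with the operators -/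
structure Md.Hom (d₀ : Md p R M₀) (d : Md p R M) (j : M₀ →ₗ[R] M) : Prop where
  nb : ∀ b θ, j (d₀.nb b θ) = d.nb b (j θ)
  ph : ∀ θ, j (d₀.ph θ) = d.ph (j θ)
  D : ∀ θ, j (d₀.D θ) = d.D (j θ)

/-- the product -/
def Vd.prod (e : Vd H R V) (e' : Vd H R V') : Vd H R (V × V') :=
  ⟨fun g => (e.ρ g).prodMap (e'.ρ g), e.τ.prodMap e'.τ, e.V1.prod e'.V1, e.V2.prod e'.V2⟩

variable {ok : Ok p ψ act} {B : Bs R p C} {d : Md p R M} {e : Vd H R V} {β : V →+ M →+ Y p C}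

/-- restriction along a map -/
theorem Pg.comap (h : Pg ok B d e β) {d₀ : Md p R M₀} {j : M₀ →ₗ[R] M} (hj : d₀.Hom d j)
    (nil : ∀ θ : M₀, ∃ N, θ ∈ Kl M₀ (B.I N)) :
    Pg ok B d₀ e (β.flip.comp j.toAddMonoidHom).flip where
  bal r v θ := by
    show β (r • v) (j θ) = β v (j (r • θ))
    rw [j.map_smul, h.bal]
  eqv g v θ := h.eqv g v (j θ)
  nb b v θ := by
    show β v (j (d₀.nb b θ)) = _
    rw [hj.nb, h.nb]; rfl
  ph v θ := by
    show β v (j (d₀.ph θ)) = _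
    rw [hj.ph, h.ph]; rfl
  tau v θ := by
    show β (e.τ v) (j (d₀.D θ)) = _
    rw [hj.D, h.tau]; rfl
  sup := h.sup
  t1 v hv θ := h.t1 v hv (j θ)
  t2 v hv θ := h.t2 v hv (j θ)
  fin := h.fin
  opn N := by
    obtain ⟨s, hs, hO⟩ := h.opn N
    exact ⟨s, hs, fun g hg v θ hθ => hO g hg v (j θ) (Kl_map j hθ)⟩
  nil := nil

theorem fin_prod {I : Ideal R} (h : Finite (V ⧸ (I • ⊤ : Submodule R V)))
    (h' : Finite (V' ⧸ (I • ⊤ : Submodule R V'))) :
    Finite ((V × V') ⧸ (I • ⊤ : Submodule R (V × V'))) := by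
  have a : ∀ {W : Type} [AddCommGroup W] [Module R W] (f : W →ₗ[R] V × V'),
      (I • ⊤ : Submodule R W) ≤ (I • ⊤ : Submodule R (V × V')).comap f := fun f =>
    Submodule.smul_le.2 fun u hu w _ => by
      rw [Submodule.mem_comap, map_smul]; exact Submodule.smul_mem_smul hu trivial
  refine Finite.of_surjective
    (fun x : (V ⧸ (I • ⊤ : Submodule R V)) × (V' ⧸ (I • ⊤ : Submodule R V')) =>
      Submodule.mapQ _ _ _ (a (LinearMap.inl R V V')) x.1 +
        Submodule.mapQ _ _ _ (a (LinearMap.inr R V V')) x.2) fun x => ?_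
  obtain ⟨v, rfl⟩ := Submodule.mkQ_surjective _ x
  refine ⟨(Submodule.mkQ _ v.1, Submodule.mkQ _ v.2), ?_⟩
  show Submodule.mkQ _ (LinearMap.inl R V V' v.1) + Submodule.mkQ _ (LinearMap.inr R V V' v.2) = _
  rw [← map_add]
  simp

variable {e' : Vd H R V'} {β' : V' →+ M →+ Y p C}

/-- the sum of two pairings -/
theorem Pg.prod (h : Pg ok B d e β) (h' : Pg ok B d e' β') :
    Pg ok B d (e.prod e') (β.coprod β') where
  bal r v θ := by simp [h.bal, h'.bal]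
  eqv g v θ := by simp [Vd.prod, h.eqv, h'.eqv]
  nb b v θ := by simp [h.nb, h'.nb]
  ph v θ := by simp [h.ph, h'.ph]
  tau v θ := by simp [Vd.prod, h.tau, h'.tau]
  sup := by
    simp only [Vd.prod]
    rw [Submodule.prod_sup_prod, h.sup, h'.sup, Submodule.prod_top]
  t1 v hv θ := by simp [Vd.prod, h.t1 _ hv.1, h'.t1 _ hv.2]
  t2 v hv θ := by simp [Vd.prod, h.t2 _ hv.1, h'.t2 _ hv.2]
  fin N := fin_prod (h.fin N) (h'.fin N)
  opn N := by
    classical
    obtain ⟨s, hs, hO⟩ := h.opn N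
    obtain ⟨s', hs', hO'⟩ := h'.opn N
    refine ⟨s ∪ s', fun a ha => (Finset.mem_union.1 ha).elim (hs a) (hs' a), fun g hg v θ hθ => ?_⟩
    simp [Vd.prod, hO g (fun a ha => hg a (Finset.mem_union_left _ ha)) _ θ hθ,
      hO' g (fun a ha => hg a (Finset.mem_union_right _ ha)) _ θ hθ]
  nil := h.nil

/-- the bound for one injective pairing is a bound for every pairing -/
theorem Pg.unif (h : Pg ok B d e β) (h' : Pg ok B d e' β') (rw : Rows p C) {S : Submodule R M}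
    (hS : d.St S) (inj : ∀ θ ∈ S, (∀ v, β' v θ = 0) → θ = 0) {r : R}
    (hr : ∀ v ∈ e'.V1, r • v ∈ h'.lk S) : ∀ v ∈ e.V1, r • v ∈ h.lk S := fun v hv θ hθ => by
  obtain ⟨N, hN⟩ := h.nil θ
  have h2 := h.prod h'
  have key := h2.sp rw ((hS.inf (d.st_Kl (B.I N))).smul r) (N := N)
    (by rintro _ ⟨x, hx, rfl⟩; exact Submodule.smul_mem _ r hx.2)
    (W := LinearMap.range (LinearMap.inr R V V'))
    (by rintro g _ ⟨x, rfl⟩; exact Submodule.mem_sup_left ⟨e'.ρ g x, by simp [Vd.prod]⟩)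
    (by
      rintro _ ⟨x, rfl⟩
      obtain ⟨a, ha, b, hb, rfl⟩ := Submodule.mem_sup.1 (h'.sup ▸ Submodule.mem_top (x := x))
      rw [map_add, add_comm]
      refine Submodule.add_mem_sup ⟨zero_mem _, hb⟩ ?_
      rintro _ ⟨y, hy, rfl⟩
      have := hr a ha y hy.1
      rw [h'.bal] at this
      simpa using this)
    (a := (v, 0)) ⟨hv, zero_mem _⟩
    (by
      rintro _ ⟨y, hy, rfl⟩ hx
      have : (r • LinearMap.id : M →ₗ[R] M) y = 0 :=
        inj _ (S.smul_mem r hy.1) fun w => by simpa using hx _ ⟨w, rfl⟩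
      rw [this, map_zero])
    (r • θ) ⟨θ, ⟨hθ, hN⟩, rfl⟩
  rw [h.bal]
  simpa using key

/-- **R1.** `M₀` is the module of base level with an injective pairing `β₀`, `M` a module of
auxiliary level with an injective pairing `β`, whose fibre comes from `M₀` up to `r₀` -/
theorem r1 (rw : Rows p C) (h : Pg ok B d e β) (inj : ∀ θ, (∀ v, β v θ = 0) → θ = 0)
    {d₀ : Md p R M₀} {β₀ : V' →+ M₀ →+ Y p C} (h₀ : Pg ok B d₀ e' β₀) {S : Submodule R M₀}
    (hS : d₀.St S) (inj₀ : ∀ θ ∈ S, (∀ v, β₀ v θ = 0) → θ = 0) {j : M₀ →ₗ[R] M}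
    (hj : d₀.Hom d j) (P : Ideal R) {r r₀ c : R} (hP : ∀ θ ∈ Kl M P, ∃ x ∈ S, j x = r₀ • θ)
    (hr : ∀ v ∈ e'.V1, r • v ∈ h₀.lk S) (hc : h.Cc c) (k : ℕ) :
    ∀ θ ∈ Kl M (P ^ k), ((r * r₀) ^ k * c) • θ = 0 := by
  refine h.one rw inj P (fun v hv θ hθ => ?_) hc k
  obtain ⟨x, hx, hθ'⟩ := hP θ hθ
  have := (h.comap hj h₀.nil).unif h₀ rw hS inj₀ hr v hv x hx
  rw [mul_comm, mul_smul, h.bal, ← hθ']
  exact this

end two

section fam

variable {ok : Ok p ψ act} {B : Bs R p C} {d : Md p R M} {e : Vd H R V}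

/-- exchange of the two eigenvalues -/
def Bs.swap (B : Bs R p C) : Bs R p C :=
  ⟨B.S, B.inj, B.η', B.η, by simpa using B.un.neg, B.I, B.pI⟩

/-- exchange of the two eigenspaces -/
def Vd.swap (e : Vd H R V) : Vd H R V := ⟨e.ρ, e.τ, e.V2, e.V1⟩

theorem Pg.swap {β : V →+ M →+ Y p C} (h : Pg ok B d e β) : Pg ok B.swap d e.swap β :=
  ⟨h.bal, h.eqv, h.nb, h.ph, h.tau, (sup_comm _ _).trans h.sup, h.t2, h.t1, h.fin, h.opn, h.nil⟩

theorem Pg.add {β β' : V →+ M →+ Y p C} (h : Pg ok B d e β) (h' : Pg ok B d e β') :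
    Pg ok B d e (β + β') where
  bal r v θ := by simp [h.bal, h'.bal]
  eqv g v θ := by simp [h.eqv, h'.eqv]
  nb b v θ := by simp [h.nb, h'.nb]
  ph v θ := by simp [h.ph, h'.ph]
  tau v θ := by simp [h.tau, h'.tau]
  sup := h.sup
  t1 v hv θ := by simp [h.t1 _ hv, h'.t1 _ hv]
  t2 v hv θ := by simp [h.t2 _ hv, h'.t2 _ hv]
  fin := h.fin
  opn N := by
    classical
    obtain ⟨s, hs, hO⟩ := h.opn N
    obtain ⟨s', hs', hO'⟩ := h'.opn N
    refine ⟨s ∪ s', fun a ha => (Finset.mem_union.1 ha).elim (hs a) (hs' a), fun g hg v θ hθ => ?_⟩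
    simp [hO g (fun a ha => hg a (Finset.mem_union_left _ ha)) _ θ hθ,
      hO' g (fun a ha => hg a (Finset.mem_union_right _ ha)) _ θ hθ]
  nil := h.nil

variable {κ : Type} [Fintype κ]

/-- a finite number of copies -/
def Vd.pi (e : Vd H R V) (κ : Type) : Vd H R (κ → V) :=
  ⟨fun g => (e.ρ g).compLeft κ, e.τ.compLeft κ, Submodule.pi Set.univ fun _ => e.V1,
    Submodule.pi Set.univ fun _ => e.V2⟩

/-- the pairing of a finite family -/
def sumP (β : κ → V →+ M →+ Y p C) : (κ → V) →+ M →+ Y p C :=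
  ∑ i, (β i).comp (Pi.evalAddMonoidHom (fun _ => V) i)

omit [CompleteSpace C] [IsAlgClosed C] in
theorem sumP_apply (β : κ → V →+ M →+ Y p C) (v : κ → V) (θ : M) :
    sumP β v θ = ∑ i, β i (v i) θ := by
  simp [sumP, AddMonoidHom.finset_sum_apply]

omit [CompleteSpace C] [IsAlgClosed C] in
theorem sumP_single [DecidableEq κ] (β : κ → V →+ M →+ Y p C) (i : κ) (v : V) (θ : M) :
    sumP β (Pi.single i v) θ = β i v θ := by
  rw [sumP_apply, Finset.sum_eq_single i (fun j _ hj => by simp [hj]) (by simp)]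
  simp

theorem Pg.pi [Nonempty κ] {β : κ → V →+ M →+ Y p C} (h : ∀ i, Pg ok B d e (β i)) :
    Pg ok B d (e.pi κ) (sumP β) where
  bal r v θ := by simp [sumP_apply, (h _).bal]
  eqv g v θ := by simp [sumP_apply, Vd.pi, (h _).eqv]
  nb b v θ := by simp [sumP_apply, (h _).nb]
  ph v θ := by simp [sumP_apply, (h _).ph]
  tau v θ := by simp [sumP_apply, Vd.pi, (h _).tau]
  sup := by
    obtain ⟨i⟩ := ‹Nonempty κ›
    refine top_unique fun v _ => ?_
    choose a ha b hb hab using fun j =>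
      Submodule.mem_sup.1 ((h i).sup ▸ Submodule.mem_top (x := v j))
    exact Submodule.mem_sup.2 ⟨a, fun j _ => ha j, b, fun j _ => hb j, funext hab⟩
  t1 v hv θ := by
    simp only [sumP_apply]
    exact Finset.sum_congr rfl fun i _ => (h i).t1 _ (hv i trivial) θ
  t2 v hv θ := by
    simp only [sumP_apply]
    exact Finset.sum_congr rfl fun i _ => (h i).t2 _ (hv i trivial) θ
  fin N := by
    classical
    obtain ⟨i⟩ := ‹Nonempty κ›
    have := (h i).fin N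
    have a : ∀ j : κ, (B.I N • ⊤ : Submodule R V) ≤
        (B.I N • ⊤ : Submodule R (κ → V)).comap (LinearMap.single R (fun _ => V) j) := fun j =>
      Submodule.smul_le.2 fun u hu w _ => by
        rw [Submodule.mem_comap, map_smul]; exact Submodule.smul_mem_smul hu trivial
    refine Finite.of_surjective (fun x : κ → V ⧸ (B.I N • ⊤ : Submodule R V) =>
      ∑ j, Submodule.mapQ _ _ _ (a j) (x j)) fun x => ?_
    obtain ⟨v, rfl⟩ := Submodule.mkQ_surjective _ x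
    refine ⟨fun j => Submodule.mkQ _ (v j), ?_⟩
    show ∑ j, Submodule.mkQ _ (LinearMap.single R (fun _ => V) j (v j)) = _
    rw [← map_sum]
    simp [Finset.univ_sum_single]
  opn N := by
    classical
    choose s hs hO using fun i => (h i).opn N
    refine ⟨Finset.univ.biUnion s, fun a ha => ?_, fun g hg v θ hθ => ?_⟩
    · obtain ⟨i, -, hi⟩ := Finset.mem_biUnion.1 ha
      exact hs i a hi
    · simp only [sumP_apply]
      exact Finset.sum_congr rfl fun i _ => hO i g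
        (fun a ha => hg a (Finset.mem_biUnion.2 ⟨i, Finset.mem_univ i, ha⟩)) _ θ hθ
  nil := (h (Classical.arbitrary κ)).nil

/-- one member of the family is faithful on the line spanned by `e₁` -/
theorem ex_good {β : κ → V →+ M →+ Y p C} (h : ∀ i, Pg ok B d e (β i)) {S : Submodule R M}
    {P : Ideal R} (hP : P.IsPrime) (e₁ : V) (h1 : ∀ r ∉ P, ∃ i, r • e₁ ∉ (h i).lk S) :
    ∃ i, ∀ r, r • e₁ ∈ (h i).lk S → r ∈ P := by
  classical
  by_contra hc
  push Not at hc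
  choose r hr hr' using hc
  obtain ⟨i, hi⟩ := h1 (∏ j, r j) fun a => by
    obtain ⟨j, -, hj⟩ := (Ideal.IsPrime.prod_mem_iff (hp := hP)).1 a
    exact hr' j hj
  refine hi ?_
  rw [← Finset.prod_erase_mul _ _ (Finset.mem_univ i), mul_smul]
  exact Submodule.smul_mem _ _ (hr i)

/-- **no common kernel**: a member of the family, or the sum of two members, has the left kernel
`P V` on `S` -/
theorem nck {β : κ → V →+ M →+ Y p C} (h : ∀ i, Pg ok B d e (β i)) {S : Submodule R M}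
    (hS : d.St S) {P : Ideal R} (hP : P.IsPrime) {e₁ e₂ : V} (k1 : e.V1 = Submodule.span R {e₁})
    (k2 : e.V2 = Submodule.span R {e₂}) (h1 : ∀ r ∉ P, ∃ i, r • e₁ ∉ (h i).lk S)
    (h2 : ∀ r ∉ P, ∃ i, r • e₂ ∉ (h i).lk S) :
    ∃ γ : V →+ M →+ Y p C, ((∃ i, γ = β i) ∨ ∃ i j, γ = β i + β j) ∧ Pg ok B d e γ ∧
      ∀ v, (∀ θ ∈ S, γ v θ = 0) → v ∈ (P • ⊤ : Submodule R V) := by
  have key : ∀ {γ : V →+ M →+ Y p C} (g : Pg ok B d e γ), (∀ r, r • e₁ ∈ g.lk S → r ∈ P) →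
      (∀ r, r • e₂ ∈ g.lk S → r ∈ P) → ∀ v, (∀ θ ∈ S, γ v θ = 0) →
      v ∈ (P • ⊤ : Submodule R V) := fun g a b v hv => by
    obtain ⟨x, hx, y, hy, rfl⟩ := Submodule.mem_sup.1 (g.sup ▸ Submodule.mem_top (x := v))
    obtain ⟨c1, c2⟩ := g.split hS hx hy hv
    rw [k1] at hx
    rw [k2] at hy
    obtain ⟨r, rfl⟩ := Submodule.mem_span_singleton.1 hx
    obtain ⟨r', rfl⟩ := Submodule.mem_span_singleton.1 hy
    exact add_mem (Submodule.smul_mem_smul (a r c1) trivial)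
      (Submodule.smul_mem_smul (b r' c2) trivial)
  obtain ⟨i, hi⟩ := ex_good h hP e₁ h1
  obtain ⟨j, hj⟩ := ex_good h hP e₂ h2
  by_cases a : ∀ r, r • e₂ ∈ (h i).lk S → r ∈ P
  · exact ⟨_, .inl ⟨i, rfl⟩, h i, key (h i) hi a⟩
  by_cases b : ∀ r, r • e₁ ∈ (h j).lk S → r ∈ P
  · exact ⟨_, .inl ⟨j, rfl⟩, h j, key (h j) b hj⟩
  push Not at a b
  obtain ⟨a, a1, a2⟩ := a
  obtain ⟨b, b1, b2⟩ := b
  refine ⟨_, .inr ⟨i, j, rfl⟩, (h i).add (h j), key ((h i).add (h j)) (fun r hr => ?_)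
    fun r hr => ?_⟩
  · refine (hP.mem_or_mem (hi (b * r) fun θ hθ => ?_)).resolve_left b2
    have c1 := Submodule.smul_mem _ b hr θ hθ
    have c2 := Submodule.smul_mem _ r b1 θ hθ
    rw [smul_comm] at c2
    simp only [AddMonoidHom.add_apply, c2, add_zero] at c1
    rwa [mul_smul]
  · refine (hP.mem_or_mem (hj (a * r) fun θ hθ => ?_)).resolve_left a2
    have c1 := Submodule.smul_mem _ a hr θ hθ
    have c2 := Submodule.smul_mem _ r a1 θ hθ
    rw [smul_comm] at c2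
    simp only [AddMonoidHom.add_apply, c2, zero_add] at c1
    rwa [mul_smul]

end fam

end R1

end Vale.Agent.P022K.WB
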