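import Vale.Agent.P022K.WB.Tr0

/-!
# P022K, block WB: honest functionals from periodic functionals
-/

set_option autoImplicit false

noncomputable section

namespace Vale.Agent.P022K.WB.Hon

open Finset

variable {p : ℕ} [Fact p.Prime] {C : Type} [NontriviallyNormedField C] [IsUltrametricDist C]
  [CharZero C]

theorem sh_mem (k : ℤ) {l : ℤ → C} (hl : l ∈ BW p C) : (fun i => l (i + k)) ∈ BW p C := by
  induction k using Int.induction_on with
  | zero => simpa using hl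
  | succ k ih =>
    have := shift_mem_BW.2 ih
    simpa only [add_assoc, add_comm (1 : ℤ)] using this
  | pred k ih =>
    refine shift_mem_BW.1 ?_
    have e : ∀ i : ℤ, i + 1 + (-(k : ℤ) - 1) = i + -k := fun i => by ring
    simpa only [e] using ih

variable (p C) in
/-- the shift by `k` -/
def ph (k : ℤ) : Y p C →+ Y p C :=
  QuotientAddGroup.map (BW p C) (BW p C)
    { toFun := fun l i => l (i + k), map_zero' := rfl, map_add' := fun _ _ => rfl }
    fun _ hl => sh_mem k hl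

theorem ph_mk (k : ℤ) (l : ℤ → C) : ph p C k (Y.mk p C l) = Y.mk p C fun i => l (i + k) := rfl

theorem ph_zero (y : Y p C) : ph p C 0 y = y := by
  obtain ⟨l, rfl⟩ := Y.mk_surj y
  simp [ph_mk]

theorem ph_one (y : Y p C) : ph p C 1 y = Y.phi p C y := by
  obtain ⟨l, rfl⟩ := Y.mk_surj y
  rfl

theorem ph_add (a b : ℤ) (y : Y p C) : ph p C (a + b) y = ph p C a (ph p C b y) := by
  obtain ⟨l, rfl⟩ := Y.mk_surj y
  simp only [ph_mk, add_assoc]

theorem ph_nat (k : ℕ) (y : Y p C) : (Y.phi p C)^[k] y = ph p C k y := by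
  induction k with
  | zero => simp [ph_zero]
  | succ k ih => rw [Function.iterate_succ_apply', ih, ← ph_one, ← ph_add]; congr 2; push_cast; ring

theorem ph_n {ψ : ℚ_[p] → C} (h : Psi p ψ) (k : ℤ) (b : ℚ_[p]) (y : Y p C) :
    ph p C k (h.n b y) = h.n ((p : ℚ_[p]) ^ k * b) (ph p C k y) := by
  obtain ⟨l, rfl⟩ := Y.mk_surj y
  simp only [Psi.n_mk, ph_mk, zpow_add₀ (p_ne p)]
  congr 1; funext i; congr 2; ring

theorem gal_ph (s : Iso C) (k : ℤ) (y : Y p C) : Y.gal s (ph p C k y) = ph p C k (Y.gal s y) := by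
  obtain ⟨l, rfl⟩ := Y.mk_surj y
  rfl

section roots

variable {q : ℕ} {ζ : C}

omit [IsUltrametricDist C] [CharZero C] in
theorem pw_q (h : ζ ^ (p ^ q - 1) = 1) : ζ ^ p ^ q = ζ := by
  have : 1 ≤ p ^ q := Nat.one_le_pow _ _ (Fact.out : p.Prime).pos
  rw [← Nat.sub_add_cancel this, pow_succ, h, one_mul]

omit [IsUltrametricDist C] [CharZero C] in
theorem pw_add (h : ζ ^ (p ^ q - 1) = 1) (a b : ℕ) : ζ ^ p ^ (a + q * b) = ζ ^ p ^ a := by
  induction b with
  | zero => simp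
  | succ b ih => rw [Nat.mul_succ, ← add_assoc, add_comm _ q, pow_add, pow_mul, pw_q h, ih]

omit [IsUltrametricDist C] [CharZero C] in
theorem pw_mod (h : ζ ^ (p ^ q - 1) = 1) {a b : ℕ} (e : a ≡ b [MOD q]) :
    ζ ^ p ^ a = ζ ^ p ^ b := by
  rw [← Nat.mod_add_div a q, ← Nat.mod_add_div b q, pw_add h, pw_add h, e]

/-- the exponent -/
def ex (q : ℕ) (i : ℤ) : ℕ := (i % q).toNat

theorem ex_cast (hq : 0 < q) (i : ℤ) : (ex q i : ℤ) = i % q :=
  Int.toNat_of_nonneg (Int.emod_nonneg _ (by omega))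

theorem ex_lt (hq : 0 < q) (i : ℤ) : ex q i < q := by
  have := Int.emod_lt_of_pos i (show (0 : ℤ) < q by omega)
  rw [← ex_cast hq] at this
  exact_mod_cast this

theorem ex_add (hq : 0 < q) (i : ℤ) (k : ℕ) : ex q i + k ≡ ex q (i + k) [MOD q] := by
  rw [← Int.natCast_modEq_iff]
  push_cast
  rw [ex_cast hq, ex_cast hq]
  exact ((Int.mod_modEq i q).add_right _).trans (Int.mod_modEq _ q).symm

theorem N_pos (hq : 0 < q) : 0 < p ^ q - 1 :=
  Nat.sub_pos_of_lt (Nat.one_lt_pow hq.ne' (Fact.out : p.Prime).one_lt)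

omit [IsUltrametricDist C] [CharZero C] in
theorem norm_root (hq : 0 < q) (h : ζ ^ (p ^ q - 1) = 1) : ‖ζ‖ = 1 := by
  have := congrArg Norm.norm h
  rw [norm_pow, norm_one] at this
  exact (pow_eq_one_iff_of_nonneg (norm_nonneg _) (N_pos hq).ne').1 this

/-- the Teichmueller system of a root of unity -/
def ez (hq : 0 < q) (h : ζ ^ (p ^ q - 1) = 1) : Tt p C :=
  ⟨fun i => ζ ^ p ^ ex q i, fun i => ⟨by simp [norm_pow, norm_root hq h], by
    show (ζ ^ p ^ ex q i) ^ p = ζ ^ p ^ ex q (i + 1)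
    rw [← pow_mul, ← pow_succ]
    exact pw_mod h (ex_add hq i 1)⟩⟩

variable (hq : 0 < q) (h : ζ ^ (p ^ q - 1) = 1)

theorem ph_q (y : Y p C) : Y.mul (ez hq h) (ph p C q y) = ph p C q (Y.mul (ez hq h) y) := by
  obtain ⟨l, rfl⟩ := Y.mk_surj y
  simp only [ph_mk, Y.mul_mk]
  congr 1; funext i
  simp [ez, ex]

theorem gal_ez (s : Iso C) {k : ℕ} (hs : s.1 ζ = ζ ^ p ^ k) (y z : Y p C)
    (e : Y.gal s y = ph p C k z) :
    Y.gal s (Y.mul (ez hq h) y) = ph p C k (Y.mul (ez hq h) z) := by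
  have h1 : ∀ y, Y.gal s (Y.mul (ez hq h) y) =
      ph p C k (Y.mul (ez hq h) (ph p C (-k) (Y.gal s y))) := fun y => by
    obtain ⟨l, rfl⟩ := Y.mk_surj y
    simp only [ph_mk, Y.mul_mk, Y.gal_mk]
    congr 1; funext i
    simp only [ez, Pi.mul_apply, map_mul, map_pow, hs, add_neg_cancel_right]
    rw [← pow_mul, ← pow_add, add_comm k, pw_mod h (ex_add hq i k)]
  rw [h1, e, ← ph_add, neg_add_cancel, ph_zero]

theorem n_ez {ψ : ℚ_[p] → C} (hψ : Psi p ψ) (b : ℚ_[p]) (y : Y p C) :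
    Y.mul (ez hq h) (hψ.n b y) = hψ.n b (Y.mul (ez hq h) y) := by
  rw [Psi.n, ← Y.mul_mul, ← Y.mul_mul, mul_comm]

end roots

theorem sum_per {A : Type*} [AddCommGroup A] (q : ℕ) (F : ℤ → A) (hF : ∀ i, F (i + q) = F i)
    (c : ℤ) : ∑ i ∈ range q, F (i + c) = ∑ i ∈ range q, F i := by
  have h1 : ∀ c : ℤ, ∑ i ∈ range q, F (i + (c + 1)) = ∑ i ∈ range q, F (i + c) := fun c => by
    have a := sum_range_succ (fun i : ℕ => F (i + c)) q
    have b := sum_range_succ' (fun i : ℕ => F (i + c)) q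
    rw [a, add_comm (q : ℤ), hF] at b
    simp only [Nat.cast_zero, zero_add, add_left_inj] at b
    rw [b]
    refine sum_congr rfl fun i _ => ?_
    congr 1; push_cast; ring
  induction c using Int.induction_on with
  | zero => simp
  | succ c ih => rw [h1, ih]
  | pred c ih => rw [← h1, ← ih]; simp

theorem tt_zpow_nn (k : ℤ) (b : ℚ_[p]) :
    tt p ^ k * nn b = nn ((p : ℚ_[p]) ^ k * b) * tt p ^ k := by
  have h1 : ∀ k : ℕ, ∀ b : ℚ_[p], tt p ^ k * nn b = nn ((p : ℚ_[p]) ^ k * b) * tt p ^ k := by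
    intro k
    induction k with
    | zero => simp
    | succ k ih =>
      intro b
      rw [pow_succ', mul_assoc, ih, ← mul_assoc, tt_nn, mul_assoc, pow_succ', mul_assoc]
  obtain ⟨k, rfl | rfl⟩ := Int.eq_nat_or_neg k
  · simpa using h1 k b
  · have := h1 k (((p : ℚ_[p]) ^ k)⁻¹ * b)
    rw [mul_inv_cancel_left₀ (pow_ne_zero _ (p_ne p))] at this
    rw [zpow_neg, zpow_neg, zpow_natCast, zpow_natCast, inv_mul_eq_iff_eq_mul, ← mul_assoc, this,
      mul_inv_cancel_right]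

theorem tt_dd (a d : ℚ_[p]ˣ) : Commute (tt p) (dd a d) := by
  rw [Commute, SemiconjBy, tt, ← dd_mul, ← dd_mul, mul_comm a, mul_comm d]

variable {ψ : ℚ_[p] → C} {Γ : Type} [Group Γ] {act : Γ →* Iso C} {χ : Γ →* ℤ_[p]ˣ}
  {R M : Type*} [CommRing R] [AddCommGroup M] [Module R M]

/-- **periodic functionals** with the Weil law -/
structure Pg (ok : Og ψ act χ) (ρ : Representation R (G2 p) M) (γ : Γ → M → M) (P : Submodule R M)
    (q : ℕ) (W : M →+ Y p C) : Prop where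
  n : ∀ b, ∀ v ∈ P, W (ρ (nn b) v) = ok.psi.n b (W v)
  t : ∀ v ∈ P, W (ρ (tt p ^ q) v) = (Y.phi p C)^[q] (W v)
  s : ∀ s, ∃ i : ℕ, (∀ x : C, x ^ (p ^ q - 1) = 1 → (act s).1 x = x ^ p ^ i) ∧ ∀ v ∈ P,
    Y.gal (act s) (W v) = (Y.phi p C)^[i] (W (ρ ((tt p)⁻¹ ^ i * dd (uq (χ s)) 1) (γ s v)))

variable (ρ : Representation R (G2 p) M) {q : ℕ} {ζ : C} (hq : 0 < q) (h : ζ ^ (p ^ q - 1) = 1)
  (W : M →+ Y p C)

/-- one term -/
def tm (i : ℤ) : M →+ Y p C :=
  (ph p C (-i)).comp ((Y.mul (ez hq h)).comp (W.comp (ρ (tt p ^ i)).toAddMonoidHom))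

theorem tm_apply (i : ℤ) (v : M) :
    tm ρ hq h W i v = ph p C (-i) (Y.mul (ez hq h) (W (ρ (tt p ^ i) v))) := rfl

/-- the honest functional -/
def hon : M →+ Y p C := ∑ i ∈ range q, tm ρ hq h W i

theorem hon_apply (v : M) : hon ρ hq h W v = ∑ i ∈ range q, tm ρ hq h W i v := by
  rw [hon, AddMonoidHom.finsetSum_apply]

variable {ρ W} {ok : Og ψ act χ} {γ : Γ → M → M} {P : Submodule R M}

theorem Pg.per (H : Pg ok ρ γ P q W) (hP : Gs ρ P) {v : M} (hv : v ∈ P) (i : ℤ) :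
    tm ρ hq h W (i + q) v = tm ρ hq h W i v := by
  rw [tm_apply, tm_apply, add_comm i, zpow_add, rho_mul, zpow_natCast, H.t _ (hP _ _ hv), ph_nat,
    ph_q, ← ph_add]
  congr 2; ring

/-- **HON**, the three laws -/
theorem Pg.wg (H : Pg ok ρ γ P q W) (hP : Gs ρ P) (hγ : ∀ s, ∀ v ∈ P, γ s v ∈ P)
    (com : ∀ s (i : ℤ), ∀ v ∈ P, γ s (ρ (tt p ^ i) v) = ρ (tt p ^ i) (γ s v)) :
    Wg ok ρ γ P (hon ρ hq h W) := by
  refine ⟨fun b v hv => ?_, fun v hv => ?_, fun s v hv => ?_⟩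
  · rw [hon_apply, hon_apply, map_sum]
    refine sum_congr rfl fun i _ => ?_
    rw [tm_apply, tm_apply, ← rho_mul, tt_zpow_nn, rho_mul, H.n _ _ (hP _ _ hv), n_ez, ph_n,
      ← mul_assoc, ← zpow_add₀ (p_ne p), neg_add_cancel, zpow_zero, one_mul]
  · rw [hon_apply, hon_apply, ← sum_per q (fun i => tm ρ hq h W i v) (H.per hq h hP hv) 1, map_sum]
    refine sum_congr rfl fun i _ => ?_
    rw [tm_apply, tm_apply, ← ph_one, ← ph_add, ← rho_mul, ← zpow_add_one]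
    congr 2; ring
  · obtain ⟨k, h1, h2⟩ := H.s s
    rw [hon_apply, hon_apply, map_sum, ← sum_per q (fun i => tm ρ hq h W i _)
      (H.per hq h hP (hP _ _ (hγ s v hv))) (-k)]
    refine sum_congr rfl fun i _ => ?_
    have h3 := h2 _ (hP (tt p ^ (i : ℤ)) v hv)
    rw [ph_nat] at h3
    rw [tm_apply, tm_apply, gal_ph, gal_ez hq h _ (h1 ζ h) _ _ h3, ← ph_add, com s i v hv,
      ← rho_mul, ← rho_mul, mul_assoc, ← ((tt_dd _ _).zpow_left i).eq, ← mul_assoc, inv_pow,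
      ← zpow_natCast, ← zpow_neg, ← zpow_add, add_comm (-(k : ℤ))]
    congr 2; ring

omit [IsUltrametricDist C] [CharZero C] in
theorem orth {z : C} (hz : IsPrimitiveRoot z (p ^ q - 1)) {a b : ℕ} (ha : a < q) (hb : b < q)
    (e : a ≠ b) : ∑ k ∈ range (p ^ q - 1), ((z ^ k)⁻¹) ^ p ^ a * (z ^ k) ^ p ^ b = 0 := by
  have hp := (Fact.out : p.Prime)
  have hq : 0 < q := by omega
  have h0 : z ≠ 0 := hz.ne_zero (N_pos hq).ne'
  have lt : ∀ c < q, p ^ c < p ^ q - 1 := fun c hc => by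
    have h1 : p ^ c ≤ p ^ (q - 1) := Nat.pow_le_pow_right hp.pos (by omega)
    have h2 : p ^ q = p ^ (q - 1) * p := by rw [← pow_succ]; congr 1; omega
    have h3 : 2 ≤ p ^ (q - 1) := hp.two_le.trans (Nat.le_self_pow (by omega) p)
    have h4 := Nat.mul_le_mul_left (p ^ (q - 1)) hp.two_le
    omega
  set ω := (z ^ p ^ a)⁻¹ * z ^ p ^ b with hω
  have h1 : ω ≠ 1 := fun h => by
    rw [hω, inv_mul_eq_one₀ (pow_ne_zero _ h0)] at h
    exact e (Nat.pow_right_injective hp.two_le (hz.pow_inj (lt a ha) (lt b hb) h))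
  have h2 : ω ^ (p ^ q - 1) = 1 := by
    rw [hω, mul_pow, inv_pow, ← pow_mul, ← pow_mul, mul_comm (p ^ a), mul_comm (p ^ b), pow_mul,
      pow_mul, hz.pow_eq_one]
    simp
  have h3 := geom_sum_eq h1 (p ^ q - 1)
  rw [h2, sub_self, zero_div] at h3
  rw [← h3]
  refine sum_congr rfl fun k _ => ?_
  rw [hω, mul_pow, inv_pow, inv_pow, ← pow_mul, ← pow_mul, ← pow_mul, ← pow_mul, mul_comm k,
    mul_comm k]

/-- **HON**, the kernel -/
theorem hon_inj [IsAlgClosed C] {v : M} (ht : ∃ k : ℕ, p ^ k • v = 0)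
    (h0 : ∀ (ζ : C) (h : ζ ^ (p ^ q - 1) = 1), hon ρ hq h W v = 0) : W v = 0 := by
  have : NeZero (p ^ q - 1) := ⟨(N_pos hq).ne'⟩
  obtain ⟨z, hz⟩ := HasEnoughRootsOfUnity.exists_primitiveRoot C (p ^ q - 1)
  have z0 : z ≠ 0 := hz.ne_zero (N_pos hq).ne'
  have r1 : ∀ k : ℕ, (z ^ k) ^ (p ^ q - 1) = 1 := fun k => by
    rw [← pow_mul, mul_comm, pow_mul, hz.pow_eq_one, one_pow]
  have r2 : ∀ k : ℕ, (z ^ k)⁻¹ ^ (p ^ q - 1) = 1 := fun k => by rw [inv_pow, r1, inv_one]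
  have key : ∀ (i : ℤ) (y : Y p C), ∑ k ∈ range (p ^ q - 1),
      Y.mul (ez hq (r2 k)) (ph p C (-i) (Y.mul (ez hq (r1 k)) y)) =
      Y.mk p C (fun j => (∑ k ∈ range (p ^ q - 1),
        ((z ^ k)⁻¹) ^ p ^ ex q j * (z ^ k) ^ p ^ ex q (j + -i)) * (Y.mk_surj y).choose (j + -i)) := by
    intro i y
    conv_lhs => rw [← (Y.mk_surj y).choose_spec]
    simp only [Y.mul_mk, ph_mk, ← map_sum]
    congr 1; funext j
    simp only [Finset.sum_apply, Pi.mul_apply, ez, sum_mul, mul_assoc]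
  have h1 : ∑ k ∈ range (p ^ q - 1), Y.mul (ez hq (r2 k)) (hon ρ hq (r1 k) W v) = 0 :=
    sum_eq_zero fun k _ => by rw [h0, map_zero]
  simp only [hon_apply, map_sum, tm_apply] at h1
  rw [sum_comm, sum_eq_single 0] at h1
  · have h2 : (p ^ q - 1) • W v = 0 := by
      rw [← h1]
      simp only [Nat.cast_zero, neg_zero, ph_zero, zpow_zero, map_one, Module.End.one_apply,
        ← Y.mul_mul]
      rw [sum_congr rfl (g := fun _ => W v), sum_const, card_range]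
      intro k _
      rw [show ez hq (r2 k) * ez hq (r1 k) = 1 from Subtype.ext (funext fun j => by
        show (z ^ k)⁻¹ ^ _ * (z ^ k) ^ _ = 1
        rw [← mul_pow, inv_mul_cancel₀ (pow_ne_zero _ z0), one_pow]), Y.mul_one]
    obtain ⟨k, hk⟩ := ht
    have h3 : p ^ k • W v = 0 := by rw [← map_nsmul, hk, map_zero]
    have h4 : Nat.Coprime (p ^ q - 1) (p ^ k) := by
      refine Nat.Coprime.pow_right _ (Nat.Coprime.symm ?_)
      refine Nat.Coprime.coprime_dvd_left (dvd_pow_self p hq.ne') ?_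
      have : 1 ≤ p ^ q := Nat.one_le_pow _ _ (Fact.out : p.Prime).pos
      exact (Nat.coprime_self_sub_right this).2 (by simp)
    have := Nat.dvd_gcd (addOrderOf_dvd_of_nsmul_eq_zero h2) (addOrderOf_dvd_of_nsmul_eq_zero h3)
    rwa [h4, Nat.dvd_one, AddMonoid.addOrderOf_eq_one_iff] at this
  · intro i hi i0
    rw [key, ← map_zero (Y.mk p C)]
    congr 1; funext j
    rw [orth hz (ex_lt hq _) (ex_lt hq _), zero_mul, Pi.zero_apply]
    intro e
    have e1 := congrArg (Nat.cast : ℕ → ℤ) e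
    rw [ex_cast hq, ex_cast hq] at e1
    have e2 : (q : ℤ) ∣ i := by
      have := (Int.emod_emod_of_dvd j (dvd_refl (q : ℤ))).symm
      have h5 := Int.ModEq.dvd (show j + -(i : ℤ) ≡ j [ZMOD q] from e1.symm)
      simpa using h5
    have := Nat.le_of_dvd (Nat.pos_of_ne_zero i0) (Int.natCast_dvd_natCast.1 e2)
    have := mem_range.1 hi
    omega
  · intro h5
    exact absurd (mem_range.2 hq) h5

end Vale.Agent.P022K.WB.Hon
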