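import Vale.Agent.P022K.WB.Tr0

/-!
# P022K, block WB: the transfer at one place
-/

set_option autoImplicit false

noncomputable section

namespace Vale.Agent.P022K.WB

open Matrix Noe

theorem exists_dual {O J : Type*} [CommRing O] [IsDomain O] [IsPrincipalIdealRing O] [Finite J]
    (L : Submodule O (J → O)) {q : O} (hq : q ≠ 0) (h : ∀ y, q • y ∈ L) {y : J → O} (hy : y ∉ L) :
    ∃ μ : (J → O) →ₗ[O] O, (∀ l ∈ L, q ∣ μ l) ∧ ¬ q ∣ μ y := by
  classical
  obtain ⟨n, s⟩ := L.smithNormalForm (Pi.basisFun O J)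
  have e : ∀ (l : L) i, s.bM.repr l (s.f i) = s.a i * s.bN.repr l i := fun l i => by
    rw [s.repr_apply_embedding_eq_repr_smul, map_smul, Finsupp.smul_apply, smul_eq_mul]
  have h1 : ∀ i, q = s.a i * s.bN.repr ⟨_, h (s.bM (s.f i))⟩ i := fun i => by
    rw [← e]
    simp
  have h2 : Function.Surjective s.f := fun k => by
    by_contra hk
    have := s.repr_eq_zero_of_notMem_range ⟨_, h (s.bM k)⟩ hk
    simp [hq] at this
  by_contra hn
  have h3 : ∀ i, s.a i ∣ s.bM.repr y (s.f i) := fun i => by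
    by_contra hi
    refine hn ⟨s.bN.repr ⟨_, h (s.bM (s.f i))⟩ i • s.bM.coord (s.f i), fun l hl => ?_, fun hd => ?_⟩
    · refine ⟨s.bN.repr ⟨l, hl⟩ i, ?_⟩
      rw [LinearMap.smul_apply, Module.Basis.coord_apply, e ⟨l, hl⟩, smul_eq_mul]
      linear_combination (-s.bN.repr ⟨l, hl⟩ i) * h1 i
    · have h0 : s.bN.repr ⟨_, h (s.bM (s.f i))⟩ i ≠ 0 := fun e0 => hq (by rw [h1 i, e0, mul_zero])
      rw [LinearMap.smul_apply, Module.Basis.coord_apply, smul_eq_mul, mul_comm] at hd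
      exact hi ((mul_dvd_mul_iff_right h0).1 (h1 i ▸ hd))
  have := Fintype.ofFinite J
  refine hy (s.bM.sum_repr y ▸ sum_mem fun k _ => ?_)
  obtain ⟨i, rfl⟩ := h2 k
  obtain ⟨c, hc⟩ := h3 i
  rw [hc, mul_comm, mul_smul, ← s.snf]
  exact L.smul_mem _ (s.bN i).2

variable {p : ℕ} [Fact p.Prime] {C : Type} [NontriviallyNormedField C] [IsUltrametricDist C]
  [CharZero C] {ψ : ℚ_[p] → C} {Γ : Type} [Group Γ] {act : Γ →* Iso C} {χ : Γ →* ℤ_[p]ˣ}
  {ok : Og ψ act χ}

section lam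

variable {R M : Type*} [CommRing R] [AddCommGroup M] [Module R M] {T : Type} [AddCommGroup T]

/-- the target sees all of `T` -/
def Lam (ok : Og ψ act χ) (ρ : Representation R (G2 p) M) (Q : Submodule R M) [Module R T]
    (α : Γ →* AddMonoid.End T) : Prop :=
  ∃ c : ℕ, ∀ N : ℕ, ∃ (P : Submodule R M) (hP : Adm ρ P) (A : Type) (_ : AddCommGroup A)
    (_ : Module R A) (β : Γ →* AddMonoid.End A) (κ : P →+ A →+ Y p C) (lam : A →ₗ[R] T), P ≤ Q ∧
    (∃ n : ℕ, ∀ v ∈ P, p ^ n • v = 0) ∧ Lat p act β ∧ Bm ok (subZ hP.gs) β κ ∧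
    (∀ (o : R) v a, κ (o • v) a = κ v (o • a)) ∧
    (∀ v, κ v = 0 → v = 0) ∧ (∀ s a, lam (β s a) = α s (lam a)) ∧
    (∀ a, (∀ u, κ u a = 0) → ∃ t, lam a = p ^ (N + c) • t) ∧
    ∀ t, ∃ a t', p ^ c • t = lam a + p ^ (N + c) • t'

variable {ρ : Representation R (G2 p) M} {Q : Submodule R M} {α : Γ →* AddMonoid.End T}

theorem Sl.of_subZ {P : Submodule R M} (hP : Gs ρ P) {I K : Type} [Zero K] {φ : K → R}
    {rel : Set (G2 p × I →₀ K)} {y : I → P} :
    Sl (subZ hP) (smf φ) rel y ↔ (fun i => (y i : M)) ∈ SlO φ ρ rel := by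
  refine forall₂_congr fun r _ => ?_
  rw [← Subtype.val_injective.eq_iff]
  exact Eq.congr_left (map_evr P.subtype.toAddMonoidHom _ _ r)

/-- **TR** at one place -/
theorem tr_lam [CompleteSpace C] [IsAlgClosed C] [Module R T] (hS : SURJ p C) (hF : PHI p C)
    (sur : Function.Surjective χ) {I K : Type} [Zero K] {φ : K → R} {rel : Set (G2 p × I →₀ K)}
    (h : Loc ok α (smf φ) rel) (h' : Lam ok ρ Q α) (hz : ∀ a, ∀ v ∈ Q, ρ (dd a a) v = v) (N : ℕ) :
    ∃ y ∈ SlO φ ρ rel, (∀ i, y i ∈ Q) ∧ ∃ i, p ^ N • y i ≠ 0 := by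
  obtain ⟨c, h⟩ := h
  obtain ⟨c', h'⟩ := h'
  obtain ⟨Θ, _, σ, μ, ι, x, h1, h2, h3, h4, hb, h5, h6, i, h7⟩ := h (N + c')
  obtain ⟨P, hP, A, _, _, β, κ, lam, k1, ⟨n, k2⟩, k3, k4, kb, k5, k6, k7, k8⟩ := h' (N + c)
  have h8 : ∀ v t, ι v (p ^ (N + c + c') • t) = 0 := fun v t => by
    rw [map_nsmul, ← AddMonoidHom.nsmul_apply, ← map_nsmul, add_right_comm, h3, map_zero,
      AddMonoidHom.zero_apply]
  obtain ⟨y, y1, y2⟩ := tr_core hS hF sur k3 (h4.comp lam.toAddMonoidHom k6) k4 h1 hP.subZ h2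
    (fun a v => Subtype.ext (hz a v (k1 v.2))) (N := n) (fun v => Subtype.ext (k2 v v.2)) k5
    (fun a ha v => by
      obtain ⟨t, ht⟩ := k7 a ha
      exact (congrArg (ι v) ht).trans (h8 v t)) (μ' := smf φ) (τ := smf φ)
    (fun c hc v a => (hb c hc v (lam a)).trans (congrArg (ι v) (map_smul lam _ a).symm))
    (fun c _ v a => kb _ v a) h5 h6
  refine ⟨fun i => y i, (Sl.of_subZ hP.gs).1 y1, fun i => k1 (y i).2, i, fun e => h7 ?_⟩
  refine AddMonoidHom.ext fun t => ?_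
  obtain ⟨a, t', ht⟩ := k8 t
  have h9 : p ^ N • ι (x i) (lam a) = 0 := by
    have := congrArg (fun w => κ w a) (show p ^ N • y i = 0 from Subtype.ext e)
    simp only [map_nsmul, y2, map_zero] at this
    exact this
  rw [pow_add, mul_smul, AddMonoidHom.nsmul_apply, AddMonoidHom.nsmul_apply, ← map_nsmul, ht,
    map_add, h8, add_zero, h9, AddMonoidHom.zero_apply]

variable (α) in
/-- the diagonal action on a power -/
def piA (J : Type) : Γ →* AddMonoid.End (J → T) where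
  toFun s := AddMonoidHom.compLeft (α s) J
  map_one' := AddMonoidHom.ext fun a => funext fun j => by
    show α 1 (a j) = a j
    rw [map_one]
    rfl
  map_mul' s t := AddMonoidHom.ext fun a => funext fun j => al_mul α s t (a j)

/-- the sum of a family of maps -/
def sumK {J Z : Type} [Fintype J] [AddCommGroup Z] (κ : J → M →+ T →+ Z) : M →+ (J → T) →+ Z :=
  ∑ j, (AddMonoidHom.compHom' (Pi.evalAddMonoidHom (fun _ : J => T) j)).comp (κ j)

theorem sumK_apply {J Z : Type} [Fintype J] [AddCommGroup Z] (κ : J → M →+ T →+ Z) (v : M)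
    (a : J → T) : sumK κ v a = ∑ j, κ j v (a j) := by
  simp only [sumK, AddMonoidHom.finsetSum_apply]
  rfl

theorem sumK_zero {J Z : Type} [Fintype J] [AddCommGroup Z] {κ : J → M →+ T →+ Z} {v : M}
    (h : sumK κ v = 0) (j : J) : κ j v = 0 := AddMonoidHom.ext fun a => by
  classical
  have := sumK_apply κ v (Pi.single j a)
  rw [h, Finset.sum_eq_single j (fun k _ hk => by rw [Pi.single_eq_of_ne hk, map_zero])
    (by simp), Pi.single_eq_same] at this
  exact this.symm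

theorem Bm.sum {J : Type} [Fintype J] {κ : J → M →+ T →+ Y p C} (h : ∀ j, Bm ok ρ α (κ j)) :
    Bm ok ρ (piA α J) (sumK κ) := by
  refine ⟨fun b v a => ?_, fun v a => ?_, fun s v a => ?_⟩ <;>
    rw [sumK_apply, sumK_apply, map_sum]
  exacts [Finset.sum_congr rfl fun j _ => (h j).n b v _, Finset.sum_congr rfl fun j _ => (h j).t v _,
    Finset.sum_congr rfl fun j _ => (h j).s s v _]

/-- finitely many maps of a family without common kernel are injective -/
theorem Bm.fin_inj [CompleteSpace C] [IsAlgClosed C] {Θ : Type*} [AddCommGroup Θ]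
    {σ : Representation ℤ (G2 p) Θ} (hF : PHI p C) (sur : Function.Surjective χ) {J : Type}
    {κ : J → Θ →+ T →+ Y p C} (h : ∀ j, Bm ok σ α (κ j)) (hA : Adm σ ⊤)
    (hz : ∀ a v, σ (dd a a) v = v) (inj : ∀ v, (∀ j, κ j v = 0) → v = 0) :
    ∃ s : Finset J, ∀ v, sumK (fun j : s => κ j) v = 0 → v = 0 := by
  obtain ⟨s, hs⟩ := hA.adK.fin_inf (fun j => (κ j).ker)
    fun j g _ v hv => ⟨trivial, (h j).ker hF sur hA hz hv.2 g⟩
  exact ⟨s, fun v hv => inj v (hs v trivial fun j hj => sumK_zero hv ⟨j, hj⟩)⟩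

end lam

section mat

variable {O M : Type} [CommRing O] [AddCommGroup M] [Module O M]

/-- the action on column vectors -/
def mv (r : Γ →* Matrix (Fin 2) (Fin 2) O) : Γ →* AddMonoid.End (Fin 2 → O) where
  toFun s := (Matrix.mulVecLin (r s)).toAddMonoidHom
  map_one' := AddMonoidHom.ext fun a => by
    show r 1 *ᵥ a = a
    rw [map_one, one_mulVec]
  map_mul' s t := AddMonoidHom.ext fun a => by
    show r (s * t) *ᵥ a = r s *ᵥ (r t *ᵥ a)
    rw [map_mul, mulVec_mulVec]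

theorem mv_apply (r : Γ →* Matrix (Fin 2) (Fin 2) O) (s : Γ) (a : Fin 2 → O) :
    mv r s a = r s *ᵥ a := rfl

/-- the matrix with one column -/
def colL (j : Fin 2) : (Fin 2 → O) →ₗ[O] Matrix (Fin 2) (Fin 2) O where
  toFun t := vecMulVec t (Pi.single j 1)
  map_add' _ _ := add_vecMulVec _ _ _
  map_smul' _ _ := smul_vecMulVec _ _ _

theorem colL_mul (j : Fin 2) (m : Matrix (Fin 2) (Fin 2) O) (t : Fin 2 → O) :
    colL j (m *ᵥ t) = m * colL j t := (mul_vecMulVec _ _ _).symm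

theorem colL_sum (m : Matrix (Fin 2) (Fin 2) O) :
    m = colL 0 (fun i => m i 0) + colL 1 fun i => m i 1 := by
  ext i j
  fin_cases j <;> simp [colL, vecMulVec_apply]

/-- a module with matrix units and a separating family of functionals -/
structure Tg (ok : Og ψ act χ) (ρ : Representation O (G2 p) M) (Q : Submodule O M)
    (E : Matrix (Fin 2) (Fin 2) O →ₐ[O] Module.End O M) (r : Γ →* Matrix (Fin 2) (Fin 2) O)
    {I : Type} (W : I → M →+ Y p C) : Prop where
  com : ∀ g m, ∀ v ∈ Q, ρ g (E m v) = E m (ρ g v)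
  cen : ∀ a, ∀ v ∈ Q, ρ (dd a a) v = v
  wg : ∀ i, Wg ok ρ (fun s => E (r s)) Q (W i)
  inj : ∀ v ∈ Q, (∀ i m, W i (E m v) = 0) → v = 0
  loc : ∀ z ∈ Q, ∃ P ≤ Q, z ∈ P ∧ Adm ρ P ∧ ∀ m, ∀ v ∈ P, E m v ∈ P

/-- the map attached to a functional and a column -/
def kap {Z : Type} [AddCommGroup Z] (P : Submodule O M)
    (E : Matrix (Fin 2) (Fin 2) O →ₐ[O] Module.End O M) (W : M →+ Z) (j : Fin 2) :
    P →+ (Fin 2 → O) →+ Z where
  toFun v :=
    { toFun := fun t => W (E (colL j t) v)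
      map_zero' := by simp
      map_add' := fun a b => by simp }
  map_zero' := AddMonoidHom.ext fun a => by simp
  map_add' v w := AddMonoidHom.ext fun a => (congrArg W (map_add _ v.1 w.1)).trans (map_add W _ _)

theorem kap_apply {Z : Type} [AddCommGroup Z] (P : Submodule O M)
    (E : Matrix (Fin 2) (Fin 2) O →ₐ[O] Module.End O M) (W : M →+ Z) (j : Fin 2) (v : P)
    (t : Fin 2 → O) : kap P E W j v t = W (E (colL j t) v) := rfl

theorem kap_smul {Z : Type} [AddCommGroup Z] (P : Submodule O M)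
    (E : Matrix (Fin 2) (Fin 2) O →ₐ[O] Module.End O M) (W : M →+ Z) (j : Fin 2) (o : O) (v : P)
    (t : Fin 2 → O) : kap P E W j (o • v) t = kap P E W j v (o • t) := by
  simp only [kap_apply, map_smul, LinearMap.smul_apply, Submodule.coe_smul]

variable {ρ : Representation O (G2 p) M} {Q P : Submodule O M}
  {E : Matrix (Fin 2) (Fin 2) O →ₐ[O] Module.End O M} {r : Γ →* Matrix (Fin 2) (Fin 2) O}
  {I : Type} {W : I → M →+ Y p C}

theorem Tg.bm (h : Tg ok ρ Q E r W) (hP : Gs ρ P) (le : P ≤ Q) (es : ∀ m, ∀ v ∈ P, E m v ∈ P)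
    (i : I) (j : Fin 2) : Bm ok (subZ hP) (mv r) (kap P E (W i) j) := by
  refine ⟨fun b v a => ?_, fun v a => ?_, fun s v a => ?_⟩ <;>
    rw [kap_apply, kap_apply, subZ_val, ← h.com _ _ _ (le v.2)]
  · exact (h.wg i).n b _ (le (es _ _ v.2))
  · exact (h.wg i).t _ (le (es _ _ v.2))
  · rw [mv_apply, colL_mul, map_mul]
    exact (h.wg i).s s _ (le (es _ _ v.2))

theorem Tg.kap_inj (h : Tg ok ρ Q E r W) (le : P ≤ Q) (v : P)
    (h0 : ∀ q : I × Fin 2, kap P E (W q.1) q.2 v = 0) : v = 0 :=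
  Subtype.ext (h.inj v (le v.2) fun i m => by
    rw [colL_sum m, map_add, LinearMap.add_apply, map_add, ← kap_apply, ← kap_apply, h0 (i, 0),
      h0 (i, 1)]
    simp)

/-- an admissible part of exponent exactly `p ^ (n + 1)` -/
theorem Tg.exact (h : Tg ok ρ Q E r W) {n : ℕ} {z : M} (hz : z ∈ Q) (h0 : p ^ n • z ≠ 0) :
    ∃ P ≤ Q, Adm ρ P ∧ (∀ m, ∀ v ∈ P, E m v ∈ P) ∧ (∀ v ∈ P, p ^ (n + 1) • v = 0) ∧
      ∃ k : ℕ, p ^ k • z ∈ P ∧ p ^ n • p ^ k • z ≠ 0 := by
  obtain ⟨P, h1, h2, h3, h4⟩ := h.loc z hz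
  obtain ⟨k, k1, k2⟩ := exists_tor h0 (h3.tor _ (nsmul_mem h2 _))
  refine ⟨P ⊓ LinearMap.ker ((p ^ (n + 1) : ℕ) • LinearMap.id), inf_le_left.trans h1,
    h3.mono inf_le_left fun g v hv => ⟨h3.gs g v hv.1, ?_⟩, fun m v hv => ⟨h4 m v hv.1, ?_⟩,
    fun v hv => hv.2, k, ⟨nsmul_mem h2 _, ?_⟩, by rwa [smul_comm]⟩
  · show p ^ (n + 1) • ρ g v = 0
    rw [← map_nsmul, show p ^ (n + 1) • v = 0 from hv.2, map_zero]
  · show p ^ (n + 1) • E m v = 0
    rw [← map_nsmul, show p ^ (n + 1) • v = 0 from hv.2, map_zero]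
  · show p ^ (n + 1) • p ^ k • z = 0
    rw [pow_succ', mul_smul, smul_comm (p ^ n), k2]

/-- an irreducible representation is seen completely -/
theorem Tg.lam [IsDomain O] [IsDiscreteValuationRing O] [CompleteSpace C] [IsAlgClosed C]
    (hF : PHI p C) (sur : Function.Surjective χ) (h : Tg ok ρ Q E r W) (hl : Lat p act (mv r))
    (irr : ∃ c : ℕ, ∀ m, p ^ c • m ∈ Submodule.span O (Set.range r))
    (unb : ∀ N : ℕ, ∃ z ∈ Q, p ^ N • z ≠ 0) : Lam ok ρ Q (mv r) := by
  classical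
  obtain ⟨c, hc⟩ := irr
  have hp : (p : O) ≠ 0 := fun e => by
    obtain ⟨z, -, hz⟩ := unb 1
    exact hz (by rw [pow_one, ← Nat.cast_smul_eq_nsmul O, e, zero_smul])
  refine ⟨c + 1, fun N => ?_⟩
  obtain ⟨z, z1, z2⟩ := unb (N + c)
  obtain ⟨P, le, hP, es, tor, k, k1, k2⟩ := h.exact z1 z2
  have hb := fun q : I × Fin 2 => h.bm hP.gs le es q.1 q.2
  obtain ⟨J, hJ⟩ := Bm.fin_inj hF sur hb hP.subZ (fun a v => Subtype.ext (h.cen a v (le v.2)))
    (h.kap_inj le)
  have hB := Bm.sum fun j : J => hb j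
  set κ := sumK fun j : J => kap P E (W j.1.1) j.1.2
  have ho : ∀ (o : O) u a, κ u (o • a) = κ (o • u) a := fun o u a => by
    simp only [κ, sumK_apply, kap_apply, Pi.smul_apply, map_smul, LinearMap.smul_apply,
      Submodule.coe_smul]
  let A : Submodule O (J → Fin 2 → O) :=
    { carrier := {a | ∀ u, κ u a = 0}
      zero_mem' := fun u => map_zero _
      add_mem' := fun ha hb u => by rw [map_add, ha u, hb u, add_zero]
      smul_mem' := fun o a ha u => by rw [ho, ha] }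
  have h1 : ∀ m ∈ Submodule.span O (Set.range r), ∀ a ∈ A, (fun j => m *ᵥ a j) ∈ A := by
    intro m hm a ha
    induction hm using Submodule.span_induction with
    | mem _ hx =>
      obtain ⟨s, rfl⟩ := hx
      intro u
      have := hB.s s (subZ hP.gs (dd (uq (χ s)) 1)⁻¹ u) a
      rwa [rho_inv', ha, map_zero] at this
    | zero =>
      simp only [zero_mulVec]
      exact A.zero_mem
    | add x y _ _ hx hy =>
      simp only [add_mulVec]
      exact A.add_mem hx hy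
    | smul o x _ hx =>
      simp only [smul_mulVec]
      exact A.smul_mem o hx
  have h2 : ∀ n a, (∀ u : P, p ^ n • u = 0) → (p : O) ^ n • a ∈ A := fun n a hn u => by
    rw [ho, ← Nat.cast_pow, Nat.cast_smul_eq_nsmul, hn, map_zero, AddMonoidHom.zero_apply]
  let L : Submodule O (J → O) := ⨅ k : Fin 2, A.comap
    (((LinearMap.single O (fun _ => O) k).comp (LinearMap.mulLeft O ((p : O) ^ c))).compLeft J)
  have mL : ∀ l, l ∈ L ↔ ∀ k : Fin 2, (fun j => Pi.single k ((p : O) ^ c * l j)) ∈ A := fun l =>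
    Submodule.mem_iInf _
  obtain ⟨y, hy⟩ : ∃ y, (p : O) ^ N • y ∉ L := by
    by_contra! hn
    refine k2 (congrArg Subtype.val (hJ (p ^ (N + c) • ⟨_, k1⟩) (AddMonoidHom.ext fun a => ?_)))
    have := A.add_mem ((mL _).1 (hn fun j => a j 0) 0) ((mL _).1 (hn fun j => a j 1) 1) ⟨_, k1⟩
    rw [← Nat.cast_smul_eq_nsmul O, ← ho, AddMonoidHom.zero_apply, ← this]
    congr 1
    ext j i
    fin_cases i <;> simp [pow_add] <;> ring
  obtain ⟨μ, m1, m2⟩ := exists_dual L (pow_ne_zero (N + (c + 1)) hp) (fun l => (mL _).2 fun k => by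
    have := h2 (N + c + 1) (fun j => Pi.single k ((p : O) ^ c * l j))
      fun u => Subtype.ext (tor u u.2)
    convert this using 1
    ext j i
    simp [Pi.single_apply, mul_left_comm, add_assoc]) hy
  obtain ⟨d, hd⟩ : μ y ∣ (p : O) ^ (c + 1) := (ValuationRing.dvd_total _ _).resolve_right fun e =>
    m2 (by rw [map_smul, pow_add]; exact mul_dvd_mul_left _ e)
  let lam : (J → Fin 2 → O) →ₗ[O] Fin 2 → O :=
    { toFun := fun a k => μ fun j => a j k
      map_add' := fun a b => funext fun k => map_add μ (fun j => a j k) fun j => b j k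
      map_smul' := fun o a => funext fun k => map_smul μ o fun j => a j k }
  refine ⟨P, hP, J → Fin 2 → O, inferInstance, inferInstance, piA (mv r) J, κ, lam, le, ⟨_, tor⟩,
    hl.pi J _ fun _ _ _ => rfl, hB, fun o v a => (ho o v a).symm, hJ, fun s a => funext fun k => ?_, fun a ha => ?_,
    fun t => ⟨fun j k => (d * t k) * y j, 0, funext fun k => ?_⟩⟩
  · show μ (fun j => (r s *ᵥ a j) k) = (r s *ᵥ fun k => μ fun j => a j k) k
    simp only [mulVec, dotProduct, Fin.sum_univ_two]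
    rw [← smul_eq_mul _ (μ _), ← smul_eq_mul _ (μ _), ← map_smul, ← map_smul, ← map_add]
    rfl
  · have : ∀ k, (p : O) ^ (N + (c + 1)) ∣ μ fun j => a j k := fun k =>
      m1 _ ((mL _).2 fun k' => by
        convert h1 _ (hc (Matrix.single k' k 1)) a ha using 2
        ext i
        simp [single_mulVec, Pi.single_apply, Function.update_apply])
    choose t ht using this
    exact ⟨t, funext fun k => (ht k).trans (by simp)⟩
  · show p ^ (c + 1) • t k = μ ((d * t k) • y) + p ^ (N + (c + 1)) • (0 : O)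
    rw [map_smul, smul_zero, add_zero, nsmul_eq_mul, Nat.cast_pow, hd, smul_eq_mul]
    ring

end mat

end Vale.Agent.P022K.WB

end
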