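import Vale.Agent.P022K.WB.YSt

/-!
# Block WB, target side: the lemma of Ax (row `AX0`) and the row `OKH` (helper69)
-/

set_option linter.all false

open Polynomial Finset

namespace Vale.Agent.P022K.WB

namespace Ax

section core

variable {p : ℕ} [Fact p.Prime] {L : Type} [NormedField L] [IsUltrametricDist L]

theorem nrm_nat (hp : ‖(p : L)‖ < 1) {m : ℕ} (h : ¬ p ∣ m) : ‖(m : L)‖ = 1 := by
  refine (IsUltrametricDist.norm_natCast_le_one L m).antisymm (not_lt.1 fun c => ?_)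
  obtain ⟨a, b, e⟩ : IsCoprime (p : ℤ) (m : ℤ) :=
    Nat.isCoprime_iff_coprime.2 (((Fact.out : p.Prime).coprime_iff_not_dvd).2 h)
  have e' : (a : L) * p + b * m = 1 := by exact_mod_cast congrArg (fun x : ℤ => (x : L)) e
  have h1 := IsUltrametricDist.norm_add_le_max ((a : L) * p) (b * m)
  rw [e', norm_one, norm_mul, norm_mul] at h1
  exact h1.not_gt (max_lt
    (mul_lt_one_of_nonneg_of_lt_one_right (IsUltrametricDist.norm_intCast_le_one L a)
      (norm_nonneg _) hp)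
    (mul_lt_one_of_nonneg_of_lt_one_right (IsUltrametricDist.norm_intCast_le_one L b)
      (norm_nonneg _) c))

theorem ex_q [CharZero L] (hp : ‖(p : L)‖ < 1) {n : ℕ} (hn : 2 ≤ n) : ∃ (q : ℕ) (t : ℝ), 0 < q ∧
    q < n ∧ 0 ≤ t ∧ 1 ≤ ‖(n.choose q : L)‖ * (‖(p : L)‖⁻¹ ^ t) ^ (n - q) ∧
    (p : ℝ) / n + t ≤ p / (n - q : ℕ) := by
  have hP : p.Prime := Fact.out
  obtain ⟨s, d, hd, rfl⟩ := Nat.exists_eq_pow_mul_and_not_dvd (n := n) (by omega) p hP.ne_one
  have p0 : 0 < ‖(p : L)‖ := norm_pos_iff.2 (Nat.cast_ne_zero.2 hP.ne_zero)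
  by_cases d1 : d = 1
  · subst d1
    rw [mul_one] at *
    obtain ⟨t, rfl⟩ : ∃ t, s = t + 1 := ⟨s - 1, by
      rcases s with _ | s
      · simp at hn
      · rfl⟩
    have h1 : p ^ t < p ^ (t + 1) := Nat.pow_lt_pow_succ hP.one_lt
    have h2 := Nat.factorization_choose_prime_pow hP h1.le (pow_ne_zero t hP.ne_zero)
    rw [Nat.factorization_pow_self hP, Nat.add_sub_cancel_left] at h2
    have h3 := Nat.ordProj_mul_ordCompl_eq_self ((p ^ (t + 1)).choose (p ^ t)) p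
    have h4 := Nat.not_dvd_ordCompl hP (Nat.choose_pos h1.le).ne'
    have h5 : (0 : ℝ) < (p ^ (t + 1) - p ^ t : ℕ) := by exact_mod_cast Nat.sub_pos_of_lt h1
    refine ⟨p ^ t, ((p ^ (t + 1) - p ^ t : ℕ) : ℝ)⁻¹, pow_pos hP.pos t, h1, by positivity, ?_, ?_⟩
    · rw [← h3, Nat.cast_mul, norm_mul, nrm_nat hp h4, h2, pow_one, mul_one,
        Real.rpow_inv_natCast_pow (by positivity) (Nat.sub_pos_of_lt h1).ne',
        mul_inv_cancel₀ p0.ne']
    · rw [Nat.cast_sub h1.le] at *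
      have : (0 : ℝ) < p := by exact_mod_cast hP.pos
      push_cast at *
      refine le_of_eq ?_
      field_simp
      ring
  · have d0 : d ≠ 0 := fun e => hd (e ▸ dvd_zero p)
    have q0 := pow_pos hP.pos s
    have h1 : p ^ s < p ^ s * d := by nlinarith [show 2 ≤ d by omega]
    have h2 := Choose.choose_pow_mul_pow_mul_modEq_choose_nat (p := p) (k := s) (a := d) (b := 1)
    rw [mul_one, Nat.choose_one_right] at h2
    refine ⟨p ^ s, 0, q0, h1, le_rfl, ?_, ?_⟩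
    · rw [nrm_nat hp fun c => hd ((h2.dvd_iff dvd_rfl).1 c)]
      simp
    · rw [add_zero]
      have : (0 : ℝ) < (p ^ s * d - p ^ s : ℕ) := by exact_mod_cast Nat.sub_pos_of_lt h1
      gcongr
      exact Nat.sub_le _ _

theorem coeff_le {δ : ℝ} (hδ : 0 ≤ δ) {ι : Type} (S : Finset ι) (x : ι → L)
    (h : ∀ b ∈ S, ‖x b‖ ≤ δ) (i : ℕ) :
    ‖(∏ b ∈ S, (X - C (x b))).coeff i‖ * δ ^ i ≤ δ ^ S.card := by
  classical
  induction S using Finset.induction_on generalizing i with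
  | empty => rcases i with _ | i <;> simp [coeff_one]
  | insert a S ha ih =>
    have ih' := ih fun b hb => h b (mem_insert_of_mem hb)
    have ha' := h a (mem_insert_self a S)
    have key : ∀ j, ‖x a * (∏ b ∈ S, (X - C (x b))).coeff j‖ * δ ^ j ≤ δ ^ (S.card + 1) := fun j => by
      rw [norm_mul, mul_assoc, pow_succ']
      exact mul_le_mul ha' (ih' j) (by positivity) hδ
    rw [prod_insert ha, card_insert_of_notMem ha, sub_mul, coeff_sub, coeff_C_mul]
    rcases i with _ | i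
    · rw [coeff_X_mul_zero, zero_sub, norm_neg]
      exact key 0
    · rw [coeff_X_mul, sub_eq_add_neg]
      refine FI.An4.norm_add_mul_le _ _ (by positivity) ?_ (by rw [norm_neg]; exact key _)
      rw [pow_succ, pow_succ, ← mul_assoc]
      exact mul_le_mul_of_nonneg_right (ih' i) hδ

theorem ex_root [IsAlgClosed L] {g : L[X]} (hg : 0 < g.natDegree) (a : L) {ε : ℝ} (hε : 0 ≤ ε)
    (h : ‖g.eval a‖ ≤ ‖g.leadingCoeff‖ * ε ^ g.natDegree) : ∃ b, g.IsRoot b ∧ ‖a - b‖ ≤ ε := by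
  by_contra! c
  have g0 : g ≠ 0 := fun e => by simp [e] at hg
  have e := (IsAlgClosed.splits g).eq_prod_roots
  have e1 : g.roots.card = g.natDegree := IsAlgClosed.card_roots_eq_natDegree
  have e2 : ‖g.eval a‖ = ‖g.leadingCoeff‖ * (g.roots.map fun b => ‖a - b‖).prod := by
    conv_lhs => rw [e]
    rw [eval_mul, eval_C, norm_mul, eval_multiset_prod, Multiset.map_map,
      ← normHom_apply (Multiset.prod _), map_multiset_prod, Multiset.map_map]
    simp
  have e3 : ∀ s : Multiset L, s ≠ 0 → (∀ b ∈ s, ε < ‖a - b‖) →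
      ε ^ s.card < (s.map fun b => ‖a - b‖).prod := fun s => by
    induction s using Multiset.induction_on with
    | empty => simp
    | cons b s ih =>
      intro _ hb
      rw [Multiset.card_cons, Multiset.map_cons, Multiset.prod_cons, pow_succ']
      have h1 := hb b (Multiset.mem_cons_self b s)
      by_cases s0 : s = 0
      · simpa [s0] using h1
      · exact mul_lt_mul'' h1 (ih s0 fun b m => hb b (Multiset.mem_cons_of_mem m)) hε
          (by positivity)
  have e4 := e3 g.roots (fun z => by rw [z] at e1; simp at e1; omega)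
    fun b m => c b ((mem_roots g0).1 m)
  rw [e2, ← e1] at h
  exact h.not_gt (mul_lt_mul_of_pos_left e4 (norm_pos_iff.2 (leadingCoeff_ne_zero.2 g0)))

/-- the lemma of Ax for finite orbits -/
theorem core [CharZero L] [IsAlgClosed L] (hp : ‖(p : L)‖ < 1) (M : Submonoid (L →+* L))
    (hM : ∀ s ∈ M, ∀ x, ‖s x‖ = ‖x‖) (n : ℕ) : ∀ (a : L) (δ : ℝ),
    {x | ∃ s ∈ M, s a = x}.Finite → {x | ∃ s ∈ M, s a = x}.ncard = n →
    (∀ s ∈ M, ‖s a - a‖ ≤ δ) →
    ∃ b, (∀ s ∈ M, s b = b) ∧ ‖a - b‖ ≤ ‖(p : L)‖⁻¹ ^ ((p : ℝ) - p / n) * δ := by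
  classical
  have p0 : 0 < ‖(p : L)‖ := norm_pos_iff.2 (Nat.cast_ne_zero.2 (Fact.out : p.Prime).ne_zero)
  have l1 : 1 ≤ ‖(p : L)‖⁻¹ := (one_le_inv₀ p0).2 hp.le
  induction n using Nat.strong_induction_on with
  | _ n ih =>
  intro a δ hf hn hδ
  have δ0 : 0 ≤ δ := (norm_nonneg _).trans (hδ 1 M.one_mem)
  by_cases hfix : ∀ s ∈ M, s a = a
  · exact ⟨a, hfix, by rw [sub_self, norm_zero]; positivity⟩
  push Not at hfix
  obtain ⟨s0, m0, ne⟩ := hfix
  have δ1 : 0 < δ := (norm_pos_iff.2 (sub_ne_zero.2 ne)).trans_le (hδ s0 m0)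
  have n2 : 2 ≤ n := hn ▸ (Set.one_lt_ncard hf).2 ⟨_, ⟨s0, m0, rfl⟩, _, ⟨1, M.one_mem, rfl⟩, ne⟩
  obtain ⟨q, t, q0, qn, t0, h1, h2⟩ := ex_q hp n2
  set S := hf.toFinset
  have hS : ∀ x, x ∈ S ↔ ∃ s ∈ M, s a = x := fun x => hf.mem_toFinset
  have cS : S.card = n := by rw [← hn, Set.ncard_eq_toFinset_card _ hf]
  set f : L[X] := ∏ b ∈ S, (X - C b) with hfd
  have fm : f.Monic := monic_prod_of_monic _ _ fun b _ => monic_X_sub_C b
  have fd : f.natDegree = n := by rw [hfd, natDegree_finsetProd_X_sub_C_eq_card, cS]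
  have fs : ∀ s ∈ M, f.map s = f := fun s m => by
    have e : S.image s = S := Finset.eq_of_subset_of_card_le (fun x hx => by
      obtain ⟨y, hy, rfl⟩ := mem_image.1 hx
      obtain ⟨u, hu, rfl⟩ := (hS y).1 hy
      exact (hS _).2 ⟨s * u, M.mul_mem m hu, rfl⟩) (card_image_of_injective S s.injective).ge
    conv_rhs => rw [hfd, ← e, prod_image fun x _ y _ e => s.injective e]
    simp [hfd, Polynomial.map_prod]
  set g := hasseDeriv q f with hg
  have gd : g.natDegree = n - q := by rw [hg, natDegree_hasseDeriv, fd]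
  have gl : g.leadingCoeff = n.choose q := by
    rw [leadingCoeff, gd, hg, hasseDeriv_coeff, Nat.sub_add_cancel qn.le, ← fd, fm.coeff_natDegree,
      mul_one]
  have gs : ∀ s ∈ M, g.map s = g := fun s m => Polynomial.ext fun i => by
    rw [coeff_map, hg, hasseDeriv_coeff, map_mul, map_natCast, ← coeff_map, fs s m]
  have r1 : 1 ≤ ‖(p : L)‖⁻¹ ^ t := Real.one_le_rpow l1 t0
  obtain ⟨β, b1, b2⟩ := ex_root (g := g) (by omega) a (ε := ‖(p : L)‖⁻¹ ^ t * δ) (by positivity) (by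
    have e : taylor a f = ∏ b ∈ S, (X - C (b - a)) := by
      rw [hfd, ← taylorAlgHom_apply, map_prod]
      exact prod_congr rfl fun b _ => by simp [sub_eq_add_neg, add_assoc, add_comm]
    have h3 := coeff_le δ0 S (fun b => b - a) (fun b m => by
      obtain ⟨u, hu, rfl⟩ := (hS b).1 m
      exact hδ u hu) q
    rw [← e, taylor_coeff, cS, ← Nat.sub_add_cancel qn.le, pow_add] at h3
    rw [gl, gd, mul_pow, ← mul_assoc]
    exact (le_of_mul_le_mul_right h3 (pow_pos δ1 q)).trans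
      (le_mul_of_one_le_left (by positivity) h1))
  have g0 : g ≠ 0 := fun e => by rw [e, natDegree_zero] at gd; omega
  have sub : {x | ∃ s ∈ M, s β = x} ⊆ (g.roots.toFinset : Set L) := by
    rintro _ ⟨s, m, rfl⟩
    rw [mem_coe, Multiset.mem_toFinset, mem_roots g0, ← gs s m]
    exact b1.map
  have hf' := (finite_toSet _).subset sub
  have c1 := Set.ncard_le_ncard sub
  rw [Set.ncard_coe_finset] at c1
  have c2 := (c1.trans (Multiset.toFinset_card_le _)).trans ((card_roots' g).trans gd.le)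
  have c3 : 0 < {x | ∃ s ∈ M, s β = x}.ncard := (Set.ncard_pos hf').2 ⟨_, 1, M.one_mem, rfl⟩
  obtain ⟨b, b3, b4⟩ := ih _ (by omega) β (‖(p : L)‖⁻¹ ^ t * δ) hf' rfl fun s m => by
    rw [show s β - β = -s (a - β) + ((s a - a) + (a - β)) by rw [map_sub]; ring]
    refine (IsUltrametricDist.norm_add_le_max _ _).trans (max_le (by rwa [norm_neg, hM s m])
      ((IsUltrametricDist.norm_add_le_max _ _).trans (max_le ?_ b2)))
    exact (hδ s m).trans (le_mul_of_one_le_left δ0 r1)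
  generalize {x | ∃ s ∈ M, s β = x}.ncard = m at c2 c3 b4
  have m1 : (p : ℝ) / (n - q : ℕ) ≤ p / m := by gcongr
  have m2 : (p : ℝ) / m ≤ p := div_le_self (by positivity) (by exact_mod_cast c3)
  refine ⟨b, b3, ?_⟩
  rw [← sub_add_sub_cancel a β b]
  refine (IsUltrametricDist.norm_add_le_max _ _).trans ((max_le (b2.trans
    (le_mul_of_one_le_left (by positivity) (Real.one_le_rpow l1 (by linarith)))) b4).trans ?_)
  rw [← mul_assoc, ← Real.rpow_add (by positivity)]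
  gcongr
  linarith

end core

variable {p : ℕ} [Fact p.Prime] {C : Type} [NontriviallyNormedField C] [IsUltrametricDist C]
  [CharZero C]

theorem iso_cont (s : Iso C) : Continuous s.1 :=
  (AddMonoidHomClass.isometry_of_norm s.1 s.2).continuous

theorem iso_qh (s : Iso C) (x : Qh C) : s.1 x = x := by
  have h : Qh C ≤ RingHom.eqLocusField (s.1 : C →+* C) (RingHom.id C) :=
    Subfield.topologicalClosure_minimal _ bot_le (isClosed_eq (iso_cont s) continuous_id)
  exact h x.2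

/-- an isometric automorphism as an algebra homomorphism -/
def alg (s : Iso C) : C →ₐ[Qh C] C := { (s.1 : C →+* C) with commutes' := iso_qh s }

theorem Alg.iso {a : C} (h : Alg a) (s : Iso C) : Alg (s.1 a) := IsAlgebraic.algHom (alg s) h

variable (C) in
/-- the algebraic elements -/
noncomputable abbrev Lq : IntermediateField (Qh C) C := algebraicClosure (Qh C) C

theorem mem_Lq {a : C} : a ∈ Lq C ↔ Alg a := mem_algebraicClosure_iff

/-- the restriction to the algebraic elements -/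
noncomputable def res (s : Iso C) : Lq C →+* Lq C :=
  ((s.1 : C →+* C).comp (algebraMap (Lq C) C)).codRestrict (Lq C) fun x =>
    mem_Lq.2 (Alg.iso (mem_Lq.1 x.2) s)

theorem orb_fin {a : C} (h : Alg a) : {x | ∃ s : Iso C, s.1 a = x}.Finite := by
  refine ((minpoly (Qh C) a).rootSet_finite C).subset ?_
  rintro _ ⟨s, rfl⟩
  rw [mem_rootSet_of_ne (minpoly.ne_zero h.isIntegral)]
  exact (aeval_algHom_apply (alg s) a _).trans (by rw [minpoly.aeval, map_zero])

/-- the norms are dense -/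
theorem ex_nrm [IsAlgClosed C] (hp : ‖(p : C)‖ < 1) {δ δ' : ℝ} (h0 : 0 ≤ δ) (h : δ < δ') :
    ∃ c : C, δ < ‖c‖ ∧ ‖c‖ ≤ δ' := by
  have p0 : 0 < ‖(p : C)‖ := norm_pos_iff.2 (Nat.cast_ne_zero.2 (Fact.out : p.Prime).ne_zero)
  have d0 : 0 < δ' := h0.trans_lt h
  obtain ⟨n, hn⟩ := exists_pow_lt_of_lt_one p0 ((div_lt_one d0).2 h)
  have n0 : n ≠ 0 := by
    rintro rfl
    exact hp.not_gt (by simpa using hn)
  obtain ⟨π, hπ⟩ := IsAlgClosed.exists_pow_nat_eq (p : C) (Nat.pos_of_ne_zero n0)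
  rw [← hπ, norm_pow] at hn hp p0
  have h1 := lt_of_pow_lt_pow_left₀ n (norm_nonneg _) hn
  have h2 : ‖π‖ < 1 := (pow_lt_one_iff_of_nonneg (norm_nonneg _) n0).1 hp
  have h3 : 0 < ‖π‖ := (div_nonneg h0 d0.le).trans_lt h1
  obtain ⟨k, k1, k2⟩ := exists_mem_Ico_zpow d0 ((one_lt_inv₀ h3).2 h2)
  refine ⟨π⁻¹ ^ k, ?_, by rwa [norm_zpow, norm_inv]⟩
  rw [zpow_add_one₀ (inv_ne_zero h3.ne'), lt_mul_inv_iff₀ h3] at k2
  rw [div_lt_iff₀' d0] at h1
  rw [norm_zpow, norm_inv]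
  exact h1.trans k2

/-- the norm of an algebraic extension of `Qh` is unique -/
theorem nrm_eq [CompleteSpace C] (hp : ‖(p : C)‖ < 1) {E : Type} [Field E] [Algebra (Qh C) E]
    [Algebra.IsAlgebraic (Qh C) E] (f g : E →ₐ[Qh C] C) (x : E) : ‖f x‖ = ‖g x‖ := by
  letI : NontriviallyNormedField (Qh C) := .ofNormNeOne
    ⟨p, Nat.cast_ne_zero.2 (Fact.out : p.Prime).ne_zero, hp.ne⟩
  haveI : CompleteSpace (Qh C) := (Subfield.isClosed_topologicalClosure _).completeSpace_coe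
  have key : ∀ f : E →ₐ[Qh C] C, ‖f x‖ = spectralNorm (Qh C) E x := fun f =>
    spectralNorm_unique_field_norm_ext (K := Qh C) (L := E)
      (f := (NormedField.toAbsoluteValue C).comp (f := (f : E →+* C)) f.injective)
      (fun y => congrArg norm (f.commutes y)) x
  rw [key, key]

theorem psi_alg {ψ : ℚ_[p] → C} (h : Psi p ψ) (F : Type) [Field F] [Algebra F C] (b : ℚ_[p]) :
    IsAlgebraic F (ψ b) := by
  obtain ⟨k, hk⟩ := h.tors b
  exact IsAlgebraic.of_pow (pow_pos (Fact.out : p.Prime).pos k) (hk ▸ isAlgebraic_one)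

theorem psi_pow {ψ : ℚ_[p] → C} (h : Psi p ψ) (b : ℚ_[p]) :
    ∃ k m : ℕ, ψ b = ψ ((p : ℚ_[p])⁻¹ ^ k) ^ m := by
  have hP : p.Prime := Fact.out
  obtain ⟨k, hk⟩ := h.tors b
  haveI : NeZero (p ^ k) := ⟨pow_ne_zero k hP.ne_zero⟩
  have q0 : (0 : ℝ) < (p : ℝ) ^ k := pow_pos (by exact_mod_cast hP.pos) k
  have e : ∀ l : ℕ, ψ ((p : ℚ_[p])⁻¹ ^ k) ^ l = 1 ↔ p ^ k ∣ l := fun l => by
    rw [← h.nat, h.ker, norm_mul, norm_pow, norm_inv, Padic.norm_p, inv_inv, ← le_div_iff₀ q0,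
      one_div, ← zpow_natCast, ← zpow_neg, ← Int.cast_natCast, Padic.norm_int_le_pow_iff_dvd]
    exact_mod_cast Iff.rfl
  obtain ⟨i, -, hi⟩ := (⟨(e _).2 dvd_rfl, fun l => (e l).1⟩ :
    IsPrimitiveRoot (ψ ((p : ℚ_[p])⁻¹ ^ k)) (p ^ k)).eq_pow_of_pow_eq_one hk
  exact ⟨k, i, hi.symm⟩

/-- `Kh` is a closed subfield -/
theorem ex_Kh {ψ : ℚ_[p] → C} (h : Psi p ψ) :
    ∃ S : Subfield C, (S : Set C) = Kh p ψ ∧ Qh C ≤ S ∧ ∀ b, ψ b ∈ S := by
  let T := IntermediateField.adjoin ℚ (Set.range fun n : ℕ => ψ ((p : ℚ_[p])⁻¹ ^ n))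
  refine ⟨T.toSubfield.topologicalClosure, ?_, Subfield.topologicalClosure_minimal _ bot_le
    (Subfield.isClosed_topologicalClosure _), fun b => Subfield.le_topologicalClosure _ ?_⟩
  · rw [Kh, ← IntermediateField.adjoin_toSubalgebra_of_isAlgebraic]
    · rfl
    · rintro _ ⟨n, rfl⟩
      exact psi_alg h ℚ _
  · obtain ⟨k, m, e⟩ := psi_pow h b
    rw [e]
    exact pow_mem (IntermediateField.subset_adjoin ℚ _ (Set.mem_range_self k)) m

end Ax

open Ax

variable (p : ℕ) [Fact p.Prime] (C : Type) [NontriviallyNormedField C] [IsUltrametricDist C]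
  [CharZero C]

/-- **the lemma of Ax** -/
theorem ax0 : AX0 p C := by
  intro _ hp
  have p0 : 0 < ‖(p : C)‖ := norm_pos_iff.2 (Nat.cast_ne_zero.2 (Fact.out : p.Prime).ne_zero)
  refine ⟨‖(p : C)‖⁻¹ ^ (p : ℝ), by positivity, fun H _ act a δ ha hδ => ?_⟩
  haveI : IsAlgClosed (Lq C) := IsAlgClosure.isAlgClosed (Qh C)
  let r : H →* (Lq C →+* Lq C) :=
    { toFun := fun h => res (act h)
      map_one' := RingHom.ext fun x => Subtype.ext (by rw [map_one]; rfl)
      map_mul' := fun g h => RingHom.ext fun x => Subtype.ext (by rw [map_mul]; rfl) }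
  obtain ⟨b, b1, b2⟩ := core (p := p) (L := Lq C) hp (MonoidHom.mrange r)
    (by rintro _ ⟨h, rfl⟩ x; exact (act h).2 x) _ ⟨a, mem_Lq.2 ha⟩ δ
    (((orb_fin ha).preimage Subtype.val_injective.injOn).subset
      (by rintro _ ⟨_, ⟨h, rfl⟩, rfl⟩; exact ⟨act h, rfl⟩)) rfl
    (by rintro _ ⟨h, rfl⟩; exact hδ h)
  refine ⟨b, mem_Lq.1 b.2, fun h => congrArg Subtype.val (b1 _ ⟨h, rfl⟩), le_trans b2 ?_⟩
  exact mul_le_mul_of_nonneg_right (Real.rpow_le_rpow_of_exponent_le ((one_le_inv₀ p0).2 hp.le)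
    (sub_le_self _ (by positivity))) ((norm_nonneg _).trans (hδ 1))

/-- the standing hypotheses hold for a homogeneous field -/
theorem okh : OKH p C := by
  intro _ _ ψ H _ act hp hψ hm h1 h2 h3
  haveI : IsAlgClosed (Lq C) := IsAlgClosure.isAlgClosed (Qh C)
  refine ⟨hp, hψ, h1, fun x δ δ' d0 d1 hx => ?_, fun a ha hfix => ?_⟩
  · by_contra! c
    obtain ⟨y, y1, y2⟩ := ex_nrm hp d0 d1
    have e1 : ∀ a : Lq C, ‖x - a‖ = ‖x + y - a‖ := fun a => by
      rw [add_sub_right_comm, IsUltrametricDist.norm_add_eq_max_of_norm_ne_norm, max_eq_left]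
      · exact (y2.trans_lt (c a (mem_Lq.1 a.2))).le
      · exact (y2.trans_lt (c a (mem_Lq.1 a.2))).ne'
    obtain ⟨e, he⟩ := hm (Lq C)[X] (aeval x).toRingHom (aeval (x + y)).toRingHom fun f => by
      show ‖aeval x f‖ = ‖aeval (x + y) f‖
      rw [(IsAlgClosed.splits f).eq_prod_roots]
      simp only [map_mul, norm_mul, aeval_C, map_multiset_prod, Multiset.map_map,
        ← normHom_apply (Multiset.prod _)]
      congr 2
      exact Multiset.map_congr rfl fun a _ => by simpa using e1 a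
    have e2 : ∀ a, Alg a → e.1 a = a := fun a ha => by
      simpa using he (Polynomial.C ⟨a, mem_Lq.2 ha⟩)
    obtain ⟨h, rfl⟩ := h2 e e2
    have e3 := hx h e2
    rw [show (act h).1 x = x + y by simpa using he X, add_sub_cancel_left] at e3
    exact e3.not_gt y1
  · obtain ⟨S, s1, s2, s3⟩ := ex_Kh hψ
    haveI : IsGalois (Qh C) (Lq C) := IsAlgClosure.isGalois _ _
    let E : IntermediateField (Qh C) (Lq C) :=
      (S.comap (algebraMap (Lq C) C)).toIntermediateField fun x => s2 x.2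
    have m : (⟨a, mem_Lq.2 ha⟩ : Lq C) ∈ E := by
      rw [← InfiniteGalois.fixedField_fixingSubgroup E, IntermediateField.mem_fixedField_iff]
      intro σ hσ
      obtain ⟨e, he⟩ := hm (Lq C) (Lq C).val.toRingHom ((Lq C).val.comp σ).toRingHom
        (nrm_eq hp _ _)
      obtain ⟨h, hh⟩ := h3 e (fun b => (he ⟨ψ b, mem_Lq.2 (psi_alg hψ _ b)⟩).trans
        (congrArg Subtype.val ((IntermediateField.mem_fixingSubgroup_iff _ _).1 hσ _ (s3 b)))) a ha
      exact Subtype.ext ((he ⟨a, mem_Lq.2 ha⟩).symm.trans (hh.symm.trans (hfix h)))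
    rw [← s1]
    exact m

end Vale.Agent.P022K.WB
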