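import Vale.Agent.P022K.WB.St
import Vale.Agent.P022K.WB.Tr1
import Vale.Agent.P022K.WB.YAx0
import Vale.Agent.P022K.FI.Fld
import Vale.Agent.P022K.CH.Eps
import Vale.Agent.P022K.CH.Fld

/-!
# P022K, block WB: the local Galois datum (`C = CS p`, `Γ = Iso C`)
-/

set_option autoImplicit false

open NumberField
open scoped Pointwise

noncomputable section

namespace Vale.Agent.P022K.WB

open Vale.Agent.P022 Vale.Agent.P022K.FI Vale.Agent.P022K.CH
open Vale.Agent.P022.H443 (inP)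
open Vale.Agent.P022D.W (dec inP_le_dec)
open Vale.Agent.P022E.GW (Ov)

variable (p : ℕ) [Fact p.Prime]

section psi

variable (C : Type) [NontriviallyNormedField C] [IsUltrametricDist C] [CharZero C] [IsAlgClosed C]

omit [IsUltrametricDist C] in
/-- additive characters with kernel `ℤ_p` exist -/
theorem exists_psi : ∃ ψ : ℚ_[p] → C, Psi p ψ := by
  have hp := (Fact.out : p.Prime)
  have hp0 : (p : ℚ_[p]) ≠ 0 := Nat.cast_ne_zero.2 hp.ne_zero
  have : NeZero (p : C) := ⟨Nat.cast_ne_zero.2 hp.ne_zero⟩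
  obtain ⟨ζ, hζ⟩ := HasEnoughRootsOfUnity.exists_primitiveRoot C p
  let u : Cˣ := (hζ.isUnit hp.ne_zero).unit
  have hu : u ^ p = 1 := Units.ext hζ.pow_eq_one
  obtain ⟨g0, hg0⟩ : ∃ g0 : ZMod p →+ Additive Cˣ, ∀ n : ℕ, g0 (n : ℤ) = Additive.ofMul (u ^ n) :=
    ⟨ZMod.lift p ⟨zmultiplesHom _ (Additive.ofMul u), by
      simpa using congrArg Additive.ofMul hu⟩, fun n => by rw [ZMod.lift_coe]; simp⟩
  let g : ℤ_[p] →+ Additive Cˣ := g0.comp (PadicInt.toZMod (p := p)).toAddMonoidHom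
  have hg : ∀ x : ℤ_[p], ((g x).toMul : C) = ζ ^ (PadicInt.toZMod x).val := fun x => by
    have := hg0 (PadicInt.toZMod x).val
    rw [Int.cast_natCast, ZMod.natCast_zmod_val] at this
    rw [show g x = _ from this]
    simp [u]
  let _ : RootableBy Cˣ ℕ := rootableByOfPowLeftSurj _ _ fun {n} hn x => by
    obtain ⟨y, hy⟩ := IsAlgClosed.exists_pow_nat_eq (x : C) (Nat.pos_of_ne_zero hn)
    have h0 : y ≠ 0 := fun e => x.ne_zero (by rw [← hy, e, zero_pow hn])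
    exact ⟨Units.mk0 y h0, Units.ext hy⟩
  let _ : RootableBy Cˣ ℤ := Group.rootableByIntOfRootableByNat _
  let _ : DivisibleBy (Additive Cˣ) ℤ :=
    ⟨fun a n => Additive.ofMul (RootableBy.root a.toMul n),
      fun a => congrArg Additive.ofMul (RootableBy.root_zero a.toMul),
      fun a hn => congrArg Additive.ofMul (RootableBy.root_cancel a.toMul hn)⟩
  let f : ℤ_[p] →+ ℚ_[p] := (AddMonoidHom.mulLeft (p : ℚ_[p])⁻¹).comp
    (PadicInt.Coe.ringHom (p := p)).toAddMonoidHom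
  have hf : Function.Injective f := fun a b h =>
    Subtype.ext (mul_left_cancel₀ (inv_ne_zero hp0) h)
  obtain ⟨h, hh⟩ := (Module.Baer.of_divisible (Additive Cˣ)).extension_property_addMonoidHom f hf g
  have h1 : ∀ x : ℤ_[p], ((h ((p : ℚ_[p])⁻¹ * x)).toMul : C) = 1 ↔ ‖x‖ < 1 := fun x => by
    rw [show h ((p : ℚ_[p])⁻¹ * x) = g x from DFunLike.congr_fun hh x, hg, hζ.pow_eq_one_iff_dvd,
      ← PadicInt.mem_nonunits, ← IsLocalRing.mem_maximalIdeal, ← PadicInt.ker_toZMod,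
      RingHom.mem_ker, ← ZMod.natCast_eq_zero_iff, ZMod.natCast_zmod_val]
  refine ⟨fun b => ((h b).toMul : C), fun a b => by simp, fun b => ⟨fun hb => ?_, fun hb => ?_⟩⟩
  · by_contra hn
    have h0 : b ≠ 0 := fun e => hn (by simp [e])
    have hv : b.valuation < 0 := by
      rw [Padic.norm_le_one_iff_val_nonneg] at hn
      omega
    obtain ⟨k, hk⟩ : ∃ k : ℕ, b.valuation = -(k + 1 : ℕ) := ⟨(-b.valuation - 1).toNat, by omega⟩
    have h2 : ‖(p : ℚ_[p]) ^ (k + 1) * b‖ = 1 := by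
      have : (p : ℝ) ≠ 0 := Nat.cast_ne_zero.2 hp.ne_zero
      rw [norm_mul, norm_pow, Padic.norm_p, Padic.norm_eq_zpow_neg_valuation h0, hk, neg_neg,
        zpow_natCast, inv_pow, inv_mul_cancel₀ (pow_ne_zero _ this)]
    refine absurd ((h1 ⟨_, h2.le⟩).1 ?_) (not_lt.2 h2.ge)
    have e : (p : ℚ_[p])⁻¹ * ((p : ℚ_[p]) ^ (k + 1) * b) = p ^ k • b := by
      rw [nsmul_eq_mul]
      push_cast
      field_simp
      ring
    show (((h ((p : ℚ_[p])⁻¹ * ((p : ℚ_[p]) ^ (k + 1) * b))).toMul : Cˣ) : C) = 1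
    rw [e, map_nsmul, toMul_nsmul, Units.val_pow_eq_pow_val]
    exact (congrArg (· ^ p ^ k) hb).trans (one_pow _)
  · obtain ⟨b, rfl⟩ : ∃ c : ℤ_[p], (c : ℚ_[p]) = b := ⟨⟨b, hb⟩, rfl⟩
    have := (h1 (p * b)).2 ((PadicInt.norm_lt_one_iff_dvd _).2 (dvd_mul_right _ _))
    rwa [PadicInt.coe_mul, PadicInt.coe_natCast, inv_mul_cancel_left₀ hp0] at this

variable {p C} {ψ : ℚ_[p] → C}

omit [IsUltrametricDist C] [CharZero C] [IsAlgClosed C] in
theorem Psi.appr (h : Psi p ψ) {b : ℚ_[p]} {k : ℕ} (hk : ψ b ^ p ^ k = 1) (c : ℤ_[p]) {n : ℕ}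
    (hn : PadicInt.toZModPow k c = n) : ψ (c * b) = ψ b ^ n := by
  have h1 : c - n ∈ RingHom.ker (PadicInt.toZModPow k) := by
    rw [RingHom.mem_ker, map_sub, hn, map_natCast, sub_self]
  rw [PadicInt.ker_toZModPow, Ideal.mem_span_singleton'] at h1
  obtain ⟨d, hd⟩ := h1
  have h2 : (c : ℚ_[p]) * b = n * b + d * (((p ^ k : ℕ) : ℚ_[p]) * b) := by
    have := congrArg (fun x : ℤ_[p] => (x : ℚ_[p])) hd
    push_cast at this ⊢
    linear_combination -b * this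
  rw [← h.nat, h.ker] at hk
  rw [h2, h.add, h.nat, (h.ker (d * _)).2, mul_one]
  rw [norm_mul]
  exact mul_le_one₀ d.2 (norm_nonneg _) hk

omit [IsUltrametricDist C] in
/-- automorphisms act on `ψ` through the cyclotomic character -/
theorem Psi.cyc (h : Psi p ψ) (s : C ≃+* C) (b : ℚ_[p]) :
    s (ψ b) = ψ (((cyclotomicCharacter C p s : ℤ_[p]ˣ) : ℤ_[p]) * b) := by
  have : ∀ i, HasEnoughRootsOfUnity C (p ^ i) := fun i => by
    have : NeZero ((p ^ i : ℕ) : C) := ⟨by exact_mod_cast (NeZero.ne (p ^ i))⟩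
    infer_instance
  obtain ⟨k, hk⟩ := h.tors b
  rw [cyclotomicCharacter.spec p s _ hk, h.appr hk _ (ZMod.natCast_zmod_val _).symm]

omit [IsUltrametricDist C] [CharZero C] [IsAlgClosed C] in
theorem Psi.primL (h : Psi p ψ) (k : ℕ) : IsPrimitiveRoot (ψ ((p : ℚ_[p])⁻¹ ^ k)) (p ^ k) := by
  have q0 : (0 : ℝ) < (p : ℝ) ^ k := pow_pos (by exact_mod_cast (Fact.out : p.Prime).pos) k
  have e : ∀ l : ℕ, ψ ((p : ℚ_[p])⁻¹ ^ k) ^ l = 1 ↔ p ^ k ∣ l := fun l => by
    have := Padic.norm_int_le_pow_iff_dvd (p := p) (l : ℤ) k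
    rw [← h.nat, h.ker, norm_mul, norm_pow, norm_inv, Padic.norm_p, inv_inv,
      ← le_div_iff₀ q0, one_div, ← zpow_natCast, ← zpow_neg, ← Int.natCast_dvd_natCast]
    push_cast at this ⊢
    exact this
  exact ⟨(e _).2 dvd_rfl, fun l => (e l).1⟩

omit [IsUltrametricDist C] [CharZero C] [IsAlgClosed C] in
/-- `ψ (c b)` determines `c` -/
theorem Psi.inj (h : Psi p ψ) {c c' : ℤ_[p]} (e : ∀ b, ψ (c * b) = ψ (c' * b)) : c = c' := by
  refine PadicInt.ext_of_toZModPow.1 fun k => ?_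
  have h1 := h.primL k
  have h2 := e ((p : ℚ_[p])⁻¹ ^ k)
  rw [h.appr h1.pow_eq_one c (ZMod.natCast_zmod_val _).symm,
    h.appr h1.pow_eq_one c' (ZMod.natCast_zmod_val _).symm] at h2
  exact ZMod.val_injective _ (h1.pow_inj (ZMod.val_lt _) (ZMod.val_lt _) h2)

end psi

/-- the additive character -/
def psi0 : ℚ_[p] → CS p := (exists_psi p (CS p)).choose

theorem psi0_ok : Psi p (psi0 p) := (exists_psi p (CS p)).choose_spec

/-- the cyclotomic character -/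
def chi0 : Iso (CS p) →* ℤ_[p]ˣ := (cyclotomicCharacter (CS p) p).comp (Iso (CS p)).subtype

theorem hmg0 : Hmg (CS p) := fun _ _ f g h => by
  obtain ⟨e, h1, h2⟩ := CS.homog p f g h
  exact ⟨⟨e, h1⟩, h2⟩

variable {p}

theorem Psi.cyc0 {ψ : ℚ_[p] → CS p} (h : Psi p ψ) (s : Iso (CS p)) (b : ℚ_[p]) :
    s.1 (ψ b) = ψ (((chi0 p s : ℤ_[p]) : ℚ_[p]) * b) := h.cyc s.1 b

theorem Psi.chi0_eq {ψ : ℚ_[p] → CS p} (h : Psi p ψ) {s : Iso (CS p)} {c : ℤ_[p]}
    (e : ∀ b, s.1 (ψ b) = ψ (c * b)) : (chi0 p s : ℤ_[p]) = c :=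
  h.inj fun b => (h.cyc0 s b).symm.trans (e b)

/-- the standing hypotheses hold, for every `ψ` -/
theorem Psi.og {ψ : ℚ_[p] → CS p} (h : Psi p ψ) : Og ψ (MonoidHom.id _) (chi0 p) := by
  have k : ∀ s : Iso (CS p), (∀ b, s.1 (ψ b) = ψ b) → s ∈ (chi0 p).ker := fun s hs =>
    Units.ext (h.chi0_eq (c := 1) fun b => by simpa using hs b)
  refine okh p (CS p) ψ _ _ (CS.norm_p_lt p) h (hmg0 p) (fun s b => ?_)
    (fun s hs => ⟨⟨s, k s fun b => hs _ (Ax.psi_alg h _ b)⟩, rfl⟩)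
    fun s hs a _ => ⟨⟨s, k s hs⟩, rfl⟩
  have := h.cyc0 s.1 b
  rw [show chi0 p s.1 = 1 from s.2] at this
  simpa using this

variable (p) in
theorem ok0 : Og (psi0 p) (MonoidHom.id _) (chi0 p) := (psi0_ok p).og

section rs

variable (e : Qb →+* CS p)

theorem exists_rs (σ : Iso (CS p)) : ∃ s : GQ, ∀ x, e (s x) = σ.1 (e x) := by
  have h1 : ∀ (τ : Iso (CS p)) x, ∃ y, e y = τ.1 (e x) := fun τ x => by
    let _ := e.toAlgebra
    have h2 : IsAlgebraic ℚ (τ.1 (e x)) :=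
      ((Algebra.IsAlgebraic.isAlgebraic (R := ℚ) x).algHom e.toRatAlgHom).algHom
        (τ.1 : CS p →+* CS p).toRatAlgHom
    have : IsScalarTower ℚ Qb (CS p) := IsScalarTower.of_algebraMap_eq fun q => (map_ratCast e q).symm
    have := IntermediateField.adjoin.finiteDimensional (h2.tower_top Qb).isIntegral
    exact ((IsAlgClosed.algebraMap_bijective_of_isIntegral (k := Qb)
      (K := IntermediateField.adjoin Qb {τ.1 (e x)})).2
        (IntermediateField.AdjoinSimple.gen Qb _)).imp fun y hy => congrArg Subtype.val hy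
  choose f hf using h1
  refine ⟨AlgEquiv.ofRingEquiv (f := ⟨⟨f σ, f σ⁻¹, fun x => e.injective ?_, fun x => e.injective ?_⟩,
    fun x y => e.injective ?_, fun x y => e.injective ?_⟩) fun q => e.injective ?_, hf σ⟩
  · rw [hf, hf]
    exact σ.1.symm_apply_apply _
  · rw [hf, hf]
    exact σ.1.apply_symm_apply _
  · simp only [map_mul, hf]
  · simp only [map_add, hf]
  · exact (hf σ _).trans (by simp)

/-- restriction along an embedding -/
def rs : Iso (CS p) →* GQ where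
  toFun σ := (exists_rs e σ).choose
  map_one' := AlgEquiv.ext fun x => e.injective ((exists_rs e 1).choose_spec x)
  map_mul' σ τ := AlgEquiv.ext fun x => e.injective (by
    rw [AlgEquiv.mul_apply, (exists_rs e σ).choose_spec, (exists_rs e τ).choose_spec,
      (exists_rs e _).choose_spec]
    rfl)

theorem rs_spec (σ : Iso (CS p)) (x : Qb) : e (rs e σ x) = σ.1 (e x) :=
  (exists_rs e σ).choose_spec x

variable {e}

theorem rs_eq {σ : Iso (CS p)} {s : GQ} (h : ∀ x, e (s x) = σ.1 (e x)) : rs e σ = s :=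
  AlgEquiv.ext fun x => e.injective ((rs_spec e σ x).trans (h x).symm)

variable (e) in
theorem chi_rs (σ : Iso (CS p)) : ez p (rs e σ) = chi0 p σ := by
  obtain ⟨ψ, h, hψ⟩ : ∃ ψ : ℚ_[p] → Qb, (∀ b, e (ψ b) = psi0 p b) ∧ True := by
    have : ∀ b, ∃ y, e y = psi0 p b := fun b => by
      obtain ⟨k, hk⟩ := (psi0_ok p).tors b
      have : NeZero ((p ^ k : ℕ) : Qb) := ⟨by exact_mod_cast (NeZero.ne (p ^ k))⟩
      obtain ⟨ζ, hζ⟩ := HasEnoughRootsOfUnity.exists_primitiveRoot Qb (p ^ k)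
      obtain ⟨i, -, hi⟩ := (hζ.map_of_injective e.injective).eq_pow_of_pow_eq_one hk
      exact ⟨ζ ^ i, by rw [map_pow, hi]⟩
    choose ψ h using this
    exact ⟨ψ, h, trivial⟩
  have : ∀ i, HasEnoughRootsOfUnity Qb (p ^ i) := fun i => by
    have : NeZero ((p ^ i : ℕ) : Qb) := ⟨by exact_mod_cast (NeZero.ne (p ^ i))⟩
    infer_instance
  refine Units.ext ((psi0_ok p).chi0_eq fun b => ?_).symm
  obtain ⟨k, hk⟩ := (psi0_ok p).tors b
  have h1 : ψ b ^ p ^ k = 1 := e.injective (by rw [map_pow, h, hk, map_one])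
  rw [(psi0_ok p).appr hk _ (ZMod.natCast_zmod_val _).symm, ← h, ← rs_spec, ← map_pow]
  exact congrArg e (cyclotomicCharacter.spec p (rs e σ).toRingEquiv _ h1)

/-- `e` induces the prime `P` -/
def Ab (e : Qb →+* CS p) (P : Id) : Prop := ∀ x : 𝓞 Qb, x ∈ P ↔ ‖e x‖ < 1

variable {P : Id}

theorem Ab.ov (h : Ab e P) : Ov p P := by
  refine ⟨Fact.out, ⟨fun e1 => ?_, fun {a b} hab => ?_⟩, (h _).2 (by simpa using CS.norm_p_lt p)⟩
  · simpa using (h 1).1 (e1 ▸ Submodule.mem_top)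
  · rw [h, h]
    have h1 := (h _).1 hab
    by_contra hn
    rw [not_or, not_lt, not_lt] at hn
    rw [show ((a * b : 𝓞 Qb) : Qb) = a * b from rfl, map_mul, norm_mul] at h1
    exact absurd h1 (not_lt.2 (one_le_mul_of_one_le_of_one_le hn.1 hn.2))

theorem Ab.mem (h : Ab e P) (σ : Iso (CS p)) : rs e σ ∈ dec P := fun x => by
  rw [h, h, ← σ.2 (e x), ← rs_spec]
  rfl

theorem Ab.onto (h : Ab e P) {s : GQ} (hs : s ∈ dec P) : ∃ σ, rs e σ = s := by
  obtain ⟨σ, h1, h2⟩ := CS.homog_int p e (e.comp s.toRingEquiv.toRingHom) fun a =>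
    (h a).symm.trans ((hs a).symm.trans (h _))
  exact ⟨⟨σ, h1⟩, rs_eq fun x => (h2 x).symm⟩

theorem Ab.range (h : Ab e P) : (rs e).range = dec P :=
  Subgroup.ext fun _ => ⟨fun ⟨σ, hσ⟩ => hσ ▸ h.mem σ, h.onto⟩

/-- two embeddings over the same prime differ by an isometry -/
theorem Ab.two {e' : Qb →+* CS p} (h : Ab e P) (h' : Ab e' P) :
    ∃ τ : Iso (CS p), (∀ x, e' x = τ.1 (e x)) ∧ ∀ σ, rs e' σ = rs e (τ⁻¹ * σ * τ) := by
  obtain ⟨τ, h1, h2⟩ := CS.homog_int p e e' fun a => (h a).symm.trans (h' a)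
  refine ⟨⟨τ, h1⟩, fun x => (h2 x).symm, fun σ => rs_eq fun x => ?_⟩
  rw [← h2, ← h2, rs_spec]
  exact τ.apply_symm_apply _

theorem rs_comp (g : GQ) (σ : Iso (CS p)) :
    rs (e.comp g.toRingEquiv.toRingHom) σ = g⁻¹ * rs e σ * g := rs_eq fun x => by
  show e (g (g⁻¹ (rs e σ (g x)))) = σ.1 (e (g x))
  rw [← rs_spec, ← AlgEquiv.mul_apply g, mul_inv_cancel]
  rfl

/-- the elements that fix enough algebraic elements restrict into a given open subgroup -/
theorem rs_opn (e : Qb →+* CS p) {U : Set GQ} (hU : IsOpen U) (h1 : (1 : GQ) ∈ U) :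
    ∃ s : Finset (CS p), (∀ a ∈ s, Alg a) ∧
      ∀ σ : Iso (CS p), (∀ a ∈ s, σ.1 a = a) → rs e σ ∈ U := by
  classical
  obtain ⟨E, hE, hs⟩ := (krullTopology_mem_nhds_one_iff ℚ Qb U).1 (hU.mem_nhds h1)
  let b := Module.finBasis ℚ E
  refine ⟨Finset.univ.image fun i => e (b i), fun a ha => ?_, fun σ hσ => hs ?_⟩
  · obtain ⟨i, -, rfl⟩ := Finset.mem_image.1 ha
    exact ((Algebra.IsAlgebraic.isAlgebraic (R := ℚ) (b i : Qb)).algHom e.toRatAlgHom).tower_top _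
  · refine (IntermediateField.mem_fixingSubgroup_iff _ _).2 fun x hx => ?_
    have h2 : ((rs e σ).toLinearMap.comp E.val.toLinearMap) = E.val.toLinearMap :=
      b.ext fun i => e.injective ((rs_spec e σ _).trans
        (hσ _ (Finset.mem_image.2 ⟨i, Finset.mem_univ _, rfl⟩)))
    exact LinearMap.congr_fun h2 ⟨x, hx⟩

end rs

variable (p) in
theorem exists_ab0 : ∃ (e : Qb →+* CS p) (P : Id), Ab e P := by
  let e : Qb →+* CS p := (IsAlgClosed.lift (R := ℚ) (S := Qb) (M := CS p)).toRingHom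
  let P : Id :=
    { carrier := {x | ‖e x‖ < 1}
      add_mem' := fun {a b} ha hb => by
        change ‖e ((a : Qb) + b)‖ < 1
        rw [map_add]
        exact (IsUltrametricDist.norm_add_le_max _ _).trans_lt (max_lt ha hb)
      zero_mem' := by simp
      smul_mem' := fun c x hx => by
        change ‖e ((c : Qb) * x)‖ < 1
        rw [map_mul, norm_mul]
        exact mul_lt_one_of_nonneg_of_lt_one_right (CS.norm_le_one p e c) (norm_nonneg _) hx }
  exact ⟨e, P, fun _ => Iff.rfl⟩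

theorem Ab.smul {e : Qb →+* CS p} {P : Id} (h : Ab e P) (g : GQ) :
    Ab (e.comp (g⁻¹ : GQ).toRingEquiv.toRingHom) (g • P) := fun x => by
  rw [Ideal.mem_pointwise_smul_iff_inv_smul_mem, h]
  rfl

/-- every prime over `p` comes from an embedding -/
theorem exists_ab {P : Id} (h : Ov p P) : ∃ e : Qb →+* CS p, Ab e P := by
  obtain ⟨e, P', h'⟩ := exists_ab0 p
  obtain ⟨g, rfl⟩ := Fld.ov_conj h'.ov h
  exact ⟨_, h'.smul g⟩

variable (p) in
theorem sur0 : Function.Surjective (chi0 p) := fun u => by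
  obtain ⟨e, P, h⟩ := exists_ab0 p
  obtain ⟨s, hs, rfl⟩ := ez_surj h.ov u
  obtain ⟨σ, rfl⟩ := h.onto (inP_le_dec hs)
  exact ⟨σ, (chi_rs e σ).symm⟩

variable (p) in
/-- the local datum -/
def lo : Lo p (CS p) where
  Γ := Iso (CS p)
  ψ := psi0 p
  act := MonoidHom.id _
  χ := chi0 p
  cyc := (psi0_ok p).cyc0
  ok := ok0 p
  sur := sur0 p

end Vale.Agent.P022K.WB
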