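import Vale.Agent.P022K.WB.YDefs
import Vale.Agent.P022K.FI.Cmp

/-!
# Block WB, target side: statements

`Ok` = the hypotheses on the field, the character and the group `H` (= Galois group of
`ℚ_p(μ_{p^∞})`); rows `OKH AX0 NFIX PHI SURJ TATE`; the functionals `cu` (cusp) and `st`
(Serre-Tate disc, `y = 1 + X`) with rows `CU ST NRM INJC INJS`.
-/

open PowerSeries Finset

namespace Vale.Agent.P022K.WB

open Vale.Agent.P022K.FI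

variable (p : ℕ) [Fact p.Prime] (C : Type) [NontriviallyNormedField C] [IsUltrametricDist C]
  [CharZero C]

/-- the closure of `ℚ` -/
noncomputable def Qh : Subfield C := (⊥ : Subfield C).topologicalClosure

variable {C} in
/-- algebraic over the closure of `ℚ` -/
def Alg (a : C) : Prop := IsAlgebraic (Qh C) a

variable {C} in
/-- the closure of `ℚ(μ_{p^∞})` -/
def Kh (ψ : ℚ_[p] → C) : Set C :=
  closure (Algebra.adjoin ℚ (Set.range fun n : ℕ => ψ ((p : ℚ_[p])⁻¹ ^ n)) : Set C)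

variable {C} in
/-- the standing hypotheses -/
structure Ok (ψ : ℚ_[p] → C) {H : Type} [Group H] (act : H →* Iso C) : Prop where
  np : ‖(p : C)‖ < 1
  psi : Psi p ψ
  fixψ : ∀ h b, (act h).1 (ψ b) = ψ b
  den : ∀ (x : C) (δ δ' : ℝ), 0 ≤ δ → δ < δ' →
    (∀ h, (∀ a, Alg a → (act h).1 a = a) → ‖(act h).1 x - x‖ ≤ δ) → ∃ a, Alg a ∧ ‖x - a‖ ≤ δ'
  fix : ∀ a, Alg a → (∀ h, (act h).1 a = a) → a ∈ Kh p ψ

/-- homogeneity (true for `FI.CS p`) -/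
def Hmg : Prop := ∀ (R : Type) [CommRing R] (f g : R →+* C), (∀ a, ‖f a‖ = ‖g a‖) →
  ∃ e : Iso C, ∀ a, e.1 (f a) = g a

/-- `Ok` for a homogeneous field and a group which is dense in the stabiliser of `ψ` -/
def OKH : Prop := ∀ [CompleteSpace C] [IsAlgClosed C] (ψ : ℚ_[p] → C) (H : Type) [Group H]
  (act : H →* Iso C), ‖(p : C)‖ < 1 → Psi p ψ → Hmg C → (∀ h b, (act h).1 (ψ b) = ψ b) →
  (∀ s : Iso C, (∀ a, Alg a → s.1 a = a) → ∃ h, act h = s) →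
  (∀ s : Iso C, (∀ b, s.1 (ψ b) = ψ b) → ∀ a, Alg a → ∃ h, (act h).1 a = s.1 a) → Ok p ψ act

/-- Ax's lemma -/
def AX0 : Prop := ∀ [IsAlgClosed C], ‖(p : C)‖ < 1 → ∃ c : ℝ, 0 < c ∧
  ∀ (H : Type) [Group H] (act : H →* Iso C) (a : C) (δ : ℝ), Alg a →
    (∀ h, ‖(act h).1 a - a‖ ≤ δ) → ∃ b, Alg b ∧ (∀ h, (act h).1 b = b) ∧ ‖a - b‖ ≤ c * δ

variable {p C} in
/-- `p`-power torsion -/
def Tor (y : Y p C) : Prop := ∃ m : ℕ, p ^ m • y = 0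

/-- no vector fixed by `N(ℚ_p)` -/
def NFIX : Prop := ∀ [CompleteSpace C] [IsAlgClosed C] (ψ : ℚ_[p] → C) (h : Psi p ψ),
  ‖(p : C)‖ < 1 → ∀ y : Y p C, Tor y → (∀ b, h.n b y = y) → y = 0

/-- no `φ`-periodic vector -/
def PHI : Prop := ∀ [CompleteSpace C] [IsAlgClosed C] (ψ : ℚ_[p] → C), Psi p ψ →
  ‖(p : C)‖ < 1 → ∀ (y : Y p C) (k : ℕ), Tor y → 0 < k → (Y.phi p C)^[k] y = y → y = 0

variable {p C} in
/-- equivariant maps -/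
def Eqv {H A : Type} [Group H] [AddCommGroup A] (act : H →* Iso C) (ρ : H →* AddMonoid.End A)
    (x : A →+ Y p C) : Prop := ∀ h a, x (ρ h a) = Y.gal (act h) (x a)

variable {C} in
/-- the kernel of `ρ` is open -/
def Opn {H A : Type} [Group H] [AddCommGroup A] (act : H →* Iso C) (ρ : H →* AddMonoid.End A) : Prop :=
  ∃ s : Finset C, (∀ a ∈ s, Alg a) ∧ ∀ h, (∀ a ∈ s, (act h).1 a = a) → ρ h = 1

/-- a `P`-submodule of `Hom_H(A, Y)` without common kernel contains `(n(b) - 1) Hom_H(A, Y)` -/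
def SURJ : Prop := ∀ [CompleteSpace C] [IsAlgClosed C] (ψ : ℚ_[p] → C) (H A : Type) [Group H]
  [AddCommGroup A] [Finite A] (act : H →* Iso C) (ρ : H →* AddMonoid.End A) (ok : Ok p ψ act),
  Opn act ρ → (∃ m : ℕ, ∀ a : A, p ^ m • a = 0) →
  ∀ U : AddSubgroup (A →+ Y p C), (∀ u ∈ U, Eqv act ρ u) →
    (∀ u ∈ U, ∀ b, (ok.psi.n b).comp u ∈ U) →
    (∀ u ∈ U, (Y.phi p C).toAddMonoidHom.comp u ∈ U) →
    (∀ u ∈ U, (Y.phi p C).symm.toAddMonoidHom.comp u ∈ U) →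
    (∀ a, (∀ u ∈ U, u a = 0) → a = 0) →
    ∀ x, Eqv act ρ x → ∀ b, (ok.psi.n b).comp x - x ∈ U

/-- Tate: no period for a non trivial power of the cyclotomic character.  `G` acts on `ψ` through
`χ`, its kernel satisfies `Ok`, the image of `χ` is dense in an open subgroup -/
def TATE : Prop := ∀ [CompleteSpace C] [IsAlgClosed C] [NormedAlgebra ℚ_[p] C]
  (ψ : ℚ_[p] → C) (G : Type) [Group G] (act : G →* Iso C) (χ : G →* ℤ_[p]ˣ),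
  (∀ g b, (act g).1 (ψ b) = ψ (((χ g : ℤ_[p]) : ℚ_[p]) * b)) →
  Ok p ψ (act.comp χ.ker.subtype) →
  (∃ a : ℕ, ∀ (n : ℕ) (c : ℤ_[p]), (p : ℤ_[p]) ^ a ∣ c - 1 →
    ∃ g, (p : ℤ_[p]) ^ n ∣ (χ g : ℤ_[p]) - c) →
  ∀ (k : ℕ) (x : C), 0 < k →
    (∀ g, (act g).1 x = algebraMap ℚ_[p] C ((χ g : ℤ_[p]) : ℚ_[p]) ^ k * x) → x = 0

section functional

variable {C}

/-- units of `O_C⟦X⟧` (the same as `FI.Un`) -/
def Unit (u : C⟦X⟧) : Prop := (∀ n, ‖coeff n u‖ ≤ 1) ∧ ‖coeff 0 u‖ = 1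

/-- `t u' / u` -/
noncomputable def dl0 (u : C⟦X⟧) : C⟦X⟧ := X * d⁄dX C u * u⁻¹

/-- `y u' / u`, `y = 1 + X` -/
noncomputable def dl (u : C⟦X⟧) : C⟦X⟧ := (1 + X) * d⁄dX C u * u⁻¹

/-- the cusp functional, `X = q ^ (1 / p ^ n)`, slice `d` -/
noncomputable def cu (n d : ℕ) (u : C⟦X⟧) : ℤ → C :=
  lev p n fun i => coeff (d * p ^ i) (dl0 u)

/-- the Amice measure of `c + p ^ k ℤ_p` -/
noncomputable def mu (ψ : ℚ_[p] → C) (f : C⟦X⟧) (k : ℕ) (c : ℚ_[p]) : C :=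
  ((p : C) ^ k)⁻¹ * ∑ j ∈ range (p ^ k),
    ψ (-c * (j / (p : ℚ_[p]) ^ k)) * An4.ev (ψ (j / (p : ℚ_[p]) ^ k) - 1) f

/-- the Serre-Tate functional, `1 + X = q ^ (1 / p ^ n)`, slice `a + p ^ k ℤ_p` -/
noncomputable def st (ψ : ℚ_[p] → C) (n k : ℕ) (a : ℚ_[p]) (u : C⟦X⟧) : ℤ → C :=
  lev p n fun i => mu p ψ (dl u) (i + k) ((p : ℚ_[p]) ^ i * a)

end functional

/-- properties of the cusp functional -/
structure CU : Prop where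
  mem : ∀ (n d : ℕ) (u : C⟦X⟧), ¬ p ∣ d → Unit u → cu p n d u ∈ BW p C
  mul : ∀ (n d : ℕ) (u v : C⟦X⟧), coeff 0 u ≠ 0 → coeff 0 v ≠ 0 →
    cu p n d (u * v) = cu p n d u + cu p n d v
  cst : ∀ (n d : ℕ) (c : C), cu p n d (PowerSeries.C c) = 0
  lvl : ∀ (n d : ℕ) (u : C⟦X⟧), ¬ p ∣ d → coeff 0 u ≠ 0 →
    cu p (n + 1) d (u.subst (X ^ p : C⟦X⟧)) = cu p n d u
  shift : ∀ (n d : ℕ) (u : C⟦X⟧) (i : ℤ), cu p (n + 1) d u i = cu p n d u (i + 1)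
  tr : ∀ (ψ : ℚ_[p] → C), Psi p ψ → ∀ (n d : ℕ) (u : C⟦X⟧) (b : ℚ_[p]) (i : ℤ), coeff 0 u ≠ 0 →
    cu p n d (rescale (ψ (b / (p : ℚ_[p]) ^ n)) u) i = ψ (d * b * (p : ℚ_[p]) ^ i) * cu p n d u i
  gal : ∀ (s : C ≃+* C) (n d : ℕ) (u : C⟦X⟧) (i : ℤ),
    cu p n d (PowerSeries.map (s : C →+* C) u) i = s (cu p n d u i)

/-- properties of the Serre-Tate functional -/
structure ST [CompleteSpace C] (ψ : ℚ_[p] → C) : Prop where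
  mem : ∀ (n k : ℕ) (a : ℚ_[p]) (u : C⟦X⟧), 0 < k → ‖a‖ = 1 → Unit u → st p ψ n k a u ∈ BW p C
  mul : ∀ (n k : ℕ) (a : ℚ_[p]) (u v : C⟦X⟧), Unit u → Unit v →
    st p ψ n k a (u * v) = st p ψ n k a u + st p ψ n k a v
  cst : ∀ (n k : ℕ) (a : ℚ_[p]) (c : C), st p ψ n k a (PowerSeries.C c) = 0
  yy : ∀ (n k : ℕ) (a : ℚ_[p]), 0 < k → ‖a‖ = 1 → st p ψ n k a (1 + X) = 0
  lvl : ∀ (n k : ℕ) (a : ℚ_[p]) (u : C⟦X⟧), 0 < k → ‖a‖ = 1 → Unit u →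
    st p ψ (n + 1) k a (An4.cmp ((1 + X) ^ p - 1) u) = st p ψ n k a u
  shift : ∀ (n k : ℕ) (a : ℚ_[p]) (u : C⟦X⟧) (i : ℤ),
    st p ψ (n + 1) k a u i = st p ψ n k a u (i + 1)
  tr : ∀ (n k : ℕ) (a x : ℚ_[p]) (u : C⟦X⟧) (i : ℤ), ‖a‖ ≤ 1 → ‖x * (p : ℚ_[p]) ^ k‖ ≤ 1 → Unit u →
    st p ψ n k a (An4.cmp (PowerSeries.C (ψ x) * (1 + X) - 1) u) i =
      ψ (x * a * (p : ℚ_[p]) ^ (i + n)) * st p ψ n k a u i
  cong : ∀ (n k : ℕ) (a a' : ℚ_[p]) (u : C⟦X⟧), ‖a - a'‖ ≤ ‖(p : ℚ_[p]) ^ k‖ →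
    st p ψ n k a u = st p ψ n k a' u
  ref : ∀ (n k : ℕ) (a : ℚ_[p]) (u : C⟦X⟧), ‖a‖ ≤ 1 →
    st p ψ n k a u = ∑ j ∈ range p, st p ψ n (k + 1) (a + j * (p : ℚ_[p]) ^ k) u
  gal : ∀ (s : Iso C) (c : ℚ_[p]), ‖c‖ = 1 → (∀ b, s.1 (ψ b) = ψ (c * b)) →
    ∀ (n k : ℕ) (a : ℚ_[p]) (u : C⟦X⟧) (i : ℤ), ‖a‖ ≤ 1 → Unit u →
    st p ψ n k a (PowerSeries.map (s.1 : C →+* C) u) i = s.1 (st p ψ n k a u i)
  tor : ∀ (lam : ℚ_[p]) (φ : C⟦X⟧) (n k : ℕ) (a : ℚ_[p]) (u : C⟦X⟧), ‖a‖ ≤ 1 →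
    ‖lam‖ = 1 → Unit u → (∀ j, ‖coeff j φ‖ ≤ 1) → constantCoeff φ = 0 →
    (∀ x, An4.ev (ψ x - 1) φ = ψ (lam * x) - 1) →
    ∀ l : C, (1 + X) * d⁄dX C φ = PowerSeries.C l * (1 + φ) →
    st p ψ n k (lam * a) (An4.cmp φ u) = l • st p ψ n k a u

/-- rows: the functionals -/
def FCU : Prop := CU p C

/-- rows: the functionals -/
def FST : Prop := ∀ [CompleteSpace C] [IsAlgClosed C] (ψ : ℚ_[p] → C), Psi p ψ →
  ‖(p : C)‖ < 1 → ST p C ψ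

/-- `O_C⟦X⟧` is normal: a quotient of integral series whose power is a unit up to a constant is a
unit up to a constant -/
def NRM : Prop := ∀ (a b h u : C⟦X⟧) (c : C) (N : ℕ), 0 < N → (∀ n, ‖coeff n a‖ ≤ 1) →
  (∀ n, ‖coeff n b‖ ≤ 1) → b ≠ 0 → b * h = a → Unit u → c ≠ 0 → h ^ N = PowerSeries.C c * u →
  ∃ c' w, c' ≠ 0 ∧ Unit w ∧ h = PowerSeries.C c' * w

/-- all cusp slices divisible by `p ^ m` -/
def INJC : Prop := ∀ [CompleteSpace C], ‖(p : C)‖ < 1 → ∀ (n m : ℕ) (u : C⟦X⟧), Unit u →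
  (∀ d, ¬ p ∣ d → ∃ l ∈ BW p C, cu p n d u = p ^ m • l) →
  ∃ c w, Unit w ∧ u = PowerSeries.C c * w ^ p ^ m

/-- all Serre-Tate slices divisible by `p ^ m` -/
def INJS : Prop := ∀ [CompleteSpace C] [IsAlgClosed C] (ψ : ℚ_[p] → C), Psi p ψ →
  ‖(p : C)‖ < 1 → ∀ (n m k0 : ℕ) (u : C⟦X⟧), Unit u →
  (∀ k a, k0 < k → ‖a‖ = 1 → ∃ l ∈ BW p C, st p ψ n k a u = p ^ m • l) →
  ∃ (c : C) (i : ℕ) (w : C⟦X⟧), Unit w ∧ u = PowerSeries.C c * (1 + X) ^ i * w ^ p ^ m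

end Vale.Agent.P022K.WB
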