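import Vale.Agent.P022K.WB.Rp
import Vale.Agent.P022K.WB.YSt

/-!
# Rows `NFIX` and `PHI`
-/

set_option linter.unusedSectionVars false

namespace Vale.Agent.P022K.WB

variable {p : ℕ} [Fact p.Prime] {C : Type} [NontriviallyNormedField C] [IsUltrametricDist C]
  [CharZero C]

/-- reduction of a statement on torsion vectors to vectors killed by `p` -/
theorem tor_ind {P : Y p C → Prop} (hP : ∀ y, P y → P (p • y))
    (h1 : ∀ y, p • y = 0 → P y → y = 0) (y : Y p C) (hy : Tor y) (h : P y) : y = 0 := by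
  obtain ⟨m, hm⟩ := hy
  induction m generalizing y with
  | zero => simpa using hm
  | succ m ih => exact h1 y (ih _ (hP y h) (by rw [← mul_smul, ← pow_succ, hm])) h

variable (p C) in
theorem nfix : NFIX p C := by
  intro _ _ ψ h hp
  have : Fact (‖(p : C)‖ < 1) := ⟨hp⟩
  intro y hy
  refine tor_ind (P := fun y => ∀ b, h.n b y = y) (fun y H b => by rw [map_nsmul, H]) ?_ y hy
  intro y hy H
  refine h.R_sep hy fun s hs => ?_
  have h1 : 1 < (1 + s) / 2 := by linarith
  obtain ⟨a, ha⟩ := h.R_ex hy h1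
  obtain ⟨r, hr⟩ := h.exists_X (s := s / ((1 + s) / 2)) (by rw [one_lt_div (by linarith)]; linarith)
  refine ⟨a, ha.mono (by linarith), ?_⟩
  have h2 := ha.n ((p : ℚ_[p]) ^ (-r : ℤ))
  rw [H] at h2
  have h3 := h2.uniq ha
  rw [← sub_one_mul, ← h.X_eq, norm_mul, ← le_inv_mul_iff₀ (h.X_pos _)] at h3
  refine h3.trans ?_
  rw [le_div_iff₀ (by linarith)] at hr
  exact hr

variable (p C) in
theorem phi_row : PHI p C := by
  intro _ _ ψ h hp
  have : Fact (‖(p : C)‖ < 1) := ⟨hp⟩
  intro y k hy hk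
  refine tor_ind (P := fun y => (Y.phi p C)^[k] y = y) (fun y H => ?_) ?_ y hy
  · have : ∀ j, (Y.phi p C)^[j] (p • y) = p • (Y.phi p C)^[j] y := fun j => by
      induction j with
      | zero => rfl
      | succ j ih => rw [Function.iterate_succ_apply', ih, map_nsmul, Function.iterate_succ_apply']
    rw [this, H]
  intro y hy H
  refine h.R_sep hy fun s hs => ?_
  obtain ⟨a, ha⟩ := h.R_ex hy hs
  refine ⟨a, ha, ?_⟩
  have h1 : ∀ j, h.R ((Y.phi p C)^[j] y) (s ^ p ^ j) (a ^ p ^ j) := fun j => by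
    induction j with
    | zero => simpa using ha
    | succ j ih => rw [Function.iterate_succ_apply', pow_succ, pow_mul, pow_mul]; exact ih.phi
  have h2 := h1 k
  rw [H] at h2
  have hq : 1 < p ^ k := Nat.one_lt_pow hk.ne' (Fact.out : p.Prime).one_lt
  have h3 := h2.uniq (ha.mono (le_self_pow₀ hs.le (by omega)))
  by_contra h4
  push Not at h4
  have h5 : ‖a‖ < ‖a ^ p ^ k‖ := by
    rw [norm_pow]; exact lt_self_pow₀ (hs.trans h4) hq
  have h6 : ‖a ^ p ^ k - a‖ = ‖a ^ p ^ k‖ := neq_sub (by rwa [sub_sub_cancel])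
  rw [h6, norm_pow] at h3
  exact absurd h3 (not_le.2 (pow_lt_pow_left₀ h4 (by linarith) (by omega)))

end Vale.Agent.P022K.WB
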