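import Mathlib

/-!
# An open lattice is bounded modulo its divisible part
-/

set_option linter.all false

namespace Vale.Agent.P022K.WB

open Filter Topology Finset

variable {K V : Type*} [NontriviallyNormedField K] [CompleteSpace K] [NormedAddCommGroup V]
  [NormedSpace K V] [CompleteSpace V]

theorem bl_line (M : AddSubgroup V) (hO : ∀ k : K, ‖k‖ ≤ 1 → ∀ m ∈ M, k • m ∈ M)
    (S : Submodule K V) [FiniteDimensional K S] (hB : ∀ v ∈ S, ‖v‖ ≤ 1 → v ∈ M)
    (lam : V →ₗ[K] K) {R : ℝ} (ih : ∀ m ∈ M, m ∈ S ⊓ LinearMap.ker lam →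
      ∃ d ∈ S ⊓ LinearMap.ker lam, (∀ k : K, k • d ∈ M) ∧ ‖m - d‖ ≤ R)
    (hu : ∀ B : ℝ, ∃ m ∈ M, m ∈ S ∧ B < ‖lam m‖) :
    ∃ v ∈ S, lam v = 1 ∧ ∀ k : K, k • v ∈ M := by
  obtain ⟨π, hπ0, hπ1⟩ := NormedField.exists_norm_lt_one K
  have hπ : π ≠ 0 := norm_pos_iff.1 hπ0
  have hw : ∀ j : ℕ, ∃ w ∈ M, w ∈ S ∧ π ^ j * lam w = 1 := fun j => by
    obtain ⟨m, hm, hS, h⟩ := hu ‖(π ^ j)⁻¹‖
    have h0 : 0 < ‖lam m‖ := (norm_nonneg _).trans_lt h
    have h1 : lam m ≠ 0 := norm_pos_iff.1 h0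
    refine ⟨((π ^ j)⁻¹ / lam m) • m, hO _ ?_ m hm, S.smul_mem _ hS, ?_⟩
    · rw [norm_div, div_le_one h0]
      exact h.le
    · rw [map_smul, smul_eq_mul]
      field_simp
  choose w hwM hwS hw using hw
  have hd : ∀ j : ℕ, ∃ d ∈ S ⊓ LinearMap.ker lam, (∀ k : K, k • d ∈ M) ∧
      ‖w j - π • w (j + 1) - d‖ ≤ R := fun j => by
    refine ih _ (sub_mem (hwM j) (hO _ hπ1.le _ (hwM _)))
      ⟨sub_mem (hwS j) (S.smul_mem _ (hwS _)), ?_⟩
    have h1 := hw j
    have h2 := hw (j + 1)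
    refine mul_left_cancel₀ (pow_ne_zero j hπ) ?_
    rw [map_sub, map_smul, smul_eq_mul]
    linear_combination h1 - h2
  choose d hdS hdM hd using hd
  set u : ℕ → V := fun j => π ^ j • w j + ∑ i ∈ range j, π ^ i • d i with hud
  have hu1 : ∀ j, dist (u j) (u (j + 1)) ≤ R * ‖π‖ ^ j := fun j => by
    have e : u j - u (j + 1) = π ^ j • (w j - π • w (j + 1) - d j) := by
      simp only [hud, sum_range_succ, pow_succ, mul_smul, smul_sub]
      abel
    rw [dist_eq_norm, e, norm_smul, norm_pow, mul_comm]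
    exact mul_le_mul_of_nonneg_right (hd j) (by positivity)
  have huS : ∀ j, u j ∈ S := fun j =>
    add_mem (S.smul_mem _ (hwS j)) (sum_mem fun i _ => S.smul_mem _ (hdS i).1)
  have hul : ∀ j, lam (u j) = 1 := fun j => by
    have h0 : ∀ i, lam (d i) = 0 := fun i => (hdS i).2
    simp only [hud, map_add, map_sum, map_smul, smul_eq_mul, h0, mul_zero, sum_const_zero, add_zero,
      hw]
  obtain ⟨v, hv⟩ := cauchySeq_tendsto_of_complete (cauchySeq_of_le_geometric _ _ hπ1 hu1)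
  haveI : FiniteDimensional K (S ⊓ LinearMap.ker lam : Submodule K V) :=
    Submodule.finiteDimensional_of_le inf_le_left
  have hv0 : v - u 0 ∈ S ⊓ LinearMap.ker lam :=
    (S ⊓ LinearMap.ker lam).closed_of_finiteDimensional.mem_of_tendsto (hv.sub_const _)
      (Eventually.of_forall fun j => ⟨sub_mem (huS j) (huS 0), by
        show lam (u j - u 0) = 0
        rw [map_sub, hul, hul, sub_self]⟩)
  have hvS : v ∈ S := by simpa using add_mem hv0.1 (huS 0)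
  refine ⟨v, hvS, ?_, fun k => ?_⟩
  · have h1 : lam (v - u 0) = 0 := hv0.2
    rwa [map_sub, hul, sub_eq_zero] at h1
  · have h1 : Tendsto (fun j : ℕ => ‖k‖ * ‖π‖ ^ j) atTop (𝓝 0) := by
      simpa using (tendsto_pow_atTop_nhds_zero_of_lt_one hπ0.le hπ1).const_mul ‖k‖
    have h2 : Tendsto (fun j : ℕ => ‖k • (v - u j)‖) atTop (𝓝 0) := by
      simpa using ((hv.const_sub v).const_smul k).norm
    obtain ⟨j, hj1, hj2⟩ := ((h1.eventually (gt_mem_nhds one_pos)).and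
      (h2.eventually (gt_mem_nhds one_pos))).exists
    have e : k • v = k • (v - u j) + ((k * π ^ j) • w j + ∑ i ∈ range j, (k * π ^ i) • d i) := by
      simp only [hud, mul_smul, ← smul_sum, ← smul_add, sub_add_cancel]
    rw [e]
    refine add_mem (hB _ (S.smul_mem _ (sub_mem hvS (huS j))) hj2.le)
      (add_mem (hO _ ?_ _ (hwM j)) (sum_mem fun i _ => hdM i _))
    rw [norm_mul, norm_pow]
    exact hj1.le

theorem bl (M : AddSubgroup V) (hO : ∀ k : K, ‖k‖ ≤ 1 → ∀ m ∈ M, k • m ∈ M) (S : Submodule K V)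
    [FiniteDimensional K S] (hB : ∀ v ∈ S, ‖v‖ ≤ 1 → v ∈ M) :
    ∃ R : ℝ, ∀ m ∈ M, m ∈ S → ∃ d ∈ S, (∀ k : K, k • d ∈ M) ∧ ‖m - d‖ ≤ R := by
  induction h : Module.finrank K S using Nat.strong_induction_on generalizing S with
  | _ n IH =>
  by_cases hS : S = ⊥
  · subst hS
    refine ⟨0, fun m _ hm => ⟨0, zero_mem _, fun k => by simp, ?_⟩⟩
    rw [(Submodule.mem_bot K).1 hm]
    simp
  obtain ⟨e, heS, he⟩ := (Submodule.ne_bot_iff S).1 hS
  obtain ⟨lam, hl⟩ : ∃ lam : V →ₗ[K] K, lam e = 1 := by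
    by_contra hc
    refine he ((Module.forall_dual_apply_eq_zero_iff K e).1 fun φ => ?_)
    by_contra h0
    exact hc ⟨(φ e)⁻¹ • φ, by simp [h0]⟩
  haveI : FiniteDimensional K (S ⊓ LinearMap.ker lam : Submodule K V) :=
    Submodule.finiteDimensional_of_le inf_le_left
  have hlt : S ⊓ LinearMap.ker lam < S := lt_of_le_of_ne inf_le_left fun h0 => by
    have h1 : e ∈ S ⊓ LinearMap.ker lam := h0.symm ▸ heS
    have h2 : lam e = 0 := h1.2
    exact one_ne_zero (hl.symm.trans h2)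
  obtain ⟨R, hR⟩ := IH _ (h ▸ Submodule.finrank_lt_finrank_of_lt hlt) (S ⊓ LinearMap.ker lam)
    (fun v hv => hB v hv.1) rfl
  by_cases hu : ∀ B : ℝ, ∃ m ∈ M, m ∈ S ∧ B < ‖lam m‖
  · obtain ⟨v, hvS, hv1, hv⟩ := bl_line M hO S hB lam hR hu
    refine ⟨R, fun m hm hmS => ?_⟩
    obtain ⟨d, hdS, hdM, hd⟩ := hR (m - lam m • v) (sub_mem hm (hv _))
      ⟨sub_mem hmS (S.smul_mem _ hvS), by
        show lam (m - lam m • v) = 0
        simp [hv1]⟩
    refine ⟨lam m • v + d, add_mem (S.smul_mem _ hvS) hdS.1, fun k => ?_, ?_⟩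
    · rw [smul_add, smul_smul]
      exact add_mem (hv _) (hdM k)
    · rwa [← sub_sub]
  · push Not at hu
    obtain ⟨B, hB'⟩ := hu
    have hB0 : 0 ≤ B := by simpa using hB' 0 (zero_mem _) (zero_mem _)
    obtain ⟨π, hπ0, hπ1⟩ := NormedField.exists_norm_lt K (show 0 < (B * ‖e‖ + 1)⁻¹ by positivity)
    have hπ : π ≠ 0 := norm_pos_iff.1 hπ0
    have h1 : ‖π‖ * (B * ‖e‖ + 1) ≤ 1 := by
      rw [← le_div_iff₀ (by positivity), one_div]
      exact hπ1.le
    have h2 : 0 ≤ ‖π‖ * (B * ‖e‖) := by positivity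
    refine ⟨B * ‖e‖ + ‖π‖⁻¹ * R, fun m hm hmS => ?_⟩
    have h3 : ‖lam m • e‖ ≤ B * ‖e‖ := by
      rw [norm_smul]
      exact mul_le_mul_of_nonneg_right (hB' m hm hmS) (norm_nonneg _)
    obtain ⟨d, hdS, hdM, hd⟩ := hR (π • (m - lam m • e)) (by
      rw [smul_sub]
      refine sub_mem (hO _ (by nlinarith) _ hm) (hB _ (S.smul_mem _ (S.smul_mem _ heS)) ?_)
      rw [norm_smul]
      nlinarith)
      ⟨S.smul_mem _ (sub_mem hmS (S.smul_mem _ heS)), by
        show lam (π • (m - lam m • e)) = 0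
        simp [hl]⟩
    refine ⟨π⁻¹ • d, S.smul_mem _ hdS.1, fun k => by rw [smul_smul]; exact hdM _, ?_⟩
    have e1 : m - π⁻¹ • d = lam m • e + π⁻¹ • (π • (m - lam m • e) - d) := by
      rw [smul_sub, inv_smul_smul₀ hπ]
      abel
    rw [e1]
    refine (norm_add_le _ _).trans (add_le_add h3 ?_)
    rw [norm_smul, norm_inv]
    exact mul_le_mul_of_nonneg_left hd (by positivity)

end Vale.Agent.P022K.WB
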