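import Vale.Agent.P022K.WB.SjSt
import Vale.Agent.P022K.WB.R1

/-!
# Rows `APU` and `EX`
-/

set_option linter.unusedSectionVars false

namespace Vale.Agent.P022K.WB

namespace Ap

section abs

variable {H : Type} [Group H]

/-- reindexing a sum over cosets -/
theorem sum_mul (N : Subgroup H) [Fintype (H ⧸ N)] {M : Type} [AddCommMonoid M] (F : H → M)
    (hF : ∀ k, ∀ n ∈ N, F (k * n) = F k) (h : H) :
    ∑ q : H ⧸ N, F (h * q.out) = ∑ q : H ⧸ N, F q.out := by
  refine Fintype.sum_equiv (MulAction.toPerm h) _ _ fun q => ?_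
  obtain ⟨n, hn⟩ := QuotientGroup.mk_out_eq_mul N (h * q.out)
  have : (MulAction.toPerm h) q = (QuotientGroup.mk (h * q.out) : H ⧸ N) :=
    (MulAction.Quotient.mk_smul_out N h q).symm
  rw [this, hn, hF _ _ n.2]

variable {E : Type} [Field E] (g : H →* (E ≃+* E))

theorem g_mul (a b : H) (x : E) : g (a * b) x = g a (g b x) := by rw [map_mul]; rfl

theorem g_one (x : E) : g 1 x = x := by rw [map_one]; rfl

/-- pointwise stabiliser -/
def stab (t : Finset E) : Subgroup H where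
  carrier := {h | ∀ y ∈ t, g h y = y}
  one_mem' := fun y _ => g_one g y
  mul_mem' := fun {a b} ha hb y hy => by rw [g_mul, hb y hy, ha y hy]
  inv_mem' := fun {a} ha y hy => by
    conv_lhs => rw [← ha y hy]
    rw [← g_mul, inv_mul_cancel, g_one]

theorem mem_stab {t : Finset E} {h : H} : h ∈ stab g t ↔ ∀ y ∈ t, g h y = y := Iff.rfl

theorem q_inj {t : Finset E} {q q' : H ⧸ stab g t} (h : ∀ y ∈ t, g q.out y = g q'.out y) :
    q = q' := by
  rw [← q.out_eq', ← q'.out_eq']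
  refine QuotientGroup.eq.2 fun y hy => ?_
  rw [g_mul, ← h y hy, ← g_mul, inv_mul_cancel, g_one]

theorem fin_quo {t : Finset E} (ht : ∀ y ∈ t, (Set.range fun h => g h y).Finite) :
    Finite (H ⧸ stab g t) := by
  have : ∀ y : t, Finite (Set.range fun h => g h y.1) := fun y => (ht y.1 y.2).to_subtype
  refine Finite.of_injective (β := ∀ y : t, Set.range fun h => g h y.1)
    (fun q y => ⟨g q.out y.1, q.out, rfl⟩) fun q q' h => q_inj g fun y hy => ?_
  exact congrArg Subtype.val (congrFun h ⟨y, hy⟩)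

/-- Dedekind -/
theorem ded (t : Finset E) [Fintype (H ⧸ stab g t)] (c : H ⧸ stab g t → E) (q0 : H ⧸ stab g t)
    (hc : c q0 ≠ 0) : ∃ e, (∀ n ∈ stab g t, g n e = e) ∧ ∑ q, c q * g q.out e ≠ 0 := by
  by_contra hh
  push Not at hh
  let L : Submonoid E :=
    { carrier := {e | ∀ n ∈ stab g t, g n e = e}
      one_mem' := fun n _ => map_one _
      mul_mem' := fun {a b} ha hb n hn => by rw [map_mul, ha n hn, hb n hn] }
  let φ : H ⧸ stab g t → (L →* E) := fun q => ((g q.out : E →+* E) : E →* E).comp L.subtype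
  have hφ : Function.Injective φ := fun q q' h => q_inj g fun y hy =>
    DFunLike.congr_fun h ⟨y, fun n hn => hn y hy⟩
  have h1 := (linearIndependent_monoidHom L E).comp φ hφ
  refine hc (Fintype.linearIndependent_iff.1 h1 c (funext fun e => ?_) q0)
  rw [Finset.sum_apply]
  exact hh e.1 e.2

/-- an element of trace one -/
theorem tr_one (t : Finset E) [Fintype (H ⧸ stab g t)] :
    ∃ e, (∀ n ∈ stab g t, g n e = e) ∧ ∑ q : H ⧸ stab g t, g q.out e = 1 := by
  obtain ⟨e, h1, h2⟩ := ded g t (fun _ => 1) (QuotientGroup.mk 1) one_ne_zero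
  simp only [one_mul] at h2
  have h3 : ∀ h, g h (∑ q : H ⧸ stab g t, g q.out e) = ∑ q : H ⧸ stab g t, g q.out e := fun h => by
    rw [map_sum, ← sum_mul (stab g t) (fun k => g k e) (fun k n hn => by rw [g_mul, h1 n hn]) h]
    simp only [g_mul]
  refine ⟨e / ∑ q : H ⧸ stab g t, g q.out e, fun n hn => by rw [map_div₀, h1 n hn, h3], ?_⟩
  simp only [map_div₀, h3]
  rw [← Finset.sum_div, div_self h2]

end abs

/-- additive selection -/
theorem ex_add0 (p : ℕ) [Fact p.Prime] {A E : Type} [AddCommGroup A] [AddCommGroup E]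
    [Module (ZMod p) A] [Module (ZMod p) E] (P : A → E → Prop) (h0 : P 0 0)
    (ha : ∀ a a' y y', P a y → P a' y' → P (a + a') (y + y')) (h : ∀ a, ∃ y, P a y) :
    ∃ f : A →+ E, ∀ a, P a (f a) := by
  choose w hw using h
  let b := Module.Basis.ofVectorSpace (ZMod p) A
  let f := b.constr (ZMod p) fun i => w (b i)
  refine ⟨f.toAddMonoidHom, fun a => ?_⟩
  show P a (f a)
  have hn : ∀ (n : ℕ) a y, P a y → P (n • a) (n • y) := fun n a y H => by
    induction n with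
    | zero => simpa using h0
    | succ n ih => rw [succ_nsmul, succ_nsmul]; exact ha _ _ _ _ ih H
  have hm : a ∈ Submodule.span (ZMod p) (Set.range b) := by rw [b.span_eq]; trivial
  induction hm using Submodule.span_induction with
  | mem x hx =>
    obtain ⟨i, rfl⟩ := hx
    rw [show f (b i) = w (b i) from b.constr_basis _ _ i]
    exact hw _
  | zero => rw [map_zero]; exact h0
  | add x y _ _ h1 h2 => rw [map_add]; exact ha _ _ _ _ h1 h2
  | smul c x _ h1 =>
    obtain ⟨n, rfl⟩ := ZMod.natCast_zmod_surjective c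
    rw [Nat.cast_smul_eq_nsmul, map_nsmul]
    exact hn n _ _ h1

theorem ex_add (p : ℕ) [Fact p.Prime] {A E : Type} [AddCommGroup A] [AddCommGroup E]
    (hA : ∀ a : A, p • a = 0) (hE : ∀ y : E, p • y = 0) (P : A → E → Prop) (h0 : P 0 0)
    (ha : ∀ a a' y y', P a y → P a' y' → P (a + a') (y + y')) (h : ∀ a, ∃ y, P a y) :
    ∃ f : A →+ E, ∀ a, P a (f a) :=
  @ex_add0 p _ A E _ _ (AddCommGroup.zmodModule hA) (AddCommGroup.zmodModule hE) P h0 ha h

theorem ex_tor {A : Type} [AddCommGroup A] (p m : ℕ) (a : A) (h : p ^ m • a = 0) (ha : a ≠ 0) :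
    ∃ k : ℕ, k • a ≠ 0 ∧ p • k • a = 0 := by
  induction m generalizing a with
  | zero => exact absurd (by simpa using h) ha
  | succ m ih =>
    by_cases h1 : p • a = 0
    · exact ⟨1, by simpa using ha, by simpa using h1⟩
    · obtain ⟨k, h2, h3⟩ := ih (p • a) (by rw [← mul_smul, ← pow_succ, h]) h1
      exact ⟨k * p, by rwa [mul_smul], by rwa [mul_smul]⟩

theorem circ_tor {p : ℕ} (hp : p ≠ 0) (u : AddCircle (1 : ℚ)) (h : p • u = 0) :
    ∃ z : ℤ, u = (((z : ℚ) / p : ℚ) : AddCircle (1 : ℚ)) := by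
  obtain ⟨r, rfl⟩ := QuotientAddGroup.mk_surjective u
  rw [← QuotientAddGroup.mk_nsmul, QuotientAddGroup.eq_zero_iff] at h
  obtain ⟨z, hz⟩ := AddSubgroup.mem_zmultiples_iff.1 h
  refine ⟨z, congrArg _ ?_⟩
  have : (p : ℚ) ≠ 0 := Nat.cast_ne_zero.2 hp
  rw [zsmul_eq_mul, mul_one, nsmul_eq_mul] at hz
  rw [hz, mul_div_cancel_left₀ _ this]

section main

variable {p : ℕ} [Fact p.Prime] {C : Type} [NontriviallyNormedField C] [IsUltrametricDist C]
  [CharZero C] [hp : Fact (‖(p : C)‖ < 1)] [CompleteSpace C] [IsAlgClosed C] {ψ : ℚ_[p] → C}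
  {H A : Type} [Group H] [AddCommGroup A] {act : H →* Iso C} {ρ : H →* AddMonoid.End A}

variable (p act) in
/-- the action on the tilt by ring automorphisms -/
noncomputable def gE : H →* (Fl p C ≃+* Fl p C) := (Iso (Fl p C)).subtype.comp (gF p act)

theorem gE_eq (h : H) : gE p act h = (gF p act h).1 := rfl

theorem gE_gal (h : H) : gE p act h = (Fl.galI p C (act h)).1 := rfl

theorem gE_norm (h : H) (y : Fl p C) : ‖gE p act h y‖ = ‖y‖ := (gF p act h).2 y

theorem fo_zero : Fo act (0 : Fl p C) :=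
  (Set.finite_singleton 0).subset (by rintro _ ⟨h, rfl⟩; exact map_zero _)

theorem fo_add {y z : Fl p C} (hy : Fo act y) (hz : Fo act z) : Fo act (y + z) :=
  (Set.Finite.image2 (· + ·) hy hz).subset (by
    rintro _ ⟨h, rfl⟩
    exact ⟨_, ⟨h, rfl⟩, _, ⟨h, rfl⟩, (map_add _ _ _).symm⟩)

theorem rho_mul (a b : H) (x : A) : ρ (a * b) x = ρ a (ρ b x) := by rw [map_mul]; rfl

theorem rho_one (x : A) : ρ 1 x = x := by rw [map_one]; rfl

/-- a finite set whose stabiliser acts trivially on `A` -/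
theorem ex_t (hK : KRAS p C) (ok : Ok p ψ act) (ho : Opn act ρ) :
    ∃ t : Finset (Fl p C), (∀ y ∈ t, Fo act y) ∧ ∀ n ∈ stab (gE p act) t, ρ n = 1 := by
  classical
  obtain ⟨s, h1, h2⟩ := ho
  choose! T hT1 hT2 using hK ψ H act ok
  refine ⟨s.biUnion T, fun y hy => ?_, fun n hn => h2 n fun a ha => hT2 a (h1 a ha) n fun y hy =>
    hn y (Finset.mem_biUnion.2 ⟨a, ha, hy⟩)⟩
  obtain ⟨a, ha, hy⟩ := Finset.mem_biUnion.1 hy
  exact hT1 a (h1 a ha) y hy

theorem R_gal (ok : Ok p ψ act) {x : A →+ Y p C} (hx : Eqv act ρ x) {a : A} {s : ℝ} {c : Fl p C}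
    (H1 : ok.psi.R (x a) s c) (h : H) : ok.psi.R (x (ρ h a)) s (gE p act h c) := by
  rw [hx]; exact H1.gal _ (ok.fixψ h)

/-- an element of trace one and small norm -/
theorem tr_small (t : Finset (Fl p C)) [Fintype (H ⧸ stab (gE p act) t)] :
    ∃ e, (∀ n ∈ stab (gE p act) t, gE p act n e = e) ∧
      ∑ q : H ⧸ stab (gE p act) t, gE p act q.out e = 1 ∧ ‖e‖ ≤ 2 := by
  obtain ⟨e, h1, h2⟩ := tr_one (gE p act) t
  obtain ⟨n, hn⟩ := pow_unbounded_of_one_lt ‖e‖ (one_lt_two (α := ℝ))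
  have h3 : ∀ h, gE p act h (Fl.rt n e) = Fl.rt n (gE p act h e) := fun h => Fl.galI_rt _ n e
  refine ⟨Fl.rt n e, fun k hk => by rw [h3, h1 k hk], ?_, (Fl.norm_rt_le zero_le_two).2
    (hn.le.trans (pow_le_pow_right₀ one_le_two
      (Nat.lt_pow_self (Fact.out : p.Prime).one_lt).le))⟩
  simp only [h3]
  rw [← map_sum, h2, map_one]

theorem R_zsmul {h : Psi p ψ} {y : Y p C} {s : ℝ} {c : Fl p C} (H1 : h.R y s c) (z : ℤ) :
    h.R (z • y) s (z * c) := by
  induction z using Int.induction_on with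
  | zero => simpa using h.R_zero H1.one_lt
  | succ n ih => rw [add_smul, one_smul, Int.cast_add, Int.cast_one, add_mul, one_mul]; exact ih.add H1
  | pred n ih => rw [sub_smul, one_smul, Int.cast_sub, Int.cast_one, sub_mul, one_mul]; exact ih.sub H1

theorem R_sum {h : Psi p ψ} {ι : Type} (S : Finset ι) {y : ι → Y p C} {s : ℝ} {c : ι → Fl p C}
    (hs : 1 < s) (H1 : ∀ i, h.R (y i) s (c i)) : h.R (∑ i ∈ S, y i) s (∑ i ∈ S, c i) := by
  classical
  induction S using Finset.induction_on with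
  | empty => simpa using h.R_zero hs
  | insert a S ha ih => rw [Finset.sum_insert ha, Finset.sum_insert ha]; exact (H1 a).add ih

/-- the map `ℚ / ℤ → Y` attached to an element of the tilt -/
theorem ex_j (h : Psi p ψ) (c : Fl p C) : ∃ j : AddCircle (1 : ℚ) →+ Y p C,
    (∀ s : Iso C, (∀ b, s.1 (ψ b) = ψ b) → (Fl.galI p C s).1 c = c → ∀ u, Y.gal s (j u) = j u) ∧
    ∀ z : ℤ, h.R (j (((z : ℚ) / p : ℚ) : AddCircle (1 : ℚ))) 2 (z * c) := by
  obtain ⟨k, hk⟩ := ((tendsto_pow_atTop_nhds_zero_of_lt_one (norm_nonneg _) (h.X_lt 0)).comp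
    (tendsto_pow_atTop_atTop_of_one_lt (Fact.out : p.Prime).one_lt)).const_mul ‖c‖
    |>.eventually (gt_mem_nhds (show ‖c‖ * 0 < 1 by simp)) |>.exists
  obtain ⟨o, ho⟩ := Fl.exists_io (x := c * h.X k) (by
    have := h.X_add 0 k
    rw [zero_add] at this
    rw [norm_mul, this, norm_pow]; exact hk.le)
  let l : ℤ → C := fun i => if -(k : ℤ) ≤ i then th i (tm o) / (p : C) ^ (i + k) else 0
  have hl : ∀ r, Rep l k r (tm o) := fun r => ⟨fun i hi => by simp [l, not_le.2 hi],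
    fun i h1 _ => by
      simp only [l, if_pos h1]
      exact mul_div_cancel₀ _ (zpow_ne_zero (i + k) (pc_ne (p := p) (C := C)))⟩
  let j0 : ℚ →+ (ℤ → C) :=
    { toFun := fun r i => (r : C) * l i
      map_zero' := by funext i; simp
      map_add' := fun a b => by funext i; simp [add_mul] }
  have hj1 : j0 1 = l := by funext i; simp [j0]
  have hker : AddSubgroup.zmultiples (1 : ℚ) ≤ ((Y.mk p C).comp j0).ker := by
    rw [AddSubgroup.zmultiples_le, AddMonoidHom.mem_ker, AddMonoidHom.comp_apply, hj1, Y.mk_eq_zero]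
    exact h.rep_mem fun r => ⟨_, hl r⟩
  refine ⟨QuotientAddGroup.lift _ ((Y.mk p C).comp j0) hker, fun s hs hc u => ?_, fun z => ?_⟩
  · obtain ⟨r, rfl⟩ := QuotientAddGroup.mk_surjective u
    have h1 : gal0 s o = o := Fl.io_inj (by
      rw [← Fl.galF_io, ← Fl.galI_apply, ho, map_mul, hc, h.galI_X s hs])
    show Y.gal s (Y.mk p C (j0 r)) = Y.mk p C (j0 r)
    rw [Y.gal_mk]
    congr 1
    funext i
    show s.1 ((r : C) * l i) = (r : C) * l i
    rw [map_mul, map_ratCast]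
    congr 1
    by_cases hi : -(k : ℤ) ≤ i
    · simp only [l, if_pos hi]
      rw [map_div₀, ← th_gA, gA_tm, h1, map_zpow₀, map_natCast]
    · simp only [l, if_neg hi, map_zero]
  · show h.R (Y.mk p C (j0 ((z : ℚ) / p))) 2 _
    rw [div_eq_mul_inv, ← zsmul_eq_mul, map_zsmul, map_zsmul]
    refine R_zsmul ?_ z
    obtain ⟨r, hr⟩ := h.exists_X (one_lt_two (α := ℝ))
    have h2 : p • j0 (p : ℚ)⁻¹ = l := by
      rw [← map_nsmul, nsmul_eq_mul, mul_inv_cancel₀ (Nat.cast_ne_zero.2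
        (Fact.out : p.Prime).ne_zero), hj1]
    refine ⟨_, k, r, tm o, rfl, h2 ▸ hl r, hr, ?_⟩
    rw [Psi.vl, bar_tm, ho, mul_div_cancel_right₀ _ (h.X_ne _), sub_self, norm_zero]
    exact zero_le_two

theorem ex_main (hK : KRAS p C) (ok : Ok p ψ act) (ho : Opn act ρ) {a : A} (ha : a ≠ 0)
    (hpa : p • a = 0) : ∃ x : A →+ Y p C, Eqv act ρ x ∧ x a ≠ 0 := by
  obtain ⟨t, ht, hN⟩ := ex_t hK ok ho
  have := fin_quo (gE p act) ht
  have := Fintype.ofFinite (H ⧸ stab (gE p act) t)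
  obtain ⟨χ, hχ⟩ : ∃ χ : A →+ AddCircle (1 : ℚ), χ a ≠ 0 :=
    CharacterModule.exists_character_apply_ne_zero_of_ne_zero ha
  have h1 : ∀ k : H, ∃ z : ℤ, χ (ρ k⁻¹ a) = (((z : ℚ) / p : ℚ) : AddCircle (1 : ℚ)) := fun k =>
    circ_tor (Fact.out : p.Prime).ne_zero _ (by rw [← map_nsmul, ← map_nsmul, hpa, map_zero, map_zero])
  choose μ hμ using h1
  obtain ⟨e, he, hS⟩ := ded (gE p act) t (fun q => (μ q.out : Fl p C)) (QuotientGroup.mk 1) (by
    obtain ⟨n, hn⟩ := QuotientGroup.mk_out_eq_mul (stab (gE p act) t) 1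
    rw [hn, one_mul, Ne, CharP.intCast_eq_zero_iff (Fl p C) p]
    rintro ⟨w, hw⟩
    have h2 := hμ n
    rw [hN _ (inv_mem n.2), hw] at h2
    refine hχ (h2.trans ((QuotientAddGroup.eq_zero_iff _).2 ⟨w, ?_⟩))
    have : (p : ℚ) ≠ 0 := Nat.cast_ne_zero.2 (Fact.out : p.Prime).ne_zero
    simp only [zsmul_eq_mul, mul_one, Int.cast_mul, Int.cast_natCast]
    rw [mul_div_cancel_left₀ _ this])
  obtain ⟨m, hm⟩ := pow_unbounded_of_one_lt
    (2 / ‖∑ q : H ⧸ stab (gE p act) t, (μ q.out : Fl p C) * gE p act q.out e‖) (ok.psi.one_lt_X 0)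
  have hu : ∀ h, gE p act h ((ok.psi.X 0)⁻¹ ^ m) = (ok.psi.X 0)⁻¹ ^ m := fun h => by
    rw [map_pow, map_inv₀, gE_gal, ok.psi.galI_X _ (ok.fixψ h)]
  obtain ⟨j, hj1, hj2⟩ := ex_j ok.psi ((ok.psi.X 0)⁻¹ ^ m * e)
  have hj : ∀ n ∈ stab (gE p act) t, ∀ u, Y.gal (act n) (j u) = j u := fun n hn =>
    hj1 _ (ok.fixψ n) (by rw [← gE_gal, map_mul, hu, he n hn])
  let x : A →+ Y p C := ∑ q : H ⧸ stab (gE p act) t,
    (Y.gal (act q.out)).comp (j.comp (χ.comp (ρ q.out⁻¹)))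
  have hx : ∀ b, x b = ∑ q : H ⧸ stab (gE p act) t, Y.gal (act q.out) (j (χ (ρ q.out⁻¹ b))) :=
    fun b => AddMonoidHom.finsetSum_apply _ _ _
  refine ⟨x, fun h b => ?_, fun h0 => ?_⟩
  · rw [hx, hx, map_sum, ← sum_mul (stab (gE p act) t)
      (fun k => Y.gal (act k) (j (χ (ρ k⁻¹ (ρ h b))))) (fun k n hn => by
        rw [map_mul, Y.gal_mul, hj n hn, mul_inv_rev, rho_mul, hN _ (inv_mem hn)]; rfl) h]
    refine Finset.sum_congr rfl fun q _ => ?_
    rw [map_mul, Y.gal_mul, ← rho_mul, mul_inv_rev, inv_mul_cancel_right]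
  · have h3 := R_sum (h := ok.psi) Finset.univ one_lt_two
      fun q : H ⧸ stab (gE p act) t => (hj2 (μ q.out)).gal _ (ok.fixψ q.out)
    simp only [← hμ, ← gE_gal, map_mul, map_intCast, hu, mul_left_comm _ ((ok.psi.X 0)⁻¹ ^ m)] at h3
    rw [← hx, h0, ← Finset.mul_sum] at h3
    have h4 := h3.uniq (ok.psi.R_zero one_lt_two)
    rw [sub_zero, norm_mul, norm_pow, norm_inv] at h4
    rw [div_lt_iff₀ (norm_pos_iff.2 hS)] at hm
    exact absurd h4 (not_le.2 hm)

end main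

end Ap

open Ap

variable (p : ℕ) [Fact p.Prime] (C : Type) [NontriviallyNormedField C] [IsUltrametricDist C]
  [CharZero C]

/-- row `APU` -/
theorem apu [hp : Fact (‖(p : C)‖ < 1)] [CompleteSpace C] [IsAlgClosed C] (hD : DENF p C)
    (hK : KRAS p C) : APU p C := by
  classical
  intro ψ H A _ _ _ act ρ ok ho hA x hx
  obtain ⟨f, hf⟩ := ex_add p hA (fun y : Fl p C => by rw [nsmul_eq_mul, CharP.cast_eq_zero, zero_mul])
    (fun a y => Fo act y ∧ ok.psi.R (x a) 4 y)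
    ⟨fo_zero, by rw [map_zero]; exact ok.psi.R_zero (by norm_num)⟩
    (fun a a' y y' h1 h2 => ⟨fo_add h1.1 h2.1, by rw [map_add]; exact h1.2.add h2.2⟩) fun a => by
      obtain ⟨c, hc⟩ := ok.psi.R_ex (y := x a) (by rw [← map_nsmul, hA, map_zero]) one_lt_two
      obtain ⟨w, h1, h2⟩ := hD ψ H act ok c 2 4 two_pos (by norm_num) fun h hh => by
        obtain ⟨s, h3, h4⟩ := ho
        have h5 := R_gal ok hx hc h
        rw [h4 h fun b hb => hh b (h3 b hb)] at h5
        exact h5.uniq hc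
      exact ⟨w, h1, (hc.mono (by norm_num)).near h2⟩
  obtain ⟨t0, ht0, hN0⟩ := ex_t hK ok ho
  have := Fintype.ofFinite A
  obtain ⟨t, ht, hN, hfN⟩ : ∃ t : Finset (Fl p C), (∀ y ∈ t, Fo act y) ∧
      (∀ n ∈ stab (gE p act) t, ρ n = 1) ∧ ∀ n ∈ stab (gE p act) t, ∀ a, gE p act n (f a) = f a := by
    refine ⟨t0 ∪ Finset.univ.image f, fun y hy => ?_,
      fun n hn => hN0 n fun y hy => hn y (Finset.mem_union_left _ hy),
      fun n hn a => hn _ (Finset.mem_union_right _ (Finset.mem_image_of_mem _ (Finset.mem_univ a)))⟩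
    rcases Finset.mem_union.1 hy with h | h
    · exact ht0 y h
    · obtain ⟨a, _, rfl⟩ := Finset.mem_image.1 h
      exact (hf a).1
  have := fin_quo (gE p act) ht
  have := Fintype.ofFinite (H ⧸ stab (gE p act) t)
  obtain ⟨e, he, he1, he2⟩ := tr_small (act := act) t
  let d : A →+ Fl p C :=
    { toFun := fun a => ∑ q : H ⧸ stab (gE p act) t, gE p act q.out (e * f (ρ q.out⁻¹ a))
      map_zero' := by simp
      map_add' := fun a b => by simp only [map_add, mul_add, Finset.sum_add_distrib] }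
  have hd : ∀ a, d a = ∑ q : H ⧸ stab (gE p act) t, gE p act q.out (e * f (ρ q.out⁻¹ a)) :=
    fun _ => rfl
  refine ⟨d, fun h a => ?_, fun a => ((hf a).2.mono (by norm_num)).near ?_⟩
  · rw [← gE_eq, hd, hd, map_sum, ← sum_mul (stab (gE p act) t)
      (fun k => gE p act k (e * f (ρ k⁻¹ (ρ h a)))) (fun k n hn => by
        rw [g_mul, map_mul _ e, he n hn, hfN n hn, mul_inv_rev, rho_mul, hN _ (inv_mem hn)]; rfl) h]
    refine Finset.sum_congr rfl fun q _ => ?_
    rw [g_mul, ← rho_mul, mul_inv_rev, inv_mul_cancel_right]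
  · have h1 : f a - d a = ∑ q : H ⧸ stab (gE p act) t,
        gE p act q.out e * (f a - gE p act q.out (f (ρ q.out⁻¹ a))) := by
      simp only [mul_sub, Finset.sum_sub_distrib, ← Finset.sum_mul, he1, one_mul, hd, map_mul]
    rw [h1]
    refine IsUltrametricDist.norm_sum_le_of_forall_le_of_nonneg (by norm_num) fun q _ => ?_
    have h2 := R_gal ok hx (hf (ρ q.out⁻¹ a)).2 q.out
    rw [← rho_mul, mul_inv_cancel, rho_one] at h2
    rw [norm_mul, gE_norm, show (8 : ℝ) = 2 * 4 by norm_num]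
    exact mul_le_mul he2 ((hf a).2.uniq h2) (norm_nonneg _) zero_le_two

/-- row `EX` -/
theorem ex_of (h : ∀ [Fact (‖(p : C)‖ < 1)] [CompleteSpace C] [IsAlgClosed C], KRAS p C) :
    R1.Ex p C := by
  intro _ _ ψ H A _ _ _ act ρ ok ho ⟨m, hm⟩ a ha
  have : Fact (‖(p : C)‖ < 1) := ⟨ok.np⟩
  obtain ⟨k, h1, h2⟩ := ex_tor p m a (hm a) ha
  obtain ⟨x, h3, h4⟩ := ex_main h ok ho h1 h2
  exact ⟨x, h3, fun h0 => h4 (by rw [map_nsmul, h0, smul_zero])⟩

end Vale.Agent.P022K.WB
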