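import Vale.Agent.P022K.WB.SjSt

/-!
# `SURJ` from the case of groups killed by `p`
-/

namespace Vale.Agent.P022K.WB

variable {p : ℕ} [Fact p.Prime] {C : Type} [NontriviallyNormedField C] [IsUltrametricDist C]
  [CharZero C]

namespace Dev

variable {H A : Type} [Group H] [AddCommGroup A]

/-- restriction to an invariant subgroup -/
def res (ρ : H →* AddMonoid.End A) (B : AddSubgroup A) (hB : ∀ h, ∀ a ∈ B, ρ h a ∈ B) :
    H →* AddMonoid.End B where
  toFun h := ((ρ h : A →+ A).comp B.subtype).codRestrict B fun a => hB h a a.2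
  map_one' := AddMonoidHom.ext fun a => Subtype.ext (by simp; rfl)
  map_mul' g h := AddMonoidHom.ext fun a => Subtype.ext (by simp; rfl)

/-- the hypotheses -/
structure Hy {ψ : ℚ_[p] → C} (act : H →* Iso C) (ρ : H →* AddMonoid.End A) (ok : Ok p ψ act)
    (U : AddSubgroup (A →+ Y p C)) : Prop where
  opn : Opn act ρ
  eqv : ∀ u ∈ U, Eqv act ρ u
  n : ∀ u ∈ U, ∀ b, (ok.psi.n b).comp u ∈ U
  phi : ∀ u ∈ U, (Y.phi p C).toAddMonoidHom.comp u ∈ U
  phi' : ∀ u ∈ U, (Y.phi p C).symm.toAddMonoidHom.comp u ∈ U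
  ker : ∀ a, (∀ u ∈ U, u a = 0) → a = 0

variable {ψ : ℚ_[p] → C} {act : H →* Iso C} {ρ : H →* AddMonoid.End A} {ok : Ok p ψ act}
  {U : AddSubgroup (A →+ Y p C)}

theorem Hy.res (h : Hy act ρ ok U) (B : AddSubgroup A) (hB : ∀ h, ∀ a ∈ B, ρ h a ∈ B) :
    Hy act (res ρ B hB) ok (U.map (AddMonoidHom.compHom' B.subtype)) where
  opn := h.opn.imp fun _ hs => ⟨hs.1, fun g hg => AddMonoidHom.ext fun a => Subtype.ext (by
    change ρ g a = a
    rw [hs.2 g hg]
    rfl)⟩
  eqv := by rintro _ ⟨u, hu, rfl⟩ g a; exact h.eqv u hu g a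
  n := by rintro _ ⟨u, hu, rfl⟩ b; exact ⟨_, h.n u hu b, rfl⟩
  phi := by rintro _ ⟨u, hu, rfl⟩; exact ⟨_, h.phi u hu, rfl⟩
  phi' := by rintro _ ⟨u, hu, rfl⟩; exact ⟨_, h.phi' u hu, rfl⟩
  ker a ha := Subtype.ext (h.ker a fun u hu => ha _ ⟨u, hu, rfl⟩)

theorem eqv_n (ok : Ok p ψ act) {x : A →+ Y p C} (hx : Eqv act ρ x) (b : ℚ_[p]) :
    Eqv act ρ ((ok.psi.n b).comp x) := fun g a => by
  rw [AddMonoidHom.comp_apply, AddMonoidHom.comp_apply, hx,
    ok.psi.gal_n (act g) 1 (fun b => by rw [one_mul, ok.fixψ]), one_mul]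

theorem eqv_sub {x y : A →+ Y p C} (hx : Eqv act ρ x) (hy : Eqv act ρ y) :
    Eqv act ρ (x - y) := fun g a => by
  rw [AddMonoidHom.sub_apply, AddMonoidHom.sub_apply, hx, hy, map_sub]

end Dev

open Dev in
theorem surj_of (h : ∀ [Fact (‖(p : C)‖ < 1)] [CompleteSpace C] [IsAlgClosed C], SURJ1 p C) :
    SURJ p C := by
  intro _ _ ψ H A _ _ _ act ρ ok ho ⟨m, hm⟩ U h1 h2 h3 h4 h5
  have : Fact (‖(p : C)‖ < 1) := ⟨ok.np⟩
  have hy : Hy act ρ ok U := ⟨ho, h1, h2, h3, h4, h5⟩
  clear ho h1 h2 h3 h4 h5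
  induction m generalizing A with
  | zero =>
    intro x _ b
    have : (ok.psi.n b).comp x - x = 0 := AddMonoidHom.ext fun a => by
      rw [show a = 0 by simpa using hm a, map_zero, map_zero]
    exact this ▸ U.zero_mem
  | succ m ih =>
    intro x hx
    let f : A →+ A := nsmulAddMonoidHom p
    have hf : ∀ g a, f (ρ g a) = ρ g (f a) := fun g a => (map_nsmul (ρ g) p a).symm
    have k1 := hy.res f.ker fun g a ha => by
      rw [AddMonoidHom.mem_ker, hf, ha, map_zero]
    have b2 : ∀ g, ∀ a ∈ f.range, ρ g a ∈ f.range := by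
      rintro g _ ⟨a, rfl⟩
      exact ⟨_, hf g a⟩
    have k2 := hy.res f.range b2
    have key : ∀ b b', (ok.psi.n b').comp ((ok.psi.n b).comp x - x) -
        ((ok.psi.n b).comp x - x) ∈ U := fun b b' => by
      obtain ⟨u, hu, e⟩ := h ψ H f.ker act _ ok k1.opn (fun a => Subtype.ext a.2) _ k1.eqv k1.n
        k1.phi k1.phi' k1.ker (x.comp f.ker.subtype) (fun g a => hx g a) b
      have hx' := eqv_sub (eqv_sub (eqv_n ok hx b) hx) (hy.eqv u hu)
      generalize hy' : (ok.psi.n b).comp x - x = y at *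
      have e1 : f.rangeRestrict.ker ≤ (y - u).ker := fun a ha => by
        have := DFunLike.congr_fun e ⟨a, congrArg Subtype.val ha⟩
        rw [AddMonoidHom.mem_ker, AddMonoidHom.sub_apply, ← hy']
        exact sub_eq_zero.2 this.symm
      let z := f.rangeRestrict.liftOfSurjective f.rangeRestrict_surjective ⟨y - u, e1⟩
      have hz : ∀ a, z (f.rangeRestrict a) = (y - u) a := fun a =>
        AddMonoidHom.liftOfRightInverse_comp_apply _ _ _ _ a
      obtain ⟨u', hu', e'⟩ := ih f.range _ (by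
        rintro ⟨_, a, rfl⟩
        exact Subtype.ext ((smul_smul _ _ _).trans (hm a))) _ k2 z (fun g a => by
        obtain ⟨a, rfl⟩ := f.rangeRestrict_surjective a
        rw [hz, ← hx', ← hz]
        exact congrArg z (Subtype.ext (hf g a).symm)) b'
      have e2 : (ok.psi.n b').comp y - y = p • u' + ((ok.psi.n b').comp u - u) :=
        AddMonoidHom.ext fun a => by
          have := DFunLike.congr_fun e' (f.rangeRestrict a)
          rw [AddMonoidHom.sub_apply, AddMonoidHom.comp_apply, hz] at this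
          have e3 : u' (p • a) = ok.psi.n b' ((y - u) a) - (y - u) a := this
          simp only [AddMonoidHom.sub_apply, AddMonoidHom.add_apply, AddMonoidHom.comp_apply,
            AddMonoidHom.smul_apply, map_sub, map_nsmul] at e3 ⊢
          rw [e3]
          abel
      rw [e2]
      exact add_mem (nsmul_mem hu' p) (sub_mem (hy.n u hu b') hu)
    have key' : ∀ (b : ℚ_[p]) (j : ℕ), (ok.psi.n (j * b)).comp x - x -
        j • ((ok.psi.n b).comp x - x) ∈ U := fun b j => by
      induction j with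
      | zero =>
        convert U.zero_mem
        ext a
        simp [Psi.n_zero]
      | succ j ij =>
        convert add_mem ij (key b (j * b)) using 1
        ext a
        simp only [AddMonoidHom.sub_apply, AddMonoidHom.add_apply, AddMonoidHom.comp_apply,
          AddMonoidHom.smul_apply, map_sub, Nat.cast_succ, add_mul, one_mul, Psi.n_add, add_smul,
          one_smul]
        abel
    intro b
    have := key' (b / (p ^ (m + 1) : ℕ)) (p ^ (m + 1))
    rwa [mul_div_cancel₀ _ (Nat.cast_ne_zero.2 (pow_ne_zero _ (Fact.out : p.Prime).ne_zero)),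
      show ∀ y : A →+ Y p C, p ^ (m + 1) • y = 0 from fun y => AddMonoidHom.ext fun a => by
        rw [AddMonoidHom.smul_apply, ← map_nsmul, hm, map_zero, AddMonoidHom.zero_apply],
      sub_zero] at this

end Vale.Agent.P022K.WB
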