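import Mathlib

/-!
# Linear algebra for `SURJ`: descent of spans, and spans stable under `p`-th roots
-/

set_option autoImplicit false

namespace Vale.Agent.P022K.WB

open Submodule

/-- descent: an equivariant function in the span of equivariant functions is a combination with
invariant coefficients -/
theorem desc {E A H : Type} [Field E] [AddCommGroup A] [Finite A] [Group H] (g : H →* (E ≃+* E))
    (ρ : H →* AddMonoid.End A) (K : Subfield E) (hK : ∀ k, (∀ h, g h k = k) ↔ k ∈ K)
    (Z : Set (A → E)) (hZ : ∀ d ∈ Z, ∀ h a, d (ρ h a) = g h (d a)) :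
    ∃ b : Set (A → E), b.Finite ∧ b ⊆ Z ∧ ∀ d : A → E, (∀ h a, d (ρ h a) = g h (d a)) →
      d ∈ span E Z → d ∈ span K b := by
  classical
  obtain ⟨b, hb, hs, hl⟩ := exists_linearIndependent E Z
  have hf : b.Finite := hl.setFinite
  refine ⟨b, hf, hb, fun d hd hm => ?_⟩
  have := hf.fintype
  rw [← hs, ← Subtype.range_coe (s := b), mem_span_range_iff_exists_fun] at hm
  obtain ⟨c, hc⟩ := hm
  have key : ∀ h i, g h (c i) = c i := fun h i => by
    have h1 : ∑ i : b, (g h (c i) - c i) • (i : A → E) = 0 := by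
      funext a
      have h2 : ρ h (ρ h⁻¹ a) = a := by
        show (ρ h * ρ h⁻¹) a = a
        rw [← map_mul, mul_inv_cancel, map_one]; rfl
      have h3 := hd h (ρ h⁻¹ a)
      rw [h2, ← hc] at h3
      simp only [Finset.sum_apply, Pi.smul_apply, smul_eq_mul, map_sum, map_mul] at h3
      simp only [Finset.sum_apply, Pi.smul_apply, smul_eq_mul, sub_mul, Finset.sum_sub_distrib,
        Pi.zero_apply, h3]
      rw [sub_eq_zero]
      refine Finset.sum_congr rfl fun i _ => ?_
      rw [← hZ i (hb i.2), h2]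
    exact sub_eq_zero.1 (Fintype.linearIndependent_iff.1 hl _ h1 i)
  rw [← hc]
  exact sum_mem fun i _ => (span K b).smul_mem (⟨c i, (hK _).1 fun h => key h i⟩ : K)
    (subset_span i.2)

/-- a set of additive maps which is stable under `p`-th roots and has no common kernel spans all
additive maps -/
theorem frob_span {E A : Type} [Field E] [AddCommGroup A] [Finite A] (p : ℕ) [Fact p.Prime]
    [CharP E p] (Z : Set (A →+ E)) (hZ : ∀ z ∈ Z, ∃ z' ∈ Z, ∀ a, z' a ^ p = z a)
    (h0 : ∀ a, (∀ z ∈ Z, z a = 0) → a = 0) (f : A →+ E) :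
    (f : A → E) ∈ span E ((fun z : A →+ E => (z : A → E)) '' Z) := by
  classical
  have := Fintype.ofFinite A
  have hp : p.Prime := Fact.out
  let L : (A → E) → Prop := fun l => ∀ z ∈ Z, ∑ a, l a * z a = 0
  have hfr : ∀ l, L l → L fun a => l a ^ p := fun l hl z hz => by
    obtain ⟨z', hz', h⟩ := hZ z hz
    have h1 := congrArg (frobenius E p) (hl z' hz')
    simpa only [map_sum, map_mul, map_zero, frobenius_def, h] using h1
  have hfix : ∀ l, L l → (∀ a, l a ^ p = l a) → ∑ a, l a * f a = 0 := fun l hl h => by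
    have h1 : ∀ a, ∃ n : ℤ, (n : E) = l a := fun a =>
      (mem_bot_iff_intCast p E).1 ((Subfield.mem_bot_iff_pow_eq_self E p).2 (h a))
    choose n hn using h1
    have h2 : ∀ z : A →+ E, ∑ a, l a * z a = z (∑ a, n a • a) := fun z => by
      simp only [map_sum, map_zsmul, zsmul_eq_mul, hn]
    rw [h2, h0 (∑ a, n a • a) fun z hz => by rw [← h2, hl z hz], map_zero]
  have main : ∀ (n : ℕ) l, L l → (Finset.univ.filter fun a => l a ≠ 0).card ≤ n →
      ∑ a, l a * f a = 0 := fun n => by
    induction n with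
    | zero =>
      intro l _ hc
      have h1 : ∀ a, l a = 0 := by simpa using hc
      simp [h1]
    | succ n ih =>
      intro l hl hc
      by_cases h : ∀ a, l a = 0
      · simp [h]
      push Not at h
      obtain ⟨a0, ha0⟩ := h
      have hlin : ∀ (c : E) (x y : A → E) (z : A →+ E),
          ∑ a, (x a - c * y a) * z a = ∑ a, x a * z a - c * ∑ a, y a * z a := fun c x y z => by
        simp only [sub_mul, Finset.sum_sub_distrib, Finset.mul_sum, mul_assoc]
      have step : ∀ (c : E) x y a1, L x → L y → (∀ a, l a = 0 → x a = 0) →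
          (∀ a, l a = 0 → y a = 0) → l a1 ≠ 0 → x a1 = c * y a1 →
          ∑ a, x a * f a = c * ∑ a, y a * f a := fun c x y a1 hx hy h1 h2 h3 h4 => by
        rw [← sub_eq_zero, ← hlin]
        refine ih (fun a => x a - c * y a) (fun z hz => by
          rw [hlin, hx z hz, hy z hz, mul_zero, sub_zero]) (Nat.le_of_lt_succ
            (lt_of_lt_of_le (Finset.card_lt_card ⟨fun a ha => ?_, fun hs => ?_⟩) hc))
        · simp only [Finset.mem_filter, Finset.mem_univ, true_and] at ha ⊢
          exact fun e => ha (by rw [h1 a e, h2 a e, mul_zero, sub_zero])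
        · have := hs (Finset.mem_filter.2 ⟨Finset.mem_univ a1, h3⟩)
          simp [h4] at this
      let m : A → E := fun a => l a / l a0
      have hm : L m := fun z hz => by
        simp only [m, div_mul_eq_mul_div, ← Finset.sum_div, hl z hz, zero_div]
      have hm0 : ∀ a, l a = 0 → m a = 0 := fun a e => by simp [m, e]
      have hmp : ∀ a, l a = 0 → m a ^ p = 0 := fun a e => by rw [hm0 a e, zero_pow hp.ne_zero]
      by_cases h : ∀ a, m a ^ p = m a
      · rw [step (l a0) l m a0 hl hm (fun _ e => e) hm0 ha0 (by simp [m, ha0]), hfix m hm h,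
          mul_zero]
      push Not at h
      obtain ⟨a1, ha1⟩ := h
      have h5 := step 1 _ m a0 (hfr m hm) hm hmp hm0 ha0 (by simp [m, ha0])
      have h6 : L fun a => m a ^ p - 1 * m a := fun z hz => by
        rw [hlin, hfr m hm z hz, hm z hz, mul_zero, sub_zero]
      rw [step (l a1 / (m a1 ^ p - 1 * m a1)) l _ a1 hl h6 (fun _ e => e)
        (fun a e => by rw [hmp a e, hm0 a e, mul_zero, sub_zero])
        (fun e => ha1 (by rw [hmp _ e, hm0 _ e]))
        (by rw [div_mul_cancel₀ _ (by rwa [one_mul, sub_ne_zero])]), hlin, h5, sub_self, mul_zero]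
  by_contra hc
  obtain ⟨φ, h1, h2⟩ := Submodule.exists_dual_map_eq_bot_of_notMem hc inferInstance
  have h3 : ∀ x : A → E, φ x = ∑ a, φ (Pi.single a 1) * x a := fun x => by
    rw [LinearMap.pi_apply_eq_sum_univ]
    refine Finset.sum_congr rfl fun a _ => ?_
    rw [smul_eq_mul, mul_comm]
    congr 2
    funext j
    simp [Pi.single_apply, eq_comm]
  refine h1 ?_
  rw [h3]
  refine main _ _ (fun z hz => ?_) le_rfl
  rw [← h3]
  have : φ z ∈ Submodule.map φ (span E ((fun z : A →+ E => (z : A → E)) '' Z)) :=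
    mem_map_of_mem (subset_span ⟨z, hz, rfl⟩)
  rwa [h2, mem_bot] at this

end Vale.Agent.P022K.WB
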