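import Vale.Agent.P022K.WB.TlKa
import Vale.Agent.P022K.WB.SjAp
import Vale.Agent.P022K.WB.SjDev
import Vale.Agent.P022K.WB.SjLin
import Vale.Agent.P022K.WB.Bl

/-!
# Rows `SURJ` and `EX`
-/

set_option linter.unusedSectionVars false

namespace Vale.Agent.P022K.WB

open Finset Filter Topology

variable {p : ℕ} [Fact p.Prime] {C : Type} [NontriviallyNormedField C] [IsUltrametricDist C]
  [CharZero C]

variable (p) in
theorem frob_down {Q : ℝ → Prop} (mono : ∀ s s', Q s → s ≤ s' → Q s')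
    (h : ∀ s, 0 ≤ s → Q (s ^ p) → Q s) {S : ℝ} (hS : Q S) {s : ℝ} (hs : 1 < s) : Q s := by
  obtain ⟨n, hn⟩ := pow_unbounded_of_one_lt S hs
  have h1 : Q (s ^ p ^ n) := mono _ _ hS
    (hn.le.trans (pow_le_pow_right₀ hs.le (Nat.lt_pow_self (Fact.out : p.Prime).one_lt).le))
  clear hn
  induction n with
  | zero => simpa using h1
  | succ n ih => exact ih (h _ (by positivity) (by rwa [pow_succ, pow_mul] at h1))

section

variable [hp : Fact (‖(p : C)‖ < 1)] [CompleteSpace C] [IsAlgClosed C] {ψ : ℚ_[p] → C}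

theorem Psi.n_fix (h : Psi p ψ) {y : Y p C} (hy : p • y = 0) (b : ℚ_[p])
    (H : h.R y (max ‖h.ep b - 1‖ (1 / 2))⁻¹ 0) : h.n b y - y = 0 := by
  refine h.R_sep (by rw [smul_sub, ← map_nsmul, hy, map_zero, sub_zero]) fun s hs => ?_
  obtain ⟨a, ha⟩ := h.R_ex hy (lt_min hs H.one_lt)
  refine ⟨_, ((ha.n b).sub ha).mono (min_le_left _ _), ?_⟩
  have h1 := (ha.mono (min_le_right _ _)).uniq H
  rw [sub_zero] at h1
  rw [← sub_one_mul, norm_mul]
  refine le_trans ?_ hs.le
  calc _ ≤ max ‖h.ep b - 1‖ (1 / 2) * (max ‖h.ep b - 1‖ (1 / 2))⁻¹ := by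
        gcongr; exact le_max_left _ _
    _ = 1 := mul_inv_cancel₀ (by positivity)

theorem Psi.R.symm0 {h : Psi p ψ} {y : Y p C} {s : ℝ} (hs : 0 ≤ s) (H : h.R y (s ^ p) 0) :
    h.R ((Y.phi p C).symm y) s 0 :=
  Psi.R.phi_symm hs (by rwa [zero_pow (Fact.out : p.Prime).ne_zero])

variable (p C) in
theorem surj1 : SURJ1 p C := by
  intro ψ H A _ _ _ act ρ ok ho hA U h1 h2 h3 h4 h5
  have := Fintype.ofFinite A
  have hp0 := (Fact.out : p.Prime).ne_zero
  have ap := apu p C (denf p C) (kras p C) ψ H A act ρ ok ho hA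
  let _ : NontriviallyNormedField (Kf p act) := .ofNormNeOne
    ⟨⟨_, ok.X_Kf 0⟩, fun e => ok.psi.X_ne 0 (congrArg Subtype.val e), (ok.psi.X_lt 0).ne⟩
  have hc : IsClosed (Kf p act : Set (Fl p C)) := by
    rw [show (Kf p act : Set (Fl p C)) = ⋂ h, {k | (gF p act h).1 k = k} from
      Set.ext fun k => by simpa using mem_Kf]
    exact isClosed_iInter fun h => isClosed_eq
      (AddMonoidHomClass.isometry_of_norm _ (gF p act h).2).continuous continuous_id
  have : CompleteSpace (Kf p act) := hc.completeSpace_coe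
  let _ : NormedSpace (Kf p act) (Fl p C) := ⟨fun k x => (norm_mul (k : Fl p C) x).le⟩
  let M : AddSubgroup (A → Fl p C) :=
    { carrier := {v | ∃ u ∈ U, ∀ a, ok.psi.R (u a) 8 (v a)}
      zero_mem' := ⟨0, zero_mem _, fun _ => ok.psi.R_zero (by norm_num)⟩
      add_mem' := fun ⟨u, hu, h⟩ ⟨u', hu', h'⟩ => ⟨u + u', add_mem hu hu', fun a => (h a).add (h' a)⟩
      neg_mem' := fun ⟨u, hu, h⟩ => ⟨-u, neg_mem hu, fun a => (h a).neg⟩ }
  have near : ∀ v ∈ M, ∀ w, (∀ a, ‖v a - w a‖ ≤ 8) → w ∈ M := fun v ⟨u, hu, h⟩ w hw =>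
    ⟨u, hu, fun a => (h a).near (hw a)⟩
  have hO : ∀ k : Kf p act, ‖k‖ ≤ 1 → ∀ m ∈ M, k • m ∈ M := by
    intro k hk m hm
    obtain ⟨q, hq, h6⟩ := kap_row p C ψ H act ok k k.2 hk (‖m‖ + 1)⁻¹ (by positivity)
    refine near (q • m) ?_ _ fun a => ?_
    · clear h6
      induction hq using AddSubgroup.closure_induction with
      | mem q hq =>
        obtain ⟨b, rfl⟩ := hq
        obtain ⟨u, hu, h⟩ := hm
        exact ⟨_, h2 u hu b, fun a => (h a).n b⟩
      | zero => rw [zero_smul]; exact zero_mem _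
      | add _ _ _ _ ha hb => rw [add_smul]; exact add_mem ha hb
      | neg _ _ ha => rw [neg_smul]; exact neg_mem ha
    · show ‖q * m a - k * m a‖ ≤ 8
      rw [← sub_mul, norm_mul, norm_sub_rev]
      calc _ ≤ (‖m‖ + 1)⁻¹ * (‖m‖ + 1) := by
            gcongr; exact (norm_le_pi_norm m a).trans (by linarith)
        _ = 1 := inv_mul_cancel₀ (by positivity)
        _ ≤ 8 := by norm_num
  let g : H →* (Fl p C ≃+* Fl p C) := (Iso _).subtype.comp (gF p act)
  let S : Submodule (Kf p act) (A → Fl p C) :=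
    { carrier := {v | (∀ a a', v (a + a') = v a + v a') ∧ ∀ h a, v (ρ h a) = g h (v a)}
      zero_mem' := ⟨fun _ _ => by simp, fun _ _ => by simp⟩
      add_mem' := fun ⟨a1, a2⟩ ⟨b1, b2⟩ => ⟨fun a a' => by
        simp only [Pi.add_apply, a1, b1]; ring, fun h a => by
        simp only [Pi.add_apply, a2, b2, map_add]⟩
      smul_mem' := fun k v ⟨a1, a2⟩ => ⟨fun a a' => by simp only [Pi.smul_apply, a1, smul_add],
        fun h a => by
          show k * v (ρ h a) = g h (k * v a)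
          rw [a2, map_mul, show g h k = k from k.2 h]⟩ }
  have : FiniteDimensional (Kf p act) S := by
    obtain ⟨b, hb, -, h⟩ := desc g ρ (Kf p act) (fun _ => Iff.rfl) S fun d hd => hd.2
    have := FiniteDimensional.span_of_finite (Kf p act) hb
    exact Submodule.finiteDimensional_of_le fun d hd => h d hd.2 (Submodule.subset_span hd)
  obtain ⟨r, hr⟩ := bl M hO S fun v _ hv => near 0 (zero_mem _) v fun a => by
    rw [Pi.zero_apply, zero_sub, norm_neg]
    exact ((norm_le_pi_norm v a).trans hv).trans (by norm_num)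
  let Z : Set (A →+ Fl p C) := {z | ⇑z ∈ S ∧ ∀ k : Kf p act, k • ⇑z ∈ M}
  have hZ := frob_span p Z (fun z ⟨z1, z2⟩ => ⟨(Fl.rt 1).toAddMonoidHom.comp z,
    ⟨⟨map_add _, fun h a => by
      show Fl.rt 1 (z (ρ h a)) = (gF p act h).1 (Fl.rt 1 (z a))
      rw [gF_rt, z1.2]; rfl⟩, fun k => by
      obtain ⟨u, hu, h⟩ := z2 (k ^ p)
      refine ⟨_, h4 u hu, fun a => Psi.R.phi_symm (by norm_num) ?_⟩
      have e : ((k : Fl p C) * Fl.rt 1 (z a)) ^ p = (k : Fl p C) ^ p * z a := by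
        rw [mul_pow]; congr 1; simpa using Fl.rt_pow 1 (z a)
      exact e ▸ (h a).mono (le_self_pow₀ (by norm_num) hp0)⟩,
    fun a => by simpa using Fl.rt_pow 1 (z a)⟩) fun a ha => h5 a fun u hu => by
      refine ok.psi.R_sep (by rw [← map_nsmul, hA, map_zero]) fun s hs => ⟨0, ?_, by
        rw [norm_zero]; linarith⟩
      refine frob_down p (Q := fun s => ∀ u ∈ U, ok.psi.R (u a) s 0) (S := max 8 r)
        (fun s s' h hs u hu => (h u hu).mono hs) (fun s hs h u hu => ?_) (fun u hu => ?_) hs u hu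
      · have := (h _ (h3 u hu)).symm0 hs
        exact (Y.phi p C).symm_apply_apply (u a) ▸ this
      · obtain ⟨d, d1, d2⟩ := ap u (h1 u hu)
        obtain ⟨d', e1, e2, e3⟩ := hr d ⟨u, hu, d2⟩ ⟨map_add d, d1⟩
        refine ((d2 a).mono (le_max_left _ _)).near ?_
        rw [← ha (AddMonoidHom.mk' d' e1.1) ⟨e1, e2⟩]
        exact ((norm_le_pi_norm (⇑d - d') a).trans e3).trans (le_max_right _ _)
  intro x hx b
  have h6 : 1 < (max ‖ok.psi.ep b - 1‖ (1 / 2))⁻¹ :=
    (one_lt_inv₀ (by positivity)).2 (max_lt (ok.psi.ep_sub_lt b) (by norm_num))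
  obtain ⟨u, hu, h7⟩ := frob_down p (S := 8)
    (Q := fun s => ∀ x, Eqv act ρ x → ∃ u ∈ U, ∀ a, ok.psi.R (x a - u a) s 0)
    (fun s s' h hs x hx => (h x hx).imp fun u hu => ⟨hu.1, fun a => (hu.2 a).mono hs⟩)
    (fun s hs h x hx => by
      obtain ⟨u, hu, h7⟩ := h ((Y.phi p C).toAddMonoidHom.comp x) fun h a => by
        show Y.phi p C (x (ρ h a)) = Y.gal (act h) (Y.phi p C (x a))
        rw [hx, Y.gal_phi]
      refine ⟨_, h4 u hu, fun a => ?_⟩
      have := (h7 a).symm0 hs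
      rw [map_sub] at this
      exact (Y.phi p C).symm_apply_apply (x a) ▸ this)
    (fun x hx => by
      obtain ⟨d, d1, d2⟩ := ap x hx
      obtain ⟨B, -, hB, h⟩ := desc g ρ (Kf p act) (fun _ => Iff.rfl)
        ((fun z : A →+ Fl p C => ⇑z) '' Z) (by rintro _ ⟨z, hz, rfl⟩; exact hz.1.2)
      have h8 : ∀ v ∈ Submodule.span (Kf p act) B, ∀ k : Kf p act, k • v ∈ M := by
        intro v hv
        induction hv using Submodule.span_induction with
        | mem v hv =>
          obtain ⟨z, hz, rfl⟩ := hB hv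
          exact hz.2
        | zero => intro k; rw [smul_zero]; exact zero_mem _
        | add _ _ _ _ ha hb => intro k; rw [smul_add]; exact add_mem (ha k) (hb k)
        | smul c _ _ ha => intro k; rw [smul_smul]; exact ha _
      obtain ⟨u, hu, h9⟩ := one_smul (Kf p act) (⇑d) ▸ h8 _ (h d d1 (hZ d)) 1
      exact ⟨u, hu, fun a => sub_self (d a) ▸ (d2 a).sub (h9 a)⟩) h6 x hx
  have e : (ok.psi.n b).comp x - x = (ok.psi.n b).comp u - u := by
    ext a
    have := ok.psi.n_fix (by rw [smul_sub, ← map_nsmul, ← map_nsmul, hA, map_zero, map_zero,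
      sub_zero]) b (h7 a)
    rw [map_sub, sub_sub_sub_comm, sub_eq_zero] at this
    exact this
  rw [e]
  exact sub_mem (h2 u hu b) hu

end

variable (p C) in
/-- **row `SURJ`** -/
theorem surj : SURJ p C := surj_of (surj1 p C)

variable (p C) in
/-- **row `EX`** -/
theorem ex_row : R1.Ex p C := ex_of p C (kras p C)

variable (p C) in
theorem r1_rows : R1.Rows p C := ⟨surj p C, ex_row p C, nfix p C⟩

end Vale.Agent.P022K.WB
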