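import Vale.Agent.P022K.WB.Sw0

/-!
# P022K, block WB: Iwahori invariants, the socle relation, lemma K, the coinduced module
-/

set_option autoImplicit false

noncomputable section

namespace Vale.Agent.P022K.WB

open Matrix

variable {p : ℕ} [Fact p.Prime] {R M : Type*} [CommRing R] [AddCommGroup M] [Module R M]
  (ρ : Representation R (G2 p) M)

/-- the invariants of a subgroup -/
def Fx (H : Subgroup (G2 p)) : Submodule R M where
  carrier := {v | ∀ g ∈ H, ρ g v = v}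
  add_mem' ha hb g hg := by rw [map_add, ha g hg, hb g hg]
  zero_mem' g _ := map_zero _
  smul_mem' c v hv g hg := by rw [map_smul, hv g hg]

/-- smooth vectors -/
def Sm (v : M) : Prop := ∃ n, v ∈ Fx ρ (Kn p n)

/-- stable under the group -/
def Gs (P : Submodule R M) : Prop := ∀ g, ∀ v ∈ P, ρ g v ∈ P

/-- the operator `T_w` -/
def So : Module.End R M := ∑ x : ZMod p, ρ (nn (x.val : ℚ_[p]) * ww p)

/-- the operator `U_p` -/
def Uo : Module.End R M := ∑ x : ZMod p, ρ (nn (x.val : ℚ_[p]) * tt p)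

/-- `P` is smooth, `p`-power torsion and admissible -/
structure Adm (P : Submodule R M) : Prop where
  gs : Gs ρ P
  sm : ∀ v ∈ P, Sm ρ v
  tor : ∀ v ∈ P, ∃ n : ℕ, p ^ n • v = 0
  fin : {v | v ∈ P ∧ p • v = 0 ∧ v ∈ Fx ρ (I1 p)}.Finite

variable {ρ}

theorem mem_Fx {H : Subgroup (G2 p)} {v : M} : v ∈ Fx ρ H ↔ ∀ g ∈ H, ρ g v = v := Iff.rfl

theorem Fx_anti {H H' : Subgroup (G2 p)} (h : H ≤ H') : Fx ρ H' ≤ Fx ρ H :=
  fun _ hv g hg => hv g (h hg)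

theorem rho_mul (g h : G2 p) (v : M) : ρ (g * h) v = ρ g (ρ h v) := by
  rw [map_mul, Module.End.mul_apply]

theorem rho_inv (g : G2 p) (v : M) : ρ g⁻¹ (ρ g v) = v := by
  rw [← rho_mul, inv_mul_cancel, map_one, Module.End.one_apply]

theorem rho_inv' (g : G2 p) (v : M) : ρ g (ρ g⁻¹ v) = v := by
  rw [← rho_mul, mul_inv_cancel, map_one, Module.End.one_apply]

theorem rho_eq_zero {g : G2 p} {v : M} (h : ρ g v = 0) : v = 0 := by
  rw [← rho_inv (ρ := ρ) g v, h, map_zero]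

theorem Fx_conj {H H' : Subgroup (G2 p)} {x : G2 p} (h : ∀ g ∈ H', x⁻¹ * g * x ∈ H) {v : M}
    (hv : v ∈ Fx ρ H) : ρ x v ∈ Fx ρ H' := fun g hg => by
  rw [← rho_mul, show g * x = x * (x⁻¹ * g * x) by group, rho_mul, hv _ (h g hg)]

theorem So_apply (v : M) : So ρ v = ∑ x : ZMod p, ρ (nn (x.val : ℚ_[p]) * ww p) v := by
  rw [So, LinearMap.sum_apply]

theorem Uo_apply (v : M) : Uo ρ v = ∑ x : ZMod p, ρ (nn (x.val : ℚ_[p]) * tt p) v := by
  rw [Uo, LinearMap.sum_apply]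

theorem Uo_eq (v : M) : Uo ρ v = So ρ (ρ (PP p) v) := by
  simp only [Uo_apply, So_apply, ← rho_mul, mul_assoc, ww_PP]

theorem PP_Fx {v : M} (hv : v ∈ Fx ρ (I1 p)) : ρ (PP p) v ∈ Fx ρ (I1 p) :=
  Fx_conj (fun _ => PP_conj) hv

theorem dd_Fx {a d : ℚ_[p]ˣ} (ha : ‖(a : ℚ_[p])‖ = 1) (hd : ‖(d : ℚ_[p])‖ = 1) {v : M}
    (hv : v ∈ Fx ρ (I1 p)) : ρ (dd a d) v ∈ Fx ρ (I1 p) :=
  Fx_conj (fun _ => dd_conj ha hd) hv

theorem cen_Fx (a : ℚ_[p]ˣ) {H : Subgroup (G2 p)} {v : M} (hv : v ∈ Fx ρ H) :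
    ρ (dd a a) v ∈ Fx ρ H :=
  Fx_conj (fun g hg => by rwa [mul_assoc, ← dd_comm, inv_mul_cancel_left]) hv

theorem zi_Fx {H : Subgroup (G2 p)} {v : M} (hv : v ∈ Fx ρ H) : ρ (zz p)⁻¹ v ∈ Fx ρ H := by
  rw [zz, ← dd_inv]
  exact cen_Fx _ hv

theorem So_Fx {v : M} (hv : v ∈ Fx ρ (I1 p)) : So ρ v ∈ Fx ρ (I1 p) := fun g hg => by
  obtain ⟨y, hy⟩ := exists_digit hg.2.1
  rw [So_apply, map_sum, ← Equiv.sum_comp (Equiv.addRight y)
    fun x : ZMod p => ρ (nn (x.val : ℚ_[p]) * ww p) v]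
  refine Finset.sum_congr rfl fun x _ => ?_
  have h := nw_conj hg (norm_nat x.val) (norm_nat (x + y).val) (by
    have := nadd' hy (norm_val_add x y)
    convert this using 2
    ring)
  rw [← rho_mul, Equiv.coe_addRight, ← mul_inv_cancel_left (nn ((x + y).val : ℚ_[p]) * ww p)
    (g * _), ← mul_assoc _ g, rho_mul, hv _ h]

theorem Uo_Fx {v : M} (hv : v ∈ Fx ρ (I1 p)) : Uo ρ v ∈ Fx ρ (I1 p) := by
  rw [Uo_eq]
  exact So_Fx (PP_Fx hv)

open Classical in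
/-- a digit as a unit -/
def un (x : ZMod p) : ℚ_[p]ˣ := if h : (x.val : ℚ_[p]) = 0 then 1 else Units.mk0 _ h

theorem un_val {x : ZMod p} (h : x ≠ 0) : ((un x : ℚ_[p]ˣ) : ℚ_[p]) = x.val := by
  have : (x.val : ℚ_[p]) ≠ 0 := Nat.cast_ne_zero.2 (by rwa [Ne, ZMod.val_eq_zero])
  rw [un, dif_neg this, Units.val_mk0]

theorem un_norm (x : ZMod p) : ‖((un x : ℚ_[p]ˣ) : ℚ_[p])‖ = 1 := by
  by_cases h : x = 0
  · simp [un, h]
  · rw [un_val h]
    exact norm_nat_eq (ZMod.val_pos.2 h) (ZMod.val_lt x)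

theorem un_inv_norm (x : ZMod p) : ‖(((un x)⁻¹ : ℚ_[p]ˣ) : ℚ_[p])‖ = 1 := by
  rw [Units.val_inv_eq_inv_val, norm_inv, un_norm, inv_one]

theorem un_neg_norm (x : ZMod p) : ‖((-(un x)⁻¹ : ℚ_[p]ˣ) : ℚ_[p])‖ = 1 := by
  rw [Units.val_neg, norm_neg, un_inv_norm]

/-- **the socle relation** -/
theorem soc {v : M} (hv : v ∈ Fx ρ (I1 p)) :
    v = ρ (ww p) (So ρ v) - ∑ x ∈ Finset.univ.erase (0 : ZMod p),
      ρ (nn (((un x)⁻¹ : ℚ_[p]ˣ) : ℚ_[p])) (ρ (ww p) (ρ (dd (un x) (-(un x)⁻¹)) v)) := by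
  rw [eq_sub_iff_add_eq, So_apply, map_sum, ← Finset.add_sum_erase _ _ (Finset.mem_univ 0)]
  congr 1
  · simp [← rho_mul, ww_ww]
  · refine Finset.sum_congr rfl fun x hx => ?_
    rw [← rho_mul (ww p) (_ * _), ← mul_assoc, ww_nn, mul_assoc, ww_ww, mul_one,
      ← un_val (Finset.ne_of_mem_erase hx), nl_eq, rho_mul, rho_mul, rho_mul,
      hv _ (nn_I1 (un_inv_norm x).le)]

theorem ww_eq : ww p = tt p * (PP p * (zz p)⁻¹) := by
  rw [← mul_assoc, tt_PP, zz_comm, mul_inv_cancel_right]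

/-- the invariants lie in `ℤ[N₀] t` of the invariants -/
theorem soc_mem {P : Submodule R M} (hP : Gs ρ P) (A : AddSubgroup M)
    (hN : ∀ b : ℚ_[p], ‖b‖ ≤ 1 → ∀ a ∈ A, ρ (nn b) a ∈ A)
    (ht : ∀ v ∈ P, v ∈ Fx ρ (I1 p) → ρ (tt p) v ∈ A) {v : M} (hvP : v ∈ P)
    (hv : v ∈ Fx ρ (I1 p)) : v ∈ A := by
  have hw : ∀ v ∈ P, v ∈ Fx ρ (I1 p) → ρ (ww p) v ∈ A := fun v h1 h2 => by
    rw [ww_eq, rho_mul, rho_mul]
    exact ht _ (hP _ _ (hP _ _ h1)) (PP_Fx (zi_Fx h2))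
  rw [soc hv]
  refine sub_mem (hw _ ?_ (So_Fx hv)) (sum_mem fun x _ => hN _ (un_inv_norm x).le _
    (hw _ (hP _ _ hvP) (dd_Fx (un_norm x) (un_neg_norm x) hv)))
  rw [So_apply]
  exact sum_mem fun x _ => hP _ _ hvP

/-! ## smooth vectors and fixed vectors -/

theorem exists_en (X : Matrix (Fin 2) (Fin 2) ℚ_[p]) : ∃ C, 0 < C ∧ En C X :=
  ⟨1 + ∑ i, ∑ j, ‖X i j‖, by positivity, fun i j => by
    have h1 := Finset.single_le_sum (f := fun j => ‖X i j‖) (fun _ _ => norm_nonneg _)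
      (Finset.mem_univ j)
    have h2 := Finset.single_le_sum (f := fun i => ∑ j, ‖X i j‖)
      (fun _ _ => Finset.sum_nonneg fun _ _ => norm_nonneg _) (Finset.mem_univ i)
    linarith⟩

theorem Kn_conj' (x : G2 p) (n : ℕ) : ∃ m, ∀ g ∈ Kn p m, x⁻¹ * g * x ∈ Kn p n := by
  obtain ⟨C, hC, h1⟩ := exists_en (x : Matrix (Fin 2) (Fin 2) ℚ_[p])
  obtain ⟨D, hD, h2⟩ := exists_en ((x⁻¹ : G2 p) : Matrix (Fin 2) (Fin 2) ℚ_[p])
  have h0 : 0 < rad p n := pow_pos pinv_pos n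
  obtain ⟨m, hm⟩ := exists_pow_lt_of_lt_one (show 0 < rad p n / (D * C) by positivity)
    (pinv_lt (p := p))
  have key : ∀ g ∈ Kn p m, En (rad p n)
      (((x⁻¹ * g * x : G2 p) : Matrix (Fin 2) (Fin 2) ℚ_[p]) - 1) := fun g hg => by
    have e : ((x⁻¹ * g * x : G2 p) : Matrix (Fin 2) (Fin 2) ℚ_[p]) - 1 =
        ((x⁻¹ : G2 p) : Matrix (Fin 2) (Fin 2) ℚ_[p]) * (g - 1) * x := by
      rw [mul_sub, sub_mul, mul_one, Units.inv_mul, Units.val_mul, Units.val_mul]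
    rw [e]
    refine ((h2.mul hg.1).mul h1).mono ?_
    rw [lt_div_iff₀ (by positivity)] at hm
    rw [rad]
    linarith
  refine ⟨m, fun g hg => ⟨key g hg, ?_⟩⟩
  rw [show (x⁻¹ * g * x)⁻¹ = x⁻¹ * g⁻¹ * x by group]
  exact (key _ (inv_mem hg)).of_sub (rad_le_one n)

theorem Sm.rho {v : M} (h : Sm ρ v) (x : G2 p) : Sm ρ (ρ x v) := by
  obtain ⟨n, hn⟩ := h
  obtain ⟨m, hm⟩ := Kn_conj' x n
  exact ⟨m, Fx_conj hm hn⟩

theorem Sm.add {v w : M} (h : Sm ρ v) (h' : Sm ρ w) : Sm ρ (v + w) := by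
  obtain ⟨n, hn⟩ := h
  obtain ⟨m, hm⟩ := h'
  exact ⟨max n m, add_mem (Fx_anti (Kn_anti (le_max_left _ _)) hn)
    (Fx_anti (Kn_anti (le_max_right _ _)) hm)⟩

theorem Sm.smul {v : M} (h : Sm ρ v) (c : R) : Sm ρ (c • v) := by
  obtain ⟨n, hn⟩ := h
  exact ⟨n, Submodule.smul_mem _ c hn⟩

theorem Sm.nsmul {v : M} (h : Sm ρ v) (c : ℕ) : Sm ρ (c • v) := by
  obtain ⟨n, hn⟩ := h
  exact ⟨n, nsmul_mem hn c⟩

theorem Sm.orbit {v : M} (h : Sm ρ v) : {w | ∃ g ∈ Kn p 0, ρ g v = w}.Finite := by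
  obtain ⟨n, hn⟩ := h
  obtain ⟨S, -, hS⟩ := Kn_fin (p := p) n
  refine (S.finite_toSet.image fun s => ρ s v).subset ?_
  rintro _ ⟨g, hg, rfl⟩
  obtain ⟨s, hs, h⟩ := hS g hg
  exact ⟨s, hs, by rw [← mul_inv_cancel_left s g, rho_mul, hn _ h]⟩

/-- a subgroup of `I₁` has a fixed vector in the span of the orbit of a smooth vector -/
theorem exists_fix {H : Subgroup (G2 p)} (hH : H ≤ I1 p) {u : M} (h0 : u ≠ 0) (hp : p • u = 0)
    (hs : Sm ρ u) : ∃ v ∈ AddSubgroup.closure {w | ∃ g ∈ H, ρ g u = w}, v ≠ 0 ∧ v ∈ Fx ρ H := by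
  set O := {w | ∃ g ∈ H, ρ g u = w} with hO
  have hfin : O.Finite := hs.orbit.subset fun w ⟨g, hg, e⟩ => ⟨g, I1_le_K0 (hH hg), e⟩
  set A := AddSubgroup.closure O with hA
  have hst : ∀ g ∈ H, ∀ a ∈ A, ρ g a ∈ A := fun g hg a ha => by
    refine AddSubgroup.closure_induction (p := fun a _ => ρ g a ∈ A) ?_ (by simp) ?_ ?_ ha
    · rintro _ ⟨h, hh, rfl⟩
      exact AddSubgroup.subset_closure ⟨g * h, mul_mem hg hh, rho_mul _ _ _⟩
    · intro a b _ _ h1 h2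
      rw [map_add]
      exact add_mem h1 h2
    · intro a _ h1
      rw [map_neg]
      exact neg_mem h1
  have htor : ∀ a ∈ A, p • a = 0 := fun a ha => by
    refine AddSubgroup.closure_induction (p := fun a _ => p • a = 0) ?_ (by simp) ?_ ?_ ha
    · rintro _ ⟨h, -, rfl⟩
      rw [← map_nsmul, hp, map_zero]
    · intro a b _ _ h1 h2
      rw [smul_add, h1, h2, add_zero]
    · intro a _ h1
      rw [smul_neg, h1, neg_zero]
  obtain ⟨n, hn⟩ := hs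
  have htr : ∀ k ∈ Kn p (n + 1), ∀ a ∈ A, ρ k a = a := fun k hk a ha => by
    refine AddSubgroup.closure_induction (p := fun a _ => ρ k a = a) ?_ (by simp) ?_ ?_ ha
    · rintro _ ⟨h, hh, rfl⟩
      exact Fx_conj (fun g hg => Kn_conj (I1_le_K0 (hH hh)) hg) hn k (Kn_anti n.le_succ hk)
    · intro a b _ _ h1 h2
      rw [map_add, h1, h2]
    · intro a _ h1
      rw [map_neg, h1]
  have : Finite O := hfin
  have : AddGroup.FG A := AddGroup.closure_finite_fg O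
  have : Finite A := AddCommGroup.finite_of_fg_isAddTorsion A fun a =>
    isOfFinAddOrder_iff_nsmul_eq_zero.2 ⟨p, (Fact.out : p.Prime).pos, Subtype.ext (htor a a.2)⟩
  let : MulAction H A :=
    { smul := fun g a => ⟨ρ g a, hst g g.2 a a.2⟩
      one_smul := fun a => Subtype.ext (by show ρ 1 a.1 = a; simp)
      mul_smul := fun g h a => Subtype.ext (rho_mul _ _ _) }
  have hG : IsPGroup p (MulAction.toPermHom H A).range := by
    rintro ⟨_, g, rfl⟩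
    refine ⟨n + 1, Subtype.ext ?_⟩
    rw [SubmonoidClass.coe_pow, ← map_pow]
    exact Equiv.ext fun a => Subtype.ext (htr _ (pow_mem_Kn (hH g.2) n) a a.2)
  have hu : u ∈ A := AddSubgroup.subset_closure ⟨1, one_mem _, by simp⟩
  have hd : p ∣ Nat.card A := by
    have : addOrderOf (⟨u, hu⟩ : A) = p :=
      addOrderOf_eq_prime (Subtype.ext hp) fun e => h0 (congrArg Subtype.val e)
    exact this ▸ addOrderOf_dvd_natCard _
  obtain ⟨b, hb, hb0⟩ := hG.exists_fixed_point_of_prime_dvd_card_of_fixed_point A hd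
    (a := (0 : A)) (by
      rintro ⟨_, g, rfl⟩
      exact Subtype.ext (map_zero (ρ g)))
  exact ⟨b, b.2, fun e => hb0 (Subtype.ext e.symm), fun g hg =>
    congrArg Subtype.val (hb ⟨_, ⟨g, hg⟩, rfl⟩)⟩

theorem nl_tt_pow (c : ℚ_[p]) (n : ℕ) : nl c * tt p ^ n = tt p ^ n * nl ((p : ℚ_[p]) ^ n * c) := by
  induction n with
  | zero => simp
  | succ n ih => rw [pow_succ, ← mul_assoc, ih, mul_assoc, nl_tt, ← mul_assoc, ← mul_assoc,
      ← pow_succ']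

/-- a non-zero `B`-stable subgroup contains a non-zero vector fixed by `I₁` -/
theorem exists_fix_B (U : AddSubgroup M) (hU : ∀ b ∈ BB p, ∀ u ∈ U, ρ b u ∈ U) {u : M}
    (hu : u ∈ U) (h0 : u ≠ 0) (hp : p • u = 0) (hs : Sm ρ u) :
    ∃ v ∈ U, v ≠ 0 ∧ v ∈ Fx ρ (I1 p) := by
  obtain ⟨n, hn⟩ := hs
  obtain ⟨v, h1, h2, h3⟩ := exists_fix (ρ := ρ) (le_refl (I1 p)) (u := ρ (tt p ^ n) u)
    (fun e => h0 (rho_eq_zero e)) (by rw [← map_nsmul, hp, map_zero]) (Sm.rho ⟨n, hn⟩ _)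
  refine ⟨v, (AddSubgroup.closure_le U).2 ?_ h1, h2, h3⟩
  rintro _ ⟨g, hg, rfl⟩
  obtain ⟨b, hb, -, c, hc, -, rfl⟩ := I1_fac hg
  have h4 : nl ((p : ℚ_[p]) ^ n * c) ∈ Kn p n := nl_Kn (nmul2 (norm_pow_p n).le hc.le)
  rw [rho_mul, ← rho_mul (nl c), nl_tt_pow, rho_mul, hn _ h4]
  exact hU _ hb _ (hU _ (pow_mem tt_BB n) _ hu)

/-! ## lemma K -/

section K

variable {Y : Type*} [AddCommGroup Y]

/-- `W` has a `B`-stable kernel, and no finite set is swallowed by the map `ψ` that `W` induces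
from `z⁻¹ t = diag (1, p⁻¹)` -/
structure Wk (ρ : Representation R (G2 p) M) (W : M →+ Y) (ψ : Y → Y) : Prop where
  bs : ∀ b ∈ BB p, ∀ v, W v = 0 → W (ρ b v) = 0
  ps : ∀ v, W (ρ (tt p * (zz p)⁻¹) v) = ψ (W v)
  nf : ∀ E : Set Y, E.Finite → E ⊆ ψ '' E → E ⊆ {0}

variable {W : M →+ Y} {ψ : Y → Y}

theorem Wk.PP_eq (h : Wk ρ W ψ) {v : M} (hv : v ∈ Fx ρ (I1 p)) (h0 : W v = 0) :
    W (ρ (PP p) v) = ψ (W (ρ (PP p) (Uo ρ v))) := by
  rw [soc (PP_Fx hv), map_sub, map_sum, Finset.sum_eq_zero, sub_zero, ← Uo_eq, ← h.ps, ← rho_mul,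
    ww_eq, mul_assoc]
  · rw [zz, ← dd_inv, dd_comm]
  · intro x _
    rw [← rho_mul (dd _ _), ← PP_dd, ← rho_mul (ww p), ← mul_assoc, ww_PP, ← rho_mul]
    exact h.bs _ (mul_mem (nn_BB _) (mul_mem tt_BB (dd_BB _ _))) _ h0

/-- **lemma K** for invariant vectors -/
theorem Wk.fix (h : Wk ρ W ψ) {P : Submodule R M} (hP : Adm ρ P) {v : M} (hvP : v ∈ P)
    (hp : p • v = 0) (hv : v ∈ Fx ρ (I1 p)) (h0 : W v = 0) (g : G2 p) : W (ρ g v) = 0 := by
  have hE := h.nf ((fun v => W (ρ (PP p) v)) ''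
    {v | (v ∈ P ∧ p • v = 0 ∧ v ∈ Fx ρ (I1 p)) ∧ W v = 0})
    ((hP.fin.subset fun _ h => h.1).image _) (by
      rintro _ ⟨v, ⟨⟨h1, h2, h3⟩, h4⟩, rfl⟩
      refine ⟨_, ⟨Uo ρ v, ⟨⟨?_, by rw [← map_nsmul, h2, map_zero], Uo_Fx h3⟩, ?_⟩, rfl⟩,
        (h.PP_eq h3 h4).symm⟩
      · rw [Uo_apply]
        exact sum_mem fun x _ => hP.gs _ _ h1
      · rw [Uo_apply, map_sum]
        exact Finset.sum_eq_zero fun x _ => h.bs _ (mul_mem (nn_BB _) tt_BB) _ h4)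
  have h1 : W (ρ (PP p) v) = 0 := hE ⟨v, ⟨⟨hvP, hp, hv⟩, h0⟩, rfl⟩
  obtain ⟨b, hb, ⟨c, hc, rfl⟩ | ⟨c, hc, rfl⟩⟩ := iwasawa g
  · rw [rho_mul, hv _ (nl_I1 hc)]
    exact h.bs _ hb _ h0
  · rw [rho_mul, hv _ (nn_I1 hc), ww_eq, zz, ← dd_inv, ← dd_comm, ← mul_assoc, ← mul_assoc,
      rho_mul]
    exact h.bs _ (mul_mem (mul_mem hb tt_BB) (dd_BB _ _)) _ h1

omit [Fact p.Prime] in
theorem exists_tor {u : M} (h0 : u ≠ 0) (h : ∃ n : ℕ, p ^ n • u = 0) :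
    ∃ n : ℕ, p ^ n • u ≠ 0 ∧ p • p ^ n • u = 0 := by
  classical
  have h1 : Nat.find h ≠ 0 := fun e => by
    have := Nat.find_spec h
    rw [e, pow_zero, one_smul] at this
    exact h0 this
  obtain ⟨n, hn⟩ := Nat.exists_eq_succ_of_ne_zero h1
  refine ⟨n, Nat.find_min h (by omega), ?_⟩
  rw [← mul_smul, ← pow_succ', ← Nat.succ_eq_add_one, ← hn]
  exact Nat.find_spec h

/-- **lemma K**: a non-zero kernel contains a non-zero orbit of the group -/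
theorem Wk.kk (h : Wk ρ W ψ) {P : Submodule R M} (hP : Adm ρ P) {u : M} (hu : u ∈ P)
    (h0 : u ≠ 0) (hW : W u = 0) : ∃ v ∈ P, v ≠ 0 ∧ ∀ g, W (ρ g v) = 0 := by
  obtain ⟨n, h1, h2⟩ := exists_tor h0 (hP.tor u hu)
  obtain ⟨v, ⟨⟨h3, h4⟩, h5⟩, h6, h7⟩ := exists_fix_B (ρ := ρ)
    (P.toAddSubgroup ⊓ W.ker ⊓ (nsmulAddMonoidHom p).ker) (by
      rintro b hb u ⟨⟨h3, h4⟩, h5⟩
      refine ⟨⟨hP.gs _ _ h3, h.bs _ hb _ h4⟩, ?_⟩
      have h5' : p • u = 0 := h5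
      show p • ρ b u = 0
      rw [← map_nsmul, h5', map_zero]) (u := p ^ n • u)
    ⟨⟨nsmul_mem hu _, show W _ = 0 by rw [map_nsmul, hW, smul_zero]⟩, h2⟩ h1 h2
    ((hP.sm u hu).nsmul _)
  exact ⟨v, h3, h6, h.fix hP h3 h5 h7 h4⟩

end K

/-! ## the coinduced module -/

section X

variable {Y : Type*} [AddCommGroup Y] [Module R Y] {H : Subgroup (G2 p)}
  (β : Representation R H Y)

/-- functions on `G` that are equivariant for `H` on the left -/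
def Co : Submodule R (G2 p → Y) where
  carrier := {F | ∀ (b : H) g, F (b * g) = β b (F g)}
  add_mem' ha hb b g := by rw [Pi.add_apply, Pi.add_apply, ha, hb, map_add]
  zero_mem' b g := by simp
  smul_mem' c F hF b g := by rw [Pi.smul_apply, Pi.smul_apply, hF, map_smul]

/-- right translation -/
def coR : Representation R (G2 p) (Co β) where
  toFun x :=
    { toFun := fun F => ⟨fun g => F.1 (g * x), fun b g => by
        beta_reduce
        rw [mul_assoc, F.2]⟩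
      map_add' := fun _ _ => rfl
      map_smul' := fun _ _ => rfl }
  map_one' := LinearMap.ext fun F => Subtype.ext (funext fun g => by simp)
  map_mul' x y := LinearMap.ext fun F => Subtype.ext (funext fun g => by simp [mul_assoc])

@[simp] theorem coR_apply (x : G2 p) (F : Co β) (g : G2 p) : (coR β x F).1 g = F.1 (g * x) := rfl

/-- evaluation at `1` -/
def ev1 : Co β →ₗ[R] Y where
  toFun F := F.1 1
  map_add' _ _ := rfl
  map_smul' _ _ := rfl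

theorem ev1_coR (x : G2 p) (F : Co β) : ev1 β (coR β x F) = F.1 x := by
  show F.1 (1 * x) = _
  rw [one_mul]

theorem ev1_H (b : H) (F : Co β) : ev1 β (coR β b F) = β b (ev1 β F) := by
  rw [ev1_coR, ← mul_one (b : G2 p), F.2]
  rfl

/-- the map to the coinduced module -/
def toCo (ι : M →ₗ[R] Y) (hι : ∀ (b : H) v, ι (ρ b v) = β b (ι v)) : M →ₗ[R] Co β where
  toFun v := ⟨fun g => ι (ρ g v), fun b g => by
    beta_reduce
    rw [rho_mul, hι]⟩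
  map_add' v w := Subtype.ext (funext fun g => by simp)
  map_smul' c v := Subtype.ext (funext fun g => by simp)

theorem toCo_rho (ι : M →ₗ[R] Y) (hι : ∀ (b : H) v, ι (ρ b v) = β b (ι v)) (x : G2 p) (v : M) :
    toCo β ι hι (ρ x v) = coR β x (toCo β ι hι v) :=
  Subtype.ext (funext fun g => by
    show ι (ρ g (ρ x v)) = ι (ρ (g * x) v)
    rw [rho_mul])

theorem ev1_toCo (ι : M →ₗ[R] Y) (hι : ∀ (b : H) v, ι (ρ b v) = β b (ι v)) (v : M) :
    ev1 β (toCo β ι hι v) = ι v := by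
  show ι (ρ 1 v) = ι v
  simp

end X

section B

variable {Y : Type*} [AddCommGroup Y] [Module R Y] (β : Representation R (BB p) Y)

/-- no finite non-zero set is swallowed by `diag (1, p⁻¹)` -/
def NF : Prop := ∀ E : Set Y, E.Finite →
  E ⊆ β ⟨tt p * (zz p)⁻¹, mul_mem tt_BB (inv_mem zz_BB)⟩ '' E → E ⊆ {0}

variable {β}

theorem NF.wk (h : NF β) (ι : M →ₗ[R] Y) (hι : ∀ (b : BB p) v, ι (ρ b v) = β b (ι v)) :
    Wk ρ ι.toAddMonoidHom (β ⟨tt p * (zz p)⁻¹, mul_mem tt_BB (inv_mem zz_BB)⟩) where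
  bs b hb v h0 := by
    have h1 : ι v = 0 := h0
    have := hι ⟨b, hb⟩ v
    rw [h1, map_zero] at this
    exact this
  ps v := hι ⟨_, mul_mem tt_BB (inv_mem zz_BB)⟩ v
  nf := h

/-- evaluation at `1` is injective on admissible submodules of the coinduced module -/
theorem ev1_inj (h : NF β) {P : Submodule R (Co β)} (hP : Adm (coR β) P) {F : Co β} (hF : F ∈ P)
    (h0 : ev1 β F = 0) : F = 0 := by
  by_contra hne
  obtain ⟨v, -, h1, h2⟩ := (h.wk (ev1 β) (ev1_H β)).kk hP hF hne h0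
  exact h1 (Subtype.ext (funext fun g => (ev1_coR β g v).symm.trans (h2 g)))

/-- admissible submodules of the coinduced module are determined by their values at `1` -/
theorem le_of_ev1 (h : NF β) {P Q : Submodule R (Co β)} (hPQ : Adm (coR β) (P ⊔ Q))
    {F : Co β} (hF : F ∈ P) (e : ev1 β F ∈ Q.map (ev1 β)) : F ∈ Q := by
  obtain ⟨F', h1, h2⟩ := e
  have := ev1_inj h hPQ (sub_mem (Submodule.mem_sup_left hF) (Submodule.mem_sup_right h1))
    (by rw [map_sub, h2, sub_self])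
  rwa [sub_eq_zero.1 this]

end B

end Vale.Agent.P022K.WB

end
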