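import Vale.Agent.P022K.WB.Noe1
import Vale.Agent.P022K.WB.Sw1

/-!
# P022K, block WB: admissible representations of `GL₂(ℚ_p)` are Artinian over `K(p²)`
-/

set_option autoImplicit false
set_option linter.all false

noncomputable section

namespace Vale.Agent.P022K.WB

open Matrix Noe

variable {p : ℕ} [Fact p.Prime]

/-- two by two matrices -/
abbrev M22 (p : ℕ) [Fact p.Prime] : Type := Matrix (Fin 2) (Fin 2) ℚ_[p]

theorem rad_pos (n : ℕ) : 0 < rad p n := pow_pos pinv_pos n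

theorem rad_add (m n : ℕ) : rad p (m + n) = rad p m * rad p n := pow_add _ _ _

theorem En.sub {r : ℝ} {X Y : M22 p} (h : En r X) (h' : En r Y) : En r (X - Y) := by
  rw [sub_eq_add_neg]
  exact h.add h'.neg

theorem Kn_of_near {n : ℕ} {a b : G2 p} (ha : a ∈ Kn p 0) (hb : b ∈ Kn p 0)
    (h : En (rad p n) ((b : M22 p) - (a : M22 p))) : a⁻¹ * b ∈ Kn p n := by
  refine ⟨?_, (mul_mem (inv_mem ha) hb).2⟩
  have e1 : ((a⁻¹ * b : G2 p) : M22 p) - 1 = ((a⁻¹ : G2 p) : M22 p) * ((b : M22 p) - (a : M22 p)) := by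
    rw [mul_sub, Units.inv_mul, Units.val_mul]
  rw [e1]
  simpa only [one_mul] using ha.2.mul h

theorem near_of_Kn {n : ℕ} {a b : G2 p} (ha : a ∈ Kn p 0) (h : a⁻¹ * b ∈ Kn p n) :
    En (rad p n) ((b : M22 p) - (a : M22 p)) := by
  have e1 : (b : M22 p) - (a : M22 p) = (a : M22 p) * (((a⁻¹ * b : G2 p) : M22 p) - 1) := by
    rw [mul_sub, mul_one, ← Units.val_mul, mul_inv_cancel_left]
  rw [e1]
  simpa only [one_mul] using (Kn_en ha).mul h.1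

theorem exists_Kn {n : ℕ} (hn : 0 < n) {X : M22 p} (h : En (rad p n) X) :
    ∃ g ∈ Kn p n, (g : M22 p) = 1 + X := by
  have h1 : ∀ i j, ‖X i j‖ < 1 := fun i j => (h i j).trans_lt (rad_lt_one hn)
  have h2 : ‖(1 + X 0 0) * (1 + X 1 1) - X 0 1 * X 1 0‖ = 1 := by
    refine norm_of_near ?_
    rw [show (1 + X 0 0) * (1 + X 1 1) - X 0 1 * X 1 0 - 1 =
      X 0 0 + X 1 1 + X 0 0 * X 1 1 - X 0 1 * X 1 0 by ring]
    exact nsub' (nadd' (nadd' (h1 _ _) (h1 _ _)) (nmul2' (h1 _ _) (h1 _ _).le))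
      (nmul2' (h1 _ _) (h1 _ _).le)
  have h3 : (1 + X 0 0) * (1 + X 1 1) - X 0 1 * X 1 0 ≠ 0 := fun e => by simp [e] at h2
  have e : ((mk (1 + X 0 0) (X 0 1) (X 1 0) (1 + X 1 1) h3 : G2 p) : M22 p) = 1 + X := by
    ext i j
    fin_cases i <;> fin_cases j <;> simp
  refine ⟨_, ⟨by rw [e, add_sub_cancel_left]; exact h, ?_⟩, e⟩
  rw [inv_val]
  have h4 : ∀ i, ‖1 + X i i‖ ≤ 1 := fun i => nadd (by simp) (h1 i i).le
  have h5 : En 1 !![1 + X 1 1, -X 0 1; -X 1 0, 1 + X 0 0] := fun i j => by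
    fin_cases i <;> fin_cases j <;> simp [h4, (h1 _ _).le]
  simpa [h2] using En.smul (a := ((1 + X 0 0) * (1 + X 1 1) - X 0 1 * X 1 0)⁻¹)
    (le_of_eq (by rw [norm_inv, h2, inv_one])) h5

theorem pow_near {m : ℕ} (hm : 2 ≤ m) {g : G2 p} (h : g ∈ Kn p m) :
    En (rad p (m + 2)) (((g ^ p : G2 p) : M22 p) - (1 + (p : ℚ_[p]) • ((g : M22 p) - 1))) := by
  obtain ⟨Y, hY, e⟩ := pow_expand (h.1.mono (rad_le_one m)) p
  rw [add_sub_cancel] at e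
  rw [Units.val_pow_eq_pow_val, e, add_sub_cancel_left]
  refine ((h.1.mul h.1).mul hY).mono ?_
  rw [mul_one, ← rad_add]
  exact rad_le (by omega)

theorem K0_of {n : ℕ} {g : G2 p} (h : g ∈ Kn p n) : g ∈ Kn p 0 := Kn_anti n.zero_le h

theorem en_p_smul {m : ℕ} {X : M22 p} (h : En (rad p m) X) : En (rad p (m + 1)) ((p : ℚ_[p]) • X) := by
  have := En.smul (Padic.norm_p (p := p)).le h
  rwa [rad, ← pow_succ'] at this

theorem pow_compat {m : ℕ} (hm : 2 ≤ m) {a b : G2 p} (ha : a ∈ Kn p m) (hb : b ∈ Kn p m)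
    (h : a⁻¹ * b ∈ Kn p (m + 1)) : (a ^ p)⁻¹ * b ^ p ∈ Kn p (m + 2) := by
  refine Kn_of_near (pow_mem (K0_of ha) p) (pow_mem (K0_of hb) p) ?_
  have := ((pow_near hm hb).sub (pow_near hm ha)).add (en_p_smul (near_of_Kn (K0_of ha) h))
  convert this using 1
  simp only [smul_sub]
  abel

theorem exists_root {m : ℕ} (hm : 2 ≤ m) {h : G2 p} (hh : h ∈ Kn p (m + 1)) :
    ∃ g ∈ Kn p m, (g ^ p)⁻¹ * h ∈ Kn p (m + 2) := by
  obtain ⟨g, hg, e⟩ := exists_Kn (n := m) (by omega) (X := (p : ℚ_[p])⁻¹ • ((h : M22 p) - 1)) (by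
    have := En.smul (a := (p : ℚ_[p])⁻¹) le_rfl hh.1
    rwa [norm_inv, Padic.norm_p, rad, pow_succ', inv_mul_cancel_left₀ pinv_pos.ne'] at this)
  refine ⟨g, hg, Kn_of_near (pow_mem (K0_of hg) p) (K0_of hh) ?_⟩
  have := (pow_near hm hg).neg
  rwa [e, add_sub_cancel_left, smul_inv_smul₀ (p_ne p), add_sub_cancel, neg_sub] at this

theorem pow_Kn {m : ℕ} (hm : 0 < m) {g : G2 p} (h : g ∈ Kn p m) : g ^ p ∈ Kn p (m + 1) :=
  pow_mem_aux (K0_of h) h.1 ((h.1.mul h.1).mono (by rw [← rad_add]; exact rad_le (by omega)))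

theorem comm_Kn {m n : ℕ} {a b : G2 p} (ha : a ∈ Kn p m) (hb : b ∈ Kn p n) :
    a * b * (b * a)⁻¹ ∈ Kn p (m + n) := by
  have h1 : (b * a)⁻¹ * (a * b) ∈ Kn p (m + n) := by
    refine Kn_of_near (mul_mem (K0_of hb) (K0_of ha)) (mul_mem (K0_of ha) (K0_of hb)) ?_
    have := (ha.1.mul hb.1).sub (by simpa only [mul_comm] using hb.1.mul ha.1)
    rw [← rad_add] at this
    convert this using 1
    rw [Units.val_mul, Units.val_mul]
    noncomm_ring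
  have := Kn_conj (inv_mem (mul_mem (K0_of hb) (K0_of ha))) h1
  rwa [inv_inv, ← mul_assoc (b * a), mul_inv_cancel, one_mul] at this

/-- successive approximation -/
theorem approx {D : Subgroup (G2 p)} {m : ℕ}
    (h : ∀ j, m ≤ j → ∀ g ∈ Kn p j, ∃ d ∈ D, d⁻¹ * g ∈ Kn p (j + 1)) (n : ℕ) {g : G2 p}
    (hg : g ∈ Kn p m) : ∃ d ∈ D, d⁻¹ * g ∈ Kn p (n + m) := by
  induction n with
  | zero => exact ⟨1, one_mem _, by simpa using hg⟩
  | succ n ih =>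
    obtain ⟨d, hd, h1⟩ := ih
    obtain ⟨d', hd', h2⟩ := h _ (Nat.le_add_left m n) _ h1
    refine ⟨d * d', mul_mem hd hd', ?_⟩
    rwa [_root_.mul_inv_rev, mul_assoc, Nat.succ_add]

theorem pro_of {H : Subgroup (G2 p)} (hH : H ≤ I1 p) (c : ℕ) :
    Pro p fun n => (Kn p (n + c)).subgroupOf H := by
  refine ⟨fun n => ⟨fun x hx g => ?_⟩, fun n => ?_, fun n x => ⟨n + c + 1, ?_⟩⟩
  · have := Kn_conj (inv_mem (I1_le_K0 (hH g.2))) (Subgroup.mem_subgroupOf.1 hx)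
    rw [inv_inv] at this
    exact this
  · obtain ⟨S, -, hS⟩ := Kn_fin (p := p) (n + c)
    choose! f h1 h2 using hS
    have : Finite (H ⧸ (Kn p (n + c)).subgroupOf H) := by
      refine Finite.of_injective (fun q => (⟨f q.out.1, h1 _ (I1_le_K0 (hH q.out.2))⟩ : S)) ?_
      intro q q' e
      have e' : f q.out.1 = f q'.out.1 := congrArg Subtype.val e
      rw [← q.out_eq, ← q'.out_eq]
      refine Quotient.sound (QuotientGroup.leftRel_apply.2 ?_)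
      have := mul_mem (inv_mem (h2 _ (I1_le_K0 (hH q.out.2)))) (h2 _ (I1_le_K0 (hH q'.out.2)))
      rw [e', _root_.mul_inv_rev, inv_inv, mul_assoc, mul_inv_cancel_left] at this
      exact this
    exact Subgroup.finiteIndex_of_finite_quotient
  · exact Kn_anti (Nat.le_succ _) (pow_mem_Kn (hH x.2) _)

theorem mem_sup_of {c : ℕ} {D : Subgroup (Kn p c)} {n : ℕ} {x : Kn p c}
    (h : ∃ d ∈ D.map (Kn p c).subtype, d⁻¹ * x.1 ∈ Kn p n) :
    x ∈ D ⊔ (Kn p n).subgroupOf (Kn p c) := by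
  obtain ⟨_, ⟨d, hd, rfl⟩, h⟩ := h
  rw [← mul_inv_cancel_left d x]
  exact mul_mem (Subgroup.mem_sup_left hd) (Subgroup.mem_sup_right h)

/-- `K(p^c)` is uniform for `c ≥ 2` -/
theorem uni_Kn {c : ℕ} (hc : 2 ≤ c) : Uni p fun n => (Kn p (n + c)).subgroupOf (Kn p c) := by
  classical
  refine ⟨pro_of (Kn_le_I1 (by omega)) c, ?_, fun n x y => ?_⟩
  · obtain ⟨S, hS0, hS⟩ := Kn_fin (p := p) (c + 1)
    refine ⟨S.subtype _, fun n x => mem_sup_of (approx (fun j hj => ?_) n x.2)⟩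
    set D := (Subgroup.closure ((S.subtype (· ∈ Kn p c) : Finset (Kn p c)) : Set (Kn p c))).map
      (Kn p c).subtype
    suffices h : ∀ g ∈ Kn p j, ∃ d ∈ D, d ∈ Kn p j ∧ d⁻¹ * g ∈ Kn p (j + 1) from
      fun g hg => (h g hg).imp fun d hd => ⟨hd.1, hd.2.2⟩
    induction j, hj using Nat.le_induction with
    | base =>
      intro g hg
      obtain ⟨s, hs, h1⟩ := hS g (K0_of hg)
      have h2 : s ∈ Kn p c := by
        have := mul_mem hg (inv_mem (Kn_anti (Nat.le_succ c) h1))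
        rwa [_root_.mul_inv_rev, inv_inv, mul_inv_cancel_left] at this
      exact ⟨s, ⟨⟨s, h2⟩, Subgroup.subset_closure (by simpa using hs), rfl⟩, h2, h1⟩
    | succ j hj ih =>
      intro h hh
      obtain ⟨g, hg, h1⟩ := exists_root (hc.trans hj) hh
      obtain ⟨d, hd, h2, h3⟩ := ih g hg
      refine ⟨d ^ p, pow_mem hd p, pow_Kn (by omega) h2, ?_⟩
      have := mul_mem (pow_compat (hc.trans hj) h2 hg h3) h1
      rwa [mul_assoc, mul_inv_cancel_left] at this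
  · refine mem_sup_of ?_
    obtain ⟨d, hd, h1⟩ := approx (m := c + 2) (D := (Subgroup.closure
      (Set.range fun z : Kn p c => z ^ p ^ 2)).map (Kn p c).subtype) (fun j hj h hh => by
        obtain ⟨m, rfl⟩ : ∃ m, j = m + 2 := ⟨j - 2, by omega⟩
        obtain ⟨g, hg, h1⟩ := exists_root (m := m + 1) (by omega) hh
        obtain ⟨z, hz, h2⟩ := exists_root (m := m) (by omega) hg
        refine ⟨(z ^ p) ^ p, ⟨_, Subgroup.subset_closure ⟨⟨z, Kn_anti (by omega) hz⟩, rfl⟩, ?_⟩, ?_⟩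
        · simp [pow_two, pow_mul]
        · have := mul_mem (pow_compat (m := m + 1) (by omega) (pow_Kn (by omega) hz) hg h2) h1
          rwa [mul_assoc, mul_inv_cancel_left] at this) n
      (Kn_anti (by omega) (comm_Kn x.2 y.2))
    exact ⟨d, hd, Kn_anti (by omega) h1⟩

variable {R M : Type*} [CommRing R] [AddCommGroup M] [Module R M] (ρ : Representation R (G2 p) M)

/-- stable under a subgroup -/
def Hs (H : Subgroup (G2 p)) (A : AddSubgroup M) : Prop := ∀ g ∈ H, ∀ v ∈ A, ρ g v ∈ A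

/-- admissible for `K(p²)` -/
structure AdK (A : AddSubgroup M) : Prop where
  st : Hs ρ (Kn p 2) A
  sm : ∀ v ∈ A, Sm ρ v
  tor : ∀ v ∈ A, ∃ n : ℕ, p ^ n • v = 0
  fin : {v | v ∈ A ∧ p • v = 0 ∧ v ∈ Fx ρ (Kn p 2)}.Finite

variable {ρ}

/-- the action on a stable subgroup -/
@[reducible] def repAct {H : Subgroup (G2 p)} {A : AddSubgroup M} (h : Hs ρ H A) :
    DistribMulAction H A where
  smul x z := ⟨ρ x.1 z.1, h _ x.2 _ z.2⟩
  one_smul z := Subtype.ext (by show ρ 1 z.1 = z; simp)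
  mul_smul x y z := Subtype.ext (rho_mul _ _ _)
  smul_zero x := Subtype.ext (map_zero _)
  smul_add x z w := Subtype.ext (map_add _ _ _)

theorem smo_of {H : Subgroup (G2 p)} {A : AddSubgroup M} (h : Hs ρ H A) (c : ℕ)
    (sm : ∀ v ∈ A, Sm ρ v) (tor : ∀ v ∈ A, ∃ n : ℕ, p ^ n • v = 0) :
    letI := repAct h
    Smo p (fun n => (Kn p (n + c)).subgroupOf H) A := by
  letI := repAct h
  refine ⟨fun z => ?_, fun z => ?_⟩
  · obtain ⟨n, hn⟩ := sm z.1 z.2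
    exact ⟨n, fun x hx => Subtype.ext (hn _ (Kn_anti (Nat.le_add_right n c) hx))⟩
  · obtain ⟨n, hn⟩ := tor z.1 z.2
    exact ⟨n, Subtype.ext hn⟩

/-- change of level -/
theorem fin_lev {H : Subgroup (G2 p)} (hH : H ≤ I1 p) {A : AddSubgroup M} (h : Hs ρ H A)
    (hf : {v | v ∈ A ∧ p • v = 0 ∧ v ∈ Fx ρ H}.Finite) (n : ℕ) :
    {v | v ∈ A ∧ p • v = 0 ∧ v ∈ Fx ρ (Kn p n)}.Finite := by
  letI := repAct h
  have := (pro_of hH 0).lev (M := A) ((hf.preimage Subtype.val_injective.injOn).subset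
    fun z hz => ⟨z.2, congrArg Subtype.val hz.1, fun g hg => congrArg Subtype.val (hz.2 ⟨g, hg⟩)⟩) n
  refine (this.image Subtype.val).subset fun v hv => ⟨⟨v, hv.1⟩, ⟨Subtype.ext hv.2.1, ?_⟩, rfl⟩
  exact fun x hx => Subtype.ext (hv.2.2 _ hx)

theorem Adm.adK {P : Submodule R M} (h : Adm ρ P) : AdK ρ P.toAddSubgroup :=
  ⟨fun g _ => h.gs g, h.sm, h.tor, fin_lev le_rfl (fun g _ => h.gs g) h.fin 2⟩

theorem adm_of {P : Submodule R M} (hP : Gs ρ P) (h : AdK ρ P.toAddSubgroup) : Adm ρ P :=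
  ⟨hP, h.sm, h.tor, by
    obtain ⟨S, -, hS⟩ := Kn_fin (p := p) 2
    exact h.fin.subset fun v hv => ⟨hv.1, hv.2.1, Fx_anti (Kn_le_I1 two_pos) hv.2.2⟩⟩

theorem AdK.mono {A B : AddSubgroup M} (h : AdK ρ A) (e : B ≤ A) (hB : Hs ρ (Kn p 2) B) :
    AdK ρ B :=
  ⟨hB, fun v hv => h.sm v (e hv), fun v hv => h.tor v (e hv),
    h.fin.subset fun _ hv => ⟨e hv.1, hv.2⟩⟩

theorem Adm.mono {P Q : Submodule R M} (h : Adm ρ P) (e : Q ≤ P) (hQ : Gs ρ Q) : Adm ρ Q :=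
  ⟨hQ, fun v hv => h.sm v (e hv), fun v hv => h.tor v (e hv),
    h.fin.subset fun _ hv => ⟨e hv.1, hv.2⟩⟩

theorem AdK.fin' {A : AddSubgroup M} (h : AdK ρ A) :
    letI := repAct h.st
    {z : A | p • z = 0 ∧ ∀ x : Kn p 2, x • z = z}.Finite := by
  letI := repAct h.st
  exact (h.fin.preimage Subtype.val_injective.injOn).subset
    fun z hz => ⟨z.2, congrArg Subtype.val hz.1, fun g hg => congrArg Subtype.val (hz.2 ⟨g, hg⟩)⟩

/-- **DCC** -/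
theorem AdK.min {A : AddSubgroup M} (h : AdK ρ A) (𝒮 : Set (AddSubgroup M)) (hne : 𝒮.Nonempty)
    (h1 : ∀ B ∈ 𝒮, B ≤ A) (h2 : ∀ B ∈ 𝒮, Hs ρ (Kn p 2) B) :
    ∃ B ∈ 𝒮, ∀ C ∈ 𝒮, C ≤ B → C = B := by
  letI := repAct h.st
  have hst : ∀ B ∈ 𝒮, Stb (Kn p 2) (B.addSubgroupOf A) := fun B hB x z hz => h2 B hB _ x.2 _ hz
  obtain ⟨B0, hB0⟩ := hne
  obtain ⟨_, ⟨B, hB, rfl⟩, hm⟩ := ((uni_Kn le_rfl).dcc (smo_of h.st 2 h.sm h.tor) h.fin').has_min
    {Q | ∃ B, ∃ hB : B ∈ 𝒮, Q = ⟨_, hst B hB⟩} ⟨_, B0, hB0, rfl⟩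
  refine ⟨B, hB, fun C hC e => ?_⟩
  by_contra hne
  refine hm _ ⟨C, hC, rfl⟩ (lt_of_le_of_ne (fun z hz => e hz) fun e' => hne (le_antisymm e ?_))
  intro v hv
  have : (⟨v, h1 B hB hv⟩ : A) ∈ B.addSubgroupOf A := hv
  rw [← show C.addSubgroupOf A = B.addSubgroupOf A from e'] at this
  exact this

/-- **QUO** -/
theorem AdK.quo {A B : AddSubgroup M} (h : AdK ρ A) (hB : Hs ρ (Kn p 2) B) (n : ℕ) {k : ℕ}
    (hk : 0 < k) :
    FinMod {v | v ∈ A ∧ k • v ∈ B ∧ ∀ g ∈ Kn p n, ρ g v - v ∈ B} B := by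
  letI := repAct h.st
  obtain ⟨T, t1, t2, t3⟩ := (uni_Kn le_rfl).quo (smo_of h.st 2 h.sm h.tor) h.fin'
    (B := B.addSubgroupOf A) (fun x z hz => hB _ x.2 _ hz) ((uni_Kn (p := p) le_rfl).nor n)
    ((uni_Kn (p := p) le_rfl).fin n) hk
  classical
  have key : ∀ t : A, ∃ w : M, ∀ v : A, (k • v.1 ∈ B ∧ ∀ g ∈ Kn p n, ρ g v.1 - v.1 ∈ B) →
      v.1 - t.1 ∈ B → (w ∈ A ∧ k • w ∈ B ∧ ∀ g ∈ Kn p n, ρ g w - w ∈ B) ∧ w - t.1 ∈ B := by
    intro t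
    by_cases e : ∃ v : A, (k • v.1 ∈ B ∧ ∀ g ∈ Kn p n, ρ g v.1 - v.1 ∈ B) ∧ v.1 - t.1 ∈ B
    · obtain ⟨v, h1, h2⟩ := e
      exact ⟨v, fun _ _ _ => ⟨⟨v.2, h1⟩, h2⟩⟩
    · exact ⟨0, fun v h1 h2 => absurd ⟨v, h1, h2⟩ e⟩
  choose w hw using key
  refine ⟨w '' T ∩ {v | v ∈ A ∧ k • v ∈ B ∧ ∀ g ∈ Kn p n, ρ g v - v ∈ B},
    (t1.image w).inter_of_left _, Set.inter_subset_right, fun v hv => ?_⟩
  obtain ⟨t, ht, h1⟩ := t3 ⟨v, hv.1⟩ ⟨hv.2.1, fun x hx => hv.2.2 _ (Kn_anti (Nat.le_add_right n 2) hx)⟩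
  obtain ⟨h2, h3⟩ := hw t ⟨v, hv.1⟩ hv.2 h1
  refine ⟨w t, ⟨⟨t, ht, rfl⟩, h2⟩, ?_⟩
  have := sub_mem (show v - t.1 ∈ B from h1) h3
  rwa [sub_sub_sub_cancel_right] at this

/-- all levels and all exponents -/
theorem AdK.finK {A : AddSubgroup M} (h : AdK ρ A) (n : ℕ) {k : ℕ} (hk : 0 < k) :
    {v | v ∈ A ∧ k • v = 0 ∧ v ∈ Fx ρ (Kn p n)}.Finite := by
  obtain ⟨T, t1, -, t3⟩ := h.quo (B := ⊥) (fun g _ v hv => by simp [show v = 0 from hv]) n hk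
  refine t1.subset fun v hv => ?_
  obtain ⟨t, ht, h1⟩ := t3 v ⟨hv.1, hv.2.1, fun g hg => sub_eq_zero.2 (hv.2.2 g hg)⟩
  rwa [sub_eq_zero.1 h1]

section map

variable {R' M' : Type*} [CommRing R'] [AddCommGroup M'] [Module R' M']
  {ρ' : Representation R' (G2 p) M'}

/-- images of admissible modules are admissible -/
theorem AdK.map {A : AddSubgroup M} (h : AdK ρ A) (f : M →+ M')
    (hf : ∀ g ∈ Kn p 2, ∀ v ∈ A, f (ρ g v) = ρ' g (f v)) : AdK ρ' (A.map f) := by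
  refine ⟨?_, ?_, ?_, ?_⟩
  · rintro g hg _ ⟨v, hv, rfl⟩
    exact ⟨_, h.st g hg v hv, hf g hg v hv⟩
  · rintro _ ⟨v, hv, rfl⟩
    obtain ⟨n, hn⟩ := h.sm v hv
    exact ⟨n + 2, fun g hg => by
      rw [← hf g (Kn_anti (Nat.le_add_left 2 n) hg) v hv, hn g (Kn_anti (Nat.le_add_right n 2) hg)]⟩
  · rintro _ ⟨v, hv, rfl⟩
    obtain ⟨n, hn⟩ := h.tor v hv
    exact ⟨n, by rw [← map_nsmul, hn, map_zero]⟩
  · obtain ⟨T, t1, -, t3⟩ := h.quo (B := A ⊓ f.ker) (fun g hg v hv => ⟨h.st g hg v hv.1, by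
      show f _ = 0
      rw [hf g hg v hv.1, show f v = 0 from hv.2, map_zero]⟩) 2 (Fact.out : p.Prime).pos
    refine (t1.image f).subset ?_
    rintro _ ⟨⟨v, hv', rfl⟩, h1, h2⟩
    have hv : v ∈ A := hv'
    obtain ⟨t, ht, h3⟩ := t3 v ⟨hv, ⟨nsmul_mem hv _, by show f _ = 0; rw [map_nsmul, h1]⟩,
      fun g hg => ⟨A.sub_mem (h.st g hg v hv) hv, by
        show f _ = 0
        rw [map_sub, hf g hg v hv, h2 g hg, sub_self]⟩⟩
    have h4 : f (v - t) = 0 := h3.2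
    rw [map_sub, sub_eq_zero] at h4
    exact ⟨t, ht, h4.symm⟩

end map

/-- extensions of admissible modules are admissible -/
theorem AdK.ext {A B : AddSubgroup M} (hB : AdK ρ B) (st : Hs ρ (Kn p 2) A)
    (sm : ∀ v ∈ A, Sm ρ v) (tor : ∀ v ∈ A, ∃ n : ℕ, p ^ n • v = 0)
    (h : FinMod {v | v ∈ A ∧ p • v ∈ B ∧ ∀ g ∈ Kn p 2, ρ g v - v ∈ B} B) : AdK ρ A := by
  refine ⟨st, sm, tor, ?_⟩
  obtain ⟨T, t1, -, t3⟩ := h
  choose! f h1 h2 using t3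
  refine Set.Finite.of_finite_fibers f (t1.subset ?_) ?_
  · rintro _ ⟨v, hv, rfl⟩
    exact h1 v ⟨hv.1, by rw [hv.2.1]; exact zero_mem _, fun g hg => by
      rw [hv.2.2 g hg, sub_self]; exact zero_mem _⟩
  · rintro _ ⟨v0, hv0, rfl⟩
    refine (hB.fin.image fun w => w + v0).subset ?_
    rintro v ⟨hv, e⟩
    have a1 := h2 v ⟨hv.1, by rw [hv.2.1]; exact zero_mem _, fun g hg => by
      rw [hv.2.2 g hg, sub_self]; exact zero_mem _⟩
    have a2 := h2 v0 ⟨hv0.1, by rw [hv0.2.1]; exact zero_mem _, fun g hg => by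
      rw [hv0.2.2 g hg, sub_self]; exact zero_mem _⟩
    refine ⟨v - v0, ⟨?_, by rw [smul_sub, hv.2.1, hv0.2.1, sub_zero], sub_mem hv.2.2 hv0.2.2⟩,
      by simp⟩
    have : v - f v - (v0 - f v0) ∈ B := sub_mem a1 a2
    rwa [show f v = f v0 from e, sub_sub_sub_cancel_right] at this

/-- sums of admissible modules are admissible -/
theorem AdK.sup {A B : AddSubgroup M} (hA : AdK ρ A) (hB : AdK ρ B) : AdK ρ (A ⊔ B) := by
  refine hB.ext ?_ ?_ ?_ ?_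
  · intro g hg v hv
    obtain ⟨a, ha, b, hb, rfl⟩ := AddSubgroup.mem_sup.1 hv
    rw [map_add]
    exact AddSubgroup.add_mem_sup (hA.st g hg a ha) (hB.st g hg b hb)
  · intro v hv
    obtain ⟨a, ha, b, hb, rfl⟩ := AddSubgroup.mem_sup.1 hv
    exact (hA.sm a ha).add (hB.sm b hb)
  · intro v hv
    obtain ⟨a, ha, b, hb, rfl⟩ := AddSubgroup.mem_sup.1 hv
    obtain ⟨n, hn⟩ := hA.tor a ha
    obtain ⟨m, hm⟩ := hB.tor b hb
    exact ⟨n + m, by rw [smul_add, pow_add, mul_nsmul, hn, smul_zero, mul_nsmul', hm, smul_zero,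
      add_zero]⟩
  · obtain ⟨T, t1, t2, t3⟩ := hA.quo hB.st 2 (Fact.out : p.Prime).pos
    refine ⟨T, t1, fun t ht => ⟨AddSubgroup.mem_sup_left (t2 ht).1, (t2 ht).2⟩, fun v hv => ?_⟩
    obtain ⟨a, ha, b, hb, rfl⟩ := AddSubgroup.mem_sup.1 hv.1
    obtain ⟨t, ht, h1⟩ := t3 a ⟨ha, by simpa using sub_mem hv.2.1 (nsmul_mem hb p), fun g hg => by
      have := sub_mem (hv.2.2 g hg) (sub_mem (hB.st g hg b hb) hb)
      convert this using 1
      rw [map_add]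
      abel⟩
    refine ⟨t, ht, ?_⟩
    have := add_mem h1 hb
    convert this using 1
    abel

theorem Adm.sup {P Q : Submodule R M} (hP : Adm ρ P) (hQ : Adm ρ Q) : Adm ρ (P ⊔ Q) := by
  refine adm_of (fun g v hv => ?_) (by rw [Submodule.sup_toAddSubgroup]; exact hP.adK.sup hQ.adK)
  obtain ⟨a, ha, b, hb, rfl⟩ := Submodule.mem_sup.1 hv
  rw [map_add]
  exact Submodule.add_mem_sup (hP.gs g a ha) (hQ.gs g b hb)

theorem Adm.map {M' : Type*} [AddCommGroup M'] [Module R M'] {ρ' : Representation R (G2 p) M'}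
    {P : Submodule R M} (h : Adm ρ P) (f : M →ₗ[R] M')
    (hf : ∀ g, ∀ v ∈ P, f (ρ g v) = ρ' g (f v)) : Adm ρ' (P.map f) := by
  refine adm_of ?_ (h.adK.map f.toAddMonoidHom fun g _ => hf g)
  rintro g _ ⟨v, hv, rfl⟩
  exact ⟨_, h.gs g v hv, hf g v hv⟩

end Vale.Agent.P022K.WB

end
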