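import Mathlib

/-!
# The target `Y` of the Whittaker functional (block WB)

`Gh` = ghost vectors of `W(O_C)`, `BW` = normalised two sided ghost sequences (colimit along `V`),
`Y = (ℤ → C) ⧸ BW`; the values of the functional lie in the `p`-power torsion of `Y`.
Actions: `Y.mul e` (`e` a compatible system of `p`-power roots, e.g. `eps ψ b`), the shift
`Y.phi`, Galois `Y.gal`.
-/

namespace Vale.Agent.P022K.WB

open Finset

variable (p : ℕ) [Fact p.Prime] (C : Type) [NontriviallyNormedField C] [IsUltrametricDist C]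

/-- the valuation ring -/
def Oc : Subring C where
  carrier := {x | ‖x‖ ≤ 1}
  mul_mem' := fun {a b} ha hb => by
    simp only [Set.mem_ofPred_eq, norm_mul] at *
    exact mul_le_one₀ ha (norm_nonneg _) hb
  one_mem' := by simp
  add_mem' := fun {a b} ha hb => (IsUltrametricDist.norm_add_le_max a b).trans (max_le ha hb)
  zero_mem' := by simp
  neg_mem' := fun {a} ha => by simpa using ha

variable {C} in
theorem mem_Oc {x : C} : x ∈ Oc C ↔ ‖x‖ ≤ 1 := Iff.rfl

variable {C} in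
/-- ghost component -/
def ghs (a : ℕ → C) (i : ℕ) : C := ∑ j ∈ range (i + 1), (p : C) ^ j * a j ^ p ^ (i - j)

variable {C} in
omit [IsUltrametricDist C] [Fact p.Prime] in
theorem ghs_zero (a : ℕ → C) : ghs p a 0 = a 0 := by simp [ghs]

variable {C} in
theorem gh_coe (w : WittVector p (Oc C)) (i : ℕ) :
    ((WittVector.ghostComponent i w : Oc C) : C) = ghs p (fun j => (w.coeff j : C)) i := by
  rw [WittVector.ghostComponent_apply, aeval_wittPolynomial]
  simp [ghs]

/-- the ghost map `W(O) → C^ℕ` -/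
noncomputable def ghm : WittVector p (Oc C) →+* (ℕ → C) :=
  RingHom.pi fun i => (Oc C).subtype.comp (WittVector.ghostComponent i)

variable {C} in
theorem ghm_apply (w : WittVector p (Oc C)) (i : ℕ) :
    ghm p C w i = ((WittVector.ghostComponent i w : Oc C) : C) := rfl

/-- ghost vectors -/
noncomputable def Gh : Subring (ℕ → C) := (ghm p C).range

variable {p C} in
theorem mem_Gh {c : ℕ → C} :
    c ∈ Gh p C ↔ ∃ a : ℕ → C, (∀ j, ‖a j‖ ≤ 1) ∧ ∀ i, c i = ghs p a i := by
  constructor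
  · rintro ⟨w, rfl⟩
    exact ⟨fun j => (w.coeff j : C), fun j => (w.coeff j).2, fun i => gh_coe p w i⟩
  · rintro ⟨a, ha, h⟩
    refine ⟨WittVector.mk p fun j => ⟨a j, ha j⟩, funext fun i => ?_⟩
    rw [h i]
    exact gh_coe p _ i

variable {C} in
/-- `V` on ghost vectors -/
def Vg (c : ℕ → C) : ℕ → C
  | 0 => 0
  | i + 1 => (p : C) * c i

variable {p C} in
theorem Vg_mem {c : ℕ → C} (hc : c ∈ Gh p C) : Vg p c ∈ Gh p C := by
  obtain ⟨w, rfl⟩ := hc
  refine ⟨WittVector.verschiebung w, funext fun i => ?_⟩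
  cases i with
  | zero => simp [ghm_apply, Vg, WittVector.ghostComponent_zero_verschiebung]
  | succ i => simp [ghm_apply, Vg, WittVector.ghostComponent_verschiebung]

variable {p C} in
theorem teich_mem {a : C} (ha : ‖a‖ ≤ 1) : (fun i => a ^ p ^ i) ∈ Gh p C :=
  ⟨WittVector.teichmuller p ⟨a, ha⟩, funext fun i => by
    simp [ghm_apply, WittVector.ghostComponent_teichmuller]⟩

variable {C} in
/-- a ghost vector at level `n` (parameter `q^(1/p^n)`) as a two sided sequence: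
the entry `i` is the coefficient of `q^(p^i)` in the logarithm -/
noncomputable def lev (n : ℕ) : (ℕ → C) →+ (ℤ → C) where
  toFun c := fun i => if 0 ≤ i + n then c (i + n).toNat / (p : C) ^ (i + n).toNat else 0
  map_zero' := by funext i; simp
  map_add' := fun a b => by
    funext i
    by_cases h : 0 ≤ i + n <;> simp [h, add_div]

variable {C} in
omit [Fact p.Prime] [IsUltrametricDist C] in
theorem lev_apply (n : ℕ) (c : ℕ → C) (i : ℤ) :
    lev p n c i = if 0 ≤ i + n then c (i + n).toNat / (p : C) ^ (i + n).toNat else 0 := rfl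

variable {C} in
omit [Fact p.Prime] [IsUltrametricDist C] in
theorem lev_nat (n : ℕ) (c : ℕ → C) (k : ℕ) : lev p n c ((k : ℤ) - n) = c k / (p : C) ^ k := by
  simp [lev_apply]

variable {C} in
omit [Fact p.Prime] [IsUltrametricDist C] in
theorem lev_neg (n : ℕ) (c : ℕ → C) {i : ℤ} (h : i + n < 0) : lev p n c i = 0 := by
  simp [lev_apply, not_le.2 h]

variable {C} in
omit [Fact p.Prime] [IsUltrametricDist C] in
theorem lev_succ (n : ℕ) (c : ℕ → C) (i : ℤ) : lev p (n + 1) c i = lev p n c (i + 1) := by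
  have : i + ((n + 1 : ℕ) : ℤ) = i + 1 + n := by push_cast; ring
  simp only [lev_apply, this]

variable [CharZero C]

variable {C} in
omit [IsUltrametricDist C] in
theorem lev_Vg (n : ℕ) (c : ℕ → C) : lev p (n + 1) (Vg p c) = lev p n c := by
  have hp : (p : C) ≠ 0 := Nat.cast_ne_zero.2 (Fact.out : p.Prime).ne_zero
  funext i
  rcases lt_trichotomy (i + n) (-1) with h | h | h
  · rw [lev_neg, lev_neg] <;> push_cast <;> omega
  · have : i + ((n + 1 : ℕ) : ℤ) = 0 := by push_cast; omega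
    rw [lev_neg p n c (by omega), lev_apply, this]
    simp [Vg]
  · obtain ⟨k, hk⟩ : ∃ k : ℕ, i + n = k := ⟨(i + n).toNat, by omega⟩
    have h1 : i = ((k + 1 : ℕ) : ℤ) - ((n + 1 : ℕ) : ℤ) := by push_cast; omega
    have h2 : i = (k : ℤ) - n := by omega
    conv_lhs => rw [h1, lev_nat]
    conv_rhs => rw [h2, lev_nat]
    simp only [Vg]
    field_simp
    ring

variable {p C} in
theorem lev_up {n m : ℕ} (h : n ≤ m) {c : ℕ → C} (hc : c ∈ Gh p C) :
    ∃ c' ∈ Gh p C, lev p m c' = lev p n c := by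
  induction m, h using Nat.le_induction with
  | base => exact ⟨c, hc, rfl⟩
  | succ m _ ih =>
    obtain ⟨c', h1, h2⟩ := ih
    exact ⟨Vg p c', Vg_mem h1, by rw [lev_Vg, h2]⟩

/-- `colim_V W(O_C)` inside `C^ℤ` -/
noncomputable def BW : AddSubgroup (ℤ → C) where
  carrier := {l | ∃ n : ℕ, ∃ c ∈ Gh p C, l = lev p n c}
  zero_mem' := ⟨0, 0, zero_mem _, by simp⟩
  neg_mem' := by
    rintro _ ⟨n, c, hc, rfl⟩
    exact ⟨n, -c, neg_mem hc, by simp⟩
  add_mem' := by
    rintro _ _ ⟨n, c, hc, rfl⟩ ⟨m, d, hd, rfl⟩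
    obtain ⟨c', h1, h2⟩ := lev_up (le_max_left n m) hc
    obtain ⟨d', h3, h4⟩ := lev_up (le_max_right n m) hd
    exact ⟨max n m, c' + d', add_mem h1 h3, by rw [map_add, h2, h4]⟩

variable {p C} in
theorem mem_BW {l : ℤ → C} : l ∈ BW p C ↔ ∃ n : ℕ, ∃ c ∈ Gh p C, l = lev p n c := Iff.rfl

/-- compatible systems of `p`-power roots in `O_C` (the tilt of `O_C` as a monoid) -/
def Tt : Submonoid (ℤ → C) where
  carrier := {e | ∀ i, ‖e i‖ ≤ 1 ∧ e i ^ p = e (i + 1)}
  one_mem' := fun i => by simp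
  mul_mem' := fun {a b} ha hb i => ⟨by
    simp only [Pi.mul_apply, norm_mul]
    exact mul_le_one₀ (ha i).1 (norm_nonneg _) (hb i).1, by
    simp only [Pi.mul_apply, mul_pow, (ha i).2, (hb i).2]⟩

variable {p C} in
omit [IsUltrametricDist C] [CharZero C] [Fact p.Prime] in
theorem Tt_pow {e : ℤ → C} (he : e ∈ Tt p C) (i : ℤ) (k : ℕ) : e i ^ p ^ k = e (i + k) := by
  induction k with
  | zero => simp
  | succ k ih => rw [pow_succ, pow_mul, ih, (he _).2]; congr 1; push_cast; ring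

variable {p C} in
theorem mul_mem_BW {e l : ℤ → C} (he : e ∈ Tt p C) (hl : l ∈ BW p C) : e * l ∈ BW p C := by
  obtain ⟨n, c, hc, rfl⟩ := hl
  refine ⟨n, (fun i => e (-n) ^ p ^ i) * c, mul_mem (teich_mem (he _).1) hc, funext fun i => ?_⟩
  by_cases h : 0 ≤ i + n
  · have : -(n : ℤ) + ((i + n).toNat : ℤ) = i := by omega
    simp only [Pi.mul_apply, lev_apply, if_pos h, Tt_pow he, this, mul_div_assoc]
  · simp [lev_apply, h]

variable {p C} in
theorem shift_mem_BW {l : ℤ → C} : (fun i => l (i + 1)) ∈ BW p C ↔ l ∈ BW p C := by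
  constructor
  · rintro ⟨n, c, hc, h⟩
    refine ⟨n, Vg p c, Vg_mem hc, funext fun i => ?_⟩
    have h1 := congrFun h (i - 1)
    simp only [sub_add_cancel] at h1
    rw [h1, ← lev_Vg, lev_succ, sub_add_cancel]
  · rintro ⟨n, c, hc, rfl⟩
    exact ⟨n + 1, c, hc, funext fun i => (lev_succ p n c i).symm⟩

/-- isometric automorphisms -/
def Iso : Subgroup (C ≃+* C) where
  carrier := {s | ∀ x, ‖s x‖ = ‖x‖}
  one_mem' := fun _ => rfl
  mul_mem' := fun {a b} ha hb x => (ha (b x)).trans (hb x)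
  inv_mem' := fun {a} ha x => by
    have := ha (a⁻¹ x)
    rw [← this]
    exact congrArg _ (a.apply_symm_apply x)

variable {p C} in
theorem gal_mem_BW (s : Iso C) {l : ℤ → C} (hl : l ∈ BW p C) :
    (fun i => s.1 (l i)) ∈ BW p C := by
  obtain ⟨n, c, hc, rfl⟩ := hl
  obtain ⟨a, ha, h⟩ := mem_Gh.1 hc
  refine ⟨n, fun i => s.1 (c i), mem_Gh.2 ⟨fun j => s.1 (a j), fun j => (s.2 _).trans_le (ha j),
    fun i => ?_⟩, funext fun i => ?_⟩
  · simp [h i, ghs, map_sum]
  · by_cases h : 0 ≤ i + n <;> simp [lev_apply, h]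

/-- the target -/
def Y : Type := (ℤ → C) ⧸ BW p C

noncomputable instance : AddCommGroup (Y p C) :=
  inferInstanceAs (AddCommGroup ((ℤ → C) ⧸ BW p C))

namespace Y

/-- the class of a sequence -/
noncomputable def mk : (ℤ → C) →+ Y p C := QuotientAddGroup.mk' (BW p C)

variable {p C}

theorem mk_surj : Function.Surjective (mk p C) := QuotientAddGroup.mk'_surjective _

theorem mk_eq_zero {l : ℤ → C} : mk p C l = 0 ↔ l ∈ BW p C := QuotientAddGroup.eq_zero_iff l

theorem mk_eq_mk {l l' : ℤ → C} : mk p C l = mk p C l' ↔ l - l' ∈ BW p C := by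
  rw [← sub_eq_zero, ← map_sub, mk_eq_zero]

/-- multiplication by a Teichmueller element -/
noncomputable def mul (e : Tt p C) : Y p C →+ Y p C :=
  QuotientAddGroup.map (BW p C) (BW p C) (AddMonoidHom.mulLeft e.1)
    fun _ hl => mul_mem_BW e.2 hl

theorem mul_mk (e : Tt p C) (l : ℤ → C) : mul e (mk p C l) = mk p C (e.1 * l) := rfl

theorem mul_one (y : Y p C) : mul 1 y = y := by
  obtain ⟨l, rfl⟩ := mk_surj y
  rw [mul_mk]; simp

theorem mul_mul (e e' : Tt p C) (y : Y p C) : mul (e * e') y = mul e (mul e' y) := by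
  obtain ⟨l, rfl⟩ := mk_surj y
  simp only [mul_mk, Submonoid.coe_mul, mul_assoc]

variable (C) in
/-- the shift on sequences -/
def shift : (ℤ → C) ≃+ (ℤ → C) where
  toFun l := fun i => l (i + 1)
  invFun l := fun i => l (i - 1)
  left_inv l := by funext i; simp
  right_inv l := by funext i; simp
  map_add' _ _ := rfl

variable (p C) in
/-- `φ = diag(p,1)` -/
noncomputable def phi : Y p C ≃+ Y p C :=
  QuotientAddGroup.congr (BW p C) (BW p C) (shift C) (by
    ext l
    constructor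
    · rintro ⟨l', h, rfl⟩
      exact shift_mem_BW.2 h
    · intro h
      refine ⟨(shift C).symm l, shift_mem_BW.1 ?_, (shift C).apply_symm_apply l⟩
      have : (fun i => (shift C).symm l (i + 1)) = l := (shift C).apply_symm_apply l
      rw [this]; exact h)

theorem phi_mk (l : ℤ → C) : phi p C (mk p C l) = mk p C fun i => l (i + 1) := rfl

theorem phi_symm_mk (l : ℤ → C) : (phi p C).symm (mk p C l) = mk p C fun i => l (i - 1) := rfl

/-- Galois action -/
noncomputable def gal (s : Iso C) : Y p C →+ Y p C :=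
  QuotientAddGroup.map (BW p C) (BW p C)
    (AddMonoidHom.compLeft (s.1 : C →+* C).toAddMonoidHom ℤ) fun _ hl => gal_mem_BW s hl

theorem gal_mk (s : Iso C) (l : ℤ → C) : gal s (mk p C l) = mk p C fun i => s.1 (l i) := rfl

theorem gal_one (y : Y p C) : gal 1 y = y := by
  obtain ⟨l, rfl⟩ := mk_surj y
  rfl

theorem gal_mul (s t : Iso C) (y : Y p C) : gal (s * t) y = gal s (gal t y) := by
  obtain ⟨l, rfl⟩ := mk_surj y
  rfl

theorem gal_phi (s : Iso C) (y : Y p C) : gal s (phi p C y) = phi p C (gal s y) := by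
  obtain ⟨l, rfl⟩ := mk_surj y
  rfl

end Y

variable {C} in
/-- an additive character of `ℚ_p` with kernel `ℤ_p` -/
structure Psi (ψ : ℚ_[p] → C) : Prop where
  add : ∀ a b, ψ (a + b) = ψ a * ψ b
  ker : ∀ b, ψ b = 1 ↔ ‖b‖ ≤ 1

namespace Psi

variable {p C} {ψ : ℚ_[p] → C}

omit [IsUltrametricDist C] [CharZero C] in
theorem zero (h : Psi p ψ) : ψ 0 = 1 := (h.ker 0).2 (by simp)

omit [IsUltrametricDist C] [CharZero C] in
theorem nat (h : Psi p ψ) (k : ℕ) (b : ℚ_[p]) : ψ (k * b) = ψ b ^ k := by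
  induction k with
  | zero => simp [h.zero]
  | succ k ih => rw [Nat.cast_succ, add_mul, one_mul, h.add, ih, pow_succ]

omit [IsUltrametricDist C] [CharZero C] in
theorem tors (h : Psi p ψ) (b : ℚ_[p]) : ∃ k : ℕ, ψ b ^ p ^ k = 1 := by
  have hp : (1 : ℝ) < p := by exact_mod_cast (Fact.out : p.Prime).one_lt
  obtain ⟨k, hk⟩ := pow_unbounded_of_one_lt ‖b‖ hp
  refine ⟨k, ?_⟩
  rw [← h.nat, h.ker, norm_mul, Nat.cast_pow, norm_pow, Padic.norm_p, inv_pow,
    inv_mul_le_iff₀ (by positivity), mul_one]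
  exact hk.le

omit [IsUltrametricDist C] [CharZero C] in
theorem norm (h : Psi p ψ) (b : ℚ_[p]) : ‖ψ b‖ = 1 := by
  obtain ⟨k, hk⟩ := h.tors b
  have := congrArg Norm.norm hk
  rw [norm_pow, norm_one] at this
  exact (pow_eq_one_iff_of_nonneg (norm_nonneg _)
    (pow_ne_zero _ (Fact.out : p.Prime).ne_zero)).1 this

/-- the system `ε^b` -/
noncomputable def eps (h : Psi p ψ) (b : ℚ_[p]) : Tt p C :=
  ⟨fun i => ψ (b * (p : ℚ_[p]) ^ i), fun i => ⟨(h.norm _).le, by
    have hp : (p : ℚ_[p]) ≠ 0 := Nat.cast_ne_zero.2 (Fact.out : p.Prime).ne_zero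
    show ψ (b * (p : ℚ_[p]) ^ i) ^ p = ψ (b * (p : ℚ_[p]) ^ (i + 1))
    rw [← h.nat, zpow_add_one₀ hp]
    congr 1; ring⟩⟩

omit [CharZero C] [IsUltrametricDist C] in
theorem eps_val (h : Psi p ψ) (b : ℚ_[p]) (i : ℤ) : (h.eps b).1 i = ψ (b * (p : ℚ_[p]) ^ i) := rfl

omit [CharZero C] [IsUltrametricDist C] in
theorem eps_add (h : Psi p ψ) (a b : ℚ_[p]) : h.eps (a + b) = h.eps a * h.eps b :=
  Subtype.ext (funext fun i => by simp [eps_val, add_mul, h.add])

omit [CharZero C] [IsUltrametricDist C] in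
theorem eps_zero (h : Psi p ψ) : h.eps 0 = 1 :=
  Subtype.ext (funext fun i => by simp [eps_val, h.zero])

/-- the action of `(1 b; 0 1)` -/
noncomputable def n (h : Psi p ψ) (b : ℚ_[p]) : Y p C →+ Y p C := Y.mul (h.eps b)

theorem n_mk (h : Psi p ψ) (b : ℚ_[p]) (l : ℤ → C) :
    h.n b (Y.mk p C l) = Y.mk p C fun i => ψ (b * (p : ℚ_[p]) ^ i) * l i := rfl

theorem n_add (h : Psi p ψ) (a b : ℚ_[p]) (y : Y p C) : h.n (a + b) y = h.n a (h.n b y) := by
  rw [n, eps_add, Y.mul_mul]; rfl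

theorem n_zero (h : Psi p ψ) (y : Y p C) : h.n 0 y = y := by rw [n, eps_zero, Y.mul_one]

theorem phi_n (h : Psi p ψ) (b : ℚ_[p]) (y : Y p C) :
    Y.phi p C (h.n b y) = h.n (p * b) (Y.phi p C y) := by
  have hp : (p : ℚ_[p]) ≠ 0 := Nat.cast_ne_zero.2 (Fact.out : p.Prime).ne_zero
  obtain ⟨l, rfl⟩ := Y.mk_surj y
  simp only [n_mk, Y.phi_mk, zpow_add_one₀ hp]
  congr 1; funext i; congr 2; ring

theorem gal_n (h : Psi p ψ) (s : Iso C) (c : ℚ_[p]) (hs : ∀ b, s.1 (ψ b) = ψ (c * b))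
    (b : ℚ_[p]) (y : Y p C) : Y.gal s (h.n b y) = h.n (c * b) (Y.gal s y) := by
  obtain ⟨l, rfl⟩ := Y.mk_surj y
  simp only [n_mk, Y.gal_mk, map_mul, hs, mul_assoc]

end Psi

end Vale.Agent.P022K.WB
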