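import Vale.Agent.P022K.QT.Locm
import Vale.Agent.P022K.QT.If2
import Vale.Agent.P022K.F0.Kum
import Vale.Agent.P022K.WB.YDefs

/-!
# P022K, block WB: functionals on completed cohomology from logarithms of Kummer functions
-/

set_option autoImplicit false
set_option linter.all false

noncomputable section

namespace Vale.Agent.P022K.Sh

open Fre Vale.Agent.P022 Vale.Agent.P022.H218.L3

variable {G0 G : Type} [Group G0] [Group G]

theorem cor_one {U U' : Subgroup G} {x : G} (h : U' ≤ cj x U) : Cor U' {y | x⁻¹ * y ∈ U} U :=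
  ⟨fun v hv y hy => by
    have := U.mul_mem (mem_cj.1 (h hv)) hy
    simpa [mul_assoc] using this, (rep_one x).right, (rep_one x).fin⟩

theorem cj_one (U : Subgroup G) : cj 1 U = U := by
  ext y
  simp [mem_cj]

namespace Tw

variable {T : Tw G0 G} {U U' : Subgroup G}

theorem Nl.cj (k : T.Ok0) (hU : U ∈ T.Nl) (x : G) : cj x U ∈ T.Nl :=
  ⟨k.conj U hU.1 x, fun y γ hγ => hU.2 (y * x) γ (by
    rw [T.mem_Gam, mem_cj] at hγ
    rw [T.mem_Gam]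
    simpa [mul_assoc] using hγ)⟩

theorem Nl.inf (k : T.Ok0) (hU : U ∈ T.Nl) (hU' : U' ∈ T.Lev) : U ⊓ U' ∈ T.Nl :=
  ⟨k.inf U hU.1 U' hU', hU.2.of_le inf_le_left⟩

namespace Ax

variable {A : T.Ax} {p : ℕ}

theorem Ne_map {n n' : ℕ} (f : T.Hn n U →+ T.Hn n' U')
    (h : ∀ᶠ i in A.F, ∃ hU' : U' ∈ (A.w i).L0, ∀ (hU : U ∈ (A.w i).L0) b,
      f (T.hN n (Lc.L0.cor (A.w i) hU) b) = T.hN n' (Lc.L0.cor (A.w i) hU') (f b))
    {b : T.Hn n U} (hb : b ∈ A.Ne n U) : f b ∈ A.Ne n' U' := by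
  refine (Submodule.mem_iInf _).2 fun s => (Submodule.mem_iInf _).2 fun hs => ?_
  have h1 := Ne_le (Filter.inter_mem hs h) hb
  let Q : Submodule (ZMod n) (T.Hn n U) :=
    AddSubgroup.toZModSubmodule n ((A.Ns n' U' s).toAddSubgroup.comap f)
  refine (iSup₂_le fun i hi => iSup_le fun hU x hx => ?_ : A.Ns n U _ ≤ Q) h1
  obtain ⟨hU', e⟩ := hi.2
  refine Ft_le hi.1 hU' ((Submodule.mem_iInf _).2 fun m => ?_)
  obtain ⟨y, rfl⟩ := (Submodule.mem_iInf _).1 hx m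
  refine ⟨f y, (pow_comm (fun a => ?_) m y).symm⟩
  simp only [LinearMap.sub_apply, LinearMap.comp_apply, LinearMap.smul_apply, Module.End.one_apply,
    map_sub, map_nsmul, e hU]

theorem Ne_one (hA : A.Ok) (hU : U ∈ T.Lev) (hU' : U' ∈ T.Lev) {x : G} (h : U' ≤ cj x U) {n : ℕ}
    {b : T.Hn n U} (hb : b ∈ A.Ne n U) : T.hN n (cor_one h) b ∈ A.Ne n U' := by
  refine Ne_map (T.hN n (cor_one h)).toAddMonoidHom ?_ hb
  filter_upwards [hA.lev U' hU', hA.int x] with i h1 h2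
  refine ⟨h1, fun h3 b => ?_⟩
  obtain ⟨z, rfl⟩ := Submodule.Quotient.mk_surjective _ b
  refine congrArg Submodule.Quotient.mk (Subtype.ext (funext fun γ => funext fun y => ?_))
  have := (A.w i).fin
  let _ := Fintype.ofFinite (IsLocalRing.ResidueField ℤ_[A.l i])
  have i1 := hk_inv (Lc.L0.cor _ h3) (z.2.1 γ)
  have i2 := hk_inv (cor_one h) (z.2.1 γ)
  show hk _ U (hk _ U (z.1 γ)) y = hk _ U' (hk _ U (z.1 γ)) y
  have m := inv_mem ((h3.2.iff hU).2 h2)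
  have c : (A.w i).π (x * ((A.w i).ι ((A.w i).π x))⁻¹) = 1 := by
    rw [map_mul, map_inv, (A.w i).πι, mul_inv_cancel]
  rw [hk_one x i1, (h1.2.rep_To hU').hk i2, hk_one x (z.2.1 γ), rt, ← i1 _ _ m,
    (h3.2.rep_To hU).hk (z.2.1 γ)]
  refine Finset.sum_congr rfl fun j _ => ?_
  rw [rt, ← z.2.1 γ (_ * x) _ m, mul_assoc y, mul_assoc y, ← ((A.w i).com _ _ c).eq]
  simp only [mul_assoc]

/-- the change of coefficients -/
def coN (T : Tw G0 G) (U : Subgroup G) {n n' : ℕ} (l : ZMod n →+ ZMod n') :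
    T.Hn n U →+ T.Hn n' U :=
  QuotientAddGroup.map _ _ (AddMonoidHom.mk'
    (fun z : T.Z1 (Representation.trivial (ZMod n) G0 (ZMod n)) U =>
      (⟨fun γ x => l (z.1 γ x), Z1_map z.2 l⟩ :
        T.Z1 (Representation.trivial (ZMod n') G0 (ZMod n')) U))
    fun z z' => Subtype.ext (funext₂ fun γ x => map_add l _ _)) fun z hz => B1_map hz l

theorem coN_mk {n n' : ℕ} (l : ZMod n →+ ZMod n')
    (z : T.Z1 (Representation.trivial (ZMod n) G0 (ZMod n)) U) :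
    coN T U l (Submodule.Quotient.mk z) = Submodule.Quotient.mk ⟨_, Z1_map z.2 l⟩ := rfl

theorem isCo_coN {n n' : ℕ} (l : ZMod n →+ ZMod n') (b : T.Hn n U) :
    T.IsCo U l b (coN T U l b) := by
  obtain ⟨z, rfl⟩ := Submodule.Quotient.mk_surjective _ b
  exact ⟨z, _, rfl, rfl, fun _ _ => rfl⟩

theorem Ne_co (hA : A.Ok) (hU : U ∈ T.Lev) {n n' : ℕ} (l : ZMod n →+ ZMod n') {b : T.Hn n U}
    (hb : b ∈ A.Ne n U) : coN T U l b ∈ A.Ne n' U := by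
  refine Ne_map (coN T U l) ?_ hb
  filter_upwards [hA.lev U hU] with i h1
  exact ⟨h1, fun h3 b => (isCo_coN l _).unique ((isCo_coN l b).hC _)⟩

variable {H : Type} [Group H] [TopologicalSpace H] {th : H → (G → Mer) → G → Mer}

theorem GC.ne [NeZero p] (h : A.GC p th) (hU : U ∈ T.Nl) {k : ℕ} {s : H}
    [Finite (T.Hn (p ^ k) U)] (ex : ∀ a ∈ A.Ne (p ^ k) U, ∃ a', T.Ga (th s) (p ^ k) U a a')
    {a a' : T.Hn (p ^ k) U} (e : T.Ga (th s) (p ^ k) U a a') (ha : a ∈ A.Ne (p ^ k) U) :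
    a' ∈ A.Ne (p ^ k) U := by
  have z : T.Ga (th s) (p ^ k) U 0 0 := by
    obtain ⟨a, ha⟩ := ex 0 (zero_mem _)
    have e := h.add U hU k s _ _ _ _ ha ha
    rw [add_zero] at e
    rwa [left_eq_add.1 (h.uq U hU k s _ _ _ ha e)] at ha
  have ns : ∀ {a a'}, T.Ga (th s) (p ^ k) U a a' → ∀ n : ℕ,
      T.Ga (th s) (p ^ k) U (n • a) (n • a') := fun e n => by
    induction n with
    | zero => simpa using z
    | succ n ih => simpa only [succ_nsmul] using h.add U hU k s _ _ _ _ ih e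
  have sm : ∀ {a a'}, T.Ga (th s) (p ^ k) U a a' → ∀ c : ZMod (p ^ k),
      T.Ga (th s) (p ^ k) U (c • a) (c • a') := fun e c => by
    rw [← ZMod.natCast_zmod_val c, Nat.cast_smul_eq_nsmul, Nat.cast_smul_eq_nsmul]
    exact ns e _
  have ft : ∀ i (hw : U ∈ (A.w i).L0) {a a'}, T.Ga (th s) (p ^ k) U a a' →
      a ∈ (A.w i).Ft (p ^ k) hw → a' ∈ (A.w i).Ft (p ^ k) hw := fun i hw a a' e ha => by
    have : Finite (Module.End (ZMod (p ^ k)) (T.Hn (p ^ k) U)) :=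
      Finite.of_injective _ DFunLike.coe_injective
    have c := Lc.L0.cor _ hw
    obtain ⟨N, N0, hN⟩ := Fre.exists_idem (T.hN (p ^ k) c ∘ₗ T.hN (p ^ k) c -
      (qq ℤ_[A.l i] + 1) ^ 2 • (1 : Module.End (ZMod (p ^ k)) (T.Hn (p ^ k) U)))
    have h1 := hN 1 one_pos
    rw [mul_one] at h1
    refine (mem_Fit N0 h1).2 (h.uq U hU k s a _ _ ?_ e)
    conv => enter [5]; rw [← (mem_Fit N0 h1).1 ha]
    clear hN h1 N0
    induction N with
    | zero => exact e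
    | succ N ih =>
      rw [pow_succ', Module.End.mul_apply, Module.End.mul_apply]
      have := h.add U hU k s _ _ _ _
        (h.cor U hU U hU _ c k s _ _ (h.cor U hU U hU _ c k s _ _ ih))
        (sm (ns ih ((qq ℤ_[A.l i] + 1) ^ 2)) (-1))
      simp only [neg_smul, one_smul, ← sub_eq_add_neg] at this
      exact this
  obtain ⟨s₀, h0, h1⟩ := A.Ne_eq (p ^ k) U
  let Q : Submodule (ZMod (p ^ k)) (T.Hn (p ^ k) U) :=
    { carrier := {x | ∃ x' ∈ A.Ne (p ^ k) U, T.Ga (th s) (p ^ k) U x x'}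
      zero_mem' := ⟨0, zero_mem _, z⟩
      add_mem' := fun ⟨_, m, g⟩ ⟨_, m', g'⟩ => ⟨_, add_mem m m', h.add U hU k s _ _ _ _ g g'⟩
      smul_mem' := fun c _ ⟨_, m, g⟩ => ⟨_, Submodule.smul_mem _ c m, sm g c⟩ }
  have l : A.Ns (p ^ k) U s₀ ≤ Q := iSup₂_le fun i hi => iSup_le fun hw x hx => by
    have le := (Ft_le hi hw).trans (h1 s₀ h0 subset_rfl).le
    obtain ⟨x', g⟩ := ex x (le hx)
    exact ⟨x', le (ft i hw g hx), g⟩
  obtain ⟨x, m, g⟩ := l (Ne_le h0 ha)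
  rwa [h.uq U hU k s a _ _ e g]

variable {M : Type} [AddCommGroup M] {a : Representation ℤ G M} {g : Representation ℤ H M}
  {im : ∀ k U, T.Hn (p ^ k) U →+ M}

variable (A p a g th im) in
/-- the standing hypotheses -/
structure Kk : Prop where
  hp : p.Prime
  ok : T.Ok0
  ax : A.Ok
  gc : A.GC p th
  cc : T.CC p a g
  lk : A.Lk p a g th im

variable (A im) in
/-- **`φ` is a Kummer function of the vector `v`** (level `U`, exponent `p ^ k`) -/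
def Kd (U : Subgroup G) (k : ℕ) (φ : G → Mer) (v : M) : Prop :=
  U ∈ T.Nl ∧ ∃ (z : T.Z1 (Representation.trivial (ZMod (p ^ k)) G0 (ZMod (p ^ k))) U)
    (h : G → Mer), Submodule.Quotient.mk z ∈ A.Ne (p ^ k) U ∧
    im k U (Submodule.Quotient.mk z) = v ∧ T.Kum (p ^ k) U h z.1 ∧ h ^ p ^ k = φ

variable (K : A.Kk p th a g im) {k k' : ℕ} {φ ψ : G → Mer} {v v' : M}
include K

theorem Kk.pos (k : ℕ) : 0 < p ^ k := pow_pos K.hp.pos k

theorem Kd.mem (d : A.Kd im U k φ v) : φ ∈ T.RU U := by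
  obtain ⟨-, z, h, -, -, e, rfl⟩ := d
  exact e.pow_mem (K.pos k)

omit K in
theorem Kd.ne (d : A.Kd im U k φ v) (x : G) : φ x ≠ 0 := by
  obtain ⟨-, z, h, -, -, e, rfl⟩ := d
  exact e.pow_ne x

theorem Kd.fv (d : A.Kd im U k φ v) : v ∈ Fv a U ∧ p ^ k • v = 0 := by
  obtain ⟨hU, z, h, m, rfl, -⟩ := d
  exact (K.lk.bij U hU k).mapsTo m

theorem Kd.rt' (d : A.Kd im U k φ v) (hU' : U' ∈ T.Nl) {x : G} (le : U' ≤ cj x U) :
    A.Kd im U' k (rt x φ) (a x v) := by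
  have f := (d.fv K).1
  obtain ⟨hU, z, h, m, rfl, e, rfl⟩ := d
  refine ⟨hU', T.hZ _ (cor_one le) z, rt x h, Ne_one K.ax hU.1 hU'.1 le m,
    (K.lk.cor U hU U' hU' _ (cor_one le) k _).trans (hv_one f x), ?_, rfl⟩
  have := (e.rt x).mono le
  rwa [show (fun γ => rt x (z.1 γ)) = (T.hZ _ (cor_one le) z).1 from
    funext fun γ => (hk_one x (z.2.1 γ)).symm] at this

theorem Kd.rt (d : A.Kd im U k φ v) (x : G) : A.Kd im (cj x U) k (rt x φ) (a x v) :=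
  d.rt' K (Nl.cj K.ok d.1 x) le_rfl

theorem Kd.mono (d : A.Kd im U k φ v) (hU' : U' ∈ T.Nl) (le : U' ≤ U) : A.Kd im U' k φ v := by
  have := d.rt' K hU' (x := 1) (le.trans (cj_one U).ge)
  rwa [map_one, show Sh.rt 1 φ = φ from funext fun x => congrArg φ (mul_one x)] at this

theorem Kd.up (d : A.Kd im U k φ v) (k' : ℕ) : A.Kd im U (k + k') (φ ^ p ^ k') v := by
  obtain ⟨hU, z, h, m, rfl, e, rfl⟩ := d
  let l : ZMod (p ^ k) →+ ZMod (p ^ (k + k')) :=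
    ZMod.lift (p ^ k) ⟨zmultiplesHom _ ((p ^ k' : ℕ) : ZMod (p ^ (k + k'))), by
      rw [zmultiplesHom_apply, natCast_zsmul, nsmul_eq_mul, ← Nat.cast_mul, ← pow_add,
        ZMod.natCast_self]⟩
  have l1 : l 1 = ((p ^ k' : ℕ) : ZMod (p ^ (k + k'))) := by
    have := ZMod.lift_coe (p ^ k) ⟨zmultiplesHom _ ((p ^ k' : ℕ) : ZMod (p ^ (k + k'))), by
      rw [zmultiplesHom_apply, natCast_zsmul, nsmul_eq_mul, ← Nat.cast_mul, ← pow_add,
        ZMod.natCast_self]⟩ 1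
    rw [Int.cast_one] at this
    exact this.trans (one_zsmul _)
  have l2 : ∀ c, en (p ^ (k + k')) (l c) = en (p ^ k) c := fun c => by
    have : NeZero (p ^ k) := ⟨(K.pos k).ne'⟩
    have : NeZero (p ^ (k + k')) := ⟨(K.pos _).ne'⟩
    have e1 : en (p ^ (k + k')) (l 1) = en (p ^ k) 1 := by
      rw [l1, en_eq, en_eq, ← Nat.cast_one (R := ZMod (p ^ k)), ZMod.toCircle_natCast,
        ZMod.toCircle_natCast]
      congr 1
      have : (p : ℂ) ≠ 0 := Nat.cast_ne_zero.2 K.hp.ne_zero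
      push_cast
      field_simp
      ring
    rw [← ZMod.natCast_zmod_val c, ← nsmul_one, map_nsmul, en_nsmul (K.pos _), en_nsmul (K.pos _),
      e1]
  refine ⟨hU, ⟨_, Z1_map z.2 l⟩, h, Ne_co K.ax hU.1 l m,
    K.lk.up U hU k k' _ _ l (by rw [l1, Nat.cast_pow]) (isCo_coN l _),
    ⟨e.1, e.2.1, fun γ x => by rw [l2]; exact e.2.2 γ x⟩, by rw [pow_add, pow_mul]⟩

theorem Kd.mul (d : A.Kd im U k φ v) (d' : A.Kd im U k ψ v') : A.Kd im U k (φ * ψ) (v + v') := by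
  obtain ⟨hU, z, h, m, rfl, e, rfl⟩ := d
  obtain ⟨-, z', h', m', rfl, e', rfl⟩ := d'
  exact ⟨hU, z + z', h * h', add_mem m m', by rw [Submodule.Quotient.mk_add, map_add],
    e.mul (K.pos k) e', mul_pow _ _ _⟩

theorem Kd.uniq (d : A.Kd im U k φ v) (d' : A.Kd im U k ψ v) :
    ∃ u ∈ T.RU U, φ = ψ * u ^ p ^ k := by
  obtain ⟨hU, z, h, m, rfl, e, rfl⟩ := d
  obtain ⟨-, z', h', m', e0, e', rfl⟩ := d'
  exact (e.cob (K.pos k) e').1 (mk_eq_mk.1 ((K.lk.bij U hU k).injOn m m' e0.symm))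

theorem Kd.zero (d : A.Kd im U k φ v) {u : G → Mer} (hu : u ∈ T.RU U) (e : φ = u ^ p ^ k) :
    v = 0 := by
  obtain ⟨hU, z, h, m, rfl, e1, rfl⟩ := d
  have := (e1.cob (K.pos k) (kum_RU (one_mem _) fun _ => one_ne_zero)).2
    ⟨u, hu, by rw [one_pow, one_mul, e]⟩
  rw [show (Submodule.Quotient.mk z : T.Hn (p ^ k) U) = Submodule.Quotient.mk 0 from
    mk_eq_mk.2 this]
  exact map_zero _

/-- Kummer functions for a vector and its conjugate, at arbitrarily small levels -/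
theorem Kk.ex (v : M) (s : H) {U₀ : Subgroup G} (h0 : U₀ ∈ T.Lev) {k : ℕ} (hk : p ^ k • v = 0) :
    ∃ U ≤ U₀, ∃ φ, A.Kd im U k φ v ∧ A.Kd im U k (th s φ) (g s v) := by
  obtain ⟨U₁, h1, f⟩ := K.cc.sm v
  obtain ⟨U, hU, le, ex⟩ := K.gc.ex _ (Nl.inf K.ok h1 h0)
  obtain ⟨b, hb, rfl⟩ := (K.lk.bij U hU k).surjOn ⟨fun u hu => f u (le hu).1, hk⟩
  obtain ⟨b', e⟩ := (ex k b hb).1 s
  have : NeZero p := ⟨K.hp.ne_zero⟩
  have := K.ok.finHn hU.1 (p ^ k)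
  have hb' := K.gc.ne hU (fun c hc => (ex k c hc).1 s) e hb
  have e1 := K.lk.gal U hU k s _ _ e
  obtain ⟨z, z', rfl, rfl, e⟩ := e
  obtain ⟨h, h', e2, e3, e4⟩ := e (AddMonoidHom.id _)
  exact ⟨U, le.trans inf_le_right, _, ⟨hU, z, h, hb, rfl, e2, rfl⟩, hU, z', h', hb', e1, e3, e4.symm⟩

end Ax

end Tw

end Vale.Agent.P022K.Sh

namespace Vale.Agent.P022K.WB

open Sh Vale.Agent.P022.H218.L3

variable {G0 G : Type} [Group G0] [Group G] {T : Tw G0 G} {A : T.Ax} {p : ℕ} [Fact p.Prime]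
  {H : Type} [Group H] [TopologicalSpace H] {th : H → (G → Mer) → G → Mer}
  {M : Type} [AddCommGroup M] {a : Representation ℤ G M} {g : Representation ℤ H M}
  {im : ∀ k U, T.Hn (p ^ k) U →+ M}
  {C : Type} [NontriviallyNormedField C] [IsUltrametricDist C] [CharZero C]

variable (T p th) in
/-- **a logarithm** `La` on the functions with the property `FV` -/
structure Kl (FV : (G → Mer) → Prop) (La : (G → Mer) → ℤ → C) : Prop where
  gal : ∀ U ∈ T.Nl, ∀ φ ∈ T.RU U, ∀ s, (∀ x, th s φ x ≠ 0) → FV φ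
  root : ∀ U ∈ T.Nl, ∀ φ ∈ T.RU U, ∀ u ∈ T.RU U, ∀ k : ℕ, (∀ x, φ x ≠ 0) → FV φ →
    FV (φ * u ^ p ^ k) → FV u
  mul : ∀ U ∈ T.Nl, ∀ φ ∈ T.RU U, ∀ ψ ∈ T.RU U, (∀ x, φ x ≠ 0) → (∀ x, ψ x ≠ 0) → FV φ → FV ψ →
    FV (φ * ψ) ∧ La (φ * ψ) = La φ + La ψ
  mem : ∀ U ∈ T.Nl, ∀ φ ∈ T.RU U, (∀ x, φ x ≠ 0) → FV φ → La φ ∈ BW p C

variable {FV : (G → Mer) → Prop} {La : (G → Mer) → ℤ → C}

theorem Kl.pow (L : Kl T p th FV La) {U : Subgroup G} (hU : U ∈ T.Nl) {φ : G → Mer}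
    (h : φ ∈ T.RU U) (h0 : ∀ x, φ x ≠ 0) (f : FV φ) (n : ℕ) :
    FV (φ ^ (n + 1)) ∧ La (φ ^ (n + 1)) = (n + 1) • La φ := by
  induction n with
  | zero => simpa using f
  | succ n ih =>
    have := L.mul U hU _ (pow_mem h (n + 1)) _ h (fun x => pow_ne_zero _ (h0 x)) h0 ih.1 f
    rw [pow_succ, this.2, ih.2]
    exact ⟨this.1, (succ_nsmul _ _).symm⟩

theorem Kl.ppow (L : Kl T p th FV La) {U : Subgroup G} (hU : U ∈ T.Nl) {φ : G → Mer}
    (h : φ ∈ T.RU U) (h0 : ∀ x, φ x ≠ 0) (f : FV φ) (k : ℕ) :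
    FV (φ ^ p ^ k) ∧ La (φ ^ p ^ k) = (p : C) ^ k • La φ := by
  obtain ⟨n, hn⟩ := Nat.exists_eq_succ_of_ne_zero (pow_pos (Fact.out : p.Prime).pos k).ne'
  rw [← Nat.cast_pow, Nat.cast_smul_eq_nsmul, hn]
  exact L.pow hU h h0 f n

variable (p) in
/-- the class of `p ^ (-k) l` -/
def cl (k : ℕ) (l : ℤ → C) : Y p C := Y.mk p C (((p : C) ^ k)⁻¹ • l)

theorem cl_eq_zero {k : ℕ} {l : ℤ → C} : cl p k l = 0 ↔ ∃ l' ∈ BW p C, l = p ^ k • l' := by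
  have h : (p : C) ^ k ≠ 0 := pow_ne_zero _ (Nat.cast_ne_zero.2 (Fact.out : p.Prime).ne_zero)
  rw [cl, Y.mk_eq_zero]
  refine ⟨fun e => ⟨_, e, ?_⟩, ?_⟩
  · rw [← Nat.cast_smul_eq_nsmul C, Nat.cast_pow, smul_inv_smul₀ h]
  · rintro ⟨l', e, rfl⟩
    rwa [← Nat.cast_smul_eq_nsmul C, Nat.cast_pow, inv_smul_smul₀ h]

/-- Kummer functions with the property `FV` -/
theorem Kl.ex (L : Kl T p th FV La) (K : A.Kk p th a g im) (v : M) (s : H) {U₀ : Subgroup G}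
    (h0 : U₀ ∈ T.Lev) {k : ℕ} (hk : p ^ k • v = 0) :
    ∃ U ≤ U₀, ∃ φ, FV φ ∧ A.Kd im U k φ v ∧ A.Kd im U k (th s φ) (g s v) := by
  obtain ⟨U, le, φ, d, d'⟩ := K.ex v s h0 hk
  exact ⟨U, le, φ, L.gal U d.1 φ (d.mem K) s d'.ne, d, d'⟩

/-- **the functional of a logarithm** -/
theorem Kl.exW (L : Kl T p th FV La) (K : A.Kk p th a g im) : ∃ W : M →+ Y p C,
    ∀ U k φ v, A.Kd im U k φ v → FV φ → W v = cl p k (La φ) := by
  have hp : ∀ k, (p : C) ^ k ≠ 0 := fun k =>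
    pow_ne_zero _ (Nat.cast_ne_zero.2 (Fact.out : p.Prime).ne_zero)
  have up : ∀ {U k φ v}, A.Kd im U k φ v → FV φ → ∀ U' ∈ T.Nl, U' ≤ U → ∀ k', k ≤ k' →
      ∃ φ', A.Kd im U' k' φ' v ∧ FV φ' ∧ cl p k' (La φ') = cl p k (La φ) := by
    intro U k φ v d f U' hU' le k' hk
    obtain ⟨k', rfl⟩ := Nat.exists_eq_add_of_le hk
    obtain ⟨h1, h2⟩ := L.ppow d.1 (d.mem K) d.ne f k'
    refine ⟨_, (d.up K k').mono K hU' le, h1, ?_⟩
    rw [h2, cl, cl, pow_add, mul_inv, mul_smul, inv_smul_smul₀ (hp k')]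
  have two : ∀ {U k φ v U' k' φ' v'}, A.Kd im U k φ v → FV φ → A.Kd im U' k' φ' v' → FV φ' →
      ∃ V l ψ ψ', A.Kd im V l ψ v ∧ FV ψ ∧ A.Kd im V l ψ' v' ∧ FV ψ' ∧
        cl p l (La ψ) = cl p k (La φ) ∧ cl p l (La ψ') = cl p k' (La φ') := by
    intro U k φ v U' k' φ' v' d f d' f'
    have m := Tw.Nl.inf K.ok d.1 d'.1.1
    obtain ⟨ψ, h1, h2, h3⟩ := up d f _ m inf_le_left _ (le_max_left k k')
    obtain ⟨ψ', h4, h5, h6⟩ := up d' f' _ m inf_le_right _ (le_max_right k k')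
    exact ⟨_, _, ψ, ψ', h1, h2, h4, h5, h3, h6⟩
  have uq : ∀ {U k φ v U' k' φ'}, A.Kd im U k φ v → FV φ → A.Kd im U' k' φ' v → FV φ' →
      cl p k (La φ) = cl p k' (La φ') := by
    intro U k φ v U' k' φ' d f d' f'
    obtain ⟨V, l, ψ, ψ', h1, h2, h3, h4, h5, h6⟩ := two d f d' f'
    obtain ⟨u, hu, rfl⟩ := h1.uniq K h3
    have u0 : ∀ x, u x ≠ 0 := fun x e => h1.ne x (by
      rw [Pi.mul_apply, Pi.pow_apply, e, zero_pow (K.pos l).ne', mul_zero])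
    have fu := L.root V h1.1 _ (h3.mem K) u hu l h3.ne h4 h2
    obtain ⟨h7, h8⟩ := L.ppow h1.1 hu u0 fu l
    rw [← h5, ← h6, (L.mul V h1.1 _ (h3.mem K) _ (pow_mem hu _) h3.ne
      (fun x => pow_ne_zero _ (u0 x)) h4 h7).2, h8, cl, cl, smul_add, inv_smul_smul₀ (hp l),
      map_add, Y.mk_eq_zero.2 (L.mem V h1.1 u hu u0 fu), add_zero]
  have ex : ∀ v, ∃ U k φ, A.Kd im U k φ v ∧ FV φ := fun v => by
    obtain ⟨k, hk⟩ := K.cc.tor v
    obtain ⟨U₀, h0, -⟩ := K.ok.neat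
    obtain ⟨U, -, φ, f, d, -⟩ := L.ex K v 1 h0 hk
    exact ⟨U, k, φ, d, f⟩
  choose U k φ d f using ex
  refine ⟨AddMonoidHom.mk' (fun v => cl p (k v) (La (φ v))) fun v v' => ?_,
    fun U' k' φ' v d' f' => uq (d v) (f v) d' f'⟩
  obtain ⟨V, l, ψ, ψ', h1, h2, h3, h4, h5, h6⟩ := two (d v) (f v) (d v') (f v')
  obtain ⟨h7, h8⟩ := L.mul V h1.1 _ (h1.mem K) _ (h3.mem K) h1.ne h3.ne h2 h4
  rw [uq (d _) (f _) (h1.mul K h3) h7, ← h5, ← h6, h8, cl, cl, cl, smul_add, map_add]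

end Vale.Agent.P022K.WB
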