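import Vale.Agent.P022K.WB.Lo

/-!
# P022K, block WB: change of the field and of the additive character
-/

set_option autoImplicit false

noncomputable section

namespace Vale.Agent.P022K.WB

open Vale.Agent.P022K.FI

variable {p : ℕ} [Fact p.Prime] {C C' : Type} [NontriviallyNormedField C] [IsUltrametricDist C]
  [CharZero C] [NontriviallyNormedField C'] [IsUltrametricDist C'] [CharZero C']
  (ι : C' ≃+* C) (hι : ∀ x, ‖ι x‖ = ‖x‖)

include hι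

theorem map_mem_BW {l : ℤ → C'} (hl : l ∈ BW p C') : (fun i => ι (l i)) ∈ BW p C := by
  obtain ⟨n, c, hc, rfl⟩ := hl
  obtain ⟨a, ha, h⟩ := mem_Gh.1 hc
  refine ⟨n, fun i => ι (c i), mem_Gh.2 ⟨fun j => ι (a j), fun j => (hι _).trans_le (ha j),
    fun i => ?_⟩, funext fun i => ?_⟩
  · simp [h i, ghs, map_sum]
  · by_cases h : 0 ≤ i + n <;> simp [lev_apply, h]

omit [Fact p.Prime] [IsUltrametricDist C] [CharZero C] [IsUltrametricDist C'] [CharZero C'] in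
theorem norm_symm_iso (x : C) : ‖ι.symm x‖ = ‖x‖ := by rw [← hι, ι.apply_symm_apply]

theorem map_mem_BW_iff {l : ℤ → C'} : (fun i => ι (l i)) ∈ BW p C ↔ l ∈ BW p C' :=
  ⟨fun h => by simpa using map_mem_BW ι.symm (norm_symm_iso ι hι) h, map_mem_BW ι hι⟩

variable (p) in
/-- the map of the targets -/
def Y.chg : Y p C' →+ Y p C :=
  QuotientAddGroup.map (BW p C') (BW p C) (AddMonoidHom.compLeft (ι : C' →+* C).toAddMonoidHom ℤ)
    fun _ hl => map_mem_BW ι hι hl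

theorem Y.chg_mk (l : ℤ → C') : Y.chg p ι hι (Y.mk p C' l) = Y.mk p C fun i => ι (l i) := rfl

theorem Y.chg_eq_zero {y : Y p C'} : Y.chg p ι hι y = 0 ↔ y = 0 := by
  obtain ⟨l, rfl⟩ := Y.mk_surj y
  rw [Y.chg_mk, Y.mk_eq_zero, Y.mk_eq_zero, map_mem_BW_iff ι hι]

theorem Y.chg_phi (y : Y p C') : Y.chg p ι hι (Y.phi p C' y) = Y.phi p C (Y.chg p ι hι y) := by
  obtain ⟨l, rfl⟩ := Y.mk_surj y
  rfl

theorem Y.chg_n {ψ : ℚ_[p] → C} {ψ' : ℚ_[p] → C'} (h : Psi p ψ) (h' : Psi p ψ')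
    (e : ∀ b, ι (ψ' b) = ψ b) (b : ℚ_[p]) (y : Y p C') :
    Y.chg p ι hι (h'.n b y) = h.n b (Y.chg p ι hι y) := by
  obtain ⟨l, rfl⟩ := Y.mk_surj y
  simp only [Psi.n_mk, Y.chg_mk, map_mul, e]

theorem Y.chg_gal {s : Iso C} {s' : Iso C'} (e : ∀ x, ι (s'.1 x) = s.1 (ι x)) (y : Y p C') :
    Y.chg p ι hι (Y.gal s' y) = Y.gal s (Y.chg p ι hι y) := by
  obtain ⟨l, rfl⟩ := Y.mk_surj y
  simp only [Y.gal_mk, Y.chg_mk, e]

/-- the isometries of `C` act on `C'` -/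
def Iso.pull : Iso C →* Iso C' where
  toFun s := ⟨(ι.trans s.1).trans ι.symm, fun x =>
    (norm_symm_iso ι hι _).trans ((s.2 _).trans (hι x))⟩
  map_one' := Subtype.ext (RingEquiv.ext fun x => ι.symm_apply_apply x)
  map_mul' s _ := Subtype.ext (RingEquiv.ext fun _ =>
    congrArg (fun y => ι.symm (s.1 y)) (ι.apply_symm_apply _).symm)

omit [IsUltrametricDist C] [CharZero C] [IsUltrametricDist C'] [CharZero C'] in
theorem Iso.pull_spec (s : Iso C) (x : C') : ι ((Iso.pull ι hι s).1 x) = s.1 (ι x) :=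
  ι.apply_symm_apply _

omit [IsUltrametricDist C] [CharZero C] [IsUltrametricDist C'] [CharZero C'] in
theorem Iso.pull_surj (s' : Iso C') : ∃ s, Iso.pull ι hι s = s' :=
  ⟨Iso.pull ι.symm (norm_symm_iso ι hι) s', Subtype.ext (RingEquiv.ext fun x =>
    (ι.symm_apply_apply _).trans (congrArg s'.1 (ι.symm_apply_apply x)))⟩

omit [IsUltrametricDist C] [CharZero C] [IsUltrametricDist C'] [CharZero C'] in
theorem Hmg.pull (h : Hmg C) : Hmg C' := fun R _ f g e => by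
  obtain ⟨s, hs⟩ := h R ((ι : C' →+* C).comp f) ((ι : C' →+* C).comp g) fun a =>
    (hι _).trans ((e a).trans (hι _).symm)
  exact ⟨Iso.pull ι hι s, fun a => ι.injective ((Iso.pull_spec ι hι s _).trans (hs a))⟩

omit hι [IsUltrametricDist C] [CharZero C] [IsUltrametricDist C'] [CharZero C'] in
theorem Psi.chg {ψ' : ℚ_[p] → C'} (h : Psi p ψ') : Psi p fun b => ι (ψ' b) :=
  ⟨fun a b => by rw [h.add, map_mul], fun b => by rw [map_eq_one_iff _ ι.injective, h.ker]⟩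

variable {R M : Type*} [CommRing R] [AddCommGroup M] [Module R M]
  {ρ : Representation R (G2 p) M} {P : Submodule R M}

/-- **change of the field** -/
theorem Wg.push {ψ : ℚ_[p] → C} {ψ' : ℚ_[p] → C'} {Γ Γ' : Type} [Group Γ] [Group Γ']
    {act : Γ →* Iso C} {act' : Γ' →* Iso C'} {χ : Γ →* ℤ_[p]ˣ} {χ' : Γ' →* ℤ_[p]ˣ}
    {ok' : Og ψ' act' χ'} (ok : Og ψ act χ) (u : Γ → Γ') (hψ : ∀ b, ι (ψ' b) = ψ b)
    (hχ : ∀ s, χ' (u s) = χ s) (ha : ∀ s x, ι ((act' (u s)).1 x) = (act s).1 (ι x))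
    {γ : Γ' → M → M} {W : M →+ Y p C'} (w : Wg ok' ρ γ P W) :
    Wg ok ρ (fun s => γ (u s)) P ((Y.chg p ι hι).comp W) :=
  ⟨fun b v hv => (congrArg (Y.chg p ι hι) (w.n b v hv)).trans (Y.chg_n ι hι _ _ hψ b _),
    fun v hv => (congrArg (Y.chg p ι hι) (w.t v hv)).trans (Y.chg_phi ι hι _),
    fun s v hv => (congrArg (Y.chg p ι hι) (hχ s ▸ w.s (u s) v hv)).trans
      (Y.chg_gal ι hι (ha s) _)⟩

omit hι

section

variable (ι : C' ≃+* CS p) (hι : ∀ x, ‖ι x‖ = ‖x‖)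

omit [IsUltrametricDist C'] [CharZero C'] in
/-- the character on `C'` -/
theorem psiI : Psi p fun b => ι.symm (psi0 p b) := (psi0_ok p).chg ι.symm

omit [IsUltrametricDist C'] [CharZero C'] in
theorem cycI (s : Iso (CS p)) (b : ℚ_[p]) : (Iso.pull ι hι s).1 (ι.symm (psi0 p b)) =
    ι.symm (psi0 p (((chi0 p s : ℤ_[p]) : ℚ_[p]) * b)) := ι.injective (by
  rw [Iso.pull_spec, ι.apply_symm_apply, ι.apply_symm_apply, (psi0_ok p).cyc0])

/-- the standing hypotheses on `C'` -/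
theorem okI [CompleteSpace C'] [IsAlgClosed C'] :
    Og (fun b => ι.symm (psi0 p b)) (Iso.pull ι hι) (chi0 p) := by
  have k : ∀ s : Iso (CS p), (∀ b, (Iso.pull ι hι s).1 (ι.symm (psi0 p b)) = ι.symm (psi0 p b)) →
      s ∈ (chi0 p).ker := fun s hs => Units.ext ((psi0_ok p).chi0_eq (c := 1) fun b => by
    simpa [Iso.pull_spec] using congrArg ι (hs b))
  refine okh p C' _ _ _ (by rw [← hι, map_natCast]; exact CS.norm_p_lt p) (psiI ι)
    ((hmg0 p).pull ι hι) (fun s b => ?_) (fun s hs => ?_) fun s hs a _ => ?_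
  · have := cycI ι hι s.1 b
    rw [show chi0 p s.1 = 1 from s.2] at this
    simpa using this
  · obtain ⟨s, rfl⟩ := Iso.pull_surj ι hι s
    exact ⟨⟨s, k s fun b => hs _ (Ax.psi_alg (psiI ι) _ b)⟩, rfl⟩
  · obtain ⟨s, rfl⟩ := Iso.pull_surj ι hι s
    exact ⟨⟨s, k s hs⟩, rfl⟩

/-- functionals with values in `Y C'` give functionals with values in `Y (CS p)` -/
theorem Wg.of_iso [CompleteSpace C'] [IsAlgClosed C'] {γ : Iso (CS p) → M → M} {W : M →+ Y p C'}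
    (w : Wg (okI ι hι) ρ γ P W) : Wg (ok0 p) ρ γ P ((Y.chg p ι hι).comp W) :=
  w.push ι hι (ok0 p) id (fun _ => ι.apply_symm_apply _) (fun _ => rfl) (Iso.pull_spec ι hι)

end

omit [IsUltrametricDist C] [CharZero C] in
theorem Psi.ex_mul {ψ ψ' : ℚ_[p] → C} (h : Psi p ψ) (h' : Psi p ψ') :
    ∃ c : ℤ_[p], ∀ b, ψ' b = ψ (c * b) := by
  have hp : (p : ℚ_[p]) ≠ 0 := Nat.cast_ne_zero.2 (Fact.out : p.Prime).ne_zero
  have h0 : ∀ b, ψ b ≠ 0 := fun b => norm_ne_zero_iff.1 (by rw [h.norm]; exact one_ne_zero)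
  have h1 : ∀ k : ℕ, ∃ n : ℕ, ψ (n * (p : ℚ_[p])⁻¹ ^ k) = ψ' ((p : ℚ_[p])⁻¹ ^ k) := fun k =>
    ((h.primL k).eq_pow_of_pow_eq_one (h'.primL k).pow_eq_one).imp fun n e =>
      (h.nat n _).trans e.2
  let S : ℕ → Set ℤ_[p] := fun k => {c | ψ (c * (p : ℚ_[p])⁻¹ ^ k) = ψ' ((p : ℚ_[p])⁻¹ ^ k)}
  have cl : ∀ k, IsClosed (S k) := fun k => by
    obtain ⟨n, hn⟩ := h1 k
    have : S k = {c : ℤ_[p] | ‖((c : ℚ_[p]) - n) * (p : ℚ_[p])⁻¹ ^ k‖ ≤ 1} := Set.ext fun c => by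
      rw [Set.mem_ofPred_eq, Set.mem_ofPred_eq, ← h.ker, ← hn,
        ← sub_add_cancel ((c : ℚ_[p]) * _) (n * (p : ℚ_[p])⁻¹ ^ k), h.add, sub_mul,
        mul_eq_right₀ (h0 _)]
    rw [this]
    exact isClosed_le (by fun_prop) continuous_const
  obtain ⟨c, hc⟩ := IsCompact.nonempty_iInter_of_sequence_nonempty_isCompact_isClosed S
    (fun k c hc => by
      have := congrArg (· ^ p) hc
      simp only [← h.nat, ← h'.nat] at this
      rwa [mul_left_comm, pow_succ', mul_inv_cancel_left₀ hp] at this)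
    (fun k => (h1 k).elim fun n e => ⟨n, by simpa [S] using e⟩) (cl 0).isCompact cl
  refine ⟨c, fun b => ?_⟩
  obtain ⟨k, hk⟩ := h.tors b
  rw [← h.nat, h.ker] at hk
  obtain ⟨d, rfl⟩ : ∃ d : ℤ_[p], b = d * (p : ℚ_[p])⁻¹ ^ k := ⟨⟨_, hk⟩, by
    rw [inv_pow, eq_mul_inv_iff_mul_eq₀ (pow_ne_zero _ hp), mul_comm, ← Nat.cast_pow]⟩
  have h2 : ψ (c * _) = _ := Set.mem_iInter.1 hc k
  rw [mul_left_comm, h'.appr (h'.primL k).pow_eq_one d (ZMod.natCast_zmod_val _).symm,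
    h.appr (h2 ▸ (h'.primL k).pow_eq_one) d (ZMod.natCast_zmod_val _).symm, h2]

omit [IsUltrametricDist C] [CharZero C] in
/-- two characters differ by a unit -/
theorem Psi.unit {ψ ψ' : ℚ_[p] → C} (h : Psi p ψ) (h' : Psi p ψ') :
    ∃ c : ℤ_[p]ˣ, ∀ b, ψ' b = ψ (((c : ℤ_[p]) : ℚ_[p]) * b) := by
  obtain ⟨c, hc⟩ := h.ex_mul h'
  obtain ⟨c', hc'⟩ := h'.ex_mul h
  exact ⟨Units.mkOfMulEqOne c c' (h.inj fun b => by
    rw [PadicInt.coe_mul, mul_assoc, ← hc, ← hc', PadicInt.coe_one, one_mul]), hc⟩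

/-- two characters differ by an isometry -/
theorem Psi.iso {ψ ψ' : ℚ_[p] → CS p} (h : Psi p ψ) (h' : Psi p ψ') :
    ∃ τ : Iso (CS p), ∀ b, τ.1 (ψ b) = ψ' b := by
  obtain ⟨c, hc⟩ := h.unit h'
  obtain ⟨τ, rfl⟩ := sur0 p c
  exact ⟨τ, fun b => (h.cyc0 τ b).trans (hc b).symm⟩

/-- **change of the character** -/
theorem Wg.chg_psi {ψ ψ' : ℚ_[p] → C} {Γ : Type} [Group Γ] {act : Γ →* Iso C} {χ : Γ →* ℤ_[p]ˣ}
    {ok' : Og ψ' act χ} (ok : Og ψ act χ) {γ : Γ → M → M} (hP : Gs ρ P)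
    (com : ∀ s g, ∀ v ∈ P, ρ g (γ s v) = γ s (ρ g v)) : ∃ c : ℤ_[p]ˣ, ∀ W : M →+ Y p C,
      Wg ok' ρ γ P W → Wg ok ρ γ P (W.comp (ρ (dd (uq c) 1)).toAddMonoidHom) := by
  obtain ⟨c, hc⟩ := ok'.psi.unit ok.psi
  have e : ∀ (a b : ℚ_[p]ˣ) v, ρ (dd a 1) (ρ (dd b 1) v) = ρ (dd b 1) (ρ (dd a 1) v) :=
    fun a b v => by rw [← rho_mul, ← rho_mul, ← dd_mul, ← dd_mul, mul_comm a]
  refine ⟨c, fun W w => ⟨fun b v hv => ?_, fun v hv => ?_, fun s v hv => ?_⟩⟩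
  · show W (ρ _ (ρ _ v)) = ok.psi.n b (W (ρ _ v))
    rw [← rho_mul, dd_nn, rho_mul, w.n _ _ (hP _ v hv)]
    obtain ⟨l, hl⟩ := Y.mk_surj (W (ρ (dd (uq c) 1) v))
    rw [← hl, Psi.n_mk, Psi.n_mk]
    simp only [hc, Units.val_one, div_one, mul_assoc]
    rfl
  · exact (congrArg W (e _ _ v)).trans (w.t _ (hP _ v hv))
  · exact (congrArg W ((e _ _ _).trans (congrArg _ (com s _ v hv)))).trans (w.s s _ (hP _ v hv))

end Vale.Agent.P022K.WB
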