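import Vale.Agent.P022K.WB.Wt
import Vale.Agent.P022K.FI.Lv
import Vale.Agent.P022K.QT.If

/-!
# P022K, block WB: slices at the ordinary points of a tower, the statements
-/

set_option autoImplicit false
set_option linter.all false

open UpperHalfPlane
open scoped MatrixGroups

noncomputable section

namespace Vale.Agent.P022K.WB.Gl

open Vale.Agent.P022K.Sh Hon
open Vale.Agent.P022K.FI (Ord CS)

variable {G0 G : Type} [Group G0] [Group G] {T : Tw G0 G} {p : ℕ} [Fact p.Prime]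
  (w : T.Lc ℤ_[p] ℚ_[p]) (e : ℚ_[p] →+* ℂ) {ψ : ℚ_[p] → CS p} {χ : Iso (CS p) →* ℤ_[p]ˣ}
  (ok : Og ψ (MonoidHom.id _) χ) {M : Type} [AddCommGroup M] (a : Representation ℤ G M)
  (γ : Iso (CS p) → M → M) (W : ℍ → G → ℕ → ℚ_[p] → M →+ Y p (CS p))
  (R : Iso (CS p) → ℍ → G → ℍ → G → Prop)

/-- the laws of the slices `W τ y k b`; `R s τ y τ' y'` says that `s` moves the point -/
structure Ml : Prop where
  cong : ∀ τ y k b b', ‖b - b'‖ ≤ ‖(p : ℚ_[p]) ^ k‖ → W τ y k b = W τ y k b'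
  ref : ∀ τ y, Ord w e τ y → ∀ k b, 0 < k → ‖b‖ = 1 → ∀ v,
    W τ y k b v = ∑ j ∈ Finset.range p, W τ y (k + 1) (b + j * (p : ℚ_[p]) ^ k) v
  n : ∀ τ y, Ord w e τ y → ∀ (r : ℝ) v, ∃ k0, ∀ k, k0 ≤ k → ∀ b c, ‖b‖ = 1 → ‖c‖ ≤ r →
    W τ y k b (a (w.ι (nn c)) v) = ok.psi.n (b * c) (W τ y k b v)
  left : ∀ τ y, Ord w e τ y → ∀ δ k b, W (T.r δ • τ) (T.j δ * y) k b = W τ y k b
  away : ∀ τ y, Ord w e τ y → ∀ u, w.π u ∈ Zl ℚ_[p] → ∀ k b v,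
    W τ (y * u) k b v = W τ y k b (a u v)
  t : ∀ τ y, Ord w e τ y → ∀ k b v,
    W τ y k b (a (w.ι (tt p)) v) = Y.phi p (CS p) (W τ (y * w.ι (tt p)) k b v)
  tor : ∀ τ y, Ord w e τ y → ∀ (c : ℤ_[p]ˣ) k b, ‖b‖ = 1 → ∀ v,
    W τ (y * w.ι (dd (uq c) 1)) k (((c : ℤ_[p]) : ℚ_[p]) * b) v =
      zs (c : ℤ_[p]) (W τ y k b (a (w.ι (dd (uq c) 1)) v))
  gal : ∀ s τ y τ' y', R s τ y τ' y' → Ord w e τ y → ∀ k b v,
    W τ' y' k b (a (w.ι (dd (uq (χ s)) 1)) (γ s v)) = Y.gal s (W τ y k b v)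

/-- the action on the ordinary points of a level `U` -/
structure Pr (U : Subgroup G) : Prop where
  ine : ∀ s, In s → ∀ τ y, Ord w e τ y → ∃ δ, ∃ u ∈ U, w.π u ∈ Zl ℚ_[p] ∧
    R s τ y (T.r δ • τ) (T.j δ * y * u)
  fro : ∀ s, Fr s → ∀ τ y, Ord w e τ y → ∃ δ, ∃ u ∈ U, w.π u ∈ Zl ℚ_[p] ∧
    R s τ y (T.r δ • τ) (T.j δ * y * w.ι (tt p)⁻¹ * u)
  fin : ∀ τ y, Ord w e τ y → ∃ (n : ℕ) (col : Iso (CS p) → Fin n) (t : Iso (CS p) → ℍ)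
    (z : Iso (CS p) → G), (∀ s, R s τ y (t s) (z s) ∧ Ord w e (t s) (z s)) ∧
      ∀ s s', col s = col s' → FI.pm T U (t s) (z s) = FI.pm T U (t s') (z s')

/-- **VAN**: the slices vanish on the common kernel of the equivariant functionals -/
def VAN : Prop := T.Ok → FI.Cmp w e → ∀ {H : Type} [Group H] [TopologicalSpace H]
  (g : Representation ℤ H M) (d : Iso (CS p) →* H), T.CC p a g →
  (∃ U ∈ T.Nl, w.At (KK ℤ_[p] ℚ_[p]) U) → Ml w e ok a (fun s => g (d s)) W R →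
  (∀ U ∈ T.Nl, w.At (KK ℤ_[p] ℚ_[p]) U → Pr w e R U) → ∀ v,
  (∀ W', Wg ok (a.comp w.ι) (fun s => g (d s)) ⊤ W' → ∀ x, W' (a (w.ι x) v) = 0) →
  ∀ τ y, Ord w e τ y → ∃ k1, ∀ k, k1 ≤ k → ∀ b, ‖b‖ = 1 → W τ y k b v = 0

end Vale.Agent.P022K.WB.Gl
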