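import Vale.Agent.P022K.WB.Fl1

/-!
# Newton approximation; the tilt is algebraically closed
-/

set_option linter.all false

namespace Vale.Agent.P022K.WB

open Polynomial Filter Topology

section newt

variable {E : Type*} [NormedField E] [IsUltrametricDist E]

theorem taylor_mem (T : Subring E) {P : E[X]} (hP : ∀ i, P.coeff i ∈ T) {y : E} (hy : y ∈ T)
    (i : ℕ) : (taylor y P).coeff i ∈ T := by
  obtain ⟨Q, rfl⟩ := (mem_lifts P).1 ((lifts_iff_coeff_lifts (f := T.subtype) P).2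
    fun n => ⟨⟨_, hP n⟩, rfl⟩)
  have h := map_taylor Q (⟨y, hy⟩ : T) T.subtype
  rw [show T.subtype ⟨y, hy⟩ = y from rfl] at h
  rw [← h, coeff_map]
  exact Subtype.property _

theorem newt_step (T : Subring E) {th : ℝ} (h0 : 0 ≤ th)
    (hv : ∀ b ∈ T, ∀ b' ∈ T, b ≠ 0 → b' ≠ 0 → ∀ i > 0, ∃ c ∈ T, ‖c‖ ^ i * ‖b'‖ = ‖b‖)
    (hi : ∀ b ∈ T, b⁻¹ ∈ T)
    (hr : ∀ Q : E[X], (∀ i, Q.coeff i ∈ T) → (∀ i, ‖Q.coeff i‖ ≤ 1) →
      (∃ i > 0, ‖Q.coeff i‖ = 1) → ∃ y ∈ T, ‖y‖ ≤ 1 ∧ ‖Q.eval y‖ ≤ th)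
    {P : E[X]} (hP : ∀ i, P.coeff i ∈ T) (hm : P.Monic) (hd : 0 < P.natDegree) {y : E}
    (hy : y ∈ T) : ∃ z ∈ T, ‖P.eval z‖ ≤ th * ‖P.eval y‖ ∧
      ‖z - y‖ ^ P.natDegree ≤ ‖P.eval y‖ := by
  classical
  by_cases hz : P.eval y = 0
  · exact ⟨y, hy, by simp [hz], by simp [hz, hd.ne']⟩
  set R := taylor y P with hR
  have hRT := taylor_mem T hP hy
  have hb0 : R.coeff 0 = P.eval y := taylor_coeff_zero y P
  have hbd : R.coeff P.natDegree = 1 := by
    have := leadingCoeff_taylor y P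
    rwa [leadingCoeff, natDegree_taylor, hm.leadingCoeff] at this
  have hpos : 0 < ‖P.eval y‖ := norm_pos_iff.2 hz
  have h1 : ∀ i, 0 < i → R.coeff i ≠ 0 → ∃ c ∈ T, ‖c‖ ^ i * ‖R.coeff i‖ = ‖P.eval y‖ :=
    fun i hi0 hi1 => hv _ (hb0 ▸ hRT 0) _ (hRT i) hz hi1 i hi0
  choose! c hcT hc using h1
  obtain ⟨i0, hi0, hmin⟩ := (R.support.filter fun i => 0 < i).exists_min_image
    (fun i => ‖c i‖) ⟨P.natDegree, by simp [hbd, hd]⟩
  simp only [Finset.mem_filter, mem_support_iff] at hi0 hmin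
  have hle : ∀ i, 0 < i → ‖c i0‖ ^ i * ‖R.coeff i‖ ≤ ‖P.eval y‖ := fun i hi1 => by
    by_cases h : R.coeff i = 0
    · simp [h]
    · rw [← hc i hi1 h]
      have := hmin i ⟨h, hi1⟩
      gcongr
  have hco : ∀ i, (C (P.eval y)⁻¹ * R.comp (C (c i0) * X)).coeff i =
      (P.eval y)⁻¹ * (R.coeff i * c i0 ^ i) := fun i => by rw [coeff_C_mul, comp_C_mul_X_coeff]
  have hno : ∀ i, ‖(C (P.eval y)⁻¹ * R.comp (C (c i0) * X)).coeff i‖ =
      ‖c i0‖ ^ i * ‖R.coeff i‖ / ‖P.eval y‖ := fun i => by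
    rw [hco, norm_mul, norm_mul, norm_inv, norm_pow]
    ring
  have hcT0 := hcT i0 hi0.2 hi0.1
  obtain ⟨w, hwT, hw1, hw⟩ := hr (C (P.eval y)⁻¹ * R.comp (C (c i0) * X))
    (fun i => by
      rw [hco]
      exact mul_mem (hi _ (hb0 ▸ hRT 0)) (mul_mem (hRT i) (pow_mem hcT0 i)))
    (fun i => by
      rw [hno, div_le_one hpos]
      rcases i.eq_zero_or_pos with rfl | h
      · simp [hb0]
      · exact hle i h)
    ⟨i0, hi0.2, by rw [hno, hc i0 hi0.2 hi0.1, div_self hpos.ne']⟩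
  refine ⟨c i0 * w + y, add_mem (mul_mem hcT0 hwT) hy, ?_, ?_⟩
  · rw [eval_mul, eval_C, eval_comp, eval_mul, eval_C, eval_X, hR, taylor_eval, norm_mul, norm_inv,
      inv_mul_le_iff₀ hpos] at hw
    rw [mul_comm th]
    exact hw
  · have := hle _ hd
    rw [hbd, norm_one, mul_one] at this
    rw [add_sub_cancel_right, norm_mul]
    exact le_trans (pow_le_pow_left₀ (by positivity)
      (mul_le_of_le_one_right (norm_nonneg _) hw1) _) this

theorem newt [CompleteSpace E] (T : Subring E) (hc : IsClosed (T : Set E)) (th : ℝ)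
    (h0 : 0 ≤ th) (h1 : th < 1)
    (hv : ∀ b ∈ T, ∀ b' ∈ T, b ≠ 0 → b' ≠ 0 → ∀ i > 0, ∃ c ∈ T, ‖c‖ ^ i * ‖b'‖ = ‖b‖)
    (hi : ∀ b ∈ T, b⁻¹ ∈ T)
    (hr : ∀ Q : E[X], (∀ i, Q.coeff i ∈ T) → (∀ i, ‖Q.coeff i‖ ≤ 1) →
      (∃ i > 0, ‖Q.coeff i‖ = 1) → ∃ y ∈ T, ‖y‖ ≤ 1 ∧ ‖Q.eval y‖ ≤ th)
    (P : E[X]) (hP : ∀ i, P.coeff i ∈ T) (hm : P.Monic) (hd : 0 < P.natDegree) :
    ∃ y ∈ T, P.eval y = 0 := by
  have step := fun y (hy : y ∈ T) => newt_step T h0 hv hi hr hP hm hd hy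
  choose! f hfT hf1 hf2 using step
  have hT : ∀ n, f^[n] 0 ∈ T := fun n => by
    induction n with
    | zero => exact zero_mem T
    | succ n ih => rw [Function.iterate_succ_apply']; exact hfT _ ih
  have hb : ∀ n, ‖P.eval (f^[n] 0)‖ ≤ th ^ n * ‖P.eval 0‖ := fun n => by
    induction n with
    | zero => simp
    | succ n ih =>
      rw [Function.iterate_succ_apply', pow_succ', mul_assoc]
      exact (hf1 _ (hT n)).trans (mul_le_mul_of_nonneg_left ih h0)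
  have ht : Tendsto (fun n : ℕ => ‖P.eval (f^[n] 0)‖) atTop (𝓝 0) := by
    refine squeeze_zero (fun _ => norm_nonneg _) hb ?_
    simpa using (tendsto_pow_atTop_nhds_zero_of_lt_one h0 h1).mul_const ‖P.eval 0‖
  have hcs : CauchySeq fun n : ℕ => f^[n] 0 := by
    refine NonarchimedeanAddGroup.cauchySeq_of_tendsto_sub_nhds_zero ?_
    rw [NormedAddGroup.tendsto_nhds_zero]
    intro ε hε
    filter_upwards [ht.eventually (gt_mem_nhds (pow_pos hε P.natDegree))] with n hn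
    rw [Function.iterate_succ_apply']
    exact lt_of_pow_lt_pow_left₀ _ hε.le ((hf2 _ (hT n)).trans_lt hn)
  obtain ⟨y, hy⟩ := cauchySeq_tendsto_of_complete hcs
  refine ⟨y, hc.mem_of_tendsto hy (Eventually.of_forall hT), norm_eq_zero.1 ?_⟩
  exact tendsto_nhds_unique ((P.continuous.tendsto y).comp hy).norm ht

theorem root_le [IsAlgClosed E] (Q : E[X]) (hQ : ∀ i, ‖Q.coeff i‖ ≤ 1)
    (h : ∃ i > 0, ‖Q.coeff i‖ = 1) : ∃ y, ‖y‖ ≤ 1 ∧ Q.eval y = 0 := by
  obtain ⟨i0, hi0, h⟩ := h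
  have hQ0 : Q ≠ 0 := fun e => by simp [e] at h
  by_contra hc
  push Not at hc
  let S : E[X] → Prop := fun R => ∀ i, 0 < i → ‖R.coeff i‖ < ‖R.coeff 0‖
  have hC : ∀ c : E, c ≠ 0 → S (C c) := fun c hc i hi => by
    simp [coeff_C, hi.ne', hc]
  have hpos : ∀ R, S R → 0 < ‖R.coeff 0‖ := fun R hR => (norm_nonneg _).trans_lt (hR 1 one_pos)
  have hle : ∀ R, S R → ∀ i, ‖R.coeff i‖ ≤ ‖R.coeff 0‖ := fun R hR i => by
    rcases i.eq_zero_or_pos with rfl | hi
    · exact le_rfl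
    · exact (hR i hi).le
  have hmul : ∀ R R', S R → S R' → S (R * R') := fun R R' hR hR' i hi => by
    rw [mul_coeff_zero, coeff_mul, norm_mul]
    obtain ⟨⟨a, b⟩, hab, h1⟩ := IsUltrametricDist.exists_norm_finsetSum_le_of_nonempty
      (t := Finset.HasAntidiagonal.antidiagonal i) ⟨(0, i), by simp⟩ fun x => R.coeff x.1 * R'.coeff x.2
    have hab : a + b = i := Finset.HasAntidiagonal.mem_antidiagonal.1 hab
    refine h1.trans_lt ?_
    rw [norm_mul]
    rcases a.eq_zero_or_pos with rfl | ha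
    · exact mul_lt_mul_of_pos_left (hR' b (by omega)) (hpos R hR)
    · exact (mul_le_mul_of_nonneg_left (hle R' hR' b) (norm_nonneg _)).trans_lt
        (mul_lt_mul_of_pos_right (hR a ha) (hpos R' hR'))
  have hS : S Q := by
    rw [(IsAlgClosed.splits Q).eq_prod_roots]
    refine hmul _ _ (hC _ (leadingCoeff_ne_zero.2 hQ0))
      (Multiset.prod_induction S _ hmul (by simpa using hC 1 one_ne_zero) fun R hR => ?_)
    obtain ⟨r, hr, rfl⟩ := Multiset.mem_map.1 hR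
    have h1 : 1 < ‖r‖ := not_le.1 fun h2 => hc r h2 ((mem_roots hQ0).1 hr)
    intro i hi
    rw [coeff_sub, coeff_sub, coeff_C, if_neg hi.ne', coeff_X_zero, coeff_C_zero, sub_zero,
      zero_sub, norm_neg, coeff_X]
    split_ifs
    · simpa using h1
    · simpa using one_pos.trans h1
  exact absurd ((hS i0 hi0).trans_le (hQ 0)) (by rw [h]; exact lt_irrefl _)

end newt

namespace Fl

variable {p : ℕ} [Fact p.Prime] {C : Type} [NontriviallyNormedField C] [IsUltrametricDist C]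
  [CharZero C] [hp : Fact (‖(p : C)‖ < 1)] [CompleteSpace C] [IsAlgClosed C]

theorem sharp_sum {ι : Type*} (s : Finset ι) (f : ι → Fl p C) (h : ∀ i ∈ s, ‖f i‖ ≤ 1) :
    ‖sharp (∑ i ∈ s, f i) - ∑ i ∈ s, sharp (f i)‖ ≤ ‖(p : C)‖ := by
  classical
  induction s using Finset.induction_on with
  | empty => simp
  | insert a s ha ih =>
    have h1 : ∀ i ∈ s, ‖f i‖ ≤ 1 := fun i hi => h i (Finset.mem_insert_of_mem hi)
    rw [Finset.sum_insert ha, Finset.sum_insert ha]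
    refine ntri (sharp_add (h a (Finset.mem_insert_self _ _))
      (IsUltrametricDist.norm_sum_le_of_forall_le_of_nonneg zero_le_one h1)) ?_
    rw [add_sub_add_left_eq_sub]
    exact ih h1

theorem sharp_eval (Q : (Fl p C)[X]) (hQ : ∀ i, ‖Q.coeff i‖ ≤ 1) {y : Fl p C} (hy : ‖y‖ ≤ 1) :
    ‖sharp (Q.eval y) - ∑ i ∈ Finset.range (Q.natDegree + 1), sharp (Q.coeff i) * sharp y ^ i‖ ≤
      ‖(p : C)‖ := by
  have := sharp_sum (Finset.range (Q.natDegree + 1)) (fun i => Q.coeff i * y ^ i) fun i _ => by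
    rw [norm_mul, norm_pow]
    exact mul_le_one₀ (hQ i) (by positivity) (pow_le_one₀ (norm_nonneg _) hy)
  simpa only [map_mul, map_pow, ← eval_eq_sum_range] using this

/-- the polynomial of the untilts of the coefficients -/
noncomputable def shP (Q : (Fl p C)[X]) : C[X] :=
  ∑ i ∈ Finset.range (Q.natDegree + 1), monomial i (sharp (Q.coeff i))

theorem coeff_shP (Q : (Fl p C)[X]) (i : ℕ) : (shP Q).coeff i = sharp (Q.coeff i) := by
  simp only [shP, finset_sum_coeff, coeff_monomial, Finset.sum_ite_eq', Finset.mem_range]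
  split_ifs with h
  · rfl
  · rw [coeff_eq_zero_of_natDegree_lt (by omega), map_zero]

theorem sharp_eval' (Q : (Fl p C)[X]) (hQ : ∀ i, ‖Q.coeff i‖ ≤ 1) {y : Fl p C} (hy : ‖y‖ ≤ 1) :
    ‖sharp (Q.eval y) - (shP Q).eval (sharp y)‖ ≤ ‖(p : C)‖ := by
  simpa only [shP, eval_finset_sum, eval_monomial] using sharp_eval Q hQ hy

instance algClosed : IsAlgClosed (Fl p C) := by
  refine IsAlgClosed.of_exists_root _ fun P hm hP => ?_
  obtain ⟨y, -, hy⟩ := newt (⊤ : Subring (Fl p C)) isClosed_univ ‖(p : C)‖ (norm_nonneg _) hp.out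
    (fun b _ b' _ _ hb' i hi => by
      obtain ⟨z, hz⟩ := IsAlgClosed.exists_pow_nat_eq (sharp b / sharp b') hi
      obtain ⟨c, rfl⟩ := sharp_surj (p := p) z
      refine ⟨c, trivial, ?_⟩
      rw [← norm_sharp c, ← norm_pow, hz, norm_div, norm_sharp, norm_sharp,
        div_mul_cancel₀ _ (norm_ne_zero_iff.2 hb')])
    (fun _ _ => trivial)
    (fun Q _ hQ h => by
      obtain ⟨z, hz1, hz⟩ := root_le (shP Q) (fun i => by rw [coeff_shP]; exact hQ i)
        (by simpa only [coeff_shP, norm_sharp] using h)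
      obtain ⟨y, rfl⟩ := sharp_surj (p := p) z
      have := sharp_eval' Q hQ (y := y) hz1
      rw [hz, sub_zero] at this
      exact ⟨y, trivial, hz1, this⟩)
    P (fun _ => trivial) hm (natDegree_pos_iff_degree_pos.2 (degree_pos_of_irreducible hP))
  exact ⟨y, hy⟩

end Fl

end Vale.Agent.P022K.WB
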