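import Mathlib

/-!
# P022K, block WB: the equation `y = A φ(y)` has finitely many solutions in almost elements
-/

set_option autoImplicit false

noncomputable section

namespace Vale.Agent.P022K.WB

open Polynomial Filter

/-! ## a fixed vector of a Frobenius semilinear map -/

section Lang

variable {p : ℕ} [Fact p.Prime] {F : Type*} [Field F]

/-- the polynomials of the recursion -/
def lq (p : ℕ) (c : ℕ → F) : ℕ → F[X]
  | 0 => C (c 0) * X ^ p
  | i + 1 => lq p c i ^ p + C (c (i + 1)) * X ^ p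

theorem lq_dvd (c : ℕ → F) (i : ℕ) : X ^ 2 ∣ lq p c i := by
  have h : (X : F[X]) ^ 2 ∣ X ^ p := pow_dvd_pow _ (Fact.out : p.Prime).two_le
  induction i with
  | zero => exact h.mul_left _
  | succ i ih => exact dvd_add (ih.pow (Fact.out : p.Prime).ne_zero) (h.mul_left _)

theorem lq_deg {c : ℕ → F} (h0 : c 0 ≠ 0) (i : ℕ) : p ≤ (lq p c i).natDegree := by
  have h1 := (Fact.out : p.Prime).one_lt
  induction i with
  | zero => rw [lq, natDegree_C_mul_X_pow _ _ h0]
  | succ i ih =>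
    have h2 : p < (lq p c i ^ p).natDegree := by
      rw [natDegree_pow]
      nlinarith
    rw [lq, natDegree_add_eq_left_of_natDegree_lt ((natDegree_C_mul_X_pow_le _ _).trans_lt h2)]
    exact h2.le

variable [IsAlgClosed F]

theorem lq_root {c : ℕ → F} (h0 : c 0 ≠ 0) (i : ℕ) : ∃ t, t ≠ 0 ∧ (lq p c i).eval t = t := by
  obtain ⟨r, hr⟩ := lq_dvd (p := p) c i
  have hr0 : r ≠ 0 := fun e => by
    have := lq_deg (p := p) h0 i
    rw [hr, e, mul_zero, natDegree_zero] at this
    exact absurd this (not_le.2 (Fact.out : p.Prime).pos)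
  obtain ⟨t, ht⟩ := IsAlgClosed.exists_root (X * r - C 1) (by
    refine (natDegree_pos_iff_degree_pos.1 ?_).ne'
    rw [natDegree_sub_C, natDegree_X_mul hr0]
    omega)
  have ht' : t * r.eval t = 1 := by simpa [sub_eq_zero] using ht
  refine ⟨t, left_ne_zero_of_mul_eq_one ht', ?_⟩
  rw [hr, eval_mul, eval_pow, eval_X, pow_two, mul_assoc, ht', mul_one]

theorem lang {V : Type*} [AddCommGroup V] [Module F V] [Module.Finite F V] (L : V →+ V)
    (hL : ∀ (c : F) v, L (c • v) = c ^ p • L v) (inj : Function.Injective L) {v : V} (hv : v ≠ 0) :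
    ∃ w, w ≠ 0 ∧ L w = w := by
  classical
  have hex : ∃ d, ∃ c : ℕ → F, L^[d] v = ∑ i ∈ Finset.range d, c i • L^[i] v := by
    obtain ⟨d, hd⟩ := monotone_stabilizes_iff_noetherian.2 (inferInstance : IsNoetherian F V)
      ⟨fun d => Submodule.span F ((fun i => L^[i] v) '' (Finset.range d : Set ℕ)),
        fun a b h => Submodule.span_mono (Set.image_mono (by simpa using h))⟩
    have h1 : L^[d] v ∈ Submodule.span F ((fun i => L^[i] v) '' (Finset.range d : Set ℕ)) := by
      have : Submodule.span F ((fun i => L^[i] v) '' (Finset.range d : Set ℕ)) =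
          Submodule.span F ((fun i => L^[i] v) '' (Finset.range (d + 1) : Set ℕ)) :=
        hd (d + 1) d.le_succ
      rw [this]
      exact Submodule.subset_span ⟨d, by simp, rfl⟩
    obtain ⟨c, hc⟩ := (Submodule.mem_span_image_finset_iff_exists_fun' F).1 h1
    exact ⟨d, c, hc.symm⟩
  obtain ⟨c, hc⟩ := Nat.find_spec hex
  have hmin : ∀ d < Nat.find hex,
      ¬ ∃ c : ℕ → F, L^[d] v = ∑ i ∈ Finset.range d, c i • L^[i] v := fun d => Nat.find_min hex
  generalize Nat.find hex = d at hc hmin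
  obtain _ | e := d
  · exact absurd (by simpa using hc) hv
  have h0 : c 0 ≠ 0 := fun h0 => by
    choose b hb using fun i => IsAlgClosed.exists_pow_nat_eq (c (i + 1)) (Fact.out : p.Prime).pos
    refine hmin e e.lt_succ_self ⟨b, inj ?_⟩
    rw [← Function.iterate_succ_apply' L, hc, Finset.sum_range_succ', h0, zero_smul, add_zero,
      map_sum]
    refine Finset.sum_congr rfl fun i _ => ?_
    rw [hL, hb, Function.iterate_succ_apply']
  obtain ⟨t, ht0, ht⟩ := lq_root (p := p) h0 e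
  refine ⟨∑ i ∈ Finset.range (e + 1), (lq p c i).eval t • L^[i] v, fun h => ?_, ?_⟩
  · refine hmin e e.lt_succ_self ⟨fun i => -(t⁻¹ * (lq p c i).eval t), ?_⟩
    rw [Finset.sum_range_succ, ht, add_eq_zero_iff_eq_neg] at h
    simp only [neg_smul, mul_smul, Finset.sum_neg_distrib, ← Finset.smul_sum]
    rw [h, smul_neg, neg_neg, inv_smul_smul₀ ht0]
  · rw [map_sum, Finset.sum_range_succ, ht, hL, ← Function.iterate_succ_apply' L, hc,
      Finset.sum_range_succ', Finset.sum_range_succ', smul_add, ← add_assoc, Finset.smul_sum,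
      ← Finset.sum_add_distrib]
    congr 1
    · refine Finset.sum_congr rfl fun i _ => ?_
      rw [hL, ← Function.iterate_succ_apply' L, smul_smul, ← add_smul]
      simp only [lq, eval_add, eval_pow, eval_mul, eval_C, eval_X, mul_comm (t ^ p)]
    · simp only [lq, eval_pow, eval_mul, eval_C, eval_X, smul_smul, mul_comm (t ^ p)]

variable [CharP F p]

theorem eig_row {n : ℕ} (A : Matrix (Fin (n + 1)) (Fin (n + 1)) F) :
    ∃ l : Fin (n + 1) → F, l ≠ 0 ∧ ∃ c : F, ∀ j, ∑ i, l i * A i j = c * l j ^ p := by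
  classical
  by_cases h : A.det = 0
  · obtain ⟨l, h1, h2⟩ := Matrix.exists_vecMul_eq_zero_iff.2 h
    exact ⟨l, h1, 0, fun j => by simpa [Matrix.vecMul, dotProduct] using congrFun h2 j⟩
  · have hu : IsUnit A.det := Ne.isUnit h
    let L : (Fin (n + 1) → F) →+ (Fin (n + 1) → F) :=
      { toFun := fun l => Matrix.vecMul (fun i => l i ^ p) A⁻¹
        map_zero' := by simp [(Fact.out : p.Prime).ne_zero, ← Pi.zero_def]
        map_add' := fun a b => by
          rw [← Matrix.add_vecMul]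
          congr 1
          funext i
          simp [add_pow_char] }
    have hA : ∀ l, Matrix.vecMul (L l) A = fun i => l i ^ p := fun l => by
      show Matrix.vecMul (Matrix.vecMul (fun i => l i ^ p) A⁻¹) A = _
      rw [Matrix.vecMul_vecMul, Matrix.nonsing_inv_mul _ hu, Matrix.vecMul_one]
    obtain ⟨w, h1, h2⟩ := lang (F := F) (p := p) L (fun c l => by
        show Matrix.vecMul (fun i => (c • l) i ^ p) A⁻¹ =
          c ^ p • Matrix.vecMul (fun i => l i ^ p) A⁻¹
        rw [← Matrix.smul_vecMul]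
        congr 1
        funext i
        simp [mul_pow])
      ((injective_iff_map_eq_zero L).2 fun l hl => funext fun i => by
        have := congrFun (hA l) i
        rw [hl, Matrix.zero_vecMul] at this
        exact pow_eq_zero_iff (Fact.out : p.Prime).ne_zero |>.1 this.symm)
      (v := fun _ => 1) fun e => one_ne_zero (congrFun e 0)
    refine ⟨w, h1, 1, fun j => ?_⟩
    have := congrFun (hA w) j
    rw [h2] at this
    simpa [Matrix.vecMul, dotProduct] using this

end Lang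

/-! ## almost elements as sequences -/

section Seq

variable {p : ℕ} [Fact p.Prime] {F : Type*} [NormedField F] [IsUltrametricDist F]

/-- almost integral sequences -/
def Nul (a : ℕ → F) : Prop := ∀ s : ℝ, 1 < s → ∀ᶠ n in atTop, ‖a n‖ ≤ s

/-- sequences that converge modulo almost integral elements -/
def Cau (a : ℕ → F) : Prop :=
  ∀ s : ℝ, 1 < s → ∃ N, ∀ m, N ≤ m → ∀ n, N ≤ n → ‖a m - a n‖ ≤ s

theorem uadd {a b : F} {s : ℝ} (ha : ‖a‖ ≤ s) (hb : ‖b‖ ≤ s) : ‖a + b‖ ≤ s :=
  (IsUltrametricDist.norm_add_le_max a b).trans (max_le ha hb)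

omit [IsUltrametricDist F] in
theorem umul {c a : F} {s : ℝ} (hc : ‖c‖ ≤ 1) (ha : ‖a‖ ≤ s) : ‖c * a‖ ≤ s := by
  rw [norm_mul]
  exact (mul_le_of_le_one_left (norm_nonneg _) hc).trans ha

omit [IsUltrametricDist F] in
theorem Nul.zero : Nul fun _ : ℕ => (0 : F) := fun s hs => Eventually.of_forall fun _ => by
  simpa using zero_le_one.trans hs.le

theorem Nul.add {a b : ℕ → F} (ha : Nul a) (hb : Nul b) : Nul fun n => a n + b n := fun s hs =>
  ((ha s hs).and (hb s hs)).mono fun _ h => uadd h.1 h.2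

omit [IsUltrametricDist F] in
theorem Nul.mul {c : F} (hc : ‖c‖ ≤ 1) {a : ℕ → F} (ha : Nul a) : Nul fun n => c * a n :=
  fun s hs => (ha s hs).mono fun _ h => umul hc h

omit [IsUltrametricDist F] in
theorem Nul.congr {a b : ℕ → F} (ha : Nul a) (e : ∀ n, a n = b n) : Nul b := funext e ▸ ha

theorem Nul.sub {a b : ℕ → F} (ha : Nul a) (hb : Nul b) : Nul fun n => a n - b n :=
  (ha.add (hb.mul (c := -1) (by simp))).congr fun n => by ring

theorem Nul.sum {ι : Type*} (S : Finset ι) {a : ι → ℕ → F} (h : ∀ i ∈ S, Nul (a i)) :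
    Nul fun n => ∑ i ∈ S, a i n := by
  classical
  induction S using Finset.induction_on with
  | empty => exact Nul.zero
  | insert i S hi ih =>
    exact ((h i (Finset.mem_insert_self _ _)).add
      (ih fun j hj => h j (Finset.mem_insert_of_mem hj))).congr fun n => by
        rw [Finset.sum_insert hi]

theorem exists_root_lt {s : ℝ} (hs : 1 < s) : ∃ t : ℝ, 1 < t ∧ t ^ p ≤ s :=
  ⟨s ^ ((p : ℝ)⁻¹), Real.one_lt_rpow hs (inv_pos.2 (Nat.cast_pos.2 (Fact.out : p.Prime).pos)),
    (Real.rpow_inv_natCast_pow (zero_le_one.trans hs.le) (Fact.out : p.Prime).ne_zero).le⟩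

omit [IsUltrametricDist F] in
theorem Nul.pow {a : ℕ → F} (ha : Nul a) : Nul fun n => a n ^ p := fun s hs => by
  obtain ⟨t, h1, h2⟩ := exists_root_lt (p := p) hs
  refine (ha t h1).mono fun n h => ?_
  rw [norm_pow]
  exact (pow_le_pow_left₀ (norm_nonneg _) h p).trans h2

theorem Cau.add {a b : ℕ → F} (ha : Cau a) (hb : Cau b) : Cau fun n => a n + b n := fun s hs => by
  obtain ⟨N, h1⟩ := ha s hs
  obtain ⟨M, h2⟩ := hb s hs
  refine ⟨max N M, fun m hm n hn => ?_⟩
  rw [add_sub_add_comm]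
  exact uadd (h1 m (le_of_max_le_left hm) n (le_of_max_le_left hn))
    (h2 m (le_of_max_le_right hm) n (le_of_max_le_right hn))

omit [IsUltrametricDist F] in
theorem Cau.mul {c : F} (hc : ‖c‖ ≤ 1) {a : ℕ → F} (ha : Cau a) : Cau fun n => c * a n :=
  fun s hs => by
    obtain ⟨N, h1⟩ := ha s hs
    exact ⟨N, fun m hm n hn => by
      rw [← mul_sub]
      exact umul hc (h1 m hm n hn)⟩

omit [IsUltrametricDist F] in
theorem Cau.const (c : F) : Cau fun _ => c := fun s hs => ⟨0, fun _ _ _ _ => by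
  simpa using zero_le_one.trans hs.le⟩

theorem Cau.sum {ι : Type*} (S : Finset ι) {a : ι → ℕ → F} (h : ∀ i ∈ S, Cau (a i)) :
    Cau fun n => ∑ i ∈ S, a i n := by
  classical
  induction S using Finset.induction_on with
  | empty => exact Cau.const 0
  | insert i S hi ih =>
    simp only [Finset.sum_insert hi]
    exact (h i (Finset.mem_insert_self _ _)).add (ih fun j hj => h j (Finset.mem_insert_of_mem hj))

theorem norm_eq_of_sub_lt {a b : F} (h : ‖a - b‖ < ‖b‖) : ‖a‖ = ‖b‖ := by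
  have := IsUltrametricDist.norm_add_eq_max_of_norm_ne_norm h.ne
  rwa [sub_add_cancel, max_eq_right h.le] at this

/-- a sequence that is not almost integral has eventually a constant norm -/
theorem Cau.norm {a : ℕ → F} (ha : Cau a) (h : ¬ Nul a) :
    ∃ r s : ℝ, 1 < s ∧ s < r ∧ ∃ N, (∀ n, N ≤ n → ‖a n‖ = r) ∧
      ∀ m, N ≤ m → ∀ n, N ≤ n → ‖a m - a n‖ ≤ s := by
  simp only [Nul, not_forall, not_eventually, not_le] at h
  obtain ⟨s, hs, h⟩ := h
  obtain ⟨N, hN⟩ := ha s hs
  obtain ⟨m, hm, h1⟩ := frequently_atTop.1 h N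
  exact ⟨‖a m‖, s, hs, h1, N, fun n hn => norm_eq_of_sub_lt ((hN n hn m hm).trans_lt h1), hN⟩

omit [Fact p.Prime] in
theorem pole_eq {c : F} {a : ℕ → F} (h : Nul fun n => a n - c * a n ^ p) {r : ℝ} (hr : 1 < r)
    {N : ℕ} (hN : ∀ n, N ≤ n → ‖a n‖ = r) : ‖c‖ * r ^ p = r := by
  obtain ⟨s, h1, h2⟩ := exists_between hr
  obtain ⟨n, h3, h4⟩ := ((h s h1).and (eventually_ge_atTop N)).exists
  have := norm_eq_of_sub_lt (a := c * a n ^ p) (b := a n) (by
    rw [norm_sub_rev, hN n h4]
    exact h3.trans_lt h2)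
  rwa [norm_mul, norm_pow, hN n h4] at this

theorem pole_uniq {c r r' : ℝ} (hr : 0 < r) (hr' : 0 < r') (h : c * r ^ p = r)
    (h' : c * r' ^ p = r') : r = r' := by
  obtain ⟨q, hq⟩ : ∃ q, p = q + 1 + 1 := ⟨p - 2, by have := (Fact.out : p.Prime).two_le; omega⟩
  have e : ∀ x : ℝ, 0 < x → c * x ^ p = x → c * x ^ (q + 1) = 1 := fun x hx e => by
    rw [hq, pow_succ, ← mul_assoc] at e
    exact mul_right_cancel₀ hx.ne' (e.trans (one_mul x).symm)
  have h1 := e r hr h
  have h2 := e r' hr' h'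
  have hc : c ≠ 0 := left_ne_zero_of_mul_eq_one h1
  exact (pow_left_inj₀ hr.le hr'.le q.succ_ne_zero).1 (mul_left_cancel₀ hc (h1.trans h2.symm))

variable [CharP F p]

omit [IsUltrametricDist F] in
theorem near_prime {u : F} (h : ‖u ^ p - u‖ < 1) : ∃ i : ZMod p, ‖u - ZMod.cast i‖ < 1 := by
  by_contra hc
  simp only [not_exists, not_lt] at hc
  have h1 : (X ^ p - X : (ZMod p)[X]) = ∏ i : ZMod p, (X - C i) := by
    have h2 := FiniteField.roots_X_pow_card_sub_X (ZMod p)
    have h3 := (FiniteField.splits_X_pow_card_sub_X p (K := ZMod p))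
    rw [ZMod.card] at h2 h3
    have h4 : (X ^ p - X : (ZMod p)[X]).Monic :=
      monic_X_pow_sub (by rw [degree_X]; exact_mod_cast (Fact.out : p.Prime).one_lt)
    rw [(prod_multiset_X_sub_C_of_monic_of_roots_card_eq h4 (by
      rw [h2, FiniteField.X_pow_card_sub_X_natDegree_eq _ (Fact.out : p.Prime).one_lt]
      simp)).symm, h2]
    rfl
  have h5 := congrArg (eval₂ (ZMod.castHom (dvd_refl p) F) u) h1
  rw [eval₂_sub, eval₂_X_pow, eval₂_X, eval₂_finsetProd] at h5
  simp only [eval₂_sub, eval₂_X, eval₂_C, ZMod.castHom_apply] at h5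
  rw [h5, norm_prod] at h
  exact absurd h (not_lt.2 (Finset.one_le_prod fun i _ => hc i))

variable [IsAlgClosed F]

/-- rank one -/
theorem sol_one (c : F) : ∃ T : Set F, T.Finite ∧ ∀ a : ℕ → F, Cau a →
    (Nul fun n => a n - c * a n ^ p) → ∃ t ∈ T, Nul fun n => a n - t := by
  have hp := (Fact.out : p.Prime)
  refine ⟨{t | t = c * t ^ p}, ?_, fun a ha h => ?_⟩
  · have h0 : (C c * X ^ p - X : F[X]) ≠ 0 := fun e => by
      have := congrArg (coeff · 1) e
      simp [coeff_X_pow, hp.one_lt.ne] at this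
    refine (finite_setOfPred_isRoot h0).subset fun t ht => ?_
    simpa [sub_eq_zero] using Eq.symm ht
  by_cases hn : Nul a
  · exact ⟨0, by simp [hp.ne_zero], hn.congr fun n => by simp⟩
  obtain ⟨r, s, hs, hr, N, h1, h2⟩ := ha.norm hn
  have h3 := pole_eq h (hs.trans hr) h1
  have hr0 : 0 < r := by linarith
  have hc : c ≠ 0 := fun e => by
    rw [e, norm_zero, zero_mul] at h3
    exact hr0.ne h3
  obtain ⟨m, hm⟩ := IsAlgClosed.exists_pow_nat_eq c⁻¹ (n := p - 1) (by have := hp.two_le; omega)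
  have hm1 : c * m ^ p = m := by
    rw [← Nat.sub_add_cancel hp.pos, pow_succ, hm, mul_inv_cancel_left₀ hc]
  have hm0 : m ≠ 0 := fun e => by
    rw [e, zero_pow (by have := hp.two_le; omega)] at hm
    exact inv_ne_zero hc hm.symm
  have hmr : ‖m‖ = r := pole_uniq (p := p) (norm_pos_iff.2 hm0) hr0
    (by rw [← norm_pow, ← norm_mul, hm1]) h3
  obtain ⟨n, h4, h5⟩ := ((h s hs).and (eventually_ge_atTop N)).exists
  obtain ⟨i, hi⟩ := near_prime (p := p) (u := a n / m) (by
    have : (a n / m) ^ p - a n / m = -(a n - c * a n ^ p) / m := by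
      rw [div_pow, show m ^ p = m / c by rw [eq_div_iff hc, mul_comm, hm1]]
      field_simp
      ring
    rw [this, norm_div, norm_neg, hmr, div_lt_one hr0]
    exact h4.trans_lt hr)
  have hi1 : (ZMod.cast i : F) ^ p = ZMod.cast i := by
    rw [← ZMod.castHom_apply (h := dvd_refl p), ← map_pow, ZMod.pow_card]
  have ht : ZMod.cast i * m = c * (ZMod.cast i * m) ^ p := by
    rw [mul_pow, hi1, mul_left_comm, hm1]
  refine ⟨_, ht, ?_⟩
  by_contra hn'
  have hb : Cau fun n => a n - ZMod.cast i * m := by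
    simpa only [sub_eq_add_neg] using ha.add (Cau.const _)
  obtain ⟨r', s', hs', hr', N', h1', -⟩ := hb.norm hn'
  have h6 := pole_eq (p := p) (c := c) (h.congr fun n => by
    rw [sub_pow_char, mul_sub, ← ht]
    ring) (hs'.trans hr') h1'
  have h7 := pole_uniq (p := p) (by linarith) hr0 h6 h3
  have h8 := h1' (max N N') (le_max_right _ _)
  have h9 : ‖a n - ZMod.cast i * m‖ < r := by
    rw [show a n - ZMod.cast i * m = (a n / m - ZMod.cast i) * m by field_simp, norm_mul, hmr]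
    exact mul_lt_of_lt_one_left hr0 hi
  rw [← sub_add_sub_cancel _ (a n), h7] at h8
  exact absurd h8 ((IsUltrametricDist.norm_add_le_max _ _).trans_lt
    (max_lt ((h2 _ (le_max_left _ _) n h5).trans_lt hr) h9)).ne

omit [IsUltrametricDist F] in
theorem eig_row' {n : ℕ} (A : Matrix (Fin (n + 1)) (Fin (n + 1)) F) :
    ∃ (l : Fin (n + 1) → F) (i : Fin (n + 1)) (c : F), l i = 1 ∧ (∀ j, ‖l j‖ ≤ 1) ∧
      ∀ j, ∑ k, l k * A k j = c * l j ^ p := by
  obtain ⟨l, h0, c, hc⟩ := eig_row (p := p) A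
  obtain ⟨i, -, hi⟩ := Finset.exists_max_image Finset.univ (fun j => ‖l j‖) Finset.univ_nonempty
  have h1 : l i ≠ 0 := fun e => h0 (funext fun j => norm_le_zero_iff.1 (by
    simpa [e] using hi j (Finset.mem_univ j)))
  refine ⟨fun j => l j / l i, i, c * l i ^ p / l i, div_self h1, fun j => ?_, fun j => ?_⟩
  · rw [norm_div, div_le_one (norm_pos_iff.2 h1)]
    exact hi j (Finset.mem_univ j)
  · simp only [div_mul_eq_mul_div, ← Finset.sum_div, hc, div_pow]
    field_simp

/-- solutions of `y = A φ(y)` -/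
def Sol (p : ℕ) {n : ℕ} (A : Matrix (Fin n) (Fin n) F) (y : Fin n → ℕ → F) : Prop :=
  (∀ i, Cau (y i)) ∧ ∀ i, Nul fun m => y i m - ∑ j, A i j * y j m ^ p

theorem sol_fin (n : ℕ) : ∀ A : Matrix (Fin n) (Fin n) F, (∀ i j, ‖A i j‖ ≤ 1) →
    ∃ T : Set (Fin n → ℕ → F), T.Finite ∧ ∀ y, Sol p A y →
      ∃ t ∈ T, ∀ i, Nul fun m => y i m - t i m := by
  induction n with
  | zero => exact fun _ _ => ⟨{0}, Set.finite_singleton _, fun _ _ => ⟨0, rfl, fun i => i.elim0⟩⟩
  | succ n ih =>
    intro A hA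
    obtain ⟨l, i, c, h1, h2, h3⟩ := eig_row' (p := p) A
    obtain ⟨T1, t1, hT1⟩ := sol_one (p := p) c
    obtain ⟨T2, t2, hT2⟩ := ih (Matrix.of fun j k => A (i.succAbove j) (i.succAbove k) -
      A (i.succAbove j) i * l (i.succAbove k) ^ p) fun j k => by
        rw [Matrix.of_apply, sub_eq_add_neg]
        refine uadd (hA _ _) ?_
        rw [norm_neg]
        exact umul (hA _ _) (by rw [norm_pow]; exact pow_le_one₀ (norm_nonneg _) (h2 _))
    have key : ∀ y, Sol p A y → ∃ t ∈ T1, Nul fun m => ∑ k, l k * y k m - t := fun y hy => by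
      refine hT1 _ (Cau.sum _ fun k _ => (hy.1 k).mul (h2 k))
        ((Nul.sum Finset.univ fun k _ => (hy.2 k).mul (h2 k)).congr fun m => ?_)
      simp only [mul_sub, Finset.sum_sub_distrib, Finset.mul_sum, sum_pow_char, mul_pow,
        ← mul_assoc, ← h3, Finset.sum_mul]
      rw [Finset.sum_comm]
    classical
    let ch : F → Fin (n + 1) → ℕ → F := fun t =>
      if h : ∃ y, Sol p A y ∧ Nul fun m => ∑ k, l k * y k m - t then h.choose else 0
    let ex : (Fin n → ℕ → F) → Fin (n + 1) → ℕ → F := fun z =>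
      i.insertNth (fun m => -∑ k, l (i.succAbove k) * z k m) z
    refine ⟨Set.image2 (fun t z => ch t + ex z) T1 T2, t1.image2 _ t2, fun y hy => ?_⟩
    obtain ⟨t, ht, h4⟩ := key y hy
    have h5 : ∃ y, Sol p A y ∧ Nul fun m => ∑ k, l k * y k m - t := ⟨y, hy, h4⟩
    have h6 : Sol p A (ch t) ∧ Nul fun m => ∑ k, l k * ch t k m - t := by
      simp only [ch, dif_pos h5]
      exact h5.choose_spec
    have h7 : Nul fun m => (y i m - ch t i m) +
        ∑ k, l (i.succAbove k) * (y (i.succAbove k) m - ch t (i.succAbove k) m) :=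
      (h4.sub h6.2).congr fun m => by
        simp only [Fin.sum_univ_succAbove _ i, h1, mul_sub, Finset.sum_sub_distrib]
        ring
    obtain ⟨z, hz, h8⟩ := hT2 (fun k m => y (i.succAbove k) m - ch t (i.succAbove k) m)
      ⟨fun k => by
        simpa only [sub_eq_add_neg, neg_one_mul] using
          (hy.1 _).add ((h6.1.1 _).mul (c := -1) (by simp)), fun j =>
        (((hy.2 (i.succAbove j)).sub (h6.1.2 (i.succAbove j))).add
          ((h7.pow (p := p)).mul (hA (i.succAbove j) i))).congr fun m => by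
          simp only [Fin.sum_univ_succAbove _ i, add_pow_char, sum_pow_char, mul_pow, sub_pow_char,
            Matrix.of_apply, mul_add, mul_sub, sub_mul, Finset.sum_sub_distrib, Finset.mul_sum,
            mul_assoc]
          ring⟩
    refine ⟨_, Set.mem_image2_of_mem ht hz, fun j => ?_⟩
    refine i.succAboveCases ?_ (fun k => ?_) j
    · refine (h7.sub (Nul.sum Finset.univ fun k _ => (h8 k).mul (h2 (i.succAbove k)))).congr
        fun m => ?_
      simp only [ex, Pi.add_apply, Fin.insertNth_apply_same, mul_sub, Finset.sum_sub_distrib]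
      ring
    · refine (h8 k).congr fun m => ?_
      simp only [ex, Pi.add_apply, Fin.insertNth_apply_succAbove]
      ring

end Seq

/-! ## abstract almost elements -/

section Alm

variable {p : ℕ} [Fact p.Prime] {F : Type*} [NormedField F] [IsUltrametricDist F]
  {Yp : Type*} [AddCommGroup Yp]

/-- `R y s a`: `a` represents `y` modulo the ball of radius `s` -/
structure Alm (p : ℕ) (φ : Yp → Yp) (R : Yp → ℝ → F → Prop) : Prop where
  ex : ∀ y s, 1 < s → ∃ a, R y s a
  uniq : ∀ y s a a', 1 < s → R y s a → R y s a' → ‖a - a'‖ ≤ s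
  mono : ∀ y s s' a, 1 < s → R y s a → s ≤ s' → R y s' a
  zero : ∀ s, 1 < s → R 0 s 0
  add : ∀ y y' s a a', 1 < s → R y s a → R y' s a' → R (y + y') s (a + a')
  neg : ∀ y s a, 1 < s → R y s a → R (-y) s (-a)
  phi : ∀ y s a, 1 < s → R y s a → R (φ y) (s ^ p) (a ^ p)
  sep : ∀ y, (∀ s, 1 < s → ∃ a, R y s a ∧ ‖a‖ ≤ s) → y = 0

/-- `f` is multiplication by an integral element -/
def IsMul (R : Yp → ℝ → F → Prop) (f : Yp → Yp) : Prop :=
  ∃ c : F, ‖c‖ ≤ 1 ∧ ∀ y s a, 1 < s → R y s a → R (f y) s (c * a)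

variable {φ : Yp → Yp} {R : Yp → ℝ → F → Prop}

omit [IsUltrametricDist F] [AddCommGroup Yp] in
theorem IsMul.id : IsMul R fun y => y := ⟨1, by simp, fun _ _ _ _ h => by rwa [one_mul]⟩

omit [IsUltrametricDist F] [AddCommGroup Yp] in
theorem IsMul.comp {f g : Yp → Yp} (hf : IsMul R f) (hg : IsMul R g) :
    IsMul R fun y => f (g y) := by
  obtain ⟨c, h1, h2⟩ := hf
  obtain ⟨d, h3, h4⟩ := hg
  exact ⟨c * d, umul h1 h3, fun y s a hs h => by
    rw [mul_assoc]
    exact h2 _ _ _ hs (h4 _ _ _ hs h)⟩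

omit [IsUltrametricDist F] [Fact p.Prime] in
theorem Alm.mul_zero (h : Alm p φ R) : IsMul R fun _ => 0 :=
  ⟨0, by simp, fun _ s _ hs _ => by simpa using h.zero s hs⟩

omit [Fact p.Prime] in
theorem Alm.mul_add (h : Alm p φ R) {f g : Yp → Yp} (hf : IsMul R f) (hg : IsMul R g) :
    IsMul R fun y => f y + g y := by
  obtain ⟨c, h1, h2⟩ := hf
  obtain ⟨d, h3, h4⟩ := hg
  exact ⟨c + d, uadd h1 h3, fun y s a hs e => by
    rw [add_mul]
    exact h.add _ _ _ _ _ hs (h2 _ _ _ hs e) (h4 _ _ _ hs e)⟩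

omit [IsUltrametricDist F] [Fact p.Prime] in
theorem Alm.mul_neg (h : Alm p φ R) {f : Yp → Yp} (hf : IsMul R f) : IsMul R fun y => -f y := by
  obtain ⟨c, h1, h2⟩ := hf
  exact ⟨-c, by rwa [norm_neg], fun y s a hs e => by
    rw [neg_mul]
    exact h.neg _ _ _ hs (h2 _ _ _ hs e)⟩

omit [IsUltrametricDist F] [Fact p.Prime] in
theorem Alm.sum (h : Alm p φ R) {ι : Type*} (S : Finset ι) {y : ι → Yp} {a : ι → F} {s : ℝ}
    (hs : 1 < s) (e : ∀ i ∈ S, R (y i) s (a i)) : R (∑ i ∈ S, y i) s (∑ i ∈ S, a i) := by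
  classical
  induction S using Finset.induction_on with
  | empty => simpa using h.zero s hs
  | insert i S hi ih =>
    rw [Finset.sum_insert hi, Finset.sum_insert hi]
    exact h.add _ _ _ _ _ hs (e i (Finset.mem_insert_self _ _))
      (ih fun j hj => e j (Finset.mem_insert_of_mem hj))

theorem rad_lt {s : ℝ} (hs : 1 < s) : ∀ᶠ m : ℕ in atTop, 1 + 1 / ((m : ℝ) + 1) ≤ s :=
  ((tendsto_one_div_add_atTop_nhds_zero_nat (𝕜 := ℝ)).eventually
    (ge_mem_nhds (sub_pos.2 hs))).mono fun m h => by linarith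

theorem one_lt_rad (m : ℕ) : (1 : ℝ) < 1 + 1 / ((m : ℝ) + 1) := by
  have : (0 : ℝ) < 1 / ((m : ℝ) + 1) := by positivity
  linarith

variable [CharP F p] [IsAlgClosed F]

/-- **X2** -/
theorem Alm.x2 (h : Alm p φ R) {n : ℕ} (A : Fin n → Fin n → Yp → Yp)
    (hA : ∀ i j, IsMul R (A i j)) :
    {y : Fin n → Yp | ∀ i, y i = ∑ j, A i j (φ (y j))}.Finite := by
  choose c hc1 hc2 using hA
  choose q hq using fun (y : Yp) (m : ℕ) => h.ex y _ (one_lt_rad m)
  have hq' : ∀ y s, 1 < s → ∀ᶠ m in atTop, R y s (q y m) := fun y s hs =>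
    (rad_lt hs).mono fun m e => h.mono _ _ _ _ (one_lt_rad m) (hq y m) e
  obtain ⟨T, t1, hT⟩ := sol_fin (p := p) n (Matrix.of c) hc1
  have key : ∀ y ∈ {y : Fin n → Yp | ∀ i, y i = ∑ j, A i j (φ (y j))},
      ∃ t ∈ T, ∀ i, Nul fun m => q (y i) m - t i m := fun y hy => by
    refine hT _ ⟨fun i s hs => ?_, fun i s hs => ?_⟩
    · obtain ⟨N, hN⟩ := eventually_atTop.1 (hq' (y i) s hs)
      exact ⟨N, fun m hm k hk => h.uniq _ _ _ _ hs (hN m hm) (hN k hk)⟩
    · obtain ⟨t, h1, h2⟩ := exists_root_lt (p := p) hs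
      refine ((hq' (y i) s hs).and (eventually_all.2 fun j => hq' (y j) t h1)).mono
        fun m e => h.uniq _ _ _ _ hs e.1 ?_
      rw [hy i]
      exact h.sum _ hs fun j _ => hc2 i j _ _ _ hs (h.mono _ _ _ _
        (one_lt_pow₀ h1 (Fact.out : p.Prime).ne_zero) (h.phi _ _ _ h1 (e.2 j)) h2)
  choose! f f1 f2 using key
  refine Set.Finite.of_finite_image (t1.subset (by rintro _ ⟨y, hy, rfl⟩; exact f1 y hy))
    fun y hy y' hy' e => funext fun i => sub_eq_zero.1 (h.sep _ fun s hs => ?_)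
  have h1 := (f2 y hy i).sub (f2 y' hy' i) s hs
  obtain ⟨m, h2, h3, h4⟩ := (h1.and ((hq' (y i) s hs).and (hq' (y' i) s hs))).exists
  refine ⟨q (y i) m - q (y' i) m, ?_, ?_⟩
  · simpa only [sub_eq_add_neg] using h.add _ _ _ _ _ hs h3 (h.neg _ _ _ hs h4)
  · simpa only [e, sub_sub_sub_cancel_right] using h2

end Alm

/-- **X1**: the points of a finite set that is swallowed by `φ` are periodic -/
theorem periodic_of_finite {Y : Type*} {φ : Y → Y} {E : Set Y} (hE : E.Finite) (h : E ⊆ φ '' E)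
    {y : Y} (hy : y ∈ E) : ∃ k, 0 < k ∧ φ^[k] y = y := by
  have := hE.to_subtype
  choose ψ h1 h2 using fun e : E => h e.2
  let g : E → E := fun e => ⟨ψ e, h1 e⟩
  have hg : Function.Injective g := fun a b e => Subtype.ext (by
    rw [← h2 a, ← h2 b]
    exact congrArg φ (congrArg Subtype.val e))
  obtain ⟨k, hk, e⟩ := Function.mem_periodicPts.1 (hg.mem_periodicPts ⟨y, hy⟩)
  have h3 : ∀ (j : ℕ) (a : E), φ^[j] (g^[j] a) = a := fun j => by
    induction j with
    | zero => exact fun _ => rfl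
    | succ j ih =>
      intro a
      rw [Function.iterate_succ_apply, Function.iterate_succ_apply' g]
      exact (congrArg φ^[j] (h2 _)).trans (ih a)
  refine ⟨k, hk, ?_⟩
  have h4 := h3 k ⟨y, hy⟩
  rwa [show g^[k] ⟨y, hy⟩ = ⟨y, hy⟩ from e] at h4

end Vale.Agent.P022K.WB

end
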