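import Vale.Agent.P022K.WB.Th
import Vale.Agent.P022K.WB.X2

/-!
# `Y[p]` consists of almost elements of `C^♭ / O^♭`
-/

set_option linter.unusedSectionVars false

namespace Vale.Agent.P022K.WB

open Finset Filter Topology

variable {p : ℕ} [Fact p.Prime] {C : Type} [NontriviallyNormedField C] [IsUltrametricDist C]
  [CharZero C] [hp : Fact (‖(p : C)‖ < 1)] [CompleteSpace C] [IsAlgClosed C] {ψ : ℚ_[p] → C}

theorem pc_ne : (p : C) ≠ 0 := Nat.cast_ne_zero.2 (Fact.out : p.Prime).ne_zero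

/-- `x` represents the entries `i < r` of `l` at level `n` -/
structure Rep (l : ℤ → C) (n r : ℤ) (x : Ai p C) : Prop where
  lo : ∀ i, i < -n → l i = 0
  hi : ∀ i, -n ≤ i → i < r → (p : C) ^ (i + n) * l i = th i x

namespace Rep

variable {l l' : ℤ → C} {n r : ℤ} {x x' : Ai p C}

theorem mono (h : Rep l n r x) {r' : ℤ} (hr : r' ≤ r) : Rep l n r' x :=
  ⟨h.lo, fun i h1 h2 => h.hi i h1 (h2.trans_le hr)⟩

theorem add (h : Rep l n r x) (h' : Rep l' n r x') : Rep (l + l') n r (x + x') :=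
  ⟨fun i hi => by rw [Pi.add_apply, h.lo i hi, h'.lo i hi, add_zero],
    fun i h1 h2 => by rw [Pi.add_apply, mul_add, h.hi i h1 h2, h'.hi i h1 h2, map_add]⟩

theorem neg (h : Rep l n r x) : Rep (-l) n r (-x) :=
  ⟨fun i hi => by rw [Pi.neg_apply, h.lo i hi, neg_zero],
    fun i h1 h2 => by rw [Pi.neg_apply, mul_neg, h.hi i h1 h2, map_neg]⟩

theorem zero (n r : ℤ) : Rep (0 : ℤ → C) n r (0 : Ai p C) :=
  ⟨fun _ _ => rfl, fun i _ _ => by simp⟩

theorem nsmul (h : Rep l n r x) (k : ℕ) : Rep (k • l) n r ((k : Ai p C) * x) :=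
  ⟨fun i hi => by rw [Pi.smul_apply, h.lo i hi, smul_zero], fun i h1 h2 => by
    rw [Pi.smul_apply, nsmul_eq_mul, mul_left_comm, h.hi i h1 h2, map_mul, map_natCast]⟩

theorem mul (h : Rep l n r x) (e : Tt p C) : Rep (e.1 * l) n r (tm (ofT e) * x) :=
  ⟨fun i hi => by rw [Pi.mul_apply, h.lo i hi, mul_zero], fun i h1 h2 => by
    rw [Pi.mul_apply, mul_left_comm, h.hi i h1 h2, map_mul, th_tm, sh0_fr_ofT]⟩

theorem shift (h : Rep l n r x) (j : ℤ) : Rep (fun i => l (i + j)) (n + j) (r - j) (fA j x) :=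
  ⟨fun i hi => h.lo _ (by omega), fun i h1 h2 => by
    rw [th_fA, ← h.hi (i + j) (by omega) (by omega), show i + (n + j) = i + j + n by ring]⟩

theorem gal (h : Rep l n r x) (s : Iso C) : Rep (fun i => s.1 (l i)) n r (gA s x) :=
  ⟨fun i hi => by rw [h.lo i hi, map_zero], fun i h1 h2 => by
    rw [th_gA, ← h.hi i h1 h2, map_mul, map_zpow₀, map_natCast]⟩

end Rep

namespace Psi

/-- the element of the tilt attached to `x` at level `n` -/
noncomputable def vl (h : Psi p ψ) (n : ℤ) (x : Ai p C) : Fl p C := Fl.io (bar x) / h.X n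

theorem vl_add (h : Psi p ψ) (n : ℤ) (x y : Ai p C) : h.vl n (x + y) = h.vl n x + h.vl n y := by
  rw [vl, map_add, map_add, add_div, vl, vl]

theorem vl_neg (h : Psi p ψ) (n : ℤ) (x : Ai p C) : h.vl n (-x) = -h.vl n x := by
  rw [vl, map_neg, map_neg, neg_div, vl]

theorem vl_zero (h : Psi p ψ) (n : ℤ) : h.vl n 0 = 0 := by rw [vl, map_zero, map_zero, zero_div]

theorem vl_p (h : Psi p ψ) (n : ℤ) (x : Ai p C) : h.vl n (p * x) = 0 := by
  rw [vl, map_mul, bar_p, zero_mul, map_zero, zero_div]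

theorem vl_tm (h : Psi p ψ) (n : ℤ) (a : Ot p C) (x : Ai p C) :
    h.vl n (tm a * x) = Fl.io a * h.vl n x := by
  rw [vl, map_mul, map_mul, bar_tm, mul_div_assoc, vl]

theorem vl_fA (h : Psi p ψ) (n : ℤ) (x : Ai p C) : h.vl (n + 1) (fA 1 x) = h.vl n x ^ p := by
  rw [vl, bar_fA, fr_one, map_pow, X_succ, vl, div_pow]

theorem vl_gA (h : Psi p ψ) (s : Iso C) (hs : ∀ b, s.1 (ψ b) = ψ b) (n : ℤ) (x : Ai p C) :
    h.vl n (gA s x) = (Fl.galI p C s).1 (h.vl n x) := by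
  rw [vl, vl, map_div₀, h.galI_X s hs, Fl.galI_apply, Fl.galF_io, bar_gA]

theorem rep_succ (h : Psi p ψ) {l : ℤ → C} {n r : ℤ} {x : Ai p C} (H : Rep l n r x) :
    Rep l (n + 1) r (h.xi (n + 1) * x) ∧ h.vl (n + 1) (h.xi (n + 1) * x) = h.vl n x := by
  refine ⟨⟨fun i hi => H.lo i (by omega), fun i h1 h2 => ?_⟩, ?_⟩
  · rw [map_mul]
    rcases h1.eq_or_lt with h3 | h3
    · rw [h.th_xi_zero (by omega), H.lo i (by omega), mul_zero, zero_mul]
    · rw [h.th_xi_pos (by omega), ← H.hi i (by omega) h2, ← add_assoc, zpow_add_one₀ pc_ne]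
      ring
  · have h1 := h.bar_xi (n + 1)
    rw [add_sub_cancel_right] at h1
    have h2 : Fl.io (bar (h.xi (n + 1))) ≠ 0 := fun h0 => by
      rw [h0, zero_mul] at h1; exact h.X_ne _ h1.symm
    rw [vl, vl, map_mul, map_mul, ← h1, mul_div_mul_left _ _ h2]

theorem rep_up (h : Psi p ψ) {l : ℤ → C} {n n' r : ℤ} {x : Ai p C} (H : Rep l n r x)
    (hn : n ≤ n') : ∃ x', Rep l n' r x' ∧ h.vl n' x' = h.vl n x := by
  induction n', hn using Int.leInduction with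
  | base => exact ⟨x, H, rfl⟩
  | succ m _ ih =>
    obtain ⟨x', h1, h2⟩ := ih
    exact ⟨_, (h.rep_succ h1).1, (h.rep_succ h1).2.trans h2⟩

theorem rep_ex (h : Psi p ψ) {l : ℤ → C} (hl : l ∈ BW p C) :
    ∃ n : ℤ, ∀ r, ∃ x : Ai p C, Rep l n r x := by
  obtain ⟨n, c, hc, rfl⟩ := hl
  refine ⟨n, fun r => ?_⟩
  obtain ⟨x, hx⟩ := h.gh_th (r + n).toNat (-n) hc
  refine ⟨x, fun i hi => lev_neg p n c (by omega), fun i h1 h2 => ?_⟩
  obtain ⟨k, hk⟩ : ∃ k : ℕ, i + n = k := ⟨(i + n).toNat, by omega⟩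
  have e1 : i = (k : ℤ) - n := by omega
  have e2 : i = -n + (k : ℤ) := by omega
  rw [hk, zpow_natCast]
  conv_lhs => rw [e1, lev_nat]
  rw [mul_div_cancel₀ _ (pow_ne_zero _ pc_ne), e2, hx k (by omega)]

theorem rep_mem (h : Psi p ψ) {l : ℤ → C} {n : ℤ} (H : ∀ r, ∃ x : Ai p C, Rep l n r x) :
    l ∈ BW p C := by
  have H' : ∀ r, ∃ x : Ai p C, Rep l n.toNat r x := fun r => by
    obtain ⟨x, hx⟩ := H r
    obtain ⟨x', h1, _⟩ := h.rep_up hx (Int.self_le_toNat n)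
    exact ⟨x', h1⟩
  generalize n.toNat = m at H'
  refine ⟨m, fun j => (p : C) ^ j * l (j - m), h.mem_gh (-m) _ fun k => ?_, funext fun i => ?_⟩
  · obtain ⟨x, hx⟩ := H' (k - m)
    refine ⟨x, fun j hj => ?_⟩
    rw [← hx.hi _ (by omega) (by omega), show -(m : ℤ) + j + m = j by ring, zpow_natCast,
      show -(m : ℤ) + j = j - m by ring]
  · obtain ⟨x, hx⟩ := H' 0
    by_cases hi : 0 ≤ i + m
    · obtain ⟨k, hk⟩ : ∃ k : ℕ, i + m = k := ⟨(i + m).toNat, by omega⟩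
      have e1 : i = (k : ℤ) - m := by omega
      rw [e1, lev_nat, mul_div_cancel_left₀ _ (pow_ne_zero _ pc_ne)]
    · rw [hx.lo i (by omega), lev_neg p m _ (by omega)]

theorem vl_le (h : Psi p ψ) (n : ℤ) (x : Ai p C) : ‖h.vl n x‖ ≤ ‖h.X n‖⁻¹ := by
  rw [vl, norm_div, div_eq_mul_inv]
  exact mul_le_of_le_one_left (by positivity) (Fl.norm_io_le _)

theorem rep_zero (h : Psi p ψ) {n r : ℤ} {x : Ai p C} (H : Rep 0 n r x) :
    ‖h.vl n x‖ ≤ ‖h.X (-r)‖⁻¹ := by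
  rcases le_total (-n) r with hr | hr
  · obtain ⟨k, hk⟩ := Int.le.dest hr
    obtain ⟨z, hz⟩ := h.ker_many k (-n) x fun i h1 h2 => by
      rw [← H.hi i h1 (by omega), Pi.zero_apply, mul_zero]
    have h1 := congrArg (fun t => Fl.io (bar t)) hz
    simp only [map_mul, bar_mA] at h1
    rw [show -(-n) - (k : ℤ) = -r by omega, neg_neg] at h1
    have h2 : h.vl n x = Fl.io (bar z) / h.X (-r) := by
      rw [vl, div_eq_div_iff (h.X_ne _) (h.X_ne _), mul_comm (Fl.io (bar z))]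
      exact h1
    rw [h2]
    exact h.vl_le (-r) z
  · exact (h.vl_le n x).trans (inv_anti₀ (h.X_pos _) (h.X_anti (by omega)))

theorem rep_uniq (h : Psi p ψ) {l l' : ℤ → C} {n n' r : ℤ} {x x' : Ai p C} (hl : l - l' ∈ BW p C)
    (H : Rep (p • l) n r x) (H' : Rep (p • l') n' r x') :
    ‖h.vl n x - h.vl n' x'‖ ≤ ‖h.X (-r)‖⁻¹ := by
  obtain ⟨m, hm⟩ := h.rep_ex hl
  obtain ⟨z, hz⟩ := hm r
  obtain ⟨x1, h1, e1⟩ := h.rep_up H (n' := max m (max n n')) (by omega)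
  obtain ⟨x2, h2, e2⟩ := h.rep_up H' (n' := max m (max n n')) (by omega)
  obtain ⟨z1, h3, _⟩ := h.rep_up hz (n' := max m (max n n')) (by omega)
  have h4 := (h1.add h2.neg).add (h3.nsmul p).neg
  have e : p • l + -(p • l') + -(p • (l - l')) = 0 := by rw [smul_sub]; abel
  rw [e] at h4
  have h5 := h.rep_zero h4
  rwa [vl_add, vl_add, vl_neg, vl_neg, vl_p, neg_zero, add_zero, e1, e2, ← sub_eq_add_neg] at h5

/-- `a` represents the `p`-torsion element `y` modulo the ball of radius `s` -/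
def R (h : Psi p ψ) (y : Y p C) (s : ℝ) (a : Fl p C) : Prop :=
  ∃ (l : ℤ → C) (n r : ℤ) (x : Ai p C), Y.mk p C l = y ∧ Rep (p • l) n r x ∧
    ‖h.X (-r)‖⁻¹ ≤ s ∧ ‖h.vl n x - a‖ ≤ s

variable {h : Psi p ψ} {y y' : Y p C} {s s' : ℝ} {a a' : Fl p C}

theorem one_lt_X (h : Psi p ψ) (r : ℤ) : 1 < ‖h.X r‖⁻¹ := (one_lt_inv₀ (h.X_pos _)).2 (h.X_lt _)

theorem R.one_lt (H : h.R y s a) : 1 < s := by
  obtain ⟨_, _, r, _, _, _, h1, _⟩ := H
  exact (h.one_lt_X _).trans_le h1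

theorem R_ex (h : Psi p ψ) (hy : p • y = 0) (hs : 1 < s) : ∃ a, h.R y s a := by
  obtain ⟨l, rfl⟩ := Y.mk_surj y
  rw [← map_nsmul, Y.mk_eq_zero] at hy
  obtain ⟨n, hn⟩ := h.rep_ex hy
  obtain ⟨r, hr⟩ := h.exists_X hs
  obtain ⟨x, hx⟩ := hn r
  exact ⟨h.vl n x, l, n, r, x, rfl, hx, hr, by rw [sub_self, norm_zero]; linarith⟩

theorem R.uniq (H : h.R y s a) (H' : h.R y s a') : ‖a - a'‖ ≤ s := by
  obtain ⟨l, n, r, x, e, h1, h2, h3⟩ := H
  obtain ⟨l', n', r', x', e', h1', h2', h3'⟩ := H'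
  have h4 := h.rep_uniq (Y.mk_eq_mk.1 (e.trans e'.symm)) (h1.mono (min_le_left r r'))
    (h1'.mono (min_le_right r r'))
  have h5 : ‖h.X (-min r r')‖⁻¹ ≤ s := by
    rcases min_choice r r' with e | e <;> rw [e] <;> assumption
  rw [norm_sub_rev] at h3
  exact ntri (ntri h3 (h4.trans h5)) h3'

theorem R.mono (H : h.R y s a) (hs : s ≤ s') : h.R y s' a := by
  obtain ⟨l, n, r, x, e, h1, h2, h3⟩ := H
  exact ⟨l, n, r, x, e, h1, h2.trans hs, h3.trans hs⟩

theorem R.near (H : h.R y s a) (ha : ‖a - a'‖ ≤ s) : h.R y s a' := by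
  obtain ⟨l, n, r, x, e, h1, h2, h3⟩ := H
  exact ⟨l, n, r, x, e, h1, h2, ntri h3 ha⟩

theorem R_zero (h : Psi p ψ) (hs : 1 < s) : h.R 0 s 0 := by
  obtain ⟨r, hr⟩ := h.exists_X hs
  exact ⟨0, 0, r, 0, map_zero _, by rw [smul_zero]; exact Rep.zero _ _, hr,
    by rw [vl_zero, sub_self, norm_zero]; linarith⟩

theorem R.add (H : h.R y s a) (H' : h.R y' s a') : h.R (y + y') s (a + a') := by
  obtain ⟨l, n, r, x, e, h1, h2, h3⟩ := H
  obtain ⟨l', n', r', x', e', h1', h2', h3'⟩ := H'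
  obtain ⟨x1, h4, e1⟩ := h.rep_up (h1.mono (min_le_left r r')) (le_max_left n n')
  obtain ⟨x2, h5, e2⟩ := h.rep_up (h1'.mono (min_le_right r r')) (le_max_right n n')
  refine ⟨l + l', max n n', min r r', x1 + x2, by rw [map_add, e, e'],
    by rw [smul_add]; exact h4.add h5, ?_, ?_⟩
  · rcases min_choice r r' with e | e <;> rw [e] <;> assumption
  · rw [vl_add, e1, e2, add_sub_add_comm]; exact nadd_le h3 h3'

theorem R.neg (H : h.R y s a) : h.R (-y) s (-a) := by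
  obtain ⟨l, n, r, x, e, h1, h2, h3⟩ := H
  exact ⟨-l, n, r, -x, by rw [map_neg, e], by rw [smul_neg]; exact h1.neg, h2,
    by rw [vl_neg, neg_sub_neg, norm_sub_rev]; exact h3⟩

theorem R.sub (H : h.R y s a) (H' : h.R y' s a') : h.R (y - y') s (a - a') := by
  rw [sub_eq_add_neg, sub_eq_add_neg]; exact H.add H'.neg

theorem R.nsmul (H : h.R y s a) (k : ℕ) : h.R (k • y) s (k • a) := by
  induction k with
  | zero => rw [zero_smul, zero_smul]; exact h.R_zero H.one_lt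
  | succ k ih => rw [succ_nsmul, succ_nsmul]; exact ih.add H

theorem R.mul (H : h.R y s a) (e : Tt p C) : h.R (Y.mul e y) s (Fl.eT e * a) := by
  obtain ⟨l, n, r, x, e1, h1, h2, h3⟩ := H
  refine ⟨e.1 * l, n, r, tm (ofT e) * x, by rw [← e1, Y.mul_mk],
    by rw [← mul_smul_comm]; exact h1.mul e, h2, ?_⟩
  rw [vl_tm, ← Fl.eT, ← mul_sub, norm_mul]
  exact (mul_le_of_le_one_left (norm_nonneg _) (Fl.norm_eT e)).trans h3

theorem R.n (H : h.R y s a) (b : ℚ_[p]) : h.R (h.n b y) s (h.ep b * a) := H.mul _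

theorem R.phi (H : h.R y s a) : h.R (Y.phi p C y) (s ^ p) (a ^ p) := by
  obtain ⟨l, n, r, x, e1, h1, h2, h3⟩ := H
  refine ⟨fun i => l (i + 1), n + 1, r - 1, fA 1 x, by rw [← e1, Y.phi_mk], h1.shift 1, ?_, ?_⟩
  · rw [show -(r - 1) = -r + 1 by ring, X_succ, norm_pow, ← inv_pow]
    exact pow_le_pow_left₀ (by positivity) h2 _
  · rw [vl_fA, ← sub_pow_char, norm_pow]
    exact pow_le_pow_left₀ (norm_nonneg _) h3 _

theorem R.phi_symm (hs : 0 ≤ s) (H : h.R y (s ^ p) (a ^ p)) : h.R ((Y.phi p C).symm y) s a := by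
  obtain ⟨l, n, r, x, e1, h1, h2, h3⟩ := H
  have hp0 := (Fact.out : p.Prime).ne_zero
  refine ⟨fun i => l (i + -1), n + -1, r - -1, fA (-1) x, by rw [← e1, Y.phi_symm_mk]; rfl,
    h1.shift (-1), ?_, ?_⟩
  · refine le_of_pow_le_pow_left₀ hp0 hs ?_
    rw [inv_pow, ← norm_pow, ← X_succ, show -(r - -1) + 1 = -r by ring]
    exact h2
  · refine le_of_pow_le_pow_left₀ hp0 hs ?_
    rw [← norm_pow, sub_pow_char, ← vl_fA, ← fA_add, show n + -1 + 1 = n by ring,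
      add_neg_cancel, fA_zero]
    exact h3

theorem R.gal (H : h.R y s a) (g : Iso C) (hg : ∀ b, g.1 (ψ b) = ψ b) :
    h.R (Y.gal g y) s ((Fl.galI p C g).1 a) := by
  obtain ⟨l, n, r, x, e1, h1, h2, h3⟩ := H
  refine ⟨fun i => g.1 (l i), n, r, gA g x, by rw [← e1, Y.gal_mk], ?_, h2, ?_⟩
  · have := h1.gal g
    simp only [Pi.smul_apply, map_nsmul] at this
    exact this
  · rw [h.vl_gA g hg, ← map_sub, (Fl.galI p C g).2]; exact h3

theorem R_sep (h : Psi p ψ) (hy : p • y = 0) (H : ∀ s, 1 < s → ∃ a, h.R y s a ∧ ‖a‖ ≤ s) :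
    y = 0 := by
  obtain ⟨l, rfl⟩ := Y.mk_surj y
  rw [← map_nsmul, Y.mk_eq_zero] at hy
  obtain ⟨n, hn⟩ := h.rep_ex hy
  rw [Y.mk_eq_zero]
  refine h.rep_mem (n := n) fun r => ?_
  obtain ⟨k, hk⟩ := Int.le.dest (le_max_left (-n) r)
  obtain ⟨x, hx⟩ := hn (max (-n) r)
  obtain ⟨a, h1, h2⟩ := H _ (h.one_lt_X (-max (-n) r))
  have h3 : h.R (Y.mk p C l) ‖h.X (-max (-n) r)‖⁻¹ (h.vl n x) :=
    ⟨l, n, _, x, rfl, hx, le_rfl, by rw [sub_self, norm_zero]; positivity⟩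
  have h4 := nadd_le (h3.uniq h1) h2
  rw [sub_add_cancel] at h4
  obtain ⟨o, ho⟩ := Fl.exists_io (x := h.vl n x * h.X (-max (-n) r)) (by
    rw [norm_mul]; exact (le_inv_mul_iff₀' (by simpa using h.X_pos _)).1 (by simpa using h4))
  obtain ⟨P, hP, hP0⟩ := h.exists_ann k (-n)
  rw [show -(-n) - (k : ℤ) = -max (-n) r by omega, neg_neg] at hP
  have h5 : bar (x - P * tm o) = 0 := by
    have h6 := congrArg (fun t => Fl.io (bar t)) hP
    simp only [map_mul, bar_mA] at h6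
    by_contra h7
    refine Fl.io_ne h7 ?_
    rw [map_sub, map_sub, map_mul, map_mul, bar_tm, ho, mul_left_comm]
    rw [show Fl.io (bar P) * h.X (-max (-n) r) = h.X n from h6, vl,
      div_mul_cancel₀ _ (h.X_ne n), sub_self]
  obtain ⟨z, hz⟩ := exists_tm (x - P * tm o)
  rw [h5, show tm (0 : Ot p C) = 0 from WittVector.teichmuller_zero p, zero_add] at hz
  refine ⟨z, fun i hi => ?_, fun i h6 h7 => ?_⟩
  · have := hx.lo i hi
    rw [Pi.smul_apply, nsmul_eq_mul] at this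
    exact (mul_eq_zero.1 this).resolve_left pc_ne
  · have h8 := congrArg (th i) hz
    rw [map_sub, map_mul, hP0 i h6 (by omega), zero_mul, sub_zero, map_mul, map_natCast,
      ← hx.hi i h6 (by omega), Pi.smul_apply, nsmul_eq_mul, mul_left_comm] at h8
    exact mul_left_cancel₀ pc_ne h8

/-- every element of the tilt represents a class -/
theorem R_onto (h : Psi p ψ) (a : Fl p C) : ∃ y : Y p C, p • y = 0 ∧ ∀ s, 1 < s → h.R y s a := by
  obtain ⟨k, hk⟩ := ((tendsto_pow_atTop_nhds_zero_of_lt_one (norm_nonneg _) (h.X_lt 0)).comp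
    (tendsto_pow_atTop_atTop_of_one_lt (Fact.out : p.Prime).one_lt)).const_mul ‖a‖
    |>.eventually (gt_mem_nhds (show ‖a‖ * 0 < 1 by simp)) |>.exists
  obtain ⟨o, ho⟩ := Fl.exists_io (x := a * h.X k) (by
    have := h.X_add 0 k
    rw [zero_add] at this
    rw [norm_mul, this, norm_pow]; exact hk.le)
  let l : ℤ → C := fun i => if -(k : ℤ) ≤ i then th i (tm o) / (p : C) ^ (i + k + 1) else 0
  have hl : ∀ r, Rep (p • l) k r (tm o) := fun r => ⟨fun i hi => by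
    simp [l, not_le.2 hi], fun i h1 _ => by
      simp only [l, Pi.smul_apply, if_pos h1, nsmul_eq_mul, zpow_add_one₀ (pc_ne (p := p) (C := C))]
      have := zpow_ne_zero (i + k) (pc_ne (p := p) (C := C))
      have := pc_ne (p := p) (C := C)
      field_simp⟩
  refine ⟨Y.mk p C l, ?_, fun s hs => ?_⟩
  · rw [← map_nsmul, Y.mk_eq_zero]; exact h.rep_mem fun r => ⟨_, hl r⟩
  · obtain ⟨r, hr⟩ := h.exists_X hs
    refine ⟨l, k, r, tm o, rfl, hl r, hr, ?_⟩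
    rw [vl, bar_tm, ho, mul_div_cancel_right₀ _ (h.X_ne _), sub_self, norm_zero]
    linarith

end Psi

variable (p C) in
/-- the `p`-torsion of `Y` -/
noncomputable def Yp : AddSubgroup (Y p C) where
  carrier := {y | p • y = 0}
  zero_mem' := smul_zero _
  add_mem' := fun {a b} ha hb => by
    have ha' : p • a = 0 := ha
    have hb' : p • b = 0 := hb
    show p • (a + b) = 0
    rw [smul_add, ha', hb', add_zero]
  neg_mem' := fun {a} ha => by
    have ha' : p • a = 0 := ha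
    show p • (-a) = 0
    rw [smul_neg, ha', neg_zero]

/-- restriction of an endomorphism to the `p`-torsion -/
noncomputable def resP (f : Y p C →+ Y p C) (y : Yp p C) : Yp p C :=
  ⟨f y.1, by
    have hy : p • y.1 = 0 := y.2
    show p • f y.1 = 0
    rw [← map_nsmul, hy, map_zero]⟩

theorem Psi.alm (h : Psi p ψ) : Alm p (resP (Y.phi p C).toAddMonoidHom)
    (fun (y : Yp p C) s a => h.R y.1 s a) where
  ex y _ hs := h.R_ex y.2 hs
  uniq _ _ _ _ _ h1 h2 := h1.uniq h2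
  mono _ _ _ _ _ h1 h2 := h1.mono h2
  zero _ hs := h.R_zero hs
  add _ _ _ _ _ _ h1 h2 := h1.add h2
  neg _ _ _ _ h1 := h1.neg
  phi _ _ _ _ h1 := h1.phi
  sep y H := Subtype.ext (h.R_sep y.2 H)

theorem Psi.isMul (h : Psi p ψ) (e : Tt p C) :
    IsMul (fun (y : Yp p C) s a => h.R y.1 s a) (resP (Y.mul e)) :=
  ⟨Fl.eT e, Fl.norm_eT e, fun _ _ _ _ h1 => h1.mul e⟩

end Vale.Agent.P022K.WB
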