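import Vale.Agent.P022K.WB.Tr0
import Vale.Agent.P022K.WB.Rp
import Vale.Agent.P022K.WB.FlAc

/-!
# P022K, block WB: limits of functionals along an ultrafilter
-/

set_option autoImplicit false
set_option linter.all false

noncomputable section

namespace Vale.Agent.P022K.WB

open Filter

variable {p : ℕ} [Fact p.Prime] {C : Type} [NontriviallyNormedField C] [IsUltrametricDist C]
  [CharZero C] [CompleteSpace C] [IsAlgClosed C] {ψ : ℚ_[p] → C}

namespace Ul

variable {J : Type*} (U : Ultrafilter J) {A : Type} [AddCommGroup A]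

variable (A) in
/-- the families that are almost constant -/
def Kc : AddSubgroup (J → A) where
  carrier := {f | ∃ c, ∀ᶠ j in (U : Filter J), f j = c}
  zero_mem' := ⟨0, Eventually.of_forall fun _ => rfl⟩
  add_mem' := fun ⟨c, h⟩ ⟨d, k⟩ => ⟨c + d, (h.and k).mono fun j e => by
    rw [Pi.add_apply, e.1, e.2]⟩
  neg_mem' := fun ⟨c, h⟩ => ⟨-c, h.mono fun j e => by rw [Pi.neg_apply, e]⟩

/-- the induced endomorphism -/
def lf (f : A →+ A) : (J → A) ⧸ Kc U A →+ (J → A) ⧸ Kc U A :=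
  QuotientAddGroup.map _ _ (f.compLeft J) fun _ ⟨c, h⟩ => ⟨f c, h.mono fun _ e => congrArg f e⟩

theorem mk_eq {f g : J → A} (h : ∀ᶠ j in (U : Filter J), f j = g j) :
    (f : (J → A) ⧸ Kc U A) = g :=
  QuotientAddGroup.eq_iff_sub_mem.2 ⟨0, h.mono fun _ e => sub_eq_zero.2 e⟩

theorem fin (hp : ‖(p : C)‖ < 1) (h : Psi p ψ) (S : Set ((J → Y p C) ⧸ Kc U (Y p C)))
    (hS : S.Finite) (h1 : ∀ s ∈ S, p • s = 0)
    (h2 : S ⊆ AddSubgroup.closure {y | ∃ b : ℚ_[p], ‖b‖ ≤ 1 ∧ ∃ s ∈ S,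
      y = lf U (h.n b) (lf U (Y.phi p C).toAddMonoidHom s)}) : S ⊆ {0} := by
  classical
  have : Fact (‖(p : C)‖ < 1) := ⟨hp⟩
  obtain ⟨n, s, -, rfl⟩ := hS.fin_param
  choose y hy using fun i => QuotientAddGroup.mk_surjective (s i)
  have h3 : ∀ i, ∃ A : Fin n → Y p C →+ Y p C,
      (∀ k, IsMul (fun (y : Yp p C) s a => h.R y.1 s a) (resP (A k))) ∧
      s i = (fun j => ∑ k, A k (Y.phi p C (y k j)) : J → Y p C) := fun i => by
    refine AddSubgroup.closure_induction (p := fun (z : _ ⧸ Kc U (Y p C)) _ =>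
      ∃ A : Fin n → Y p C →+ Y p C,
      (∀ k, IsMul (fun (y : Yp p C) s a => h.R y.1 s a) (resP (A k))) ∧
      z = (fun j => ∑ k, A k (Y.phi p C (y k j)) : J → Y p C)) ?_ ?_ ?_ ?_ (h2 ⟨i, rfl⟩)
    · rintro _ ⟨b, -, _, ⟨k, rfl⟩, rfl⟩
      refine ⟨Pi.single k (h.n b), fun l => ?_, ?_⟩
      · by_cases e : l = k
        · rw [e, Pi.single_eq_same]
          exact h.isMul _
        · rw [Pi.single_eq_of_ne e]
          exact h.alm.mul_zero
      · rw [← hy]
        refine congrArg QuotientAddGroup.mk (funext fun j => ?_)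
        rw [Finset.sum_eq_single k (fun l _ e => by rw [Pi.single_eq_of_ne e]; rfl) (by simp),
          Pi.single_eq_same]
        rfl
    · exact ⟨0, fun _ => h.alm.mul_zero, by
        simp only [Pi.zero_apply, AddMonoidHom.zero_apply, Finset.sum_const_zero]
        rfl⟩
    · rintro _ _ - - ⟨A, a, rfl⟩ ⟨B, b, rfl⟩
      exact ⟨A + B, fun k => h.alm.mul_add (a k) (b k), by
        simp only [Pi.add_apply, AddMonoidHom.add_apply, Finset.sum_add_distrib]
        rfl⟩
    · rintro _ - ⟨A, a, rfl⟩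
      exact ⟨-A, fun k => h.alm.mul_neg (a k), by
        simp only [Pi.neg_apply, AddMonoidHom.neg_apply, Finset.sum_neg_distrib]
        rfl⟩
  choose A a1 a2 using h3
  choose c hc using fun i => QuotientAddGroup.eq_iff_sub_mem.1 ((hy i).trans (a2 i))
  choose d hd using fun i => (QuotientAddGroup.eq_zero_iff (p • y i)).1
    ((congrArg (p • ·) (hy i)).trans (h1 _ ⟨i, rfl⟩))
  have h4 := (eventually_all.2 hc).and (eventually_all.2 hd)
  obtain ⟨j₀, k1, k2⟩ := h4.exists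
  obtain ⟨x, -, hx⟩ := (U.map fun j i => y i j - y i j₀).eq_pure_of_finite_mem
    ((h.alm.x2 _ a1).image fun z i => (z i).1) (h4.mono fun j e =>
      ⟨fun i => ⟨y i j - y i j₀, (smul_sub _ _ _).trans (sub_eq_zero.2
        ((e.2 i).trans (k2 i).symm))⟩, fun i => Subtype.ext (by
          have := (e.1 i).trans (k1 i).symm
          rw [AddSubmonoidClass.coe_finsetSum]
          simp only [Pi.sub_apply] at this
          simp only [resP, AddEquiv.coe_toAddMonoidHom, map_sub, Finset.sum_sub_distrib]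
          exact sub_eq_sub_iff_sub_eq_sub.1 this), rfl⟩)
  rintro _ ⟨i, rfl⟩
  have h5 : {x} ∈ U.map fun j i => y i j - y i j₀ := by
    rw [hx]
    exact Ultrafilter.mem_pure.2 rfl
  exact (hy i).symm.trans ((QuotientAddGroup.eq_zero_iff _).2 ⟨x i + y i j₀,
    Eventually.mono h5 fun j e => sub_eq_iff_eq_add.1 (congrFun e i)⟩)

end Ul

open Ul

variable {Γ : Type} [Group Γ] {act : Γ →* Iso C} {χ : Γ →* ℤ_[p]ˣ} {R M : Type*} [CommRing R]
  [AddCommGroup M] [Module R M] {ρ : Representation R (G2 p) M}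

/-- **ULT**: an almost equivariant family is almost constant -/
theorem ult (ok : Og ψ act χ) {γ : Γ → M → M} (adm : ∀ v, ∃ P, Adm ρ P ∧ v ∈ P)
    (hz : ∀ a v, ρ (dd a a) v = v) {J : Type*} (U : Ultrafilter J) (w : J → M → Y p C)
    (add : ∀ a b, ∀ᶠ j in (U : Filter J), w j (a + b) = w j a + w j b)
    (hn : ∀ b v, ∀ᶠ j in (U : Filter J), w j (ρ (nn b) v) = ok.psi.n b (w j v))
    (ht : ∀ v, ∀ᶠ j in (U : Filter J), w j (ρ (tt p) v) = Y.phi p C (w j v))
    (hs : ∀ s v, ∀ᶠ j in (U : Filter J),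
      w j (ρ (dd (uq (χ s)) 1) (γ s v)) = Y.gal (act s) (w j v)) :
    ∃ W : M →+ Y p C, Wg ok ρ γ ⊤ W ∧ ∀ v, ∀ᶠ j in (U : Filter J), w j v = W v := by
  let W' : M →+ (J → Y p C) ⧸ Kc U (Y p C) := AddMonoidHom.mk'
    (fun v => (fun j => w j v : J → Y p C)) fun a b => mk_eq U (add a b)
  have e1 : ∀ b v, W' (ρ (nn b) v) = lf U (ok.psi.n b) (W' v) := fun b v => mk_eq U (hn b v)
  have e2 : ∀ v, W' (ρ (tt p) v) = lf U (Y.phi p C).toAddMonoidHom (W' v) :=
    fun v => mk_eq U (ht v)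
  have e3 : ∀ v, W' (ρ (tt p)⁻¹ v) = lf U (Y.phi p C).symm.toAddMonoidHom (W' v) :=
    fun v => mk_eq U ((ht (ρ (tt p)⁻¹ v)).mono fun j e =>
      (Y.phi p C).eq_symm_apply.2 (by rw [← e, rho_inv']))
  have h0 : ∀ v, ∃ c, ∀ᶠ j in (U : Filter J), w j v = c := fun v => by
    obtain ⟨P, hP, hv⟩ := adm v
    refine (QuotientAddGroup.eq_zero_iff _).1 (zed (ρ := subZ hP.gs)
      (W := W'.comp P.subtype.toAddMonoidHom) (fun c v e => by rw [map_zsmul, e, smul_zero])
      ⟨fun b u e => (e1 b u).trans ((congrArg _ e).trans (map_zero _)),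
        fun u e => (e2 u).trans ((congrArg _ e).trans (map_zero _)),
        fun u e => (e3 u).trans ((congrArg _ e).trans (map_zero _)),
        fun u e => (congrArg W' (hz _ u)).trans e,
        fun u e => (congrArg W' (by rw [zz, ← dd_inv]; exact hz _ u)).trans e⟩
      (fun b _ v => e1 b v) (fun v => e2 v) (fin U ok.np ok.psi) hP.subZ (v := ⟨v, hv⟩) trivial)
  choose W hW using h0
  have u : ∀ {v} {f : J → Y p C} {c}, (∀ᶠ j in (U : Filter J), w j v = f j) →
      (∀ᶠ j in (U : Filter J), f j = c) → W v = c := fun a b => by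
    obtain ⟨j, a, b, c⟩ := ((hW _).and (a.and b)).exists
    exact a.symm.trans (b.trans c)
  exact ⟨AddMonoidHom.mk' W fun a b => u (add a b) (((hW a).and (hW b)).mono fun j e => by
      rw [e.1, e.2]),
    ⟨fun b v _ => u (hn b v) ((hW v).mono fun _ e => congrArg _ e),
      fun v _ => u (ht v) ((hW v).mono fun _ e => congrArg _ e),
      fun s v _ => u (hs s v) ((hW v).mono fun _ e => congrArg _ e)⟩, hW⟩

end Vale.Agent.P022K.WB
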