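import Vale.Agent.P022K.WB.Tr1
import Vale.Agent.P022K.WB.R1

/-!
# Block WB: the fibre of a family sees all of the Galois representation

`Q` is a module over a ring `R` with matrix units and a separating family of functionals, the
Galois action is given by `f : Γ → M₂(R)`, `x : R → O` is a point. If `f` is irreducible where
`c ≠ 0` and `c` does not vanish on the formal neighbourhood of the fibre (`FS`), then `Lam` holds
on the fibre. The representation at the point may be reducible.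
-/

set_option linter.all false

noncomputable section

namespace Vale.Agent.P022K.WB

open Matrix Noe R1

variable {p : ℕ} [Fact p.Prime] {C : Type} [NontriviallyNormedField C] [IsUltrametricDist C]
  [CharZero C] {ψ : ℚ_[p] → C} {Γ : Type} [Group Γ] {act : Γ →* Iso C} {χ : Γ →* ℤ_[p]ˣ}
  {ok : Og ψ act χ} {R M : Type} [CommRing R] [AddCommGroup M] [Module R M]

variable (p) in
/-- a system of ideals of finite index, the representation is continuous -/
structure Cs (act : Γ →* Iso C) (f : Γ → Matrix (Fin 2) (Fin 2) R) (I : ℕ → Ideal R) : Prop where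
  fin : ∀ N, Finite (R ⧸ I N)
  pI : ∀ N, ∃ m : ℕ, (p : R) ^ m ∈ I N
  opn : ∀ N, ∃ s : Finset C, (∀ a ∈ s, Alg a) ∧ ∀ h, (∀ a ∈ s, (act h).1 a = a) →
    ∀ i j, (f h - 1) i j ∈ I N

variable (p) in
/-- `c` does not vanish on the formal neighbourhood of the fibre -/
def FS (Q : Submodule R M) (P : Ideal R) (c : R) : Prop :=
  ∀ N : ℕ, ∃ i : ℕ, ∃ θ ∈ Q, θ ∈ Kl M (P ^ i) ∧ ((p : R) ^ (N * i) * c) • θ ≠ 0

namespace R2

theorem fin_pi {J : Type} [Finite J] {I : Ideal R} (h : Finite (R ⧸ I))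
    (K : AddSubgroup (J → Fin 2 → R)) (hK : ∀ a : J → Fin 2 → R, (∀ j k, a j k ∈ I) → a ∈ K) :
    Finite ((J → Fin 2 → R) ⧸ K) := by
  refine Finite.of_surjective (fun z : J → Fin 2 → R ⧸ I =>
    ((fun j k => (z j k).out : J → Fin 2 → R) : (J → Fin 2 → R) ⧸ K)) fun z => ?_
  obtain ⟨a, rfl⟩ := QuotientAddGroup.mk_surjective z
  refine ⟨fun j k => Ideal.Quotient.mk I (a j k), (QuotientAddGroup.eq_iff_sub_mem).2
    (hK _ fun j k => ?_)⟩
  exact Ideal.Quotient.eq.1 (Ideal.Quotient.mk_out _)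

theorem pi_sum {J : Type} [Fintype J] [DecidableEq J] (a : J → Fin 2 → R) :
    a = ∑ j, ∑ k, a j k • (Pi.single j (Pi.single k 1) : J → Fin 2 → R) := by
  ext j k
  simp only [Finset.sum_apply, Pi.smul_apply, smul_eq_mul]
  rw [Finset.sum_eq_single j (fun j' _ e => by simp [Pi.single_eq_of_ne e.symm]) (by simp),
    Finset.sum_eq_single k (fun k' _ e => by simp [Pi.single_eq_of_ne e.symm]) (by simp)]
  simp

variable {ρ : Representation R (G2 p) M} {Q S : Submodule R M}
  {E : Matrix (Fin 2) (Fin 2) R →ₐ[R] Module.End R M} {f : Γ →* Matrix (Fin 2) (Fin 2) R}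
  {ι : Type} {W : ι → M →+ Y p C} {J : Type} [Fintype J]

/-- the pairing of a finite family -/
def bt (E : Matrix (Fin 2) (Fin 2) R →ₐ[R] Module.End R M) (W : ι → M →+ Y p C)
    (q : J → ι × Fin 2) (S : Submodule R M) : S →+ (J → Fin 2 → R) →+ Y p C :=
  sumK fun j => kap S E (W (q j).1) (q j).2

theorem bt_apply (q : J → ι × Fin 2) (v : S) (a : J → Fin 2 → R) :
    bt E W q S v a = ∑ j, W (q j).1 (E (colL (q j).2 (a j)) v) := by
  simp only [bt, sumK_apply, kap_apply]

theorem bt_smul (q : J → ι × Fin 2) (o : R) (v : S) (a : J → Fin 2 → R) :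
    bt E W q S v (o • a) = bt E W q S (o • v) a := by
  simp only [bt_apply, Pi.smul_apply, map_smul, LinearMap.smul_apply, Submodule.coe_smul]

variable (E W) in
/-- the common kernel -/
def ck (q : J → ι × Fin 2) (S : Submodule R M) : Submodule R (J → Fin 2 → R) where
  carrier := {a | ∀ u, bt E W q S u a = 0}
  zero_mem' u := map_zero _
  add_mem' ha hb u := by rw [map_add, ha u, hb u, add_zero]
  smul_mem' o a ha u := by rw [bt_smul, ha]

theorem ck_of {q : J → ι × Fin 2} {I : Ideal R} (hI : S ≤ Kl M I) (a : J → Fin 2 → R)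
    (ha : ∀ j k, a j k ∈ I) : a ∈ ck E W q S := by
  classical
  rw [pi_sum a]
  refine sum_mem fun j _ => sum_mem fun k _ u => ?_
  have : a j k • u = 0 := Subtype.ext (mem_Kl.1 (hI u.2) _ (ha j k))
  rw [bt_smul, this, map_zero, AddMonoidHom.zero_apply]

theorem bt_bm (h : Tg ok ρ Q E f W) (hS : Gs ρ S) (le : S ≤ Q) (es : ∀ m, ∀ v ∈ S, E m v ∈ S)
    (q : J → ι × Fin 2) : Bm ok (subZ hS) (piA (mv f) J) (bt E W q S) :=
  Bm.sum fun j => h.bm hS le es (q j).1 (q j).2

theorem ck_span (h : Tg ok ρ Q E f W) (hS : Gs ρ S) (le : S ≤ Q) (es : ∀ m, ∀ v ∈ S, E m v ∈ S)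
    (q : J → ι × Fin 2) {m : Matrix (Fin 2) (Fin 2) R} (hm : m ∈ Submodule.span R (Set.range f))
    {a : J → Fin 2 → R} (ha : a ∈ ck E W q S) : (fun j => m *ᵥ a j) ∈ ck E W q S := by
  induction hm using Submodule.span_induction with
  | mem _ hx =>
    obtain ⟨s, rfl⟩ := hx
    intro u
    have := (bt_bm h hS le es q).s s (subZ hS (dd (uq (χ s)) 1)⁻¹ u) a
    rwa [rho_inv', ha, map_zero] at this
  | zero =>
    simp only [zero_mulVec]
    exact zero_mem _
  | add x y _ _ hx hy =>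
    simp only [add_mulVec]
    exact add_mem hx hy
  | smul o x _ hx =>
    simp only [smul_mulVec]
    exact Submodule.smul_mem _ o hx

/-- the vectors with coordinates in an ideal -/
def co (J : Type) (P : Ideal R) : Submodule R (J → Fin 2 → R) :=
  Submodule.pi Set.univ fun _ => Submodule.pi Set.univ fun _ => P

theorem mem_co {J : Type} {P : Ideal R} {a : J → Fin 2 → R} : a ∈ co J P ↔ ∀ j k, a j k ∈ P :=
  ⟨fun h j k => h j trivial k trivial, fun h j _ k _ => h j k⟩

variable [CompleteSpace C] [IsAlgClosed C]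

/-- the common kernel on the fibre comes from the common kernel on a thickening -/
theorem ck_le (rw : Rows p C) (h : Tg ok ρ Q E f W) {I : ℕ → Ideal R} (hc : Cs p act f I)
    (hS : Gs ρ S) (le : S ≤ Q) (es : ∀ m, ∀ v ∈ S, E m v ∈ S) {N : ℕ} (hN : S ≤ Kl M (I N))
    {q : J → ι × Fin 2} (inj : ∀ u, bt E W q S u = 0 → u = 0) (P : Ideal R) :
    ck E W q (S ⊓ Kl M P) ≤ co J P ⊔ ck E W q S := fun a ha => by
  by_contra hn
  have hb := bt_bm h hS le es q
  obtain ⟨u, ⟨θ, rfl⟩, h1, h2⟩ := sj rw ok (fun g : χ.ker => (piA (mv f) J g : _ →+ _))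
    (bt E W q S).range (ck E W q S).toAddSubgroup
    (fun v => ⟨by rintro a _ ⟨θ, rfl⟩; exact a θ, fun a θ => a _ ⟨θ, rfl⟩⟩)
    (fin_pi (hc.fin N) _ fun a ha => ck_of hN a ha)
    (by
      obtain ⟨m, hm⟩ := hc.pI N
      refine ⟨m, fun v => ck_of hN _ fun j k => ?_⟩
      show p ^ m • v j k ∈ I N
      rw [nsmul_eq_mul, Nat.cast_pow]
      exact Ideal.mul_mem_right _ _ hm)
    (by
      obtain ⟨s, hs, hO⟩ := hc.opn N
      refine ⟨s, hs, fun g hg v => ck_of hN _ fun j k => ?_⟩
      have : (f g *ᵥ v j - v j) k = ∑ l, (f g - 1) k l * v j l := by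
        rw [show f g *ᵥ v j - v j = (f g - 1) *ᵥ v j by rw [sub_mulVec, one_mulVec]]
        rfl
      show (f g *ᵥ v j - v j) k ∈ I N
      rw [this]
      exact sum_mem fun l _ => Ideal.mul_mem_right _ _ (hO g hg k l))
    (by rintro _ ⟨θ, rfl⟩ g v; exact hb.eqv θ g v)
    (by rintro _ ⟨θ, rfl⟩ b; exact ⟨_, AddMonoidHom.ext fun v => hb.n b θ v⟩)
    (by rintro _ ⟨θ, rfl⟩; exact ⟨_, AddMonoidHom.ext fun v => hb.t θ v⟩)
    (by rintro _ ⟨θ, rfl⟩; exact ⟨_, AddMonoidHom.ext fun v => hb.t' θ v⟩)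
    (co J P ⊔ ck E W q S).toAddSubgroup (fun v hv => Submodule.mem_sup_right hv)
    (fun g v hv => by
      obtain ⟨x, hx, y, hy, rfl⟩ := Submodule.mem_sup.1 hv
      show (fun j => f g *ᵥ (x j + y j)) ∈ co J P ⊔ ck E W q S
      simp only [mulVec_add]
      refine add_mem (Submodule.mem_sup_left (mem_co.2 fun j k => ?_))
        (Submodule.mem_sup_right (ck_span h hS le es q (Submodule.subset_span ⟨g.1, rfl⟩) hy))
      show ∑ l, f g k l * x j l ∈ P
      exact sum_mem fun l _ => Ideal.mul_mem_left _ _ (mem_co.1 hx j l)) a hn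
  have h3 : θ.1 ∈ Kl M P := mem_Kl.2 fun o ho => congrArg Subtype.val (inj (o • θ)
    (AddMonoidHom.ext fun b => by
      rw [← bt_smul]
      exact h1 _ (Submodule.mem_sup_left (mem_co.2 fun j k => Ideal.mul_mem_right _ _ ho))))
  have := ha ⟨θ.1, θ.2, h3⟩
  rw [bt_apply] at this h2
  exact h2 this

/-- the span of the rows -/
def rows (K : Submodule R (J → Fin 2 → R)) : Submodule R (J → R) :=
  Submodule.span R {l | ∃ a ∈ K, ∃ k, l = fun j => a j k}

omit [CompleteSpace C] [IsAlgClosed C] in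
theorem rows_ck (h : Tg ok ρ Q E f W) (hS : Gs ρ S) (le : S ≤ Q) (es : ∀ m, ∀ v ∈ S, E m v ∈ S)
    {c : R} (irr : ∀ m, c • m ∈ Submodule.span R (Set.range f)) (q : J → ι × Fin 2) {l : J → R}
    (hl : l ∈ rows (ck E W q S)) (k : Fin 2) :
    (fun j => Pi.single k (c * l j)) ∈ ck E W q S := by
  induction hl using Submodule.span_induction with
  | mem _ hx =>
    obtain ⟨a, ha, k', rfl⟩ := hx
    convert ck_span h hS le es q (irr (Matrix.single k k' 1)) ha using 2
    ext i
    simp [single_mulVec, Pi.single_apply, Function.update_apply]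
  | zero =>
    convert zero_mem (ck E W q S) using 1
    ext j i
    simp
  | add x y _ _ hx hy =>
    convert add_mem hx hy using 1
    ext j i
    simp only [Pi.add_apply, mul_add, Pi.single_apply]
    split_ifs <;> simp
  | smul o x _ hx =>
    convert Submodule.smul_mem _ o hx using 1
    ext j i
    simp only [Pi.smul_apply, smul_eq_mul, Pi.single_apply]
    split_ifs <;> ring

/-- a bound on the fibre gives a bound on all thickenings -/
theorem bound (rw : Rows p C) (h : Tg ok ρ Q E f W) {I : ℕ → Ideal R} (hc : Cs p act f I)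
    (hS : Gs ρ S) (le : S ≤ Q) (es : ∀ m, ∀ v ∈ S, E m v ∈ S) {N : ℕ} (hN : S ≤ Kl M (I N))
    {q : J → ι × Fin 2} (inj : ∀ u, bt E W q S u = 0 → u = 0) {c : R}
    (irr : ∀ m, c • m ∈ Submodule.span R (Set.range f)) {P : Ideal R} {i : ℕ}
    (hP : S ≤ Kl M (P ^ i)) {r : R} (hr : ∀ l, r • l ∈ rows (ck E W q (S ⊓ Kl M P))) :
    ∀ θ ∈ S, (r ^ i * c) • θ = 0 := by
  classical
  let T : ℕ → Submodule R (J → R) := fun n => Submodule.pi Set.univ fun _ => P ^ n
  have h1 : rows (ck E W q (S ⊓ Kl M P)) ≤ T 1 ⊔ rows (ck E W q S) := by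
    refine Submodule.span_le.2 ?_
    rintro _ ⟨a, ha, k, rfl⟩
    obtain ⟨x, hx, y, hy, rfl⟩ := Submodule.mem_sup.1 (ck_le rw h hc hS le es hN inj P ha)
    exact Submodule.add_mem_sup (S := T 1) (s := fun j => x j k) (t := fun j => y j k)
      (fun j _ => by simpa using mem_co.1 hx j k) (Submodule.subset_span ⟨y, hy, k, rfl⟩)
  have h2 : ∀ n, ∀ l ∈ T n, r • l ∈ T (n + 1) ⊔ rows (ck E W q S) := fun n l hl => by
    rw [← Finset.univ_sum_single l, Finset.smul_sum]
    refine sum_mem fun j _ => ?_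
    obtain ⟨x, hx, y, hy, e⟩ := Submodule.mem_sup.1 (h1 (hr (Pi.single j 1)))
    have : r • (Pi.single j (l j) : J → R) = l j • x + l j • y := by
      rw [← smul_add, e, smul_comm (l j), ← Pi.single_smul' j (l j), smul_eq_mul, mul_one]
    rw [this]
    refine Submodule.add_mem_sup (fun j' _ => ?_) (Submodule.smul_mem _ _ hy)
    rw [pow_succ]
    exact Ideal.mul_mem_mul (hl j trivial) (by simpa using hx j' trivial)
  have h3 : ∀ n l, r ^ n • l ∈ T n ⊔ rows (ck E W q S) := fun n l => by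
    induction n with
    | zero => exact Submodule.mem_sup_left fun j _ => by simp
    | succ n ih =>
      obtain ⟨x, hx, y, hy, e⟩ := Submodule.mem_sup.1 ih
      rw [pow_succ', mul_smul, ← e, smul_add]
      exact add_mem (h2 n x hx) (Submodule.mem_sup_right (Submodule.smul_mem _ _ hy))
  have h4 : T i ≤ rows (ck E W q S) := fun l hl => Submodule.subset_span
    ⟨fun j _ => l j, ck_of hP _ fun j _ => hl j trivial, 0, rfl⟩
  intro θ hθ
  refine congrArg Subtype.val (inj ((r ^ i * c) • ⟨θ, hθ⟩) (AddMonoidHom.ext fun a => ?_))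
  have h5 := fun k => rows_ck h hS le es irr q
    (sup_le h4 le_rfl (h3 i fun j => a j k)) k
  have := add_mem (h5 0) (h5 1) ⟨θ, hθ⟩
  rw [← bt_smul, AddMonoidHom.zero_apply, ← this]
  congr 1
  ext j k
  fin_cases k <;> simp <;> ring

end R2

open R2

section res

variable (O : Type) [CommRing O] [Algebra O R] [Module O M] [IsScalarTower O R M]

/-- restriction of scalars -/
def resO (ρ : Representation R (G2 p) M) : Representation O (G2 p) M where
  toFun g := (ρ g).restrictScalars O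
  map_one' := LinearMap.ext fun v => by simp
  map_mul' g h := LinearMap.ext fun v => rho_mul g h v

theorem resO_apply (ρ : Representation R (G2 p) M) (g : G2 p) (v : M) : resO O ρ g v = ρ g v := rfl

theorem Adm.resO {ρ : Representation R (G2 p) M} {S : Submodule R M} (h : Adm ρ S) :
    Adm (resO O ρ) (S.restrictScalars O) := ⟨h.gs, h.sm, h.tor, h.fin⟩

end res

variable [CompleteSpace C] [IsAlgClosed C] {O : Type} [CommRing O] [IsDomain O]
  [IsDiscreteValuationRing O] [Algebra O R] [Module O M] [IsScalarTower O R M]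
  {ρ : Representation R (G2 p) M} {Q : Submodule R M}
  {E : Matrix (Fin 2) (Fin 2) R →ₐ[R] Module.End R M} {f : Γ →* Matrix (Fin 2) (Fin 2) R}
  {ι : Type} {W : ι → M →+ Y p C}

/-- **R2**: a fibre of an irreducible family on which the representation is constant sees all of
the representation -/
theorem Tg.lamF (rw : Rows p C) (hF : PHI p C) (sur : Function.Surjective χ)
    (h : Tg ok ρ Q E f W) {I : ℕ → Ideal R} (hc : Cs p act f I)
    (nil : ∀ θ ∈ Q, ∃ N, θ ∈ Kl M (I N)) (P : Ideal R) {r : Γ →* Matrix (Fin 2) (Fin 2) O}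
    (hr : ∀ s i j, f s i j - algebraMap O R (r s i j) ∈ P) (hp : (p : O) ≠ 0)
    (hl : Lat p act (mv r)) {c : R}
    (irr : ∀ m, c • m ∈ Submodule.span R (Set.range f)) (fs : FS p Q P c) :
    Lam ok (resO O ρ) ((Q ⊓ Kl M P).restrictScalars O) (mv r) := by
  classical
  refine ⟨0, fun N => ?_⟩
  obtain ⟨i, θ, t1, t2, t3⟩ := fs N
  obtain ⟨S₀, s1, s2, s3, s4⟩ := h.loc θ t1
  obtain ⟨n, hn⟩ := nil θ t1
  have gk : ∀ (S : Submodule R M) (K : Ideal R), Gs ρ S → Gs ρ (S ⊓ Kl M K) :=
    fun S K a g v hv => ⟨a g v hv.1, Kl_map (ρ g) hv.2⟩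
  have ek : ∀ (S : Submodule R M) (K : Ideal R), (∀ m, ∀ v ∈ S, E m v ∈ S) →
      ∀ m, ∀ v ∈ S ⊓ Kl M K, E m v ∈ S ⊓ Kl M K :=
    fun S K a m v hv => ⟨a m v hv.1, Kl_map (E m) hv.2⟩
  set S := (S₀ ⊓ Kl M (P ^ i)) ⊓ Kl M (I n)
  have le : S ≤ Q := inf_le_left.trans (inf_le_left.trans s1)
  have gS : Gs ρ S := gk _ _ (gk _ _ s3.gs)
  have eS := ek _ (I n) (ek _ (P ^ i) s4)
  have aS : Adm ρ S := s3.mono (inf_le_left.trans inf_le_left) gS
  obtain ⟨J, hJ⟩ := Bm.fin_inj hF sur (fun q : ι × Fin 2 => h.bm gS le eS q.1 q.2) aS.subZ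
    (fun a v => Subtype.ext (h.cen a v (le v.2))) (h.kap_inj le)
  let q : J → ι × Fin 2 := Subtype.val
  have inj : ∀ u, bt E W q S u = 0 → u = 0 := hJ
  set S' := S ⊓ Kl M P
  have aS' : Adm ρ S' := aS.mono inf_le_left (gk _ _ gS)
  have hb := bt_bm h aS'.gs (inf_le_left.trans le) (ek _ P eS) q
  have hI : S' ≤ Kl M (I n) := inf_le_left.trans inf_le_right
  have := hc.fin n
  have := Fintype.ofFinite (R ⧸ I n)
  let π : (J × (R ⧸ I n) → O) →ₗ[O] J → R :=
    { toFun := fun l j => ∑ b, l (j, b) • b.out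
      map_add' := fun a b => funext fun j => by simp [add_smul, Finset.sum_add_distrib]
      map_smul' := fun o a => funext fun j => by simp [mul_smul, Finset.smul_sum] }
  have hπ : ∀ l : J → R, ∃ l', ∀ j, l j - π l' j ∈ I n := fun l =>
    ⟨fun z => if z.2 = Ideal.Quotient.mk _ (l z.1) then 1 else 0, fun j => by
      have : π (fun z => if z.2 = Ideal.Quotient.mk _ (l z.1) then 1 else 0) j =
          (Ideal.Quotient.mk (I n) (l j)).out := by simp [π]
      rw [this]
      exact Ideal.Quotient.eq.1 (Ideal.Quotient.mk_out _).symm⟩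
  let al : (J × (R ⧸ I n) → Fin 2 → O) →ₗ[O] J → Fin 2 → R :=
    { toFun := fun a j k => π (fun z => a z k) j
      map_add' := fun a b => funext fun j => funext fun k =>
        congrFun (map_add π (fun z => a z k) fun z => b z k) j
      map_smul' := fun o a => funext fun j => funext fun k =>
        congrFun (map_smul π o fun z => a z k) j }
  have hal : ∀ a j k, al a j k = ∑ b, a (j, b) k • b.out := fun _ _ _ => rfl
  let cv : S'.restrictScalars O →+ S' := ⟨⟨fun v => ⟨v.1, v.2⟩, rfl⟩, fun _ _ => rfl⟩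
  let κ : S'.restrictScalars O →+ (J × (R ⧸ I n) → Fin 2 → O) →+ Y p C :=
    ((AddMonoidHom.compHom' al.toAddMonoidHom).comp (bt E W q S')).comp cv
  have hκ : ∀ u a, κ u a = bt E W q S' (cv u) (al a) := fun _ _ => rfl
  let L : Submodule O (J × (R ⧸ I n) → O) := Submodule.span O
    {l | ∃ a : J × (R ⧸ I n) → Fin 2 → O, (∀ u, κ u a = 0) ∧ ∃ k, l = fun j => a j k}
  obtain ⟨m, hm⟩ := hc.pI n
  have tor : ∀ v ∈ S', p ^ m • v = 0 := fun v hv => by
    rw [← Nat.cast_smul_eq_nsmul R, Nat.cast_pow]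
    exact mem_Kl.1 hv.1.2 _ hm
  obtain ⟨y, hy⟩ : ∃ y, (p : O) ^ N • y ∉ L := by
    by_contra! hn'
    refine t3 ?_
    rw [pow_mul]
    refine bound rw h hc gS le eS inf_le_right inj irr (inf_le_left.trans inf_le_right)
      (fun l => ?_) θ ⟨⟨s2, t2⟩, hn⟩
    have h1 : ∀ z ∈ L, π z ∈ rows (ck E W q S') := fun z hz => by
      induction hz using Submodule.span_induction with
      | mem _ hz =>
        obtain ⟨a, ha, k, rfl⟩ := hz
        exact Submodule.subset_span ⟨al a, fun u => ha ⟨u.1, u.2⟩, k, rfl⟩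
      | zero => rw [map_zero]; exact zero_mem _
      | add a b _ _ ha hb => rw [map_add]; exact add_mem ha hb
      | smul o a _ ha => rw [map_smul]; exact Submodule.smul_of_tower_mem _ o ha
    obtain ⟨l', hl'⟩ := hπ l
    have h2 := h1 _ (hn' l')
    have h3 : l - π l' ∈ rows (ck E W q S') := Submodule.subset_span
      ⟨fun j _ => l j - π l' j, ck_of hI _ fun j _ => hl' j, 0, rfl⟩
    rw [map_smul, ← algebraMap_smul R, map_pow, map_natCast] at h2
    have h4 := add_mem (Submodule.smul_mem _ ((p : R) ^ N) h3) h2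
    rwa [← smul_add, sub_add_cancel] at h4
  obtain ⟨μ, m1, m2⟩ := exists_dual L (pow_ne_zero m hp) (fun l => Submodule.subset_span
    ⟨(p : O) ^ m • fun j (_ : Fin 2) => l j, fun u => (hκ _ _).trans (ck_of (q := q) hI _
      (fun j k => by
        rw [map_smul, ← algebraMap_smul R, map_pow, map_natCast]
        exact Ideal.mul_mem_right _ _ hm) _), 0, rfl⟩) hy
  obtain ⟨d, hd⟩ := (IsPrincipalIdealRing.principal (LinearMap.range μ)).principal
  have h0 : d ≠ 0 := fun e => m2 (by
    have : μ ((p : O) ^ N • y) ∈ LinearMap.range μ := ⟨_, rfl⟩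
    rw [hd, e, Submodule.span_zero_singleton, Submodule.mem_bot] at this
    rw [this]
    exact dvd_zero _)
  have h1 : ∀ l, ∃ t, μ l = d * t := fun l => by
    have : μ l ∈ LinearMap.range μ := ⟨_, rfl⟩
    rw [hd] at this
    obtain ⟨t, ht⟩ := Submodule.mem_span_singleton.1 this
    exact ⟨t, by rw [← ht, smul_eq_mul, mul_comm]⟩
  choose ν hν using h1
  obtain ⟨y₀, hy₀⟩ : d ∈ LinearMap.range μ := hd ▸ Submodule.mem_span_singleton_self d
  have n1 : ∀ a b, ν (a + b) = ν a + ν b := fun a b => mul_left_cancel₀ h0 (by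
    rw [mul_add, ← hν, ← hν, ← hν, map_add])
  have n2 : ∀ (o : O) a, ν (o • a) = o * ν a := fun o a => mul_left_cancel₀ h0 (by
    rw [← hν, map_smul, hν, smul_eq_mul, mul_left_comm])
  have n3 : ν y₀ = 1 := mul_left_cancel₀ h0 (by rw [← hν, hy₀, mul_one])
  have n4 : (p : O) ^ N * d ∣ (p : O) ^ m := (ValuationRing.dvd_total _ _).resolve_right fun e =>
    m2 (by rw [map_smul, hν, smul_eq_mul, ← mul_assoc]; exact e.mul_right _)
  let lam : (J × (R ⧸ I n) → Fin 2 → O) →ₗ[O] Fin 2 → O :=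
    { toFun := fun a k => ν fun j => a j k
      map_add' := fun a b => funext fun k => n1 (fun j => a j k) fun j => b j k
      map_smul' := fun o a => funext fun k => n2 o fun j => a j k }
  refine ⟨S'.restrictScalars O, aS'.resO O, J × (R ⧸ I n) → Fin 2 → O, inferInstance,
    inferInstance, piA (mv r) _, κ, lam, fun v hv => ⟨le hv.1, hv.2⟩, ⟨m, tor⟩,
    hl.pi _ _ fun _ _ _ => rfl,
    ⟨fun b v a => hb.n b (cv v) _, fun v a => hb.t (cv v) _, fun s v a => ?_⟩, fun o v a => ?_,
    fun v hv => ?_, fun s a => funext fun k => ?_, fun a ha => ?_,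
    fun t => ⟨fun j k => t k * y₀ j, 0, funext fun k => ?_⟩⟩
  · rw [hκ, hκ, ← hb.s s (cv v), ← sub_eq_zero]
    refine (map_sub (bt E W q S' (subZ aS'.gs (dd (uq (χ s)) 1) (cv v))) _ _).symm.trans ?_
    refine ck_of (q := q) inf_le_right _ (fun j k => ?_) _
    show ∑ b, (r s *ᵥ a (j, b)) k • b.out - (f s *ᵥ al a j) k ∈ P
    simp only [mulVec, dotProduct, hal, Finset.mul_sum, Finset.sum_smul]
    rw [Finset.sum_comm, ← Finset.sum_sub_distrib]
    refine sum_mem fun l _ => ?_
    rw [← Finset.sum_sub_distrib]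
    refine sum_mem fun b _ => ?_
    rw [mul_smul, Algebra.smul_def (r s k l), ← sub_mul]
    exact Ideal.mul_mem_right _ _ (by simpa using neg_mem (hr s k l))
  · rw [hκ, hκ, al.map_smul, ← algebraMap_smul R o (al a), bt_smul]
    congr 2
    exact Subtype.ext (algebraMap_smul R o v.1).symm
  · have := inj ⟨v.1, v.2.1⟩ (AddMonoidHom.ext fun a => by
      choose l hl using fun k => hπ fun j => a j k
      have e := ck_of (E := E) (W := W) (q := q) hI (a - al fun z k => l k z)
        (fun j k => hl k j) (cv v)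
      rw [map_sub, ← hκ, hv, AddMonoidHom.zero_apply, sub_zero, bt_apply] at e
      rw [bt_apply]
      exact e)
    exact Subtype.ext (congrArg Subtype.val this :)
  · show ν (fun j => (r s *ᵥ a j) k) = (r s *ᵥ fun k => ν fun j => a j k) k
    simp only [mulVec, dotProduct, Fin.sum_univ_two]
    rw [← n2, ← n2, ← n1]
    rfl
  · have : ∀ k, (p : O) ^ N ∣ ν fun j => a j k := fun k => by
      have e := n4.trans (m1 _ (Submodule.subset_span ⟨a, ha, k, rfl⟩))
      rwa [hν, mul_comm, mul_dvd_mul_iff_left h0] at e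
    choose t ht using this
    exact ⟨t, funext fun k => (ht k).trans (by simp)⟩
  · show p ^ 0 • t k = ν (t k • y₀) + p ^ (N + 0) • (0 : O)
    rw [n2, n3]
    simp

end Vale.Agent.P022K.WB
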