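import Vale.Agent.P022K.Top.Gk1
import Vale.Agent.P022K.WB.Lo

/-!
# P022K, block WB: the interface between the sites and the local theory at `p`
-/

set_option autoImplicit false

open NumberField IsDedekindDomain IsLocalRing
open scoped Pointwise

noncomputable section

namespace Vale.Agent.P022K.Top

open Vale.Agent.P022 Vale.Agent.P022.C CH Sh WB FI
open Vale.Agent.P022.H443 (inP)
open Vale.Agent.P022D.W (dec)
open Vale.Agent.P022E.GW (Ov)

variable {p : ℕ} [Fact p.Prime]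

/-- unramified at `P` with trace two -/
def Uu {H : Subgroup GQ} {κ : Type} [CommRing κ] (P : Id) (ρ : H →* GL (Fin 2) κ) : Prop :=
  (∀ s : H, s.1 ∈ inP P → ρ s = 1) ∧ ∀ s : H, s.1 ∈ dec P → tr ρ s = 2

theorem Uu.smul {H : Subgroup GQ} {κ : Type} [CommRing κ] {P : Id} {ρ : H →* GL (Fin 2) κ}
    (h : Uu P ρ) (g : H) : Uu (g.1 • P) ρ := by
  have e : ∀ s, ρ s = ρ g * ρ (g⁻¹ * s * g) * (ρ g)⁻¹ := fun s => by
    simp [mul_assoc]
  refine ⟨fun s hs => ?_, fun s hs => ?_⟩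
  · rw [e, h.1 (g⁻¹ * s * g) fun x => ?_, mul_one, mul_inv_cancel]
    have := hs (g.1 • x)
    rwa [Ideal.mem_pointwise_smul_iff_inv_smul_mem, smul_sub, inv_smul_smul, smul_smul,
      smul_smul] at this
  · rw [← h.2 (g⁻¹ * s * g) (Fld.mem_dec_smul.1 hs), tr, tr, e s, Units.val_mul, Units.val_mul,
      Matrix.trace_mul_cycle, Units.inv_mul, one_mul]

/-- restriction along an embedding, with values in a subgroup -/
def rsH {e : Qb →+* CS p} {P : Id} (h : Ab e P) {H : Subgroup GQ} (le : dec P ≤ H) :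
    Iso (CS p) →* H := (rs e).codRestrict H fun σ => le (h.mem σ)

namespace Si

variable {O : Type} [CommRing O] {Z : Si p O}

variable (Z) in
/-- an embedding over the place `k` -/
structure Pl (k : Z.J) where
  e : Qb →+* CS p
  P : Id
  hP : Ab e P
  ov : below Z.j P = (Z.u k).asIdeal
  d : Iso (CS p) →* Z.H
  hd : ∀ σ, (d σ).1 = rs e σ

variable {k : Z.J}

namespace Pl

variable (D : Z.Pl k)

theorem ovp : Ov p D.P := D.hP.ov

theorem he (σ : Iso (CS p)) (x : Qb) : D.e ((D.d σ).1 x) = σ.1 (D.e x) := by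
  rw [D.hd, rs_spec]

theorem mem (σ : Iso (CS p)) : (D.d σ).1 ∈ dec D.P := D.hd σ ▸ D.hP.mem σ

theorem onto {s : GQ} (hs : s ∈ dec D.P) : ∃ σ, (D.d σ).1 = s :=
  (D.hP.onto hs).imp fun σ e => (D.hd σ).trans e

theorem le : dec D.P ≤ Z.H := fun _ hs => (D.onto hs).elim fun σ e => e ▸ (D.d σ).2

theorem cy_d (A : Type) [CommRing A] [Algebra ℤ_[p] A] (σ : Iso (CS p)) :
    cy p A (D.d σ) = algebraMap ℤ_[p] A (chi0 p σ : ℤ_[p]ˣ) := by
  rw [← chi_rs D.e, D.hd]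
  rfl

/-- the datum of a prime -/
def mk' {e : Qb →+* CS p} {P : Id} (h : Ab e P) (ov : below Z.j P = (Z.u k).asIdeal)
    (le : dec P ≤ Z.H) : Z.Pl k := ⟨e, P, h, ov, rsH h le, fun _ => rfl⟩

/-- two data over the same place are conjugate -/
theorem conj (D' : Z.Pl k) :
    ∃ c : Z.H, D'.P = c⁻¹.1 • D.P ∧ ∀ σ, D'.d σ = c⁻¹ * D.d σ * c := by
  obtain ⟨g, hg⟩ := H916.exists_smul Z.j D.ovp.2.1 D'.ovp.2.1 (D.ov.trans D'.ov.symm)
  obtain ⟨τ, -, h⟩ := (D.hP.smul g).two (hg ▸ D'.hP)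
  refine ⟨D.d τ * g⁻¹, ?_, fun σ => Subtype.ext ?_⟩
  · rw [hg, mul_inv_rev, inv_inv, Subgroup.coe_mul, mul_smul]
    congr 1
    ext x
    rw [Ideal.mem_pointwise_smul_iff_inv_smul_mem, Subgroup.coe_inv, inv_inv, D.mem τ x]
  · rw [D'.hd, h, rs_comp]
    simp [D.hd, mul_assoc]

/-- the equivariant functionals -/
abbrev W (W : Z.M →+ Y p (CS p)) : Prop := Z.Wf (ok0 p) k D.d W

theorem W_conj {D D' : Z.Pl k} (h : Z.T.CC p Z.a Z.g) {c : Z.H}
    (hc : ∀ σ, D'.d σ = c⁻¹ * D.d σ * c) {W : Z.M →+ Y p (CS p)} (w : D.W W) :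
    D'.W (W.comp (Z.g c).toAddMonoidHom) := by
  have e : ∀ x v, Z.g c (Z.ap k x v) = Z.ap k x (Z.g c v) := fun x v =>
    (LinearMap.congr_fun (h.com _ c).eq v).symm
  refine ⟨fun b v _ => ?_, fun v _ => ?_, fun s v _ => ?_⟩
  · exact (congrArg W (e _ v)).trans (w.n b _ trivial)
  · exact (congrArg W (e _ v)).trans (w.t _ trivial)
  · refine (congrArg W ((e _ _).trans (congrArg _ ?_))).trans (w.s s _ trivial)
    rw [← Module.End.mul_apply, ← map_mul, hc, ← mul_assoc, mul_inv_cancel_left, map_mul]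
    rfl

theorem uu_iff (D' : Z.Pl k) {κ : Type} [CommRing κ] (ρ : Z.H →* GL (Fin 2) κ) :
    Uu D.P ρ ↔ Uu D'.P ρ := by
  have : ∀ D D' : Z.Pl k, Uu D.P ρ → Uu D'.P ρ := fun D D' h =>
    (D.conj D').elim fun c hc => hc.1 ▸ h.smul c⁻¹
  exact ⟨this _ _, this _ _⟩

variable [Algebra ℤ_[p] O]

/-- the common kernel of the functionals -/
abbrev N : Submodule O Z.M := Nw (ok0 p) k D.d

theorem N_eq (D' : Z.Pl k) (h : Z.T.CC p Z.a Z.g) : D.N = D'.N := by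
  have : ∀ D D' : Z.Pl k, D'.N ≤ D.N := fun D D' v hv W w s => by
    obtain ⟨c, -, hc⟩ := D.conj D'
    have := hv _ (W_conj h hc w) (c⁻¹ * s)
    rwa [AddMonoidHom.comp_apply, LinearMap.toAddMonoidHom_coe, ← Module.End.mul_apply, ← map_mul,
      mul_inv_cancel_left] at this
  exact le_antisymm (this _ _) (this _ _)

variable [IsLocalRing O]

/-- injectivity on the socle -/
abbrev Inj (t : Z.H → O) : Prop := Z.Soc (ok0 p) k D.d t

theorem Inj.two {D : Z.Pl k} {t : Z.H → O} (i : D.Inj t) (h : Z.T.CC p Z.a Z.g) (D' : Z.Pl k) :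
    D'.Inj t := fun v h1 h2 h3 h4 => i v h1 h2 h3 fun W w x s => by
  obtain ⟨c, -, hc⟩ := D.conj D'
  have := h4 _ (W_conj h hc w) x (c⁻¹ * s)
  rwa [AddMonoidHom.comp_apply, LinearMap.toAddMonoidHom_coe,
    ← show Z.a x (Z.g c _) = Z.g c (Z.a x _) from LinearMap.congr_fun (h.com x c).eq _,
    ← Module.End.mul_apply (Z.g c), ← map_mul, mul_inv_cancel_left] at this

end Pl

theorem Ok1.pl_at (h : Z.Ok1) {P : Id} (hP : P.IsPrime) (ov : below Z.j P = (Z.u k).asIdeal) :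
    ∃ D : Z.Pl k, D.P = P := by
  have h1 := h.up1 k P hP ov
  obtain ⟨e, he⟩ := exists_ab h1
  exact ⟨Pl.mk' he ov (h.spl p (Finset.mem_singleton_self p) P h1), rfl⟩

theorem Ok1.pl (h : Z.Ok1) (k : Z.J) : Nonempty (Z.Pl k) := by
  obtain ⟨P, hP, e⟩ := H916.exists_above Z.j _ (Z.u k).isPrime
  exact (h.pl_at hP e).nonempty

variable [Algebra ℤ_[p] O] [IsLocalRing O]

variable (Z) in
/-- **the output of the geometry at the place `k`** -/
def Wn1 (k : Z.J) : Prop := ∃ D : Z.Pl k, ∀ (κ : Type) [Field κ] [Finite κ] (π : O →+* κ)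
  (ρ : Z.H →* GL (Fin 2) κ) (t : Z.H → O), Z.Rt π ρ t → (p = 2 → ¬ Uu D.P ρ) → D.Inj t

variable (Z) in
/-- **the output of the geometry** -/
def Wn : Prop := ∀ k, Z.Wn1 k

variable {κ : Type} [Field κ] [Finite κ] {π : O →+* κ} {ρ : Z.H →* GL (Fin 2) κ} {t : Z.H → O}

theorem Wn1.inj (w : Z.Wn1 k) (h : Z.T.CC p Z.a Z.g) (r : Z.Rt π ρ t) (D : Z.Pl k)
    (u : p = 2 → ¬ Uu D.P ρ) : D.Inj t := by
  obtain ⟨D', w⟩ := w
  exact (w κ π ρ t r fun e => mt (D'.uu_iff D ρ).1 (u e)).two h D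

/-- **GK** from `Wn` -/
theorem Wn.gk (w : Z.Wn) (h : Z.Ok1) (hS : SURJ p (CS p)) (hF : PHI p (CS p)) (r : Z.Rt π ρ t)
    (u : p = 2 → ∀ k P, Ov p P → below Z.j P = (Z.u k).asIdeal → ¬ Uu P ρ) : Z.Gk t := by
  obtain ⟨D⟩ : Nonempty (∀ k, Z.Pl k) := have := h.pl; inferInstance
  exact r.gk1' h hS hF (sur0 p) (fun k => (D k).e) (fun k => (D k).he) fun k =>
    (w k).inj h.cc r (D k) fun e => u e k _ (D k).ovp (D k).ov

end Si

end Vale.Agent.P022K.Top
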