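import Vale.Agent.P022K.WB.Tr2

/-!
# P022K, block WB: modules with several places and one set of matrix units at each place
-/

set_option autoImplicit false
set_option linter.all false

noncomputable section

namespace Vale.Agent.P022K.WB

open Matrix Noe Function

variable {p : ℕ} [Fact p.Prime] {C : Type} [NontriviallyNormedField C] [IsUltrametricDist C]
  [CharZero C] {ψ : ℚ_[p] → C} {Γ : Type} [Group Γ] {act : Γ →* Iso C} {χ : Γ →* ℤ_[p]ˣ}
  {ok : Og ψ act χ} {R M : Type} [CommRing R] [AddCommGroup M] [Module R M] {J : Type}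

/-- a union of admissible modules `B j` with commuting actions at several places -/
structure Tp (ok : Og ψ act χ) (σ : J → Representation R (G2 p) M)
    (E : J → Matrix (Fin 2) (Fin 2) R →ₐ[R] Module.End R M)
    (f : J → Γ →* Matrix (Fin 2) (Fin 2) R) {L : J → Type} (W : ∀ k, L k → M →+ Y p C) :
    Prop where
  hc : ∀ v w, v ≠ w → ∀ g h z, σ v g (σ w h z) = σ w h (σ v g z)
  sm : ∀ k v, Sm (σ k) v
  tor : ∀ v : M, ∃ n : ℕ, p ^ n • v = 0
  fin : ∃ B : ℕ → Submodule R M, Monotone B ∧ (∀ v, ∃ j, v ∈ B j) ∧ (∀ j k, Gs (σ k) (B j)) ∧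
    (∀ j k m, ∀ v ∈ B j, E k m v ∈ B j) ∧
    ∀ j n, {v | v ∈ B j ∧ p • v = 0 ∧ ∀ k, v ∈ Fx (σ k) (Kn p n)}.Finite
  com : ∀ k k' g m v, σ k g (E k' m v) = E k' m (σ k g v)
  cen : ∀ k a v, σ k (dd a a) v = v
  wg : ∀ k i, Wg ok (σ k) (fun s => E k (f k s)) ⊤ (W k i)
  inj : ∀ k v, (∀ i m, W k i (E k m v) = 0) → v = 0

variable {σ : J → Representation R (G2 p) M}
  {E : J → Matrix (Fin 2) (Fin 2) R →ₐ[R] Module.End R M} {f : J → Γ →* Matrix (Fin 2) (Fin 2) R}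
  {L : J → Type} {W : ∀ k, L k → M →+ Y p C} [DecidableEq J] {I K : Type} [Zero K]

/-- the other places are frozen -/
theorem Tp.tg [Finite J] [Finite I] (h : Tp ok σ E f W) (φ : K → R)
    (rel : J → Set (G2 p × I →₀ K)) {Q : Submodule R M} (gs : ∀ k, Gs (σ k) Q) (s : Set J) {k : J}
    (es : ∀ m, ∀ v ∈ Q, E k m v ∈ Q) (hk : k ∉ s) :
    Tg ok (piR (σ k) (J → I)) (SlS φ σ rel Q s) (piE (E k) (J → I)) (f k)
      fun q : L k × (J → I) => (W k q.1).comp (Pi.evalAddMonoidHom _ q.2) := by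
  have bd : ∀ {A : Type} [Finite A] (f : A → ℕ), ∃ n, 0 < n ∧ ∀ a, f a ≤ n := fun f => by
    obtain ⟨n, hn⟩ := (Set.finite_range f).bddAbove
    exact ⟨n + 1, n.succ_pos, fun a => (hn ⟨a, rfl⟩).trans n.le_succ⟩
  refine ⟨fun g m x _ => funext fun a => h.com k k g m _, fun c x _ => funext fun a => h.cen k c _,
    fun q => ⟨fun b x _ => (h.wg k q.1).n b _ trivial, fun x _ => (h.wg k q.1).t _ trivial,
      fun t x _ => (h.wg k q.1).s t _ trivial⟩,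
    fun x _ h0 => funext fun a => h.inj k _ fun i m => h0 (i, a) m, fun z hz => ?_⟩
  obtain ⟨B, b1, b2, b3, b4, b5⟩ := h.fin
  choose j hj using fun a => b2 (z a)
  obtain ⟨j, -, hj'⟩ := bd j
  choose f hf using fun q : J × (J → I) => h.sm q.1 (z q.2)
  obtain ⟨n, n0, hn⟩ := bd f
  refine ⟨Aw (fun k => piR (σ k) (J → I)) (SlS φ σ rel (Q ⊓ B j) s) k fun _ => Kn p n,
    fun x hx => ⟨fun a => (hx.1.1 a).1, hx.1.2⟩,
    mem_Aw.2 ⟨⟨fun a => ⟨hz.1 a, b1 (hj' a) (hj a)⟩, hz.2⟩,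
      fun w _ g hg => funext fun a => hf (w, a) g (Kn_anti (hn _) hg)⟩,
    ⟨Aw_gs (σ := fun k => piR (σ k) (J → I)) (P := SlS φ σ rel (Q ⊓ B j) s)
      (fun v w e g g' x => funext fun a => h.hc v w e g g' (x a)) (fun g x hx =>
      ⟨fun a => ⟨gs k g _ (hx.1 a).1, b3 j k g _ (hx.1 a).2⟩, fun k' hk' a =>
        SlO_map (hx.2 k' hk' a) (σ k g) fun g' i => h.hc k k' (fun e => hk (e ▸ hk')) _ _ _⟩) _,
      fun x _ => ?_, fun x _ => ?_, (Set.Finite.pi fun _ : J → I => b5 j n).subset fun x hx a _ =>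
        ⟨(hx.1.1.1 a).2, congrFun hx.2.1 a, fun w g hg => ?_⟩⟩,
    fun m x hx => mem_Aw.2 ⟨⟨fun a => ⟨es m _ (hx.1.1 a).1, b4 j k m _ (hx.1.1 a).2⟩,
      fun k' hk' a => SlO_map (hx.1.2 k' hk' a) (E k m) fun g' i => (h.com k' k _ _ _).symm⟩,
      fun w hw g hg => funext fun a => (h.com w k g m _).trans
        (congrArg (E k m) (congrFun ((mem_Aw.1 hx).2 w hw g hg) a))⟩⟩
  · choose f' hf' using fun a => h.sm k (x a)
    obtain ⟨n', -, hn'⟩ := bd f'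
    exact ⟨n', fun g hg => funext fun a => hf' a g (Kn_anti (hn' a) hg)⟩
  · choose f' hf' using fun a => h.tor (x a)
    obtain ⟨n', -, hn'⟩ := bd f'
    refine ⟨n', funext fun a => ?_⟩
    obtain ⟨d, rfl⟩ := Nat.exists_eq_add_of_le' (hn' a)
    rw [Pi.smul_apply, pow_add, mul_smul, hf', smul_zero, Pi.zero_apply]
  · by_cases e : w = k
    · subst e
      exact congrFun (hx.2.2 g (Kn_le_I1 n0 hg)) a
    · exact congrFun ((mem_Aw.1 hx.1).2 w e g hg) a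

/-- one place, no pattern -/
theorem Tp.tg1 [Finite J] (h : Tp ok σ E f W) {Q : Submodule R M} (gs : ∀ k, Gs (σ k) Q) {k : J}
    (es : ∀ m, ∀ v ∈ Q, E k m v ∈ Q) : Tg ok (σ k) Q (E k) (f k) (W k) := by
  refine ⟨fun g m x _ => h.com k k g m _, fun c x _ => h.cen k c _,
    fun q => ⟨fun b x _ => (h.wg k q).n b _ trivial, fun x _ => (h.wg k q).t _ trivial,
      fun t x _ => (h.wg k q).s t _ trivial⟩, fun x _ => h.inj k _, fun z hz => ?_⟩
  obtain ⟨B, -, b2, b3, b4, b5⟩ := h.fin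
  obtain ⟨j, hj⟩ := b2 z
  choose f hf using fun k => h.sm k z
  obtain ⟨n, hn⟩ := (Set.finite_range f).bddAbove
  refine ⟨Aw σ (Q ⊓ B j) k fun _ => Kn p (n + 1), fun x hx => hx.1.1,
    mem_Aw.2 ⟨⟨hz, hj⟩, fun w _ g hg => hf w g (Kn_anti ((hn ⟨w, rfl⟩).trans n.le_succ) hg)⟩,
    ⟨Aw_gs (P := Q ⊓ B j) h.hc (fun g x hx => ⟨gs k g _ hx.1, b3 j k g _ hx.2⟩) _,
      fun x _ => h.sm k x,
      fun x _ => h.tor x, (b5 j (n + 1)).subset fun x hx => ⟨hx.1.1.2, hx.2.1, fun w g hg => ?_⟩⟩,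
    fun m x hx => mem_Aw.2 ⟨⟨es m _ hx.1.1, b4 j k m _ hx.1.2⟩, fun w hw g hg =>
      (h.com w k g m _).trans (congrArg (E k m) ((mem_Aw.1 hx).2 w hw g hg))⟩⟩
  by_cases e : w = k
  · subst e
    exact hx.2.2 g (Kn_le_I1 n.succ_pos hg)
  · exact (mem_Aw.1 hx.1).2 w e g hg

end Vale.Agent.P022K.WB
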