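import Vale.Agent.P022K.WB.Tr2
import Vale.Agent.P022K.F0.ApeW

/-!
# P022K, block WB: the pattern of a weight and a type, the condition `LocR`
-/

set_option autoImplicit false

noncomputable section

namespace Vale.Agent.P022K.WB

open Matrix Function Sh

variable {p : ℕ} [Fact p.Prime]

/-- integral matrices in the group -/
abbrev jK (y : GL (Fin 2) ℤ_[p]) : G2 p := GeneralLinearGroup.map (algebraMap ℤ_[p] ℚ_[p]) y

/-- a lift of a matrix modulo `p` -/
abbrev lfK (g : GL (Fin 2) (ZMod p)) : GL (Fin 2) ℤ_[p] :=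
  Classical.epsilon fun y : GL (Fin 2) ℤ_[p] => GeneralLinearGroup.map PadicInt.toZMod y = g

section pat

variable (O : Type) [CommRing O] [Algebra ℤ_[p] O]

/-- the weight matrices -/
abbrev syO (m : ℕ) (y : GL (Fin 2) ℤ_[p]) : Matrix (Fin (2 * m + 1)) (Fin (2 * m + 1)) O :=
  syd m (GeneralLinearGroup.map (algebraMap ℤ_[p] O) y)

/-- the row `i` of the action of `y` -/
def rw1 (m : ℕ) (y : GL (Fin 2) ℤ_[p]) (i : Fin (2 * m + 1)) : G2 p × Fin (2 * m + 1) →₀ O :=
  ∑ i', Finsupp.single (jK y, i') (syO O m y i i')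

variable {O}

/-- **the pattern** of weight `2 m + 2`, level `p ^ n`, type `c` with eigenvalue `e` -/
def rel (m n : ℕ) (c : Option (GL (Fin 2) (ZMod p) → O)) (e : O) :
    Set (G2 p × Fin (2 * m + 1) →₀ O) :=
  {r | (∃ y i, GeneralLinearGroup.map (PadicInt.toZModPow n) y = 1 ∧
      r = rw1 O m y i - Finsupp.single (1, i) 1) ∨
    ∃ c' i, c = some c' ∧ r = ∑ g, c' g • rw1 O m (lfK g) i - Finsupp.single (1, i) e}

variable {M : Type*} [AddCommGroup M] [Module O M] (ρ : Representation O (G2 p) M)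

/-- the action of integral matrices on `V_m ⊗ M` -/
def tw1 (m : ℕ) (y : GL (Fin 2) ℤ_[p]) (x : Fin (2 * m + 1) → M) : Fin (2 * m + 1) → M :=
  fun i => ∑ i', syO O m y i i' • ρ (jK y) (x i')

variable {ρ}

theorem mem_rel {m n : ℕ} {c : Option (GL (Fin 2) (ZMod p) → O)} {e : O}
    {x : Fin (2 * m + 1) → M} : x ∈ SlO id ρ (rel m n c e) ↔
    (∀ y, GeneralLinearGroup.map (PadicInt.toZModPow n) y = 1 → tw1 ρ m y x = x) ∧
      ∀ c', c = some c' → ∑ g, c' g • tw1 ρ m (lfK g) x = e • x := by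
  let F := Finsupp.linearCombination O fun q : G2 p × Fin (2 * m + 1) => ρ q.1 (x q.2)
  have h0 : x ∈ SlO id ρ (rel m n c e) ↔ ∀ r ∈ rel m n c e, F r = 0 := Iff.rfl
  have h1 : ∀ y i, F (rw1 O m y i) = tw1 ρ m y x i := fun y i => by
    simp only [F, rw1, map_sum, Finsupp.linearCombination_single, tw1]
  have h2 : ∀ i o, F (Finsupp.single (1, i) o) = o • x i := fun i o => by
    simp only [F, Finsupp.linearCombination_single, map_one, Module.End.one_apply]
  rw [h0]
  constructor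
  · refine fun h => ⟨fun y hy => funext fun i => ?_, fun c' hc => funext fun i => ?_⟩
    · simpa only [map_sub, h1, h2, one_smul, sub_eq_zero] using h _ (Or.inl ⟨y, i, hy, rfl⟩)
    · simpa only [map_sub, map_sum, map_smul, h1, h2, sub_eq_zero, Finset.sum_apply,
        Pi.smul_apply] using h _ (Or.inr ⟨c', i, hc, rfl⟩)
  · rintro ⟨k1, k2⟩ _ (⟨y, i, hy, rfl⟩ | ⟨c', i, hc, rfl⟩)
    · rw [map_sub, h1, h2, one_smul, k1 y hy, sub_self]
    · have := congrFun (k2 c' hc) i
      simpa only [map_sub, map_sum, map_smul, h1, h2, sub_eq_zero, Finset.sum_apply,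
        Pi.smul_apply] using this

theorem aug_lin {R : Type} {Θ : Type*} [CommRing R] [AddCommGroup Θ] [Module R Θ] {w : ℕ} (hw : 0 < w)
    (b : R) (x : Fin (w + 1) → Θ) (hU : ∀ j, ∑ k, sy (R := R) w !![1, b; 0, 1] j k • x k = x j)
    (hL : ∀ j, ∑ k, sy (R := R) w !![1, 0; b, 1] j k • x k = x j) (i : Fin (w + 1)) :
    ((w.factorial : R) * b ^ w) • x i = 0 := by
  have h1 : ∀ k ≤ w, ∀ i : Fin (w + 1), i.1 < k → ((k.factorial : R) * b ^ k) • x i = 0 := by
    intro k
    induction k with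
    | zero => exact fun _ i hi => absurd hi i.1.not_lt_zero
    | succ k ih =>
      intro hk i hi
      have e : ((k + 1).factorial : R) * b ^ (k + 1) =
          (b * (k + 1 : ℕ)) * ((k.factorial : R) * b ^ k) := by
        rw [Nat.factorial_succ]
        push_cast
        ring
      rcases Nat.lt_succ_iff_lt_or_eq.1 hi with h | h
      · rw [e, mul_smul, ih (by omega) i h, smul_zero]
      · have c : ∀ l : Fin (w + 1), sy (R := R) w !![1, b; 0, 1] ⟨k + 1, by omega⟩ l =
            b ^ (k + 1 - l) * ((k + 1).choose l : ℕ) := fun l => by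
          simp [sy_apply, mon, Polynomial.coeff_X_add_C_pow]
        have := congrArg (((k.factorial : R) * b ^ k) • ·) (hU ⟨k + 1, by omega⟩)
        simp only [Finset.smul_sum, c] at this
        rw [Finset.sum_eq_add_of_mem i ⟨k + 1, by omega⟩ (Finset.mem_univ _) (Finset.mem_univ _)
          (fun e => by simp [e] at h) fun l _ hl => ?_] at this
        · simp only [h, Nat.add_sub_cancel_left, pow_one, Nat.choose_succ_self_right, Nat.sub_self,
            pow_zero, Nat.choose_self, Nat.cast_one, mul_one, one_smul, add_eq_right] at this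
          rw [e, mul_comm, mul_smul, this]
        · rcases lt_or_gt_of_ne (show l.1 ≠ k from fun e => hl.1 (Fin.ext (e.trans h.symm)))
            with h2 | h2
          · rw [smul_comm, ih (by omega) l h2, smul_zero]
          · have : k + 1 < l.1 := lt_of_le_of_ne h2 fun e => hl.2 (Fin.ext e.symm)
            rw [Nat.choose_eq_zero_of_lt this, Nat.cast_zero, mul_zero, zero_smul, smul_zero]
  rcases Nat.lt_or_eq_of_le (Nat.lt_succ_iff.1 i.2) with h | h
  · exact h1 w le_rfl i h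
  · obtain ⟨v, rfl⟩ := Nat.exists_eq_succ_of_ne_zero hw.ne'
    have c : ∀ l : Fin (v + 1 + 1), sy (R := R) (v + 1) !![1, 0; b, 1] ⟨v, by omega⟩ l =
        (if l.1 = v + 1 then b else 0) + if l.1 = v then 1 else 0 := fun l => by
      simp [sy_apply, mon, mul_add, mul_left_comm _ (Polynomial.C b), ← pow_succ,
        Polynomial.coeff_X_pow]
    have := hL ⟨v, by omega⟩
    simp only [c] at this
    rw [Finset.sum_eq_add_of_mem i ⟨v, by omega⟩ (Finset.mem_univ _) (Finset.mem_univ _)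
      (fun e => by simp [e] at h) fun l _ hl => ?_] at this
    · simp only [h, Nat.succ_eq_add_one, if_true, Nat.add_eq_left, one_ne_zero, if_false, add_zero,
        Nat.left_eq_add, zero_add, one_smul, add_eq_right] at this
      rw [pow_succ, ← mul_assoc, mul_smul, this, smul_zero]
    · rw [if_neg fun e => hl.1 (Fin.ext (e.trans h.symm)), if_neg fun e => hl.2 (Fin.ext e),
        add_zero, zero_smul]

theorem dvd_pow_p {A : Type*} [CommRing A] [IsDomain A] [IsDiscreteValuationRing A] {q o : A}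
    (hq : ¬ IsUnit q) (ho : o ≠ 0) : ∃ c : ℕ, o ∣ q ^ c := by
  obtain ⟨ϖ, hϖ⟩ := IsDiscreteValuationRing.exists_irreducible A
  obtain ⟨n, hn⟩ := IsDiscreteValuationRing.associated_pow_irreducible ho hϖ
  refine ⟨n, hn.dvd.trans (pow_dvd_pow_of_dvd ?_ n)⟩
  rw [← Ideal.mem_span_singleton, ← hϖ.maximalIdeal_eq]
  exact hq

/-- no solutions fixed by the unipotent elements in weight greater than two -/
theorem aug_rel {m : ℕ} (hm : 0 < m) (n : ℕ) (c : Option (GL (Fin 2) (ZMod p) → O)) (e : O) :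
    Aug id (rel m n c e) := by
  obtain ⟨k, d, hd⟩ := dvd_pow_p (A := ℤ_[p]) (q := p)
    (o := ((2 * m).factorial : ℤ_[p]) * ((p : ℤ_[p]) ^ n) ^ (2 * m)) PadicInt.irreducible_p.not_isUnit
    (mul_ne_zero (Nat.cast_ne_zero.2 (Nat.factorial_ne_zero _))
      (pow_ne_zero _ (pow_ne_zero _ PadicInt.irreducible_p.ne_zero)))
  refine ⟨k, fun Θ _ _ σ x h1 h2 i => ?_⟩
  have h3 : ∀ y : Matrix (Fin 2) (Fin 2) ℤ_[p], y.det = 1 →
      y.map (PadicInt.toZModPow n) = 1 → ∀ j,
      ∑ k, sy (2 * m) (y.map (algebraMap ℤ_[p] O)) j k • x k = x j := fun y hy0 hy j => by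
    obtain ⟨y, rfl⟩ : IsUnit y := (isUnit_iff_isUnit_det y).2 (hy0 ▸ isUnit_one)
    have hy1 : GeneralLinearGroup.det y = 1 := Units.ext hy0
    have := congrFun ((mem_rel.1 h2).1 y (Units.ext hy)) j
    rw [← this]
    refine Finset.sum_congr rfl fun k _ => ?_
    rw [h1 _ 1 (by
      rw [← GeneralLinearGroup.val_det_apply, GeneralLinearGroup.map_det, hy1]
      simp), syO, Ap.syd_apply, GeneralLinearGroup.map_det, hy1]
    simp
  have h4 : PadicInt.toZModPow n ((p : ℤ_[p]) ^ n) = 0 := by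
    rw [map_pow, map_natCast, ← Nat.cast_pow, ZMod.natCast_self]
  have := aug_lin (by omega : 0 < 2 * m) (algebraMap ℤ_[p] O (p ^ n)) x
    (fun j => by
      convert h3 !![1, p ^ n; 0, 1] (by simp) (by
        ext a b
        fin_cases a <;> fin_cases b <;> simp [-map_pow, h4]) j using 4
      ext a b
      fin_cases a <;> fin_cases b <;> simp)
    (fun j => by
      convert h3 !![1, 0; p ^ n, 1] (by simp) (by
        ext a b
        fin_cases a <;> fin_cases b <;> simp [-map_pow, h4]) j using 4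
      ext a b
      fin_cases a <;> fin_cases b <;> simp) i
  have e := congrArg (algebraMap ℤ_[p] O) hd
  rw [map_pow, map_natCast, map_mul, map_mul, map_natCast, map_pow] at e
  rw [← Nat.cast_smul_eq_nsmul O, Nat.cast_pow, e, mul_comm, mul_smul, this, smul_zero]

end pat

variable {C : Type} [NontriviallyNormedField C] [IsUltrametricDist C]
  [CharZero C] {ψ : ℚ_[p] → C} {Γ : Type} [Group Γ] {act : Γ →* Iso C} {χ : Γ →* ℤ_[p]ˣ}
  {ok : Og ψ act χ} {O : Type} [CommRing O] [Algebra ℤ_[p] O]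

/-- **the local condition** for a matrix representation, a weight and a type -/
def LocR (ok : Og ψ act χ) (r : Γ →* Matrix (Fin 2) (Fin 2) O) (m : ℕ)
    (c : Option (GL (Fin 2) (ZMod p) → O)) : Prop :=
  ∃ (n : ℕ) (e : O), e ≠ 0 ∧ (c ≠ none → n = 1) ∧ Loc ok (mv r) (smf id) (rel m n c e)

omit [Algebra ℤ_[p] O] in
theorem Loc.conj {I K : Type} [Zero K] {φ : K → O} {rl : Set (G2 p × I →₀ K)}
    {r r' : Γ →* Matrix (Fin 2) (Fin 2) O} (h : Loc ok (mv r') (smf φ) rl)
    (u : Matrix (Fin 2) (Fin 2) O) (hu : ∀ s, u * r s = r' s * u)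
    (hd : ∃ k : ℕ, u.det ∣ (p : O) ^ k) : Loc ok (mv r) (smf φ) rl := by
  obtain ⟨k, d, hd⟩ := hd
  refine h.of_map (fun _ : _root_.Unit => (mulVecLin u).toAddMonoidHom) (fun _ s a => ?_)
    (fun _ c _ a => map_smul (mulVecLin u) _ a) k fun a =>
      AddSubgroup.mem_iSup_of_mem () ⟨d • adjugate u *ᵥ a, ?_⟩
  · show u *ᵥ (r s *ᵥ a) = r' s *ᵥ (u *ᵥ a)
    rw [mulVec_mulVec, mulVec_mulVec, hu]
  · show u *ᵥ (d • adjugate u *ᵥ a) = _
    rw [mulVec_smul, mulVec_mulVec, mul_adjugate, smul_mulVec, one_mulVec, smul_smul,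
      mul_comm, ← hd, ← Nat.cast_pow, Nat.cast_smul_eq_nsmul]

/-- change of the lattice -/
theorem LocR.conj {r r' : Γ →* Matrix (Fin 2) (Fin 2) O} {m : ℕ}
    {c : Option (GL (Fin 2) (ZMod p) → O)} (h : LocR ok r' m c) (u : Matrix (Fin 2) (Fin 2) O)
    (hu : ∀ s, u * r s = r' s * u) (hd : ∃ k : ℕ, u.det ∣ (p : O) ^ k) : LocR ok r m c := by
  obtain ⟨n, e, h1, h2, h3⟩ := h
  exact ⟨n, e, h1, h2, h3.conj u hu hd⟩

/-- inner automorphisms of the group -/
theorem LocR.inn {r r' : Γ →* Matrix (Fin 2) (Fin 2) O} {m : ℕ}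
    {c : Option (GL (Fin 2) (ZMod p) → O)} (h : LocR ok r' m c) (g : Γ)
    (hg : ∀ s, r s = r' (g⁻¹ * s * g)) : LocR ok r m c :=
  h.conj (r' g) (fun s => by rw [hg, ← map_mul, ← map_mul]; congr 1; group)
    ⟨0, r' g⁻¹ |>.det, by rw [← det_mul, ← map_mul, mul_inv_cancel, map_one, det_one, pow_zero]⟩

theorem rel_map {O' : Type} [CommRing O'] [Algebra ℤ_[p] O'] (f : O →ₐ[ℤ_[p]] O') {m n : ℕ}
    {c : Option (GL (Fin 2) (ZMod p) → O)} {e : O} {r' : G2 p × Fin (2 * m + 1) →₀ O'} :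
    r' ∈ rel m n (c.map fun c g => f (c g)) (f e) ↔
      ∃ r ∈ rel m n c e, Finsupp.mapRange f (map_zero f) r = r' := by
  let F := Finsupp.mapRange.addMonoidHom (ι := G2 p × Fin (2 * m + 1)) (f : O →+ O')
  have h0 : ∀ r, Finsupp.mapRange f (map_zero f) r = F r := fun _ => rfl
  have h2 : ∀ q o, F (Finsupp.single q o) = Finsupp.single q (f o) := fun q o =>
    Finsupp.mapRange_single (hf := map_zero f)
  have h1 : ∀ (o : O) y i, F (o • rw1 O m y i) = f o • rw1 O' m y i := fun o y i => by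
    simp only [rw1, Finset.smul_sum, map_sum, Finsupp.smul_single, h2, smul_eq_mul, map_mul,
      Ap.syd_map, map_apply, AlgHom.commutes]
  have h1' : ∀ y i, F (rw1 O m y i) = rw1 O' m y i := fun y i => by simpa using h1 1 y i
  constructor
  · rintro (⟨y, i, hy, rfl⟩ | ⟨c', i, hc, rfl⟩)
    · exact ⟨_, Or.inl ⟨y, i, hy, rfl⟩, by rw [h0, map_sub, h1', h2, map_one]⟩
    · obtain ⟨c, rfl, rfl⟩ := Option.map_eq_some_iff.1 hc
      exact ⟨_, Or.inr ⟨c, i, rfl, rfl⟩, by simp only [h0, map_sub, map_sum, h1, h2]⟩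
  · rintro ⟨_, ⟨y, i, hy, rfl⟩ | ⟨c', i, rfl, rfl⟩, rfl⟩
    · exact Or.inl ⟨y, i, hy, by rw [h0, map_sub, h1', h2, map_one]⟩
    · exact Or.inr ⟨_, i, rfl, by simp only [h0, map_sub, map_sum, h1, h2]⟩

/-- extension of the coefficients -/
theorem LocR.bc {O' : Type} [CommRing O'] [Algebra ℤ_[p] O'] [Algebra O O']
    [IsScalarTower ℤ_[p] O O'] [FaithfulSMul O O'] (lam : O' →ₗ[O] O)
    (hl : ∃ (k : ℕ) (a : O'), lam a = (p : O) ^ k) {r : Γ →* Matrix (Fin 2) (Fin 2) O}
    {r' : Γ →* Matrix (Fin 2) (Fin 2) O'} (hr : ∀ s, r' s = (r s).map (algebraMap O O')) {m : ℕ}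
    {c : Option (GL (Fin 2) (ZMod p) → O)} (h : LocR ok r m c) :
    LocR ok r' m (c.map fun c g => algebraMap O O' (c g)) := by
  obtain ⟨n, e, h1, h2, h3⟩ := h
  obtain ⟨k, a, ha⟩ := hl
  have inj := FaithfulSMul.algebraMap_injective O O'
  refine ⟨n, algebraMap O O' e, (map_ne_zero_iff _ inj).2 h1, fun hc => h2 fun e => hc (by
    rw [e]; rfl), ?_⟩
  have h4 : Loc ok (mv r') (smf (algebraMap O O')) (rel m n c e) := by
    refine h3.of_map (fun _ : _root_.Unit => (lam.compLeft (Fin 2)).toAddMonoidHom)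
      (fun _ s b => funext fun i => ?_) (fun _ o _ b => funext fun i => ?_) k fun b =>
        AddSubgroup.mem_iSup_of_mem () ⟨fun i => b i • a, funext fun i => ?_⟩
    · show lam ((r' s *ᵥ b) i) = (r s *ᵥ fun i => lam (b i)) i
      simp only [hr, mulVec, dotProduct, Fin.sum_univ_two, map_apply, ← Algebra.smul_def, map_add,
        map_smul, smul_eq_mul]
    · show lam (algebraMap O O' o * b i) = o * lam (b i)
      rw [← Algebra.smul_def, map_smul, smul_eq_mul]
    · show lam (b i • a) = p ^ k • b i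
      rw [map_smul, ha, smul_eq_mul, nsmul_eq_mul, Nat.cast_pow, mul_comm]
  refine h4.of_rel (invFun (algebraMap O O')) fun r' hr' => ?_
  obtain ⟨r, h5, rfl⟩ := (rel_map (IsScalarTower.toAlgHom ℤ_[p] O O')).1 hr'
  exact ⟨r, h5, (Finsupp.support_mapRange_of_injective _ r inj).symm,
    fun q _ => ⟨leftInverse_invFun inj _, rfl⟩⟩

omit [Algebra ℤ_[p] O] [Fact p.Prime] in
theorem exists_lam {O' : Type} [CommRing O'] [Nontrivial O'] [Algebra O O'] [Module.Free O O'] :
    ∃ lam : O' →ₗ[O] O, ∃ (k : ℕ) (a : O'), lam a = (p : O) ^ k := by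
  let b := Module.Free.chooseBasis O O'
  obtain ⟨i⟩ := b.index_nonempty
  exact ⟨b.coord i, 0, b i, by simp⟩

omit [Algebra ℤ_[p] O] [Fact p.Prime] [IsUltrametricDist C] [CharZero C] in
/-- a continuous matrix representation is a lattice -/
theorem lat_mv {r : Γ →* Matrix (Fin 2) (Fin 2) O}
    (fin : ∀ N : ℕ, Finite (O ⧸ Ideal.span {(p : O) ^ N}))
    (opn : ∀ N : ℕ, ∃ s : Finset C, (∀ a ∈ s, Alg a) ∧
      ∀ h, (∀ a ∈ s, (act h).1 a = a) → ∀ i j, (p : O) ^ N ∣ (r h - 1) i j) :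
    Lat p act (mv r) := by
  refine ⟨fun N => ?_, fun N => (opn N).imp fun s hs => ⟨hs.1, fun h hh a => ?_⟩⟩
  · have := fin N
    let f := surjInv (Ideal.Quotient.mk_surjective (I := Ideal.span {(p : O) ^ N}))
    refine ⟨Set.pi Set.univ fun _ => Set.range f, Set.Finite.pi fun _ => Set.finite_range f,
      fun a => ?_⟩
    have : ∀ i, ∃ d, a i - f (Ideal.Quotient.mk _ (a i)) = (p : O) ^ N * d := fun i =>
      Ideal.mem_span_singleton.1 (Ideal.Quotient.eq.1 (surjInv_eq _ _).symm)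
    choose d hd using this
    exact ⟨fun i => f (Ideal.Quotient.mk _ (a i)), fun i _ => ⟨_, rfl⟩, d, funext fun i => by
      simp [← hd i]⟩
  · choose d hd using hs.2 h hh
    refine ⟨Matrix.of d *ᵥ a, ?_⟩
    have : r h = 1 + p ^ N • Matrix.of d := by
      rw [← sub_eq_iff_eq_add']
      ext i j
      simp [hd i j]
    rw [mv_apply, this, add_mulVec, one_mulVec, smul_mulVec]

end Vale.Agent.P022K.WB

end
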