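import Vale.Agent.P022K.WB.Trq
import Vale.Agent.P022K.WB.Tp
import Vale.Agent.P022K.WB.Pat

/-!
# P022K, block WB: unbounded solutions at a point of a family give the local condition
-/

set_option autoImplicit false

noncomputable section

namespace Vale.Agent.P022K.WB

namespace Ts

open Submodule Set

theorem ex_dual {B V : Type} [CommRing B] [IsDomain B] [AddCommGroup V] [Module B V]
    [Module.Finite B V] [Module.IsTorsionFree B V] {v : V} (hv : v ≠ 0) :
    ∃ μ : V →ₗ[B] B, μ v ≠ 0 := by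
  obtain ⟨n, s, hs⟩ := Module.Finite.exists_fin (R := B) (M := V)
  obtain ⟨I, h1, h2⟩ := exists_maximal_linearIndepOn B s
  have h3 : ∀ i, ∃ a : B, a ≠ 0 ∧ a • s i ∈ span B (range fun i : I => s i) := fun i => by
    by_cases hi : i ∈ I
    · exact ⟨1, one_ne_zero, (one_smul B (s i)).symm ▸ subset_span ⟨⟨i, hi⟩, rfl⟩⟩
    · simpa only [image_eq_range] using h2 i hi
  choose a ha ha' using h3
  have h4 : ∀ w, LinearMap.lsmul B V (∏ i, a i) w ∈ span B (range fun i : I => s i) := fun w => by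
    have : ⊤ ≤ (span B (range fun i : I => s i)).comap (LinearMap.lsmul B V (∏ i, a i)) := by
      rw [← hs, span_le]
      rintro _ ⟨i, rfl⟩
      obtain ⟨c, hc⟩ := Finset.dvd_prod_of_mem a (Finset.mem_univ i)
      rw [SetLike.mem_coe, mem_comap, hc, LinearMap.lsmul_apply, mul_comm, mul_smul]
      exact smul_mem _ _ (ha' i)
    exact this trivial
  by_contra! h
  have := (Module.Basis.span h1).forall_coord_eq_zero_iff.1 fun i =>
    h (((Module.Basis.span h1).coord i).comp (LinearMap.codRestrict _ _ h4))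
  exact smul_ne_zero (Finset.prod_ne_zero_iff.2 fun i _ => ha i) hv (congrArg Subtype.val this)

theorem ex_mu {O B V : Type} [CommRing O] [IsDomain O] [CommRing B] [CommRing V] [IsDomain V]
    [Algebra O B] [Algebra O V] [Module.Finite O V] (j : B →ₐ[O] V) (hj : Function.Injective j) :
    ∃ (μ : V →+ B) (o : O) (a : V), o ≠ 0 ∧ (∀ b v, μ (j b * v) = b * μ v) ∧
      μ a = algebraMap O B o := by
  let _ := j.toAlgebra
  have : IsScalarTower O B V := IsScalarTower.of_algebraMap_eq fun x => (j.commutes x).symm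
  have : IsDomain B := hj.isDomain j.toRingHom
  have : Module.Finite B V := Module.Finite.of_restrictScalars_finite O B V
  have : Module.IsTorsionFree B V := Module.isTorsionFree_iff_algebraMap_injective.2 hj
  obtain ⟨μ, h⟩ := ex_dual (B := B) (one_ne_zero (α := V))
  obtain ⟨o, h1, c, h2⟩ := ((isIntegral_algHom_iff j hj).1
    (Algebra.IsIntegral.isIntegral (j (μ 1)))).isAlgebraic.exists_nonzero_dvd
      (mem_nonZeroDivisors_of_ne_zero h)
  exact ⟨μ.toAddMonoidHom, o, c • 1, h1, fun b v => μ.map_smul b v,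
    (μ.map_smul c 1).trans (by rw [h2, smul_eq_mul, mul_comm])⟩

end Ts

variable {p : ℕ} [Fact p.Prime] {C : Type} [NontriviallyNormedField C] [IsUltrametricDist C]
  [CharZero C] {ψ : ℚ_[p] → C} {Γ : Type} [Group Γ] {act : Γ →* Iso C} {χ : Γ →* ℤ_[p]ˣ}
  {ok : Og ψ act χ} {O R V : Type} [CommRing O] [IsDomain O] [IsDiscreteValuationRing O]
  [CommRing R] [Algebra O R] [CommRing V] [IsDomain V] [Algebra O V] [Module.Finite O V]
  {I : Type}

/-- from the quotient by the kernel of a point to the ring of values -/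
theorem Loc.pt (hp : ¬ IsUnit (p : O)) (x : R →ₐ[O] V) {f : Γ →* Matrix (Fin 2) (Fin 2) R}
    {r : Γ →* Matrix (Fin 2) (Fin 2) V} (hr : ∀ s, r s = (f s).map x)
    {rel : Set (G2 p × I →₀ O)} (h : Loc ok (mv (qf (Ideal.Quotient.mk (RingHom.ker x)) f))
      (smf fun c => Ideal.Quotient.mk (RingHom.ker x) (algebraMap O R c)) rel) :
    Loc ok (mv r) (smf (algebraMap O V)) rel := by
  obtain ⟨μ, o, a, h1, h2, h3⟩ := Ts.ex_mu (Ideal.kerLiftAlg x) (Ideal.kerLiftAlg_injective x)
  obtain ⟨k, c, hc⟩ := dvd_pow_p hp h1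
  have h4 : ∀ c b, μ (algebraMap O V c * b) = algebraMap O _ c * μ b := fun c b => by
    rw [← h2, AlgHom.commutes]
  refine h.chg μ (fun s i j b => ?_) h4 (k := k) (a := algebraMap O V c * a) ?_
  · rw [hr]
    exact h2 (Ideal.Quotient.mk _ (f s i j)) b
  · rw [h4, h3, ← map_mul, mul_comm, ← hc, map_pow, map_natCast]

variable {M : Type} [AddCommGroup M] [Module R M] {J : Type} [DecidableEq J] [Finite J] [Finite I]
  {σ : J → Representation R (G2 p) M}
  {E : J → Matrix (Fin 2) (Fin 2) R →ₐ[R] Module.End R M} {f : J → Γ →* Matrix (Fin 2) (Fin 2) R}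
  {L : J → Type} {W : ∀ k, L k → M →+ Y p C}

/-- **TS** on a family -/
theorem Tp.ts (h : Tp ok σ E f W) (hp : ¬ IsUnit (p : O)) (x : R →ₐ[O] V) (k : J)
    {rel : J → Set (G2 p × I →₀ O)} (aug : Aug id (rel k)) {r : Γ →* Matrix (Fin 2) (Fin 2) V}
    (hr : ∀ s, r s = (f k s).map x) (unb : ∀ N : ℕ, ∃ y ∈ SlS (algebraMap O R) σ rel ⊤ {k},
      (∀ i u, x u = 0 → u • y i = 0) ∧ p ^ N • y ≠ 0) :
    Loc ok (mv r) (smf (algebraMap O V)) (rel k) :=
  Loc.pt hp x hr (trsq _ k (h.tg _ rel (Q := ⊤) (fun _ _ _ _ => trivial) ∅ (fun _ _ _ => trivial)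
    (Set.notMem_empty k)) (aug.map (algebraMap O R)) fun N => (unb N).imp fun _ hy =>
      ⟨⟨fun i => ⟨trivial, R1.mem_Kl.2 (hy.2.1 i)⟩, hy.1.2⟩, hy.2.2⟩)

end Vale.Agent.P022K.WB
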