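import Vale.Agent.P022K.WB.Tr0

/-!
# P022K, block WB: finiteness under elliptic elements from separating functionals, several places
-/

set_option autoImplicit false

noncomputable section

namespace Vale.Agent.P022K.WB

open Matrix Noe

/-- on a module with the relation of Cayley and Hamilton for an irreducible trace the action
factors through the representation -/
theorem blr {Γ X R N : Type*} [Group Γ] [Group X] [CommRing R] [AddCommGroup N] [Module R N]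
    (γ : Representation R Γ N) {P : Submodule R N} (gs : ∀ s, ∀ v ∈ P, γ s v ∈ P)
    (ε : Γ →* R) (t : Γ → R) (ρ : Γ →* X)
    (ch : ∀ s, ∀ v ∈ P, γ s v + ε s • γ s⁻¹ v = t s • v)
    (hρ : ∀ s s', ρ s = ρ s' → ∀ v ∈ P, t s • v = t s' • v ∧ ε s • v = ε s' • v)
    {a b c : Γ} (δ : ∀ v ∈ P, (t (a * b * c) - t (a * c * b)) • v = 0 → v = 0)
    {s s' : Γ} (h : ρ s = ρ s') {v : N} (hv : v ∈ P) : γ s v = γ s' v := by
  have m : ∀ x y w, γ (x * y) w = γ x (γ y w) := fun x y w => by rw [map_mul, Module.End.mul_apply]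
  have k0 : ∀ x y, ρ x = ρ y → ∀ w ∈ P, γ x w - γ y w = ε y • (γ y⁻¹ w - γ x⁻¹ w) :=
    fun x y e w hw => by
      rw [smul_sub, ← (hρ x y e _ (gs x⁻¹ w hw)).2, sub_eq_sub_iff_add_eq_add, ch x w hw, add_comm,
        ch y w hw, (hρ x y e w hw).1]
  have k1 : ∀ x y z, ∀ w ∈ P, γ (x * s) (γ z w) - γ (x * s') (γ z w) = y →
      y = ε z • γ z⁻¹ (γ (x * s) w - γ (x * s') w) := fun x y z w hw e => by
    rw [← e, ← m, ← m, k0 (x * s * z) (x * s' * z) (by simp only [map_mul, h]) w hw,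
      k0 (x * s) (x * s') (by simp only [map_mul, h]) w hw, map_smul, map_sub, ← m, ← m,
      smul_smul, map_mul ε (x * s'), mul_comm (ε z), _root_.mul_inv_rev (x * s'),
      _root_.mul_inv_rev (x * s)]
  have k2 : ∀ x y z, γ (y * z) (γ (x * s) v - γ (x * s') v) =
      γ (z * y) (γ (x * s) v - γ (x * s') v) := fun x y z => by
    have e := k1 x _ (y⁻¹ * z⁻¹) v hv rfl
    rw [m y⁻¹, k1 x _ y⁻¹ _ (gs _ _ hv) rfl, k1 x _ z⁻¹ v hv rfl, map_smul, smul_smul, ← map_mul,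
      inv_inv, inv_inv, ← m, _root_.mul_inv_rev, inv_inv, inv_inv] at e
    have := congrArg (ε (z * y) • ·) e
    simpa only [smul_smul, ← map_mul, mul_assoc, mul_inv_cancel_left, mul_inv_cancel, map_one,
      one_smul] using this
  have hw : γ s v - γ s' v ∈ P := sub_mem (gs _ _ hv) (gs _ _ hv)
  have k3 := k2 1 b c
  have k4 := k2 a⁻¹ c⁻¹ b⁻¹
  rw [one_mul, one_mul] at k3
  rw [m a⁻¹, m a⁻¹, ← map_sub, ← m, ← m] at k4
  refine sub_eq_zero.1 (δ _ hw ?_)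
  rw [sub_smul, ← ch _ _ hw, ← ch _ _ hw, mul_assoc a b, mul_assoc a c, m a, m a, k3,
    _root_.mul_inv_rev, _root_.mul_inv_rev, _root_.mul_inv_rev, _root_.mul_inv_rev, k4,
    map_mul ε, map_mul ε, map_mul ε, map_mul ε, mul_comm (ε b), sub_self]

variable {p : ℕ} [Fact p.Prime] {C : Type} [NontriviallyNormedField C] [IsUltrametricDist C]
  [CharZero C] [CompleteSpace C] [IsAlgClosed C] {ψ : ℚ_[p] → C} {Γ Δ : Type} [Group Γ] [Group Δ]
  {act : Γ →* Iso C} {χ : Γ →* ℤ_[p]ˣ} {ok : Og ψ act χ} {R M : Type} [CommRing R]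
  [AddCommGroup M] [Module R M] {P : Submodule R M} {γ : Representation R Δ M}

section one

variable {ρ : Representation R (G2 p) M} {d : Γ →* Δ}

omit [CompleteSpace C] [IsAlgClosed C] in
theorem Wg.le {γ : Γ → M → M} {W : M →+ Y p C} (h : Wg ok ρ γ P W) {Q : Submodule R M}
    (e : Q ≤ P) : Wg ok ρ γ Q W :=
  ⟨fun b v hv => h.n b v (e hv), fun v hv => h.t v (e hv), fun s v hv => h.s s v (e hv)⟩

omit [CompleteSpace C] [IsAlgClosed C] in
/-- composition with an endomorphism -/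
theorem Wg.cmp {γ : Γ → M → M} {W : M →+ Y p C} (h : Wg ok ρ γ P W) (f : M →+ M)
    (hf : ∀ v ∈ P, f v ∈ P) (gs : ∀ s, ∀ v ∈ P, γ s v ∈ P)
    (h1 : ∀ x, ∀ v ∈ P, f (ρ x v) = ρ x (f v)) (h2 : ∀ s, ∀ v ∈ P, f (γ s v) = γ s (f v)) :
    Wg ok ρ γ P (W.comp f) :=
  ⟨fun b v hv => (congrArg W (h1 _ v hv)).trans (h.n b _ (hf v hv)),
    fun v hv => (congrArg W (h1 _ v hv)).trans (h.t _ (hf v hv)),
    fun s v hv => (congrArg W ((h1 _ _ (gs s v hv)).trans (congrArg _ (h2 s v hv)))).trans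
      (h.s s _ (hf v hv))⟩

/-- the kernel of one functional is stable under the group -/
theorem Wg.stab (hF : PHI p C) (sur : Function.Surjective χ) {W : M →+ Y p C}
    (h : Wg ok ρ (fun s => γ (d s)) P W) (hP : Adm ρ P) (hz : ∀ a, ∀ v ∈ P, ρ (dd a a) v = v)
    (gs : ∀ s, ∀ v ∈ P, γ s v ∈ P) (com : ∀ x s, ∀ v ∈ P, ρ x (γ s v) = γ s (ρ x v)) {v : M}
    (hv : v ∈ P) (h0 : ∀ s, W (γ s v) = 0) (x : G2 p) (s : Δ) : W (γ s (ρ x v)) = 0 := by
  let g : Δ →* AddMonoid.End P :=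
    { toFun := fun s => ((γ s).restrict (gs s)).toAddMonoidHom
      map_one' := AddMonoidHom.ext fun v => Subtype.ext (by
        show γ 1 v = v
        rw [map_one]
        rfl)
      map_mul' := fun s t => AddMonoidHom.ext fun v => Subtype.ext (by
        show γ (s * t) v = γ s (γ t v)
        rw [map_mul]
        rfl) }
  have e : ∀ x (a : Sp g) v, a.1 (subZ hP.gs x v) = subZ hP.gs x (a.1 v) := fun x a v =>
    (DFunLike.congr_fun (Sp_com a.2 (f := (subZ hP.gs x).toAddMonoidHom) fun s =>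
      AddMonoidHom.ext fun v => Subtype.ext (com x s v v.2)) v).symm
  let W' := W.comp P.subtype.toAddMonoidHom
  have hb : Bm ok (subZ hP.gs) ((SpA g).comp d) (SpW g W') :=
    ⟨fun b v a => (congrArg W' (e _ a v)).trans (h.n b _ (a.1 v).2),
      fun v a => (congrArg W' (e _ a v)).trans (h.t _ (a.1 v).2),
      fun s v a => (congrArg W' (e _ (SpA g (d s) a) v)).trans (h.s s _ (a.1 v).2)⟩
  exact SpW_eq_zero.1 (hb.ker hF sur hP.subZ (fun a v => Subtype.ext (hz a v v.2))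
    (v := ⟨v, hv⟩) (SpW_eq_zero.2 h0) x) s

/-- **GK** at one place -/
theorem gkG (hS : SURJ p C) (hF : PHI p C) (sur : Function.Surjective χ) (hP : Adm ρ P)
    (hm : ∀ v ∈ P, p • v = 0) (hz : ∀ a, ∀ v ∈ P, ρ (dd a a) v = v)
    (gs : ∀ s, ∀ v ∈ P, γ s v ∈ P) (com : ∀ x s, ∀ v ∈ P, ρ x (γ s v) = γ s (ρ x v))
    (fin : ∃ S : Set Δ, S.Finite ∧ ∀ s, ∃ t ∈ S, ∀ v ∈ P, γ s v = γ t v)
    (opn : ∃ s : Finset C, (∀ a ∈ s, Alg a) ∧
      ∀ h, (∀ a ∈ s, (act h).1 a = a) → ∀ v ∈ P, γ (d h) v = v)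
    {I : Type} {W : I → M →+ Y p C} (hW : ∀ i, Wg ok ρ (fun s => γ (d s)) P (W i))
    (inj : ∀ v ∈ P, (∀ i s, W i (γ s v) = 0) → v = 0) {c : ℕ} (hc : 2 ≤ c) {x : G2 p}
    (hx : Ell c x) : {z | z ∈ P ∧ ρ x z = z}.Finite :=
  gkW hS hF ok γ (d.comp χ.ker.subtype) hP ⟨1, by simpa using hm⟩ hz gs com fin
    (opn.imp fun _ hs => ⟨hs.1, fun h => hs.2 h⟩) W
    (fun i => ⟨(hW i).n, (hW i).t, fun h v hv => by
      have := (hW i).s h v hv
      rwa [show χ h = 1 from h.2, map_one, dd_one, map_one, Module.End.one_apply] at this⟩)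
    (fun i a _ v hv h0 => by simpa using (hW i).stab hF sur hP hz gs com hv h0 (dd a 1) 1)
    inj hc hx

/-- injectivity from the socle -/
theorem inj_soc (hF : PHI p C) (sur : Function.Surjective χ) (hP : Adm ρ P)
    (hz : ∀ a, ∀ v ∈ P, ρ (dd a a) v = v)
    (gs : ∀ s, ∀ v ∈ P, γ s v ∈ P) (com : ∀ x s, ∀ v ∈ P, ρ x (γ s v) = γ s (ρ x v))
    {I : Type} {W : I → M →+ Y p C} (hW : ∀ i, Wg ok ρ (fun s => γ (d s)) P (W i))
    (soc : ∀ v ∈ P, p • v = 0 → v ∈ Fx ρ (I1 p) → (∀ i s x, W i (γ s (ρ x v)) = 0) → v = 0)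
    {v : M} (hv : v ∈ P) (h0 : ∀ i s, W i (γ s v) = 0) : v = 0 := by
  by_contra hne
  let U : AddSubgroup M := P.toAddSubgroup ⊓ (nsmulAddMonoidHom p).ker ⊓
    ⨅ i, ⨅ s, ((W i).comp (γ s).toAddMonoidHom).ker
  have mU : ∀ u, u ∈ U ↔ (u ∈ P ∧ p • u = 0) ∧ ∀ i s, W i (γ s u) = 0 := fun u => by simp [U]
  obtain ⟨n, h1, h2⟩ := exists_tor hne (hP.tor v hv)
  obtain ⟨u, h3, h4, h5⟩ := exists_fix_B (ρ := ρ) U (fun b _ u hu => by
      obtain ⟨⟨a1, a2⟩, a3⟩ := (mU u).1 hu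
      exact (mU _).2 ⟨⟨hP.gs _ _ a1, by rw [← map_nsmul, a2, map_zero]⟩, fun i s =>
        (hW i).stab hF sur hP hz gs com a1 (a3 i) b s⟩)
    ((mU (p ^ n • v)).2 ⟨⟨nsmul_mem hv _, h2⟩, fun i s => by
      rw [map_nsmul, map_nsmul, h0, smul_zero]⟩) h1 h2 (hP.sm _ (nsmul_mem hv _))
  obtain ⟨⟨a1, a2⟩, a3⟩ := (mU u).1 h3
  exact h4 (soc u a1 a2 h5 fun i s x => (hW i).stab hF sur hP hz gs com a1 (a3 i) x s)

end one

/-- **GK** at several places -/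
theorem gkM (hS : SURJ p C) (hF : PHI p C) (sur : Function.Surjective χ) {J : Type} [Fintype J]
    [DecidableEq J] {σ : J → Representation R (G2 p) M} (d : J → Γ →* Δ)
    (hc : ∀ v w, v ≠ w → ∀ g h z, σ v g (σ w h z) = σ w h (σ v g z))
    (st : ∀ k, Gs (σ k) P) (sm : ∀ k, ∀ z ∈ P, Sm (σ k) z) (hm : ∀ v ∈ P, p • v = 0) {n : ℕ}
    (hn : 0 < n) (fn : {z | z ∈ P ∧ ∀ k, z ∈ Fx (σ k) (Kn p n)}.Finite)
    (hz : ∀ k a, ∀ v ∈ P, σ k (dd a a) v = v) (gs : ∀ s, ∀ v ∈ P, γ s v ∈ P)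
    (com : ∀ k x s v, σ k x (γ s v) = γ s (σ k x v))
    (fin : ∃ S : Set Δ, S.Finite ∧ ∀ s, ∃ t ∈ S, ∀ v ∈ P, γ s v = γ t v)
    (opn : ∀ k, ∃ s : Finset C, (∀ a ∈ s, Alg a) ∧
      ∀ h, (∀ a ∈ s, (act h).1 a = a) → ∀ v ∈ P, γ (d k h) v = v)
    {I : J → Type} {W : ∀ k, I k → M →+ Y p C}
    (hW : ∀ k i, Wg ok (σ k) (fun s => γ (d k s)) P (W k i))
    (soc : ∀ k, ∀ v ∈ P, v ∈ Fx (σ k) (I1 p) → (∀ i s x, W k i (γ s (σ k x v)) = 0) → v = 0)
    {c : ℕ} (h2 : 2 ≤ c) {x : J → G2 p} (hx : ∀ k, Ell c (x k)) :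
    {z | z ∈ P ∧ ∀ k, σ k (x k) z = z}.Finite := by
  refine gkd hc st sm hm n hn fn x fun k H hA => ?_
  have le : Aw σ P k H ≤ P := inf_le_left
  have g1 : ∀ s, ∀ v ∈ Aw σ P k H, γ s v ∈ Aw σ P k H := fun s v hv =>
    mem_Aw.2 ⟨gs s v (le hv), fun w hw h hh => by rw [com, (mem_Aw.1 hv).2 w hw h hh]⟩
  exact gkG hS hF sur hA (fun v hv => hm v (le hv)) (fun a v hv => hz k a v (le hv)) g1
    (fun x s v _ => com k x s v)
    (fin.imp fun _ h => ⟨h.1, fun s => (h.2 s).imp fun _ h => ⟨h.1, fun v hv => h.2 v (le hv)⟩⟩)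
    ((opn k).imp fun _ h => ⟨h.1, fun s hs v hv => h.2 s hs v (le hv)⟩)
    (fun i => (hW k i).le le)
    (fun v hv => inj_soc hF sur hA (fun a v hv => hz k a v (le hv)) g1
      (fun x s v _ => com k x s v) (fun i => (hW k i).le le)
      (fun v hv _ => soc k v (le hv)) hv) h2 (hx k)

end Vale.Agent.P022K.WB

end
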