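import Vale.Agent.P022K.WB.Pat

/-!
# P022K, block WB: the condition `LocR` in weight two
-/

set_option autoImplicit false

noncomputable section

namespace Vale.Agent.P022K.WB

open Matrix Function Sh

variable {p : ℕ} [Fact p.Prime]

theorem mem_Kn_iff {n : ℕ} {g : G2 p} : g ∈ Kn p n ↔
    ∃ y, GeneralLinearGroup.map (PadicInt.toZModPow n) y = 1 ∧ jK y = g := by
  have key : ∀ k : GL (Fin 2) ℤ_[p], GeneralLinearGroup.map (PadicInt.toZModPow n) k = 1 ↔
      En (rad p n) ((jK k).val - 1) := fun k => by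
    have e : ∀ i j, ((jK k).val - 1) i j = ((k.val - 1) i j : ℤ_[p]) := fun i j => by
      by_cases h : i = j <;> simp [h]
    have r : rad p n = (p : ℝ) ^ (-n : ℤ) := by rw [rad, inv_pow, _root_.zpow_neg, zpow_natCast]
    simp only [En, e, r, ← PadicInt.norm_def, PadicInt.norm_le_pow_iff_mem_span_pow,
      ← PadicInt.ker_toZModPow, RingHom.mem_ker, Units.ext_iff, ← Matrix.ext_iff]
    refine forall₂_congr fun i j => ?_
    rw [Matrix.sub_apply, map_sub, sub_eq_zero]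
    by_cases h : i = j <;> simp [Matrix.one_apply, h]
  constructor
  · intro h
    let A : Matrix (Fin 2) (Fin 2) ℤ_[p] := fun i j => ⟨g i j, Kn_en h i j⟩
    let B : Matrix (Fin 2) (Fin 2) ℤ_[p] := fun i j => ⟨g⁻¹ i j, h.2 i j⟩
    have inj : Injective ((algebraMap ℤ_[p] ℚ_[p]).mapMatrix (m := Fin 2)) :=
      Matrix.map_injective Subtype.val_injective
    exact ⟨⟨A, B, inj (by rw [map_mul, map_one]; exact g.mul_inv),
      inj (by rw [map_mul, map_one]; exact g.inv_mul)⟩, (key _).2 h.1, rfl⟩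
  · rintro ⟨k, hk, rfl⟩
    exact ⟨(key k).1 hk, fun i j => (k⁻¹ i j).2⟩

theorem jK_K0 (y : GL (Fin 2) ℤ_[p]) : jK y ∈ Kn p 0 :=
  mem_K0.2 ⟨fun i j => (y i j).2, fun i j => (y⁻¹ i j).2⟩

theorem lfK_spec (g : GL (Fin 2) (ZMod p)) :
    GeneralLinearGroup.map PadicInt.toZMod (lfK g) = g := by
  choose a ha using fun i j => ZMod.ringHom_surjective (PadicInt.toZMod (p := p)) (g.val i j)
  have e : (Matrix.of a).map PadicInt.toZMod = g.val := Matrix.ext ha
  have hd : IsUnit (Matrix.of a) := (Matrix.isUnit_iff_isUnit_det _).2 (by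
    by_contra h
    refine g.det_ne_zero ?_
    rw [← e, ← RingHom.mapMatrix_apply, ← RingHom.map_det, ← RingHom.mem_ker, PadicInt.ker_toZMod]
    exact h)
  exact Classical.epsilon_spec (p := fun y : GL (Fin 2) ℤ_[p] =>
    GeneralLinearGroup.map PadicInt.toZMod y = g) ⟨hd.unit, Units.ext e⟩

/-- a congruence subgroup and one more unipotent element generate all of them -/
theorem nn_all {H : Subgroup (G2 p)} {n : ℕ} (h1 : Kn p n ≤ H)
    (h2 : nn ((p : ℚ_[p]) ^ (n + 1))⁻¹ ∈ H) (b : ℚ_[p]) : nn b ∈ H := by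
  have h3 : ∀ l : ℚ_[p]ˣ, nl (l : ℚ_[p]) ∈ H → nn ((l⁻¹ : ℚ_[p]ˣ) : ℚ_[p]) ∈ H →
      ww p * dd l (-l⁻¹) ∈ H := fun l a b => by
    have := mul_mem (mul_mem (inv_mem b) a) (inv_mem b)
    rw [nl_eq] at this
    convert this using 1
    group
  have h4 : ∀ k : ℕ, nn ((k : ℚ_[p]) * ((p : ℚ_[p]) ^ (n + 1))⁻¹) ∈ H := fun k => by
    induction k with
    | zero => exact h1 (nn_Kn (by simp [rad]))
    | succ k ih =>
      rw [Nat.cast_succ, add_mul, one_mul, nn_add]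
      exact mul_mem ih h2
  have h5 := mul_mem (inv_mem (h3 (pu p ^ n) (h1 (nl_Kn (norm_pow_p n).le)) (by
    convert h4 p using 2
    have := p_ne p
    simp only [pu, Units.val_inv_eq_inv_val, Units.val_pow_eq_pow_val, Units.val_mk0]
    rw [pow_succ]
    field_simp))) (h3 (pu p ^ (n + 1)) (h1 (nl_Kn ((norm_pow_p _).le.trans (rad_le n.le_succ))))
      (by simpa [pu] using h2))
  rw [_root_.mul_inv_rev, mul_assoc, inv_mul_cancel_left, ← dd_inv, ← dd_mul, pow_succ,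
    inv_mul_cancel_left] at h5
  have h6 : ∀ (k : ℕ) b, nn (((p : ℚ_[p]) ^ 2) ^ k * b) ∈ H → nn b ∈ H := fun k => by
    induction k with
    | zero => simp
    | succ k ih =>
      refine fun b hb => ih b ?_
      have := mul_mem (mul_mem (inv_mem h5) hb) h5
      rw [mul_assoc, ← (eq_inv_mul_iff_mul_eq.2 ((dd_nn _ _ (((p : ℚ_[p]) ^ 2) ^ k * b)).trans
        ?_) : _ = _)] at this
      · exact this
      · congr 2
        have := p_ne p
        simp [pu]
        field_simp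
        ring
  obtain ⟨k, hk⟩ := exists_pow_lt_of_lt_one (show 0 < rad p n / (‖b‖ + 1) from
    div_pos (pow_pos pinv_pos n) (by positivity)) (rad_lt_one (p := p) two_pos)
  refine h6 k b (h1 (nn_Kn ?_))
  rw [lt_div_iff₀ (by positivity)] at hk
  rw [norm_mul, norm_pow, norm_pow_p]
  nlinarith [pow_pos (show 0 < rad p 2 from pow_pos pinv_pos 2) k]

variable {O M : Type} [CommRing O] [Algebra ℤ_[p] O] [AddCommGroup M] [Module O M]
  {ρ : Representation O (G2 p) M}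

theorem mem_rel0 {n : ℕ} {c : Option (GL (Fin 2) (ZMod p) → O)} {e : O}
    {x : Fin (2 * 0 + 1) → M} : x ∈ SlO id ρ (rel 0 n c e) ↔ (∀ i, x i ∈ Fx ρ (Kn p n)) ∧
      ∀ c', c = some c' → ∀ i, ∑ g, c' g • ρ (jK (lfK g)) (x i) = e • x i := by
  have h : ∀ y i, tw1 ρ 0 y x i = ρ (jK y) (x i) := fun y i => by
    obtain rfl : i = 0 := Subsingleton.elim (α := Fin 1) _ _
    simp [tw1, syO, Ap.syd_apply, sy_apply, mon]
  simp only [mem_rel, funext_iff, Finset.sum_apply, Pi.smul_apply, h]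
  refine and_congr_left' ⟨fun k i g hg => ?_, fun k y hy i => k i _ (mem_Kn_iff.2 ⟨y, hy, rfl⟩)⟩
  obtain ⟨y, hy, rfl⟩ := mem_Kn_iff.1 hg
  exact k y hy i

/-- types without one dimensional constituents -/
theorem aug_ks {c : GL (Fin 2) (ZMod p) → O}
    (hc : ∀ d, ∑ g with GeneralLinearGroup.det g = d, c g = 0) {e : O}
    (he : ∃ k : ℕ, e ∣ (p : O) ^ k) : Aug id (rel 0 1 (some c) e) := by
  obtain ⟨k, d, hd⟩ := he
  refine ⟨k, fun Θ _ _ σ x h1 h2 i => ?_⟩
  obtain ⟨h3, h4⟩ := mem_rel0.1 h2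
  have h5 : ∀ g g' : GL (Fin 2) (ZMod p), g.det = g'.det →
      σ (jK (lfK g)) (x i) = σ (jK (lfK g')) (x i) := fun g g' h => by
    let u := ((lfK g')⁻¹ * lfK g).det
    have hu : ‖(uq u : ℚ_[p]) - 1‖ < 1 := by
      have : PadicInt.toZMod ((u : ℤ_[p]) - 1) = 0 := by
        have := congrArg Units.val (GeneralLinearGroup.map_det PadicInt.toZMod
          ((lfK g')⁻¹ * lfK g))
        rw [map_mul, map_inv, lfK_spec, lfK_spec, map_mul, map_inv, h, inv_mul_cancel] at this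
        rw [map_sub, map_one, sub_eq_zero]
        exact this.symm
      rw [← RingHom.mem_ker, PadicInt.ker_toZMod] at this
      exact PadicInt.mem_nonunits.1 this
    have hk : dd (uq u) 1 ∈ Kn p 1 := by
      have := norm_of_near hu
      refine ⟨fun i j => ?_, fun i j => ?_⟩
      · fin_cases i <;> fin_cases j <;> simp [rad, norm_le_inv hu]
      · rw [← dd_inv]
        fin_cases i <;> fin_cases j <;> simp [this]
    have := h1 ((jK (lfK g'))⁻¹ * jK (lfK g) * (dd (uq u) 1)⁻¹) 1 (by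
      rw [← GeneralLinearGroup.val_det_apply, ← map_inv, ← map_mul, map_mul _ _ _⁻¹, map_inv,
        GeneralLinearGroup.map_det, show (dd (uq u) 1).det = uq u from Units.ext (by
          simp [det_fin_two])]
      exact (one_pow 2).trans (congrArg Units.val (mul_inv_cancel (uq u))).symm) i
    rw [rho_mul, h3 i _ (inv_mem hk), rho_mul] at this
    rw [← this, rho_inv', this]
  have h6 := h4 c rfl i
  rw [← Finset.sum_fiberwise _ fun g : GL (Fin 2) (ZMod p) => g.det,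
    Finset.sum_eq_zero fun d _ => ?_] at h6
  · rw [← Nat.cast_smul_eq_nsmul O, Nat.cast_pow, hd, mul_comm, mul_smul, ← h6, smul_zero]
  · obtain ⟨g, rfl⟩ := GeneralLinearGroup.det_surjective (n := Fin 2) d
    rw [Finset.sum_congr rfl fun g' hg => congrArg _ (h5 g' g (Finset.mem_filter.1 hg).2),
      ← Finset.sum_smul, hc, zero_smul]

variable {C : Type} [NontriviallyNormedField C] [IsUltrametricDist C]
  [CharZero C] {ψ : ℚ_[p] → C} {Γ : Type} [Group Γ] {act : Γ →* Iso C} {χ : Γ →* ℤ_[p]ˣ}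
  {ok : Og ψ act χ} {Q : Submodule O M} {E : Matrix (Fin 2) (Fin 2) O →ₐ[O] Module.End O M}
  {r : Γ →* Matrix (Fin 2) (Fin 2) O} {L : Type} {W : L → M →+ Y p C}

/-- weight two, spherical vectors with a Hecke eigenvalue which is not Eisenstein -/
theorem Tg.trs_sph (h : Tg ok ρ Q E r W) {J : Type*} [Fintype J] (g : J → G2 p)
    (hg : ∀ i j, ((g i : G2 p) : Matrix (Fin 2) (Fin 2) ℚ_[p]).det =
      (g j : Matrix (Fin 2) (Fin 2) ℚ_[p]).det) {b : O}
    (hb : ∃ k : ℕ, b ^ 2 - (Fintype.card J : O) ^ 2 ∣ (p : O) ^ k)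
    (unb : ∀ N : ℕ, ∃ z ∈ Q, z ∈ Fx ρ (Kn p 0) ∧ (∑ j, ρ (g j)) z = b • z ∧ p ^ N • z ≠ 0) :
    LocR ok r 0 (some 1) := by
  obtain ⟨k, d, hd⟩ := hb
  refine ⟨1, Fintype.card (GL (Fin 2) (ZMod p)), fun e => ?_, fun _ => rfl,
    h.trs0 {x | ∀ i, x i ∈ Q ∧ x i ∈ Fx ρ (Kn p 0) ∧ (∑ j, ρ (g j)) (x i) = b • x i}
      (fun x hx k i => ⟨nsmul_mem (hx i).1 k, nsmul_mem (hx i).2.1 k, by
        rw [Pi.smul_apply, map_nsmul, (hx i).2.2, smul_comm]⟩)
      (fun x hx => mem_rel0.2 ⟨fun i g hg => (hx i).2.1 g (Kn_anti zero_le_one hg), ?_⟩)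
      (fun x hx i => (hx i).1) (fun N => ?_) (c := k) fun P le hP x hx h1 i => ?_⟩
  · obtain ⟨k, d, hd⟩ := dvd_pow_p (A := ℤ_[p]) (q := p) PadicInt.irreducible_p.not_isUnit
      (Nat.cast_ne_zero.2 (Fintype.card_ne_zero (α := GL (Fin 2) (ZMod p))))
    obtain ⟨z, -, -, -, hz⟩ := unb k
    have := congrArg (algebraMap ℤ_[p] O) hd
    rw [map_pow, map_natCast, map_mul, map_natCast, e, zero_mul] at this
    exact hz (by rw [← Nat.cast_smul_eq_nsmul O, Nat.cast_pow, this, zero_smul])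
  · rintro _ ⟨rfl⟩ i
    simp only [(hx i).2.1 _ (jK_K0 _), Pi.one_apply, one_smul, Finset.sum_const, Finset.card_univ,
      Nat.cast_smul_eq_nsmul]
  · obtain ⟨z, h1, h2, h3, h4⟩ := unb N
    exact ⟨fun _ => z, fun _ => ⟨h1, h2, h3⟩, fun e => h4 (congrFun e 0)⟩
  · have := hecke_Nq hP.gs (fun a v hv => h.cen a v (le hv)) g hg (h1 i)
    rw [(hx i).2.2, map_smul, (hx i).2.2, smul_smul, ← sq, ← Nat.cast_smul_eq_nsmul O, ← sub_smul,
      Nat.cast_pow] at this
    rw [← Nat.cast_smul_eq_nsmul O, Nat.cast_pow, hd, mul_comm, mul_smul]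
    exact Submodule.smul_mem _ d this

/-- weight two, no condition on the type -/
theorem Tg.trs_none [Nontrivial O] [CompleteSpace C] [IsAlgClosed C] (hN : NFIX p C)
    (h : Tg ok ρ Q E r W) {n : ℕ}
    (unb : ∀ N : ℕ, ∃ z ∈ Q, z ∈ Fx ρ (Kn p n) ∧ p ^ N • z ≠ 0) : LocR ok r 0 none := by
  obtain ⟨m, hm⟩ := Kn_conj' (nn ((p : ℚ_[p]) ^ (n + 1))⁻¹) n
  refine ⟨max m n, 1, one_ne_zero, fun e => (e rfl).elim, 1, fun N => ?_⟩
  obtain ⟨z, z1, z2, z3⟩ := unb N
  obtain ⟨P, le, hP, es, tor, k, k1, k2⟩ := h.exact z1 z3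
  let x : P := ⟨_, k1⟩
  let y : P := subZ hP.gs (nn ((p : ℚ_[p]) ^ (n + 1))⁻¹) x - x
  have fx : (x : M) ∈ Fx ρ (Kn p n) := nsmul_mem z2 _
  obtain ⟨q, hq⟩ : ∃ q : L × Fin 2, kap P E (W q.1) q.2 (p ^ N • y) ≠ 0 := by
    by_contra! hn
    have h0 := congrArg Subtype.val (h.kap_inj le _ hn)
    have h1 : ∀ b, ρ (nn b) (p ^ N • x : P) = (p ^ N • x : P) := fun b =>
      nn_all (H := Tri ρ (Submodule.span O {((p ^ N • x : P) : M)})) (n := n)
        (fun g hg v hv => ?_) (fun v hv => ?_) b _ (Submodule.mem_span_singleton_self _)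
    · refine k2 (h.inj (p ^ N • x : P) (le (p ^ N • x).2) fun i a =>
        hN ψ ok.psi ok.np _ ⟨N + 1, ?_⟩ fun b => ?_)
      · rw [← map_nsmul, tor _ (es a _ (p ^ N • x).2), map_zero]
      · rw [← (h.wg i).n b _ (le (es a _ (p ^ N • x).2)), h.com _ _ _ (le (p ^ N • x).2), h1]
    all_goals obtain ⟨o, rfl⟩ := Submodule.mem_span_singleton.1 hv
    · rw [map_smul, Submodule.coe_smul_of_tower, nsmul_mem fx _ g hg]
    · rw [map_smul, Submodule.coe_smul_of_tower, map_nsmul]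
      simpa [y, subZ_val, smul_sub, sub_eq_zero] using congrArg (o • ·) h0
  refine ⟨P, inferInstance, subZ hP.gs, smf id, kap P E (W q.1) q.2, fun _ => y, hP.subZ,
    fun a v => Subtype.ext (h.cen a v (le v.2)), fun v => Subtype.ext (tor v v.2),
    h.bm hP.gs le es _ _, fun c _ v a => kap_smul _ _ _ _ _ v a,
    (Sl.of_subZ hP.gs).2 (mem_rel0.2 ⟨fun _ g hg => ?_, fun _ e => by cases e⟩),
    fun _ => mem_Gen ⟨_, x, trivial, rfl⟩, 0, by rwa [← map_nsmul]⟩
  have := fx _ (hm g (Kn_anti (le_max_left m n) hg))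
  rw [rho_mul, rho_mul] at this
  show ρ g (ρ _ x - x) = ρ _ x - x
  rw [map_sub, fx g (Kn_anti (le_max_right m n) hg)]
  conv_rhs => rw [← this, rho_inv', this]

end Vale.Agent.P022K.WB

end
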