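import Vale.Agent.P022K.WB.Tr2
import Vale.Agent.P022K.WB.R2

/-!
# Block WB: the transfer on a family, at several places

The places are frozen one after the other. At each step the property `FS` comes from ideals that
are near to the point (`Nr`).
-/

set_option linter.all false

noncomputable section

namespace Vale.Agent.P022K.WB

open Matrix Noe R1 Function

section alg

variable {p : ℕ} {R M : Type} [CommRing R] [AddCommGroup M] [Module R M]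

variable (p) in
/-- `𝔞` is near to `P` and `c` divides a power of `p` modulo `𝔞` -/
def Nr (P : Ideal R) (c : R) (𝔞 : Ideal R) (N : ℕ) : Prop :=
  ∃ a : ℕ, (∃ u, u * c - (p : R) ^ a ∈ 𝔞) ∧
    ∃ i : ℕ, P ^ i ≤ 𝔞 ⊔ Ideal.span {(p : R) ^ (N * i + a + 1)}

theorem Nr.map {P 𝔞 : Ideal R} {c : R} {N : ℕ} (h : Nr p P c 𝔞 N) {R' : Type} [CommRing R']
    (g : R →+* R') : Nr p (P.map g) (g c) (𝔞.map g) N := by
  obtain ⟨a, ⟨u, hu⟩, i, hi⟩ := h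
  refine ⟨a, ⟨g u, by simpa using Ideal.mem_map_of_mem g hu⟩, i, ?_⟩
  rw [← Ideal.map_pow]
  refine (Ideal.map_mono hi).trans_eq ?_
  simp [Ideal.map_sup, Ideal.map_span]

theorem Kl_anti {𝔞 𝔟 : Ideal R} (h : 𝔞 ≤ 𝔟) : Kl M 𝔟 ≤ Kl M 𝔞 :=
  fun _ hv => mem_Kl.2 fun u hu => mem_Kl.1 hv u (h hu)

theorem Kl_of {𝔞 : Ideal R} {v : M} {S : Set (Ideal R)} (h : ∀ 𝔟 ∈ S, v ∈ Kl M 𝔟)
    (le : 𝔞 ≤ sSup S) : v ∈ Kl M 𝔞 := mem_Kl.2 fun u hu =>
  (Submodule.mem_annihilator_span_singleton v u).1 ((sSup_le fun 𝔟 hb u hu =>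
    (Submodule.mem_annihilator_span_singleton v u).2 (mem_Kl.1 (h 𝔟 hb) u hu) :
      sSup S ≤ (Submodule.span R {v}).annihilator) (le hu))

theorem Kl_pi {A : Type} {𝔞 : Ideal R} {x : A → M} : x ∈ Kl (A → M) 𝔞 ↔ ∀ a, x a ∈ Kl M 𝔞 := by
  simp only [mem_Kl]
  exact ⟨fun h a u hu => congrFun (h u hu) a, fun h u hu => funext fun a => h a u hu⟩

/-- commuting operators of square zero: the common kernel is unbounded -/
theorem descP {ι : Type} (y : ι → Module.End R M) (S : Set ι) (hS : S.Finite) (X : Submodule R M)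
    (st : ∀ s ∈ S, ∀ x ∈ X, y s x ∈ X) (com : ∀ s ∈ S, ∀ t ∈ S, ∀ x ∈ X, y s (y t x) = y t (y s x))
    (nil : ∀ s ∈ S, ∀ x ∈ X, y s (y s x) = 0) (unb : ∀ N : ℕ, ∃ x ∈ X, p ^ N • x ≠ 0) (N : ℕ) :
    ∃ x ∈ X, (∀ s ∈ S, y s x = 0) ∧ p ^ N • x ≠ 0 := by
  induction S, hS using Set.Finite.induction_on generalizing X with
  | empty => simpa using unb N
  | @insert s S _ _ ih =>
    obtain ⟨x, x1, x2, x3⟩ := ih (X ⊓ LinearMap.ker (y s))
      (fun t ht x hx => ⟨st t (Or.inr ht) x hx.1, by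
        show y s (y t x) = 0
        rw [com s (Or.inl rfl) t (Or.inr ht) x hx.1, show y s x = 0 from hx.2, map_zero]⟩)
      (fun t ht t' ht' x hx => com t (Or.inr ht) t' (Or.inr ht') x hx.1)
      (fun t ht x hx => nil t (Or.inr ht) x hx.1) fun n => by
        by_contra! hn
        obtain ⟨x, x1, x2⟩ := unb (n + n)
        refine x2 ?_
        rw [pow_add, mul_smul]
        refine hn _ ⟨nsmul_mem x1 _, ?_⟩
        show y s (p ^ n • x) = 0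
        rw [map_nsmul]
        exact hn _ ⟨st s (Or.inl rfl) x x1, nil s (Or.inl rfl) x x1⟩
    exact ⟨x, x1.1, by rintro t (rfl | ht); exacts [x1.2, x2 t ht], x3⟩

/-- Cramer's rule for four matrices -/
theorem d4_span (m : Fin 4 → Matrix (Fin 2) (Fin 2) R) (x : Matrix (Fin 2) (Fin 2) R) :
    (Matrix.of fun i => ![m i 0 0, m i 0 1, m i 1 0, m i 1 1]).det • x ∈
      Submodule.span R (Set.range m) := by
  set A : Matrix (Fin 4) (Fin 4) R := Matrix.of fun i => ![m i 0 0, m i 0 1, m i 1 0, m i 1 1]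
  have h := congrArg (fun B => ![x 0 0, x 0 1, x 1 0, x 1 1] ᵥ* B) (adjugate_mul A)
  simp only [← vecMul_vecMul, vecMul_smul, vecMul_one] at h
  generalize ![x 0 0, x 0 1, x 1 0, x 1 1] ᵥ* A.adjugate = w at h
  have : A.det • x = ∑ i, w i • m i := by
    ext i j
    have h0 := congrFun h 0
    have h1 := congrFun h 1
    have h2 := congrFun h 2
    have h3 := congrFun h 3
    rw [Matrix.sum_apply]
    fin_cases i <;> fin_cases j
    exacts [h0.symm, h1.symm, h2.symm, h3.symm]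
  rw [this]
  exact sum_mem fun i _ => Submodule.smul_mem _ _ (Submodule.subset_span ⟨i, rfl⟩)

variable [Fact p.Prime]

theorem FS.of_nr {Q : Submodule R M} {P : Ideal R} {c : R} (tor : ∀ v ∈ Q, ∃ n : ℕ, p ^ n • v = 0)
    (h : ∀ N, ∃ 𝔞, Nr p P c 𝔞 N ∧ ∀ n : ℕ, ∃ v ∈ Q, v ∈ Kl M 𝔞 ∧ p ^ n • v ≠ 0) : FS p Q P c := by
  intro N
  obtain ⟨𝔞, ⟨a, ⟨u, hu⟩, i, hi⟩, h⟩ := h N
  obtain ⟨v, v1, v2, v3⟩ := h (N * i + a)
  obtain ⟨k, k1, k2⟩ := exists_tor v3 (tor _ (nsmul_mem v1 _))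
  have v4 : p ^ k • v ∈ Kl M 𝔞 := nsmul_mem v2 _
  have e : ∀ n : ℕ, (p : R) ^ n • p ^ k • v = p ^ k • p ^ n • v := fun n => by
    rw [← Nat.cast_pow, Nat.cast_smul_eq_nsmul, smul_comm]
  refine ⟨i, p ^ k • v, nsmul_mem v1 _, Kl_of (S := {𝔞, Ideal.span {(p : R) ^ (N * i + a + 1)}})
    ?_ (by rwa [sSup_pair]), fun h0 => k1 ?_⟩
  · rintro _ (rfl | rfl)
    · exact v4
    · refine mem_Kl.2 fun w hw => ?_
      obtain ⟨b, rfl⟩ := Ideal.mem_span_singleton'.1 hw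
      rw [mul_smul, pow_succ', mul_smul, e, Nat.cast_smul_eq_nsmul, k2, smul_zero]
  · have h1 := mem_Kl.1 v4 _ hu
    rw [sub_smul, sub_eq_zero] at h1
    rw [← e, pow_add, mul_smul, ← h1, ← mul_smul, mul_left_comm, mul_smul, h0, smul_zero]

end alg

variable {p : ℕ} [Fact p.Prime] {C : Type} [NontriviallyNormedField C] [IsUltrametricDist C]
  [CharZero C] {ψ : ℚ_[p] → C} {Γ : Type} [Group Γ] {act : Γ →* Iso C} {χ : Γ →* ℤ_[p]ˣ}
  {ok : Og ψ act χ} {O R M : Type} [CommRing O] [CommRing R] [Algebra O R] [AddCommGroup M]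
  [Module R M] {J : Type} [DecidableEq J] {I K : Type} [Zero K]

theorem SlS_mono {φ : K → R} {σ : J → Representation R (G2 p) M} {rel : J → Set (G2 p × I →₀ K)}
    {Q Q' : Submodule R M} {s : Set J} {x : (J → I) → M} (h : x ∈ SlS φ σ rel Q s)
    (h' : ∀ a, x a ∈ Q') : x ∈ SlS φ σ rel Q' s := ⟨h', h.2⟩

/-- the places of `s` are frozen at `P`, the others run through `𝔖`: unbounded solutions -/
def Cl (φ : K → R) (σ : J → Representation R (G2 p) M) (rel : J → Set (G2 p × I →₀ K))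
    (Q : Submodule R M) (P : J → Ideal R) (𝔖 : J → Set (Ideal R)) (s : Set J) : Prop :=
  ∀ 𝔞 : J → Ideal R, (∀ k ∈ s, 𝔞 k = P k) → (∀ k ∉ s, 𝔞 k ∈ 𝔖 k) → ∀ N : ℕ,
    ∃ x ∈ SlS φ σ rel (Q ⊓ Kl M (⨆ k, 𝔞 k)) s, p ^ N • x ≠ 0

/-- what is needed at a place -/
structure Pc (ok : Og ψ act χ) (f : Γ →* Matrix (Fin 2) (Fin 2) R) (P : Ideal R)
    (𝔖 : Set (Ideal R)) (𝔍 : ℕ → Ideal R) (r : Γ →* Matrix (Fin 2) (Fin 2) O) : Prop where
  cs : Cs p act f 𝔍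
  hr : ∀ s i j, f s i j - algebraMap O R (r s i j) ∈ P
  lat : Lat p act (mv r)
  irr : ∃ c : R, (∀ m, c • m ∈ Submodule.span R (Set.range f)) ∧ ∀ N, ∃ 𝔞 ∈ 𝔖, Nr p P c 𝔞 N

variable {σ : J → Representation R (G2 p) M} {Q : Submodule R M}
  {E : J → Matrix (Fin 2) (Fin 2) R →ₐ[R] Module.End R M} {f : J → Γ →* Matrix (Fin 2) (Fin 2) R}
  {L : J → Type} {W : ∀ k, L k → M →+ Y p C} {φ : K → O} {rel : J → Set (G2 p × I →₀ K)}
  {P : J → Ideal R} {𝔖 : J → Set (Ideal R)} {𝔍 : ℕ → Ideal R}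

theorem Cl.empty [Nonempty I] {φ : K → R} (h : ∀ 𝔞 : J → Ideal R, (∀ k, 𝔞 k ∈ 𝔖 k) → ∀ N : ℕ,
    ∃ v ∈ Q, v ∈ Kl M (⨆ k, 𝔞 k) ∧ p ^ N • v ≠ 0) : Cl φ σ rel Q P 𝔖 ∅ := fun 𝔞 _ h2 N => by
  obtain ⟨v, v1, v2, v3⟩ := h 𝔞 (fun k => h2 k id) N
  exact ⟨fun _ => v, SlS_empty ⟨v1, v2⟩, fun e => v3 (congrFun e fun _ => Classical.arbitrary I)⟩

theorem Cl.univ {φ : K → R} (h : Cl φ σ rel Q P 𝔖 Set.univ) (N : ℕ) :
    ∃ x ∈ SlS φ σ rel (Q ⊓ Kl M (⨆ k, P k)) Set.univ, p ^ N • x ≠ 0 :=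
  h P (fun _ _ => rfl) (fun _ h => (h trivial).elim) N

variable [CompleteSpace C] [IsAlgClosed C] [IsDomain O] [IsDiscreteValuationRing O] [Module O M]
  [IsScalarTower O R M] [Finite J] [Finite I]

/-- one more place -/
theorem Cl.step (rw : Rows p C) (hS : SURJ p C) (hF : PHI p C) (sur : Surjective χ)
    (hp : (p : O) ≠ 0) (anti : Antitone 𝔍) (nil : ∀ v ∈ Q, ∃ N, v ∈ Kl M (𝔍 N)) {s : Set J} {k : J}
    (hk : k ∉ s) (tg : ∀ 𝔞 : Ideal R, Tg ok (piR (σ k) (J → I))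
      (SlS (fun c => algebraMap O R (φ c)) σ rel (Q ⊓ Kl M 𝔞) s) (piE (E k) (J → I)) (f k)
      fun q : L k × (J → I) => (W k q.1).comp (Pi.evalAddMonoidHom _ q.2))
    {r : Γ →* Matrix (Fin 2) (Fin 2) O} (pc : Pc ok (f k) (P k) (𝔖 k) 𝔍 r)
    (loc : Loc ok (mv r) (smf φ) (rel k)) (h : Cl (fun c => algebraMap O R (φ c)) σ rel Q P 𝔖 s) :
    Cl (fun c => algebraMap O R (φ c)) σ rel Q P 𝔖 (insert k s) := fun 𝔞 h1 h2 N => by
  obtain ⟨c, c1, c2⟩ := pc.irr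
  have T := tg (⨆ j, update 𝔞 k ⊥ j)
  have f1 : ∀ x ∈ SlS (fun c => algebraMap O R (φ c)) σ rel (Q ⊓ Kl M (⨆ j, update 𝔞 k ⊥ j)) s,
      ∃ m, x ∈ Kl ((J → I) → M) (𝔍 m) := fun x hx => by
    choose n hn using fun a => nil _ (hx.1 a).1
    obtain ⟨m, hm⟩ := (Set.finite_range n).bddAbove
    exact ⟨m, Kl_pi.2 fun a => Kl_anti (anti (hm ⟨a, rfl⟩)) (hn a)⟩
  have f2 : FS p (SlS (fun c => algebraMap O R (φ c)) σ rel (Q ⊓ Kl M (⨆ j, update 𝔞 k ⊥ j)) s)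
      (P k) c := by
    refine FS.of_nr (fun v hv => ?_) fun N => ?_
    · obtain ⟨P₀, -, h0, h1, -⟩ := T.loc v hv
      exact h1.tor v h0
    obtain ⟨𝔫, n1, n2⟩ := c2 N
    refine ⟨𝔫, n2, fun n => ?_⟩
    obtain ⟨x, x1, x2⟩ := h (update 𝔞 k 𝔫) (fun j hj => by
      rw [update_of_ne (fun e : j = k => hk (e ▸ hj)), h1 j (Or.inr hj)]) (fun j hj => by
      by_cases e : j = k
      · rwa [e, update_self]
      · rw [update_of_ne e]
        exact h2 j fun h => h.elim e hj) n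
    have l1 : ⨆ j, update 𝔞 k ⊥ j ≤ ⨆ j, update 𝔞 k 𝔫 j :=
      iSup_mono (update_le_update_iff'.2 bot_le)
    have l2 : 𝔫 ≤ ⨆ j, update 𝔞 k 𝔫 j := le_iSup_of_le k (update_self k 𝔫 𝔞).ge
    exact ⟨x, SlS_mono x1 fun a => ⟨(x1.1 a).1, Kl_anti l1 (x1.1 a).2⟩,
      Kl_pi.2 fun a => Kl_anti l2 (x1.1 a).2, x2⟩
  have lam := T.lamF rw hF sur pc.cs f1 (P k) pc.hr hp pc.lat c1 f2
  obtain ⟨y, y2, y1, i, hi⟩ := tr_lam hS hF sur loc lam (fun a v hv => T.cen a v hv.1) N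
  obtain ⟨a, ha⟩ := Function.ne_iff.1 hi
  have l3 : ⨆ j, 𝔞 j ≤ sSup {⨆ j, update 𝔞 k ⊥ j, P k} := iSup_le fun j => by
    rw [sSup_pair]
    by_cases e : j = k
    · exact le_sup_of_le_right (e ▸ (h1 k (Or.inl rfl)).le)
    · exact le_sup_of_le_left (le_iSup_of_le j (update_of_ne e ⊥ 𝔞).ge)
  have f3 : ∀ i, y i ∈ SlS (fun c => algebraMap O R (φ c)) σ rel (Q ⊓ Kl M (⨆ j, 𝔞 j)) s :=
    fun i => by
    obtain ⟨z1, z2⟩ := Submodule.mem_inf.1 ((Submodule.restrictScalars_mem O _ _).1 (y1 i))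
    refine SlS_mono z1 fun a => ⟨(z1.1 a).1, Kl_of ?_ l3⟩
    rintro _ (rfl | rfl)
    exacts [(z1.1 a).2, Kl_pi.1 z2 a]
  have f4 : y ∈ SlO (fun c => algebraMap O R (φ c)) (piR (σ k) (J → I)) (rel k) := fun q hq => by
    simpa only [algebraMap_smul, resO_apply] using y2 q hq
  obtain ⟨x, x1, x2⟩ := SlS_step hk f3 f4 i a
  exact ⟨x, x1, fun e => ha (by rw [Pi.smul_apply, ← x2]; exact congrFun e _)⟩

/-- **TRP**: the transfer on a family at several places -/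
theorem trp (rw : Rows p C) (hS : SURJ p C) (hF : PHI p C) (sur : Surjective χ)
    (hp : (p : O) ≠ 0) (anti : Antitone 𝔍) (nil : ∀ v ∈ Q, ∃ N, v ∈ Kl M (𝔍 N))
    (tg : ∀ (𝔞 : Ideal R) (s : Set J), ∀ k ∉ s, Tg ok (piR (σ k) (J → I))
      (SlS (fun c => algebraMap O R (φ c)) σ rel (Q ⊓ Kl M 𝔞) s) (piE (E k) (J → I)) (f k)
      fun q : L k × (J → I) => (W k q.1).comp (Pi.evalAddMonoidHom _ q.2))
    {r : J → Γ →* Matrix (Fin 2) (Fin 2) O} (s t : Set J)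
    (pc : ∀ k ∈ t, Pc ok (f k) (P k) (𝔖 k) 𝔍 (r k))
    (loc : ∀ k ∈ t, Loc ok (mv (r k)) (smf φ) (rel k))
    (h : Cl (fun c => algebraMap O R (φ c)) σ rel Q P 𝔖 s) :
    Cl (fun c => algebraMap O R (φ c)) σ rel Q P 𝔖 (t ∪ s) := by
  induction t, t.toFinite using Set.Finite.induction_on with
  | empty => simpa using h
  | @insert k t _ _ ih =>
    have ih' := ih (fun j hj => pc j (Or.inr hj)) fun j hj => loc j (Or.inr hj)
    rw [Set.insert_union]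
    by_cases hk : k ∈ t ∪ s
    · rwa [Set.insert_eq_of_mem hk]
    · exact ih'.step rw hS hF sur hp anti nil hk (fun 𝔞 => tg 𝔞 _ k hk) (pc k (Or.inl rfl))
        (loc k (Or.inl rfl))

end Vale.Agent.P022K.WB
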