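import Vale.Agent.P022K.WB.Trp

/-!
# Block WB: the transfer at arbitrary points of a family

The fibre at a prime `P` of the ring `R` of the family sees all of the representation modulo `P`.
The induction over the places runs over points of the family.
-/

set_option linter.all false

noncomputable section

namespace Vale.Agent.P022K.WB

open Matrix Noe R1 R2 Function

/-- the image of a matrix representation -/
def qf {Γ R B : Type} [Group Γ] [CommRing R] [CommRing B] (g : R →+* B)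
    (f : Γ →* Matrix (Fin 2) (Fin 2) R) : Γ →* Matrix (Fin 2) (Fin 2) B :=
  g.mapMatrix.toMonoidHom.comp f

theorem qf_apply {Γ R B : Type} [Group Γ] [CommRing R] [CommRing B] (g : R →+* B)
    (f : Γ →* Matrix (Fin 2) (Fin 2) R) (s : Γ) : qf g f s = (f s).map g := rfl

theorem qf_mv {Γ R B : Type} [Group Γ] [CommRing R] [CommRing B] (g : R →+* B)
    (f : Γ →* Matrix (Fin 2) (Fin 2) R) (s : Γ) (a : Fin 2 → R) :
    (fun k => g ((f s *ᵥ a) k)) = qf g f s *ᵥ fun k => g (a k) := funext fun k => by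
  simp [qf_apply, mulVec, dotProduct]

/-- `B` is an order in a discrete valuation ring, up to an extension -/
def Fb (p : ℕ) (B : Type) [CommRing B] : Prop :=
  ∃ (V : Type) (_ : CommRing V) (_ : IsDomain V) (_ : IsDiscreteValuationRing V) (j : B →+* V)
    (l : V →+ B) (c : ℕ), (p : V) ≠ 0 ∧ (∀ b v, l (j b * v) = b * l v) ∧ l 1 = (p : B) ^ c

theorem ex_desc {Θ A A' Z : Type} [AddCommGroup Θ] [AddCommGroup A] [AddCommGroup A']
    [AddCommGroup Z] (π : A →+ A') (hπ : Surjective π) (κ : Θ →+ A →+ Z)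
    (h : ∀ u a, π a = 0 → κ u a = 0) : ∃ κ' : Θ →+ A' →+ Z, ∀ u a, κ' u (π a) = κ u a := by
  have e : ∀ u, π.ker ≤ (κ u).ker := fun u a ha => h u a ha
  have e' : ∀ u a, π.liftOfSurjective hπ ⟨κ u, e u⟩ (π a) = κ u a := fun u a =>
    π.liftOfRightInverse_comp_apply _ _ ⟨κ u, e u⟩ a
  refine ⟨AddMonoidHom.mk' (fun u => π.liftOfSurjective hπ ⟨κ u, e u⟩) fun u v =>
    AddMonoidHom.ext fun a => ?_, e'⟩
  obtain ⟨a, rfl⟩ := hπ a
  rw [AddMonoidHom.add_apply, e', e', e', map_add, AddMonoidHom.add_apply]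

/-- a surjective functional which is small on a submodule -/
theorem exists_prim {V J : Type} [CommRing V] [IsDomain V] [IsDiscreteValuationRing V] [Fintype J]
    [DecidableEq J] (L : Submodule V (J → V)) {q a : V} (hq : q ≠ 0) (h : ∀ y, q • y ∈ L)
    {y : J → V} (hy : a • y ∉ L) :
    ∃ (ν : (J → V) →ₗ[V] V) (j : J), ν (Pi.single j 1) = 1 ∧ ∀ l ∈ L, a ∣ ν l := by
  obtain ⟨μ, m1, m2⟩ := exists_dual L hq h hy
  obtain ⟨j, -, hj⟩ : ∃ j ∈ (Finset.univ : Finset J), ∀ i ∈ (Finset.univ : Finset J),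
      μ (Pi.single j 1) ∣ μ (Pi.single i 1) := by
    refine Finset.exists_min_image _ (fun i => IsDiscreteValuationRing.addVal V
      (μ (Pi.single i 1))) (Finset.univ_nonempty_iff.2 (by
        by_contra hn
        rw [not_nonempty_iff] at hn
        exact hy (by rw [Subsingleton.elim (a • y) 0]; exact zero_mem L))) |>.imp fun j hj =>
      ⟨hj.1, fun i hi => IsDiscreteValuationRing.addVal_le_iff_dvd.1 (hj.2 i hi)⟩
  choose t ht using fun i => hj i (Finset.mem_univ i)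
  let ν : (J → V) →ₗ[V] V := ∑ i, t i • LinearMap.proj i
  have e : ∀ l, μ l = μ (Pi.single j 1) * ν l := fun l => by
    conv_lhs => rw [pi_eq_sum_univ' l, map_sum]
    simp only [ν, LinearMap.sum_apply, Finset.mul_sum, LinearMap.smul_apply, LinearMap.proj_apply,
      map_smul, smul_eq_mul]
    exact Finset.sum_congr rfl fun i _ => by rw [ht i]; ring
  have h0 : μ (Pi.single j 1) ≠ 0 := fun h0 => m2 (by rw [e, h0, zero_mul]; exact dvd_zero _)
  have n4 : a * μ (Pi.single j 1) ∣ q := (ValuationRing.dvd_total _ _).resolve_right fun e' =>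
    m2 (by rw [map_smul, e, smul_eq_mul, ← mul_assoc]; exact e'.mul_right _)
  refine ⟨ν, j, mul_left_cancel₀ h0 (by rw [← e, mul_one]), fun l hl => ?_⟩
  have := n4.trans (m1 l hl)
  rwa [e l, mul_comm, mul_dvd_mul_iff_left h0] at this

variable {p : ℕ} [Fact p.Prime] {C : Type} [NontriviallyNormedField C] [IsUltrametricDist C]
  [CharZero C] {ψ : ℚ_[p] → C} {Γ : Type} [Group Γ] {act : Γ →* Iso C} {χ : Γ →* ℤ_[p]ˣ}
  {ok : Og ψ act χ} {R M : Type} [CommRing R] [AddCommGroup M] [Module R M]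

theorem Bm.desc {R Θ A A' : Type} [CommRing R] [AddCommGroup Θ] [Module R Θ] [AddCommGroup A]
    [AddCommGroup A'] {ρ : Representation R (G2 p) Θ} {α : Γ →* AddMonoid.End A}
    {α' : Γ →* AddMonoid.End A'} {κ : Θ →+ A →+ Y p C} {κ' : Θ →+ A' →+ Y p C}
    (h : Bm ok ρ α κ) {π : A → A'} (hπ : Surjective π) (e : ∀ u a, κ' u (π a) = κ u a)
    (e' : ∀ s a, π (α s a) = α' s (π a)) : Bm ok ρ α' κ' := by
  refine ⟨fun b v a => ?_, fun v a => ?_, fun s v a => ?_⟩ <;> obtain ⟨a, rfl⟩ := hπ a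
  · rw [e, e, h.n]
  · rw [e, e, h.t]
  · rw [← e', e, e, h.s]

section one

variable {ρ : Representation R (G2 p) M} {Q : Submodule R M}
  {E : Matrix (Fin 2) (Fin 2) R →ₐ[R] Module.End R M} {f : Γ →* Matrix (Fin 2) (Fin 2) R}
  {ι : Type} {W : ι → M →+ Y p C}

/-- **R2 at any point** -/
theorem Tg.lamG [CompleteSpace C] [IsAlgClosed C] (rw : Rows p C) (hF : PHI p C)
    (sur : Surjective χ) (h : Tg ok ρ Q E f W) {I : ℕ → Ideal R} (hc : Cs p act f I)
    (nil : ∀ θ ∈ Q, ∃ N, θ ∈ Kl M (I N)) (P : Ideal R) (hb : Fb p (R ⧸ P))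
    (hl : Lat p act (mv (qf (Ideal.Quotient.mk P) f))) {c : R}
    (irr : ∀ m, c • m ∈ Submodule.span R (Set.range f)) (fs : FS p Q P c) :
    Lam ok ρ (Q ⊓ Kl M P) (mv (qf (Ideal.Quotient.mk P) f)) := by
  classical
  obtain ⟨V, _, _, _, g, l, c₀, hp, l1, l2⟩ := hb
  refine ⟨c₀, fun N => ?_⟩
  obtain ⟨i, θ, t1, t2, t3⟩ := fs (N + c₀ + c₀)
  obtain ⟨S₀, s1, s2, s3, s4⟩ := h.loc θ t1
  obtain ⟨n, hn⟩ := nil θ t1
  have gk : ∀ (S : Submodule R M) (K : Ideal R), Gs ρ S → Gs ρ (S ⊓ Kl M K) :=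
    fun S K a g v hv => ⟨a g v hv.1, Kl_map (ρ g) hv.2⟩
  have ek : ∀ (S : Submodule R M) (K : Ideal R), (∀ m, ∀ v ∈ S, E m v ∈ S) →
      ∀ m, ∀ v ∈ S ⊓ Kl M K, E m v ∈ S ⊓ Kl M K :=
    fun S K a m v hv => ⟨a m v hv.1, Kl_map (E m) hv.2⟩
  set S := (S₀ ⊓ Kl M (P ^ i)) ⊓ Kl M (I n)
  have le : S ≤ Q := inf_le_left.trans (inf_le_left.trans s1)
  have gS : Gs ρ S := gk _ _ (gk _ _ s3.gs)
  have eS := ek _ (I n) (ek _ (P ^ i) s4)
  have aS : Adm ρ S := s3.mono (inf_le_left.trans inf_le_left) gS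
  obtain ⟨J, hJ⟩ := Bm.fin_inj hF sur (fun q : ι × Fin 2 => h.bm gS le eS q.1 q.2) aS.subZ
    (fun a v => Subtype.ext (h.cen a v (le v.2))) (h.kap_inj le)
  let q : J → ι × Fin 2 := Subtype.val
  have inj : ∀ u, bt E W q S u = 0 → u = 0 := hJ
  set S' := S ⊓ Kl M P
  have aS' : Adm ρ S' := aS.mono inf_le_left (gk _ _ gS)
  have hb := bt_bm h aS'.gs (inf_le_left.trans le) (ek _ P eS) q
  have hI : S' ≤ Kl M (I n) := inf_le_left.trans inf_le_right
  let π : (J → Fin 2 → R) →+ J → Fin 2 → R ⧸ P :=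
    ((Ideal.Quotient.mk P).toAddMonoidHom.compLeft (Fin 2)).compLeft J
  have π1 : ∀ a j k, π a j k = Ideal.Quotient.mk P (a j k) := fun _ _ _ => rfl
  have hπ : Surjective π := fun a => ⟨fun j k => (a j k).out,
    funext fun j => funext fun k => Ideal.Quotient.mk_out _⟩
  obtain ⟨κ, hκ⟩ := ex_desc π hπ (bt E W q S') fun u a ha => ck_of (q := q) inf_le_right a
    (fun j k => Ideal.Quotient.eq_zero_iff_mem.1 (congrFun (congrFun ha j) k)) u
  let L : Submodule V (J → V) := Submodule.span V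
    {z | ∃ a ∈ ck E W q S', ∃ k, z = fun j => g (π a j k)}
  obtain ⟨m, hm⟩ := hc.pI n
  have tor : ∀ v ∈ S', p ^ m • v = 0 := fun v hv => by
    rw [← Nat.cast_smul_eq_nsmul R, Nat.cast_pow]
    exact mem_Kl.1 hv.1.2 _ hm
  obtain ⟨y, hy⟩ : ∃ y, (p : V) ^ (N + c₀) • y ∉ L := by
    by_contra! hn'
    refine t3 ?_
    rw [pow_mul]
    refine bound rw h hc gS le eS inf_le_right inj irr (inf_le_left.trans inf_le_right)
      (fun x => ?_) θ ⟨⟨s2, t2⟩, hn⟩
    have h1 : ∀ z ∈ L, ∀ v : V, ∃ w ∈ rows (ck E W q S'),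
        ∀ j, Ideal.Quotient.mk P (w j) = l (z j * v) := fun z hz => by
      induction hz using Submodule.span_induction with
      | mem _ hz =>
        obtain ⟨a, ha, k, rfl⟩ := hz
        exact fun v => ⟨(l v).out • fun j => a j k, Submodule.smul_mem _ _
          (Submodule.subset_span ⟨a, ha, k, rfl⟩), fun j => by
            rw [l1, Pi.smul_apply, smul_eq_mul, map_mul, Ideal.Quotient.mk_out, mul_comm, π1]⟩
      | zero => exact fun v => ⟨0, zero_mem _, fun j => by simp⟩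
      | add a b _ _ ha hb =>
        intro v
        obtain ⟨x, x1, x2⟩ := ha v
        obtain ⟨y, y1, y2⟩ := hb v
        exact ⟨x + y, add_mem x1 y1, fun j => by
          rw [Pi.add_apply, map_add, x2, y2, Pi.add_apply, add_mul, map_add]⟩
      | smul o a _ ha =>
        intro v
        obtain ⟨x, x1, x2⟩ := ha (o * v)
        exact ⟨x, x1, fun j => by rw [x2, Pi.smul_apply, smul_eq_mul, mul_left_comm, mul_assoc]⟩
    obtain ⟨w, w1, w2⟩ := h1 _ (hn' fun j => g (Ideal.Quotient.mk P (x j))) 1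
    have h3 : (p : R) ^ (N + c₀ + c₀) • x - w ∈ rows (ck E W q S') := Submodule.subset_span
      ⟨fun j _ => ((p : R) ^ (N + c₀ + c₀) • x - w) j, ck_of inf_le_right _ fun j _ =>
        Ideal.Quotient.eq.1 (by
          rw [w2, Pi.smul_apply, Pi.smul_apply, smul_eq_mul, smul_eq_mul, ← map_natCast g,
            ← map_pow, ← map_mul, l1, l2, map_mul, map_pow, map_natCast]
          ring), 0, rfl⟩
    simpa using add_mem h3 w1
  obtain ⟨ν, j₀, n3, n4⟩ := exists_prim L (pow_ne_zero m hp) (fun z => by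
    rw [pi_eq_sum_univ' z, Finset.smul_sum]
    refine sum_mem fun j _ => ?_
    rw [smul_comm]
    refine Submodule.smul_mem _ _ (Submodule.subset_span
      ⟨(p : R) ^ m • fun i (_ : Fin 2) => (Pi.single j 1 : J → R) i, ck_of hI _ fun j k =>
        Ideal.mul_mem_right _ _ hm, 0, funext fun i => ?_⟩)
    rw [π1]
    by_cases e : i = j <;> simp [e]) hy
  let lam : (J → Fin 2 → R ⧸ P) →ₗ[R] Fin 2 → R ⧸ P :=
    { toFun := fun a k => l (ν fun j => g (a j k))
      map_add' := fun a b => funext fun k => by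
        rw [Pi.add_apply, ← map_add, ← map_add]
        exact congrArg l (congrArg ν (funext fun j => map_add g _ _))
      map_smul' := fun o a => funext fun k => by
        rw [RingHom.id_apply, Pi.smul_apply, Algebra.smul_def o (l _), ← l1, ← smul_eq_mul,
          ← map_smul]
        exact congrArg l (congrArg ν (funext fun j => map_mul g (algebraMap R _ o) _)) }
  have eq : ∀ s a, π (piA (mv f) J s a) = piA (mv (qf (Ideal.Quotient.mk P) f)) J s (π a) :=
    fun s a => funext fun j => qf_mv (Ideal.Quotient.mk P) f s (a j)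
  refine ⟨S', aS', J → Fin 2 → R ⧸ P, inferInstance, inferInstance, piA (mv (qf _ f)) _, κ, lam,
    fun v hv => ⟨le hv.1, hv.2⟩, ⟨m, tor⟩, hl.pi _ _ fun _ _ _ => rfl, hb.desc hπ hκ eq,
    fun o v a => ?_, fun v hv => ?_, fun s a => funext fun k => ?_, fun a ha => ?_,
    fun t => ⟨Pi.single j₀ t, 0, funext fun k => ?_⟩⟩
  · obtain ⟨a, rfl⟩ := hπ a
    rw [hκ, ← bt_smul, ← hκ]
    rfl
  · have := inj ⟨v.1, v.2.1⟩ (AddMonoidHom.ext fun a => by
      have e := hκ v a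
      rw [hv, AddMonoidHom.zero_apply, bt_apply] at e
      rw [bt_apply]
      exact e.symm)
    exact Subtype.ext (congrArg Subtype.val this :)
  · show l (ν fun j => g ((qf _ f s *ᵥ a j) k)) = (qf _ f s *ᵥ fun k => l (ν fun j => g (a j k))) k
    simp only [mulVec, dotProduct, Fin.sum_univ_two]
    rw [← l1, ← l1, ← map_add, ← smul_eq_mul, ← smul_eq_mul, ← map_smul, ← map_smul, ← map_add]
    exact congrArg l (congrArg ν (funext fun j => by simp))
  · obtain ⟨a, rfl⟩ := hπ a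
    choose t ht using fun k => n4 _ (Submodule.subset_span
      ⟨a, fun u => (hκ u a).symm.trans (ha u), k, rfl⟩)
    exact ⟨fun k => l (t k), funext fun k => (congrArg l (ht k)).trans (by
      rw [← map_natCast g, ← map_pow, l1]; simp)⟩
  · show p ^ c₀ • t k = l (ν fun j => g ((Pi.single j₀ t : J → Fin 2 → R ⧸ P) j k)) +
      p ^ (N + c₀) • (0 : R ⧸ P)
    rw [show (fun j => g ((Pi.single j₀ t : J → Fin 2 → R ⧸ P) j k)) = g (t k) • Pi.single j₀ 1 from
      funext fun j => by by_cases e : j = j₀ <;> simp [e], map_smul, n3, smul_eq_mul, l1, l2]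
    simp [mul_comm]

omit [Module R M] in
/-- change of the ring of values -/
theorem Loc.chg {B V : Type} [CommRing B] [CommRing V] {r : Γ →* Matrix (Fin 2) (Fin 2) V}
    {r' : Γ →* Matrix (Fin 2) (Fin 2) B} {I K : Type} [Zero K] {φ : K → V} {φ' : K → B}
    {rel : Set (G2 p × I →₀ K)} (h : Loc ok (mv r) (smf φ) rel) (μ : B →+ V)
    (hr : ∀ s i j b, μ (r' s i j * b) = r s i j * μ b) (hφ : ∀ c b, μ (φ' c * b) = φ c * μ b)
    {k : ℕ} {a : B} (ha : μ a = (p : V) ^ k) : Loc ok (mv r') (smf φ') rel := by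
  refine h.of_map (fun v : V => ((AddMonoidHom.mulLeft v).comp μ).compLeft (Fin 2))
    (fun v s b => funext fun i => ?_) (fun v c _ b => funext fun i => ?_) k fun b => ?_
  · show v * μ ((r' s *ᵥ b) i) = (r s *ᵥ fun i => v * μ (b i)) i
    simp only [mulVec, dotProduct, Fin.sum_univ_two, map_add, hr]
    ring
  · show v * μ (φ' c * b i) = φ c * (v * μ (b i))
    rw [hφ, mul_left_comm]
  · rw [← Finset.univ_sum_single b, Finset.smul_sum]
    refine sum_mem fun i _ => AddSubgroup.mem_iSup_of_mem (b i) ⟨Pi.single i a, funext fun j => ?_⟩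
    show b i * μ ((Pi.single i a : Fin 2 → B) j) = p ^ k • (Pi.single i (b i) : Fin 2 → V) j
    by_cases e : j = i <;> simp [e, ha, mul_comm]

theorem Aug.map {B : Type} [CommRing B] (g : R →+* B) {I K : Type} [Zero K] {φ : K → R}
    {rel : Set (G2 p × I →₀ K)} (h : Aug φ rel) : Aug (fun c => g (φ c)) rel :=
  h.imp fun c hc Θ _ _ σ x h1 h2 => by
    letI := Module.compHom Θ g
    exact hc Θ
      { toFun := fun y => ⟨(σ y).toAddHom, fun o v => map_smul (σ y) (g o) v⟩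
        map_one' := LinearMap.ext fun v => by simp
        map_mul' := fun a b => LinearMap.ext fun v => rho_mul a b v } x h1 h2

variable (P : Ideal R)

/-- operators on the vectors killed by `P` -/
def qE : Module.End R M →+* Module.End (R ⧸ P) (Kl M P) where
  toFun u :=
    { toFun := fun v => ⟨u v, Kl_map u v.2⟩
      map_add' := fun a b => Subtype.ext (map_add u a.1 b.1)
      map_smul' := fun b v => by
        obtain ⟨b, rfl⟩ := Ideal.Quotient.mk_surjective b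
        exact Subtype.ext (map_smul u b v.1) }
  map_one' := rfl
  map_mul' _ _ := rfl
  map_zero' := rfl
  map_add' _ _ := rfl

theorem qE_val (u : Module.End R M) (v : Kl M P) : (qE P u v : M) = u v := rfl

/-- the action on the vectors killed by `P` -/
def qR (ρ : Representation R (G2 p) M) : Representation (R ⧸ P) (G2 p) (Kl M P) :=
  (qE P).toMonoidHom.comp ρ

/-- the part of `Q` killed by `P` -/
def qS (Q : Submodule R M) : Submodule (R ⧸ P) (Kl M P) where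
  carrier := {v | v.1 ∈ Q}
  zero_mem' := zero_mem Q
  add_mem' := add_mem (S := Submodule R M)
  smul_mem' b v hv := by
    obtain ⟨b, rfl⟩ := Ideal.Quotient.mk_surjective b
    exact Q.smul_mem b hv

theorem ex_qE (E : Matrix (Fin 2) (Fin 2) R →ₐ[R] Module.End R M) :
    ∃ E' : Matrix (Fin 2) (Fin 2) (R ⧸ P) →ₐ[R ⧸ P] Module.End (R ⧸ P) (Kl M P),
      ∀ m v, (E' (m.map (Ideal.Quotient.mk P)) v : M) = E m v := by
  have hs : Surjective ((Ideal.Quotient.mk P).mapMatrix (m := Fin 2)) := fun a =>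
    ⟨a.map Quotient.out, Matrix.ext fun i j => Ideal.Quotient.mk_out _⟩
  have hk : RingHom.ker ((Ideal.Quotient.mk P).mapMatrix (m := Fin 2)) ≤
      RingHom.ker ((qE P).comp E.toRingHom) := fun m hm => LinearMap.ext fun v => Subtype.ext (by
    show E m v = 0
    rw [matrix_eq_sum_single m, map_sum, LinearMap.sum_apply]
    refine Finset.sum_eq_zero fun i _ => ?_
    rw [map_sum, LinearMap.sum_apply]
    refine Finset.sum_eq_zero fun j _ => ?_
    rw [show single i j (m i j) = m i j • single i j (1 : R) by simp, map_smul,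
      LinearMap.smul_apply, ← map_smul,
      mem_Kl.1 v.2 _ (Ideal.Quotient.eq_zero_iff_mem.1 (congrFun (congrFun hm i) j)), map_zero])
  have e := RingHom.liftOfSurjective_comp_apply _ hs ⟨_, hk⟩
  refine ⟨⟨RingHom.liftOfSurjective _ hs ⟨_, hk⟩, fun b => ?_⟩,
    fun m v => congrArg (fun u => (u v : M)) (e m)⟩
  obtain ⟨b, rfl⟩ := Ideal.Quotient.mk_surjective b
  refine (congrArg _ ?_).trans ((e (algebraMap R _ b)).trans (LinearMap.ext fun v =>
    Subtype.ext (LinearMap.congr_fun (E.commutes b) v.1)))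
  ext i j
  by_cases e : i = j <;> simp [algebraMap_matrix_apply, e]

/-- the fibre at `P` as a module over `R ⧸ P` -/
theorem Tg.quot (h : Tg ok ρ Q E f W)
    {E' : Matrix (Fin 2) (Fin 2) (R ⧸ P) →ₐ[R ⧸ P] Module.End (R ⧸ P) (Kl M P)}
    (hE : ∀ m v, (E' (m.map (Ideal.Quotient.mk P)) v : M) = E m v) :
    Tg ok (qR P ρ) (qS P Q) E' (qf (Ideal.Quotient.mk P) f)
      fun i => (W i).comp (Kl M P).subtype.toAddMonoidHom := by
  have hs : ∀ a : Matrix (Fin 2) (Fin 2) (R ⧸ P), ∃ m : Matrix (Fin 2) (Fin 2) R,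
      m.map (Ideal.Quotient.mk P) = a := fun a =>
    ⟨a.map Quotient.out, Matrix.ext fun i j => Ideal.Quotient.mk_out _⟩
  refine ⟨fun g m v hv => ?_, fun a v hv => Subtype.ext (h.cen a v hv),
    fun i => ⟨fun b v hv => (h.wg i).n b v hv, fun v hv => (h.wg i).t v hv, fun s v hv => ?_⟩,
    fun v hv h0 => Subtype.ext (h.inj v hv fun i m => hE m v ▸ h0 i _), fun z hz => ?_⟩
  · obtain ⟨m, rfl⟩ := hs m
    exact Subtype.ext ((congrArg (ρ g) (hE m v)).trans
      ((h.com g m v hv).trans (hE m (qR P ρ g v)).symm))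
  · exact (congrArg (fun u => W i (ρ _ u)) (hE (f s) v)).trans ((h.wg i).s s v hv)
  · obtain ⟨P₀, h1, h2, h3, h4⟩ := h.loc z hz
    refine ⟨qS P P₀, fun v hv => h1 hv, h2, ⟨fun g v hv => h3.gs g v hv,
      fun v hv => (h3.sm v hv).imp fun n hn g hg => Subtype.ext (hn g hg),
      fun v hv => (h3.tor v hv).imp fun n hn => Subtype.ext hn,
      (h3.fin.preimage Subtype.val_injective.injOn).subset fun v hv =>
        ⟨hv.1, congrArg Subtype.val hv.2.1, fun g hg => congrArg Subtype.val (hv.2.2 g hg)⟩⟩,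
      fun m v hv => ?_⟩
    obtain ⟨m, rfl⟩ := hs m
    exact (show (_ : M) ∈ P₀ from hE m v ▸ h4 m v hv)

theorem SlO_quot {I K : Type} [Zero K] {φ : K → R} {rel : Set (G2 p × I →₀ K)} {x : I → Kl M P} :
    x ∈ SlO (fun c => Ideal.Quotient.mk P (φ c)) (qR P ρ) rel ↔
      (fun i => (x i : M)) ∈ SlO φ ρ rel := by
  refine forall₂_congr fun r _ => ?_
  rw [← Subtype.val_injective.eq_iff]
  exact Eq.congr_left (map_finsuppSum (Kl M P).subtype r _)

/-- **TRS at any point** -/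
theorem Tg.trsq (h : Tg ok ρ Q E f W) {I K : Type} [Finite I] [Zero K] {φ : K → R}
    {rel : Set (G2 p × I →₀ K)} (aug : Aug φ rel)
    (unb : ∀ N : ℕ, ∃ x ∈ SlO φ ρ rel, (∀ i, x i ∈ Q ⊓ Kl M P) ∧ p ^ N • x ≠ 0) :
    Loc ok (mv (qf (Ideal.Quotient.mk P) f)) (smf fun c => Ideal.Quotient.mk P (φ c)) rel := by
  obtain ⟨E', hE⟩ := ex_qE P E
  refine (h.quot P hE).trs (aug.map _) fun N => ?_
  obtain ⟨x, x1, x2, x3⟩ := unb N
  exact ⟨fun i => ⟨x i, (x2 i).2⟩, (SlO_quot P).2 x1, fun i => (x2 i).1,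
    fun e => x3 (funext fun i => congrArg Subtype.val (congrFun e i))⟩

end one

variable {J : Type} [DecidableEq J] {I K : Type} [Zero K] {σ : J → Representation R (G2 p) M}
  {Q : Submodule R M} {E : J → Matrix (Fin 2) (Fin 2) R →ₐ[R] Module.End R M}
  {f : J → Γ →* Matrix (Fin 2) (Fin 2) R} {L : J → Type} {W : ∀ k, L k → M →+ Y p C} {φ : K → R}
  {rel : J → Set (G2 p × I →₀ K)} {𝔍 : ℕ → Ideal R} [Finite J] [Finite I]

/-- **TRS at any point**, several places -/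
theorem trsq (P : Ideal R) (k : J) (tg : Tg ok (piR (σ k) (J → I)) (SlS φ σ rel Q ∅)
      (piE (E k) (J → I)) (f k) fun q : L k × (J → I) => (W k q.1).comp (Pi.evalAddMonoidHom _ q.2))
    (aug : Aug φ (rel k)) (unb : ∀ N : ℕ, ∃ x ∈ SlS φ σ rel (Q ⊓ Kl M P) {k}, p ^ N • x ≠ 0) :
    Loc ok (mv (qf (Ideal.Quotient.mk P) (f k))) (smf fun c => Ideal.Quotient.mk P (φ c))
      (rel k) := by
  refine tg.trsq P aug fun N => ?_
  obtain ⟨x, x1, x2⟩ := unb N
  obtain ⟨a, ha⟩ := Function.ne_iff.1 x2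
  refine ⟨fun i _ => x (update a k i), fun q hq => funext fun b => ?_,
    fun i => ⟨SlS_empty (x1.1 _).1, Kl_pi.2 fun _ => (x1.1 _).2⟩, fun e => ha ?_⟩
  · rw [Finsupp.sum, Finset.sum_apply]
    exact x1.2 k rfl a q hq
  · simpa using congrFun (congrFun e (a k)) a

variable [CompleteSpace C] [IsAlgClosed C]

/-- one more place, at the prime `P` -/
theorem trq_step (rw : Rows p C) (hS : SURJ p C) (hF : PHI p C) (sur : Surjective χ)
    (anti : Antitone 𝔍) (nil : ∀ v ∈ Q, ∃ N, v ∈ Kl M (𝔍 N)) {s : Set J} {k : J} (hk : k ∉ s)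
    (T : Tg ok (piR (σ k) (J → I)) (SlS φ σ rel Q s) (piE (E k) (J → I)) (f k)
      fun q : L k × (J → I) => (W k q.1).comp (Pi.evalAddMonoidHom _ q.2))
    (cs : Cs p act (f k) 𝔍) {P : Ideal R} (fb : Fb p (R ⧸ P))
    (lat : Lat p act (mv (qf (Ideal.Quotient.mk P) (f k)))) {c : R}
    (irr : ∀ m, c • m ∈ Submodule.span R (Set.range (f k)))
    (loc : Loc ok (mv (qf (Ideal.Quotient.mk P) (f k))) (smf fun c => Ideal.Quotient.mk P (φ c))
      (rel k))
    (nr : ∀ N, ∃ 𝔫, Nr p P c 𝔫 N ∧ ∀ n : ℕ, ∃ x ∈ SlS φ σ rel (Q ⊓ Kl M 𝔫) s, p ^ n • x ≠ 0)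
    (N : ℕ) : ∃ x ∈ SlS φ σ rel (Q ⊓ Kl M P) (insert k s), p ^ N • x ≠ 0 := by
  have f1 : ∀ x ∈ SlS φ σ rel Q s, ∃ m, x ∈ Kl ((J → I) → M) (𝔍 m) := fun x hx => by
    choose n hn using fun a => nil _ (hx.1 a)
    obtain ⟨m, hm⟩ := (Set.finite_range n).bddAbove
    exact ⟨m, Kl_pi.2 fun a => Kl_anti (anti (hm ⟨a, rfl⟩)) (hn a)⟩
  have f2 : FS p (SlS φ σ rel Q s) P c := by
    refine FS.of_nr (fun v hv => ?_) fun N => (nr N).imp fun 𝔫 h => ⟨h.1, fun n => ?_⟩
    · obtain ⟨P₀, -, h0, h1, -⟩ := T.loc v hv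
      exact h1.tor v h0
    obtain ⟨x, x1, x2⟩ := h.2 n
    exact ⟨x, SlS_mono x1 fun a => (x1.1 a).1, Kl_pi.2 fun a => (x1.1 a).2, x2⟩
  have lam := T.lamG rw hF sur cs f1 P fb lat irr f2
  have loc' : Loc ok (mv (qf (Ideal.Quotient.mk P) (f k))) (smf φ) (rel k) := by
    convert loc using 1
    exact funext fun c => funext fun a => funext fun i => Algebra.smul_def (φ c) (a i)
  obtain ⟨y, y2, y1, i, hi⟩ := tr_lam hS hF sur loc' lam (fun a v hv => T.cen a v hv.1) N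
  obtain ⟨a, ha⟩ := Function.ne_iff.1 hi
  obtain ⟨x, x1, x2⟩ := SlS_step (Q := Q ⊓ Kl M P) hk
    (fun i => SlS_mono (y1 i).1 fun a => ⟨(y1 i).1.1 a, Kl_pi.1 (y1 i).2 a⟩) y2 i a
  exact ⟨x, x1, fun e => ha (by rw [Pi.smul_apply, ← x2]; exact congrFun e _)⟩

/-- **TRQ**: the points `ξ` have primes `𝔮 ξ`; `fr ξ k` says that `ξ` is frozen at `k` -/
theorem trq (rw : Rows p C) (hS : SURJ p C) (hF : PHI p C) (sur : Surjective χ)
    (anti : Antitone 𝔍) (nil : ∀ v ∈ Q, ∃ N, v ∈ Kl M (𝔍 N))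
    (tg : ∀ s : Set J, ∀ k ∉ s, Tg ok (piR (σ k) (J → I)) (SlS φ σ rel Q s) (piE (E k) (J → I))
      (f k) fun q : L k × (J → I) => (W k q.1).comp (Pi.evalAddMonoidHom _ q.2))
    {X : Type*} (𝔮 : X → Ideal R) (fr : X → J → Prop) (s t : Set J)
    (cs : ∀ k ∈ t, Cs p act (f k) 𝔍) (fb : ∀ ξ, Fb p (R ⧸ 𝔮 ξ))
    (lat : ∀ ξ, ∀ k ∈ t, Lat p act (mv (qf (Ideal.Quotient.mk (𝔮 ξ)) (f k))))
    (loc : ∀ ξ, ∀ k ∈ t, fr ξ k → Loc ok (mv (qf (Ideal.Quotient.mk (𝔮 ξ)) (f k)))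
      (smf fun c => Ideal.Quotient.mk (𝔮 ξ) (φ c)) (rel k))
    (nr : ∀ ξ, ∀ k ∈ t, ∃ c, (∀ m, c • m ∈ Submodule.span R (Set.range (f k))) ∧ ∀ N, ∃ ξ',
      (∀ j ≠ k, fr ξ j → fr ξ' j) ∧ Nr p (𝔮 ξ) c (𝔮 ξ') N)
    (h0 : ∀ ξ, (∀ k ∈ s, fr ξ k) → ∀ N : ℕ, ∃ x ∈ SlS φ σ rel (Q ⊓ Kl M (𝔮 ξ)) s, p ^ N • x ≠ 0)
    (ξ : X) (hξ : ∀ k ∈ t ∪ s, fr ξ k) (N : ℕ) :
    ∃ x ∈ SlS φ σ rel (Q ⊓ Kl M (𝔮 ξ)) (t ∪ s), p ^ N • x ≠ 0 := by
  induction t, t.toFinite using Set.Finite.induction_on generalizing ξ N with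
  | empty => simpa using h0 ξ (by simpa using hξ) N
  | @insert k t _ _ ih =>
    have ih' := ih (fun j hj => cs j (Or.inr hj)) (fun ξ j hj => lat ξ j (Or.inr hj))
      (fun ξ j hj => loc ξ j (Or.inr hj)) fun ξ j hj => nr ξ j (Or.inr hj)
    rw [Set.insert_union] at hξ ⊢
    by_cases hk : k ∈ t ∪ s
    · rw [Set.insert_eq_of_mem hk] at hξ ⊢
      exact ih' ξ hξ N
    obtain ⟨c, c1, c2⟩ := nr ξ k (Or.inl rfl)
    refine trq_step rw hS hF sur anti nil hk (tg _ k hk) (cs k (Or.inl rfl)) (fb ξ)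
      (lat ξ k (Or.inl rfl)) c1 (loc ξ k (Or.inl rfl) (hξ k (Or.inl rfl))) (fun n => ?_) N
    obtain ⟨ξ', h1, h2⟩ := c2 n
    exact ⟨_, h2, ih' ξ' fun j hj => h1 j (fun e => hk (e ▸ hj)) (hξ j (Or.inr hj))⟩

end Vale.Agent.P022K.WB
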