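import Vale.Agent.P022K.WB.YSt

/-!
# Block WB: the cusp functional (`FCU`, `INJC`) and normality (`NRM`)
-/

set_option linter.all false

open PowerSeries Finset

noncomputable section

namespace Vale.Agent.P022K.WB

open Vale.Agent.P022K.FI

namespace Cu

section field

variable {C : Type} [NontriviallyNormedField C]

/-- `t d / dt` -/
def th (f : C⟦X⟧) : C⟦X⟧ := X * d⁄dX C f

theorem coeff_th (f : C⟦X⟧) (n : ℕ) : coeff n (th f) = n * coeff n f := by
  cases n with
  | zero => simp [th]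
  | succ n => rw [th, coeff_succ_X_mul, coeff_derivative, mul_comm]; push_cast; rfl

theorem th_mul (f g : C⟦X⟧) : th (f * g) = th f * g + f * th g := by
  simp only [th, Derivation.leibniz, smul_eq_mul]; ring

theorem th_sub (f g : C⟦X⟧) : th (f - g) = th f - th g := by simp only [th, map_sub, mul_sub]

theorem th_expand (j : ℕ) (hj : j ≠ 0) (f : C⟦X⟧) :
    th (expand j hj f) = PowerSeries.C (j : C) * expand j hj (th f) := by
  ext n
  rw [coeff_th, coeff_C_mul, coeff_expand, coeff_expand]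
  split_ifs with h
  · obtain ⟨m, rfl⟩ := h
    rw [coeff_th, Nat.mul_div_cancel_left _ (Nat.pos_of_ne_zero hj), Nat.cast_mul, mul_assoc]
  · simp

theorem th_rescale (a : C) (f : C⟦X⟧) : th (rescale a f) = rescale a (th f) := by
  ext n
  rw [coeff_th, coeff_rescale, coeff_rescale, coeff_th, mul_left_comm]

theorem th_map (s : C →+* C) (f : C⟦X⟧) : th (map s f) = map s (th f) := by
  ext n
  rw [coeff_th, coeff_map, coeff_map, coeff_th, map_mul, map_natCast]

theorem c0 {u : C⟦X⟧} (h : coeff 0 u ≠ 0) : constantCoeff u ≠ 0 := by simpa using h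

theorem th_eq {u : C⟦X⟧} (h : coeff 0 u ≠ 0) : th u = dl0 u * u := by
  rw [dl0, mul_assoc, PowerSeries.inv_mul_cancel _ (c0 h), mul_one, th]

theorem dl0_eq {u G : C⟦X⟧} (h : coeff 0 u ≠ 0) (e : th u = G * u) : dl0 u = G := by
  show th u * u⁻¹ = G
  rw [e, mul_assoc, PowerSeries.mul_inv_cancel _ (c0 h), mul_one]

theorem c0_mul (u v : C⟦X⟧) : coeff 0 (u * v) = coeff 0 u * coeff 0 v := by simp

theorem dl0_mul {u v : C⟦X⟧} (hu : coeff 0 u ≠ 0) (hv : coeff 0 v ≠ 0) :
    dl0 (u * v) = dl0 u + dl0 v :=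
  dl0_eq (by rw [c0_mul]; exact mul_ne_zero hu hv) (by rw [th_mul, th_eq hu, th_eq hv]; ring)

theorem dl0_C (c : C) : dl0 (PowerSeries.C c) = 0 := by simp [dl0]

theorem dl0_pow {u : C⟦X⟧} (hu : coeff 0 u ≠ 0) (n : ℕ) : dl0 (u ^ n) = n • dl0 u := by
  induction n with
  | zero => simpa using dl0_C (1 : C)
  | succ n ih =>
    rw [pow_succ, dl0_mul (by simpa using fun h => absurd h (c0 hu)) hu, ih, succ_nsmul]

theorem dl0_expand (j : ℕ) (hj : j ≠ 0) {u : C⟦X⟧} (hu : coeff 0 u ≠ 0) :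
    dl0 (expand j hj u) = PowerSeries.C (j : C) * expand j hj (dl0 u) :=
  dl0_eq (by simpa using hu) (by rw [th_expand, th_eq hu, map_mul, mul_assoc])

theorem dl0_rescale {a : C} {u : C⟦X⟧} (hu : coeff 0 u ≠ 0) :
    dl0 (rescale a u) = rescale a (dl0 u) :=
  dl0_eq (by rw [coeff_rescale]; simpa using hu) (by rw [th_rescale, th_eq hu, map_mul])

theorem dl0_map (s : C →+* C) (u : C⟦X⟧) : dl0 (map s u) = map s (dl0 u) := by
  by_cases hu : coeff 0 u = 0
  · have h1 : u⁻¹ = 0 := inv_eq_zero.2 (by simpa using hu)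
    have h2 : (map s u)⁻¹ = 0 := inv_eq_zero.2 (by
      rw [← coeff_zero_eq_constantCoeff_apply, coeff_map, hu, map_zero])
    rw [dl0, dl0, h1, h2, mul_zero, mul_zero, map_zero]
  · exact dl0_eq (by rw [coeff_map]; simpa using hu) (by rw [th_map, th_eq hu, map_mul])

/-- the logarithmic derivative determines a series up to a constant -/
theorem eq_of_dl0 [CharZero C] {u v : C⟦X⟧} (hu : coeff 0 u ≠ 0) (hv : coeff 0 v = 1)
    (e : dl0 u = dl0 v) : u = PowerSeries.C (coeff 0 u) * v := by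
  have hv' : coeff 0 v ≠ 0 := hv ▸ one_ne_zero
  have hi : v⁻¹ * v = 1 := PowerSeries.inv_mul_cancel _ (c0 hv')
  have h0 : coeff 0 (u * v⁻¹) = coeff 0 u := by
    have := congrArg (coeff 0) hi
    rw [c0_mul, hv, mul_one] at this
    rw [c0_mul, this]; simp
  have h1 : dl0 (u * v⁻¹) = 0 := by
    have := dl0_mul (h0 ▸ hu : coeff 0 (u * v⁻¹) ≠ 0) hv'
    rw [mul_assoc, hi, mul_one, e] at this
    exact left_eq_add.1 (this.trans (add_comm _ _))
  have h2 : th (u * v⁻¹) = 0 := by rw [th_eq (h0 ▸ hu), h1, zero_mul]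
  have h3 : u * v⁻¹ = PowerSeries.C (coeff 0 u) := by
    ext n
    rw [coeff_C]
    split_ifs with h
    · rw [h, h0]
    · have := coeff_th (u * v⁻¹) n
      rw [h2, map_zero] at this
      exact (mul_eq_zero.1 this.symm).resolve_left (Nat.cast_ne_zero.2 h)
  rw [← h3, mul_assoc, hi, mul_one]

theorem dl0_congr {u v : C⟦X⟧} (hu : coeff 0 u ≠ 0) {N : ℕ}
    (h : ∀ n ≤ N, coeff n u = coeff n v) : coeff N (dl0 u) = coeff N (dl0 v) := by
  have hv : coeff 0 v ≠ 0 := h 0 N.zero_le ▸ hu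
  have d1 : (X : C⟦X⟧) ^ (N + 1) ∣ u - v :=
    X_pow_dvd_iff.2 fun m hm => by rw [map_sub, h m (by omega), sub_self]
  have d2 : (X : C⟦X⟧) ^ (N + 1) ∣ th (u - v) :=
    X_pow_dvd_iff.2 fun m hm => by rw [coeff_th, map_sub, h m (by omega), sub_self, mul_zero]
  have e : dl0 u - dl0 v = (th (u - v) - dl0 v * (u - v)) * u⁻¹ := by
    rw [th_sub, th_eq hu, th_eq hv]
    linear_combination (dl0 v - dl0 u) * PowerSeries.mul_inv_cancel _ (c0 hu)
  have d3 : (X : C⟦X⟧) ^ (N + 1) ∣ dl0 u - dl0 v :=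
    e ▸ (dvd_sub d2 (d1.mul_left _)).mul_right _
  have := X_pow_dvd_iff.1 d3 N N.lt_succ_self
  rwa [map_sub, sub_eq_zero] at this

theorem coeff_dl0_one (a : C) (j m : ℕ) (hm : m ≠ 0) :
    coeff m (dl0 (1 - PowerSeries.C a * X ^ (j + 1))) =
      if j + 1 ∣ m then -(((j + 1 : ℕ) : C) * a ^ (m / (j + 1))) else 0 := by
  have e1 : dl0 (1 - X : C⟦X⟧) = 1 - PowerSeries.mk 1 := dl0_eq (by simp) (by
    rw [sub_mul, mk_one_mul_one_sub_eq_one]; simp [th])
  have e2 : (1 - PowerSeries.C a * X ^ (j + 1) : C⟦X⟧) =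
      expand (j + 1) j.succ_ne_zero (rescale a (1 - X)) := by
    rw [map_sub, map_one, rescale_X, map_sub, map_one, map_mul, expand_C, expand_X]
  rw [e2, dl0_expand _ _ (by simp), dl0_rescale (by simp), e1, coeff_C_mul, coeff_expand]
  split_ifs with h
  · have : m / (j + 1) ≠ 0 :=
      (Nat.div_pos (Nat.le_of_dvd (Nat.pos_of_ne_zero hm) h) j.succ_pos).ne'
    rw [coeff_rescale, map_sub, coeff_one, if_neg this, coeff_mk]
    simp
  · simp

/-- the finite products -/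
def pr (a : ℕ → C) (N : ℕ) : C⟦X⟧ :=
  ∏ j ∈ range N, (1 - PowerSeries.C (a (j + 1)) * X ^ (j + 1))

/-- the infinite product -/
def Pp (a : ℕ → C) : C⟦X⟧ := PowerSeries.mk fun n => coeff n (pr a n)

theorem pr_succ (a : ℕ → C) (N n : ℕ) : coeff n (pr a (N + 1)) =
    coeff n (pr a N) - if N + 1 ≤ n then a (N + 1) * coeff (n - (N + 1)) (pr a N) else 0 := by
  rw [pr, prod_range_succ, ← pr, mul_sub, mul_one, map_sub, mul_left_comm, coeff_C_mul,
    coeff_mul_X_pow', mul_ite, mul_zero]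

theorem pr_zero (a : ℕ → C) (N : ℕ) : coeff 0 (pr a N) = 1 := by
  induction N with
  | zero => simp [pr]
  | succ N ih => rw [pr_succ, ih, if_neg (by omega), sub_zero]

theorem coeff_Pp (a : ℕ → C) {n N : ℕ} (h : n ≤ N) : coeff n (Pp a) = coeff n (pr a N) := by
  induction N, h using Nat.le_induction with
  | base => rw [Pp, coeff_mk]
  | succ N h ih => rw [pr_succ, if_neg (by omega), sub_zero, ih]

theorem Pp_zero (a : ℕ → C) : coeff 0 (Pp a) = 1 := (coeff_Pp a le_rfl).trans (pr_zero a 0)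

theorem dl0_pr (a : ℕ → C) (N : ℕ) :
    dl0 (pr a N) = ∑ j ∈ range N, dl0 (1 - PowerSeries.C (a (j + 1)) * X ^ (j + 1)) := by
  induction N with
  | zero => simpa [pr] using dl0_C (1 : C)
  | succ N ih =>
    rw [pr, prod_range_succ, ← pr, dl0_mul (pr_zero a N ▸ one_ne_zero) (by simp), ih,
      sum_range_succ]

theorem coeff_dl0_Pp (a : ℕ → C) {m : ℕ} (hm : m ≠ 0) :
    coeff m (dl0 (Pp a)) = -∑ j ∈ m.divisors, (j : C) * a j ^ (m / j) := by
  rw [dl0_congr (v := pr a m) (Pp_zero a ▸ one_ne_zero) fun n h => coeff_Pp a h, dl0_pr, map_sum,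
    sum_congr rfl fun j _ => coeff_dl0_one _ j m hm, Nat.divisors, sum_filter, ← sum_neg_distrib,
    sum_Ico_eq_sum_range]
  refine sum_congr rfl fun j _ => ?_
  rw [add_comm 1 j]
  split_ifs <;> simp

/-- the solution of the ghost equations -/
def bb (g : ℕ → C) (m : ℕ) : C :=
  (-g m - ∑ j ∈ m.properDivisors.attach, (j.1 : C) * bb g j.1 ^ (m / j.1)) / m
decreasing_by exact (Nat.mem_properDivisors.1 j.2).2

theorem ex_Pp [CharZero C] (G : C⟦X⟧) (h : coeff 0 G = 0) : ∃ a, dl0 (Pp a) = G := by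
  refine ⟨bb fun m => coeff m G, PowerSeries.ext fun m => ?_⟩
  rcases eq_or_ne m 0 with rfl | hm
  · rw [h, dl0, mul_assoc, coeff_zero_X_mul]
  rw [coeff_dl0_Pp _ hm, ← Nat.cons_self_properDivisors hm, sum_cons,
    Nat.div_self (Nat.pos_of_ne_zero hm), pow_one, bb,
    mul_div_cancel₀ _ (Nat.cast_ne_zero.2 hm),
    sum_attach m.properDivisors fun j => (j : C) * bb (fun m => coeff m G) j ^ (m / j)]
  ring

end field

variable {p : ℕ} [hp : Fact p.Prime] {C : Type} [NontriviallyNormedField C] [IsUltrametricDist C]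

theorem bnd_iff {f : C⟦X⟧} {B : ℝ} : An4.Bnd 1 B f ↔ ∀ n, ‖coeff n f‖ ≤ B := by
  simp [An4.Bnd]

theorem pr_int {a : ℕ → C} {N : ℕ} (h : ∀ j < N, ‖a (j + 1)‖ ≤ 1) (n : ℕ) :
    ‖coeff n (pr a N)‖ ≤ 1 := by
  induction N generalizing n with
  | zero => exact bnd_iff.1 (An4.bnd_one 1) n
  | succ N ih =>
    have ih := ih fun j hj => h j (by omega)
    rw [pr_succ]
    refine mem_Oc.1 (sub_mem (mem_Oc.2 (ih n)) ?_)
    split_ifs
    · exact mul_mem (mem_Oc.2 (h N N.lt_succ_self)) (mem_Oc.2 (ih _))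
    · exact zero_mem _

theorem Pp_int {a : ℕ → C} : (∀ n, ‖coeff n (Pp a)‖ ≤ 1) ↔ ∀ j, ‖a (j + 1)‖ ≤ 1 := by
  refine ⟨fun h j => ?_, fun h n => (coeff_Pp a le_rfl).symm ▸ pr_int (fun j _ => h j) n⟩
  induction j using Nat.strong_induction_on with
  | _ j ih =>
    have e := pr_succ a j (j + 1)
    rw [if_pos le_rfl, Nat.sub_self, pr_zero, mul_one, ← coeff_Pp a le_rfl] at e
    have : a (j + 1) = coeff (j + 1) (pr a j) - coeff (j + 1) (Pp a) := by rw [e]; ring
    exact this ▸ mem_Oc.1 (sub_mem (mem_Oc.2 (pr_int ih _)) (mem_Oc.2 (h _)))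

/-- the slice `d` of the logarithmic derivative of a product -/
theorem slice (a : ℕ → C) {d : ℕ} (hd : ¬ p ∣ d) :
    (fun i => coeff (d * p ^ i) (dl0 (Pp a))) =
      -∑ e ∈ d.divisors, (e : ℕ → C) * ghs p fun s => a (e * p ^ s) ^ (d / e) := by
  have d0 : d ≠ 0 := fun e => hd (e ▸ dvd_zero p)
  funext i
  have co : d.Coprime (p ^ i) := ((hp.out.coprime_iff_not_dvd.2 hd).symm).pow_right i
  rw [coeff_dl0_Pp a (mul_ne_zero d0 (pow_ne_zero _ hp.out.ne_zero)), Nat.divisors_mul,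
    Finset.mul_def, sum_image co.mul_injOn_divisors, sum_product, Pi.neg_apply, Finset.sum_apply]
  refine congrArg _ (sum_congr rfl fun e he => ?_)
  rw [Nat.sum_divisors_prime_pow hp.out, Pi.mul_apply, ghs, mul_sum]
  refine sum_congr rfl fun s hs => ?_
  have hs : s ≤ i := Nat.lt_succ_iff.1 (mem_range.1 hs)
  rw [← pow_mul, Nat.mul_div_mul_comm (Nat.dvd_of_mem_divisors he) (pow_dvd_pow p hs),
    Nat.pow_div hs hp.out.pos, Nat.cast_mul, Nat.cast_pow, mul_assoc]
  rfl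

theorem ghs_mem {a : ℕ → C} (h : ∀ j, ‖a j‖ ≤ 1) : ghs p a ∈ Gh p C :=
  mem_Gh.2 ⟨a, h, fun _ => rfl⟩

/-- a ghost vector with vanishing first entry comes from the Verschiebung -/
theorem ex_Vg {c : ℕ → C} (hc : c ∈ Gh p C) (h0 : c 0 = 0) : ∃ c' ∈ Gh p C, c = Vg p c' := by
  obtain ⟨a, ha, h⟩ := mem_Gh.1 hc
  have a0 : a 0 = 0 := (ghs_zero p a).symm.trans ((h 0).symm.trans h0)
  refine ⟨_, ghs_mem fun j => ha (j + 1), funext fun i => ?_⟩
  cases i with
  | zero => exact h0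
  | succ i =>
    rw [h, Vg, ghs, ghs, sum_range_succ', a0, zero_pow (pow_ne_zero _ hp.out.ne_zero), mul_zero,
      add_zero, mul_sum]
    exact sum_congr rfl fun j _ => by rw [Nat.add_sub_add_right, pow_succ]; ring

/-- the leading entry of a ghost vector -/
theorem lead [CharZero C] {c : ℕ → C} (hc : c ∈ Gh p C) {j : ℕ} (h : ∀ i < j, c i = 0) :
    ‖c j‖ ≤ ‖(p : C) ^ j‖ := by
  induction j generalizing c with
  | zero =>
    obtain ⟨a, ha, e⟩ := mem_Gh.1 hc
    rw [e, ghs_zero, pow_zero, norm_one]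
    exact ha 0
  | succ j ih =>
    obtain ⟨c', h1, rfl⟩ := ex_Vg hc (h 0 j.succ_pos)
    rw [Vg, pow_succ', norm_mul, norm_mul]
    exact mul_le_mul_of_nonneg_left (ih h1 fun i hi => (mul_eq_zero.1
      (h (i + 1) (by omega))).resolve_left (Nat.cast_ne_zero.2 hp.out.ne_zero)) (norm_nonneg _)

theorem norm_nat (np : ‖(p : C)‖ < 1) {d : ℕ} (hd : ¬ p ∣ d) : ‖(d : C)‖ = 1 := by
  refine le_antisymm (IsUltrametricDist.norm_natCast_le_one C d) (not_lt.1 fun h => ?_)
  obtain ⟨a, b, e⟩ := Nat.isCoprime_iff_coprime.2 (hp.out.coprime_iff_not_dvd.2 hd)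
  have e' : (a : C) * p + b * d = 1 := by exact_mod_cast congrArg (Int.cast : ℤ → C) e
  have := IsUltrametricDist.norm_add_le_max ((a : C) * p) (b * d)
  rw [e', norm_one, norm_mul, norm_mul] at this
  exact this.not_gt (max_lt
    (mul_lt_one_of_nonneg_of_lt_one_right (IsUltrametricDist.norm_intCast_le_one C a)
      (norm_nonneg _) np)
    (mul_lt_one_of_nonneg_of_lt_one_right (IsUltrametricDist.norm_intCast_le_one C b)
      (norm_nonneg _) h))

/-- a ghost vector has integral Witt components -/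
theorem int_of_mem [CharZero C] (np : ‖(p : C)‖ < 1) {d : ℕ} (hd : ¬ p ∣ d) {b : ℕ → C}
    (h : (d : ℕ → C) * ghs p b ∈ Gh p C) (s : ℕ) : ‖b s‖ ≤ 1 := by
  induction s using Nat.strong_induction_on with
  | _ s ih =>
    have h1 : ghs p (fun t => if t < s then b t else 0) ∈ Gh p C := ghs_mem fun t => by
      split_ifs with k
      exacts [ih t k, by simp]
    have h2 := lead (sub_mem h (mul_mem (natCast_mem _ d) h1)) (j := s) fun i hi => by
      rw [Pi.sub_apply, Pi.mul_apply, Pi.mul_apply, sub_eq_zero, ghs, ghs]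
      exact congrArg _ (sum_congr rfl fun j hj => by
        rw [if_pos (lt_of_le_of_lt (Nat.lt_succ_iff.1 (mem_range.1 hj)) hi)])
    rw [Pi.sub_apply, Pi.mul_apply, Pi.mul_apply, ← mul_sub, ghs, ghs, sum_range_succ,
      sum_range_succ, if_neg (lt_irrefl s), Nat.sub_self, pow_zero, pow_one, pow_one, mul_zero,
      add_zero, sum_congr (g := fun j => (p : C) ^ j * (if j < s then b j else 0) ^ p ^ (s - j))
        rfl fun j hj => by rw [if_pos (mem_range.1 hj)], add_sub_cancel_left,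
      norm_mul, norm_mul, Pi.natCast_apply, norm_nat np hd, one_mul] at h2
    exact le_of_mul_le_mul_left (h2.trans_eq (mul_one _).symm)
      (norm_pos_iff.2 (pow_ne_zero _ (Nat.cast_ne_zero.2 hp.out.ne_zero)))

theorem pw_int {a : ℕ → C} {e : ℕ} (h : ∀ s, ‖a (e * p ^ s)‖ ≤ 1) (k : ℕ) :
    (e : ℕ → C) * ghs p (fun s => a (e * p ^ s) ^ k) ∈ Gh p C :=
  mul_mem (natCast_mem _ e) (ghs_mem fun s => mem_Oc.1 (pow_mem (mem_Oc.2 (h s)) k))

/-- the slices of the logarithmic derivative of a unit are ghost vectors -/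
theorem mem_of_unit [CharZero C] {u : C⟦X⟧} (hu : Unit u) {d : ℕ} (hd : ¬ p ∣ d) :
    (fun i => coeff (d * p ^ i) (dl0 u)) ∈ Gh p C := by
  have u0 : coeff 0 u ≠ 0 := norm_ne_zero_iff.1 (hu.2 ▸ one_ne_zero)
  obtain ⟨a, ha⟩ := ex_Pp (dl0 u) (by rw [dl0, mul_assoc, coeff_zero_X_mul])
  have e := eq_of_dl0 u0 (Pp_zero a) ha.symm
  have hi := Pp_int.1 fun n => by
    have := hu.1 n
    rwa [e, coeff_C_mul, norm_mul, hu.2, one_mul] at this
  rw [← ha, slice a hd]
  refine neg_mem (sum_mem fun e he => pw_int (fun s => ?_) _)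
  obtain ⟨j, hj⟩ := Nat.exists_eq_succ_of_ne_zero
    (mul_ne_zero (Nat.pos_of_mem_divisors he).ne' (pow_ne_zero s hp.out.ne_zero))
  exact hj ▸ hi j

/-- a series whose slices are ghost vectors is the logarithmic derivative of a unit -/
theorem ex_unit [CharZero C] (np : ‖(p : C)‖ < 1) {G : C⟦X⟧} (h0 : coeff 0 G = 0)
    (h : ∀ d, ¬ p ∣ d → (fun i => coeff (d * p ^ i) G) ∈ Gh p C) :
    ∃ w, Unit w ∧ coeff 0 w = 1 ∧ dl0 w = G := by
  obtain ⟨a, rfl⟩ := ex_Pp G h0
  have k : ∀ d, ¬ p ∣ d → ∀ s, ‖a (d * p ^ s)‖ ≤ 1 := fun d => by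
    induction d using Nat.strong_induction_on with
    | _ d ih =>
      intro hd
      have d0 : d ≠ 0 := fun e => hd (e ▸ dvd_zero p)
      have h1 := neg_mem (h d hd)
      rw [slice a hd, neg_neg, ← Nat.cons_self_properDivisors d0, sum_cons,
        Nat.div_self (Nat.pos_of_ne_zero d0)] at h1
      have h2 := (add_mem_cancel_right (sum_mem fun e he => pw_int
        (ih e (Nat.mem_properDivisors.1 he).2 fun k =>
          hd (k.trans (Nat.mem_properDivisors.1 he).1)) _)).1 h1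
      simpa using int_of_mem np hd h2
  refine ⟨_, ⟨Pp_int.2 fun j => ?_, by rw [Pp_zero, norm_one]⟩, Pp_zero a, rfl⟩
  obtain ⟨s, d, hd, e⟩ := Nat.exists_eq_pow_mul_and_not_dvd j.succ_ne_zero p hp.out.ne_one
  rw [show j + 1 = d * p ^ s from e.trans (mul_comm _ _)]
  exact k d hd s

theorem lev_inj [CharZero C] {n : ℕ} {c c' : ℕ → C} (h : lev p n c = lev p n c') : c = c' :=
  funext fun k => by
    have := congrFun h ((k : ℤ) - n)
    rwa [lev_nat, lev_nat,
      div_left_inj' (pow_ne_zero _ (Nat.cast_ne_zero.2 hp.out.ne_zero))] at this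

/-- the level of an element of `BW` can be lowered to the level of its support -/
theorem lev_down [CharZero C] {n : ℕ} {l : ℤ → C} (hl : l ∈ BW p C)
    (h : ∀ i : ℤ, i + n < 0 → l i = 0) : ∃ c ∈ Gh p C, l = lev p n c := by
  obtain ⟨m, c, hc, rfl⟩ := hl
  rcases le_total m n with k | k
  · obtain ⟨c', h1, h2⟩ := lev_up k hc
    exact ⟨c', h1, h2.symm⟩
  induction m, k using Nat.le_induction generalizing c with
  | base => exact ⟨c, hc, rfl⟩
  | succ m k ih =>
    obtain ⟨c', h1, rfl⟩ := ex_Vg hc (by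
      have := h (((0 : ℕ) : ℤ) - (m + 1 : ℕ)) (by push_cast; omega)
      rwa [lev_nat, pow_zero, div_one] at this)
    rw [lev_Vg] at h ⊢
    exact ih c' h1 h

end Cu

open Cu

variable (p : ℕ) [hp : Fact p.Prime] (C : Type) [NontriviallyNormedField C] [IsUltrametricDist C]
  [CharZero C]

theorem fcu : FCU p C where
  mem n d u hd hu := ⟨n, _, mem_of_unit hu hd, rfl⟩
  mul n d u v hu hv := by
    rw [cu, cu, cu, ← map_add, dl0_mul hu hv]
    exact congrArg _ (funext fun i => map_add _ _ _)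
  cst n d c := by
    rw [cu, dl0_C]
    exact map_zero _
  lvl n d u hd hu := by
    rw [cu, cu, ← lev_Vg p n, ← expand_apply p hp.out.ne_zero, dl0_expand _ _ hu]
    refine congrArg _ (funext fun i => ?_)
    rw [coeff_C_mul]
    cases i with
    | zero => rw [coeff_expand_of_not_dvd _ _ _ (by simpa using hd), mul_zero]; rfl
    | succ i => rw [pow_succ', mul_left_comm, coeff_expand_mul]; rfl
  shift n d u i := lev_succ p n _ i
  tr ψ hψ n d u b i hu := by
    rw [cu, cu, dl0_rescale hu, lev_apply, lev_apply]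
    split_ifs with h
    · obtain ⟨k, hk⟩ := Int.eq_ofNat_of_zero_le h
      have p0 : (p : ℚ_[p]) ≠ 0 := Nat.cast_ne_zero.2 hp.out.ne_zero
      rw [hk, Int.toNat_natCast, coeff_rescale, ← hψ.nat, mul_div_assoc,
        show i = (k : ℤ) - n by omega, zpow_sub₀ p0, zpow_natCast, zpow_natCast]
      congr 2
      push_cast
      ring
    · rw [mul_zero]
  gal s n d u i := by
    rw [cu, cu, dl0_map, lev_apply, lev_apply]
    split_ifs with h
    · rw [coeff_map, map_div₀, map_pow, map_natCast]; rfl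
    · rw [map_zero]

theorem injc : INJC p C := by
  intro _ np n m u hu h
  have u0 : coeff 0 u ≠ 0 := norm_ne_zero_iff.1 (hu.2 ▸ one_ne_zero)
  have q0 : ((p ^ m : ℕ) : C) ≠ 0 := Nat.cast_ne_zero.2 (pow_ne_zero _ hp.out.ne_zero)
  obtain ⟨w, h1, h2, h3⟩ := ex_unit np (G := PowerSeries.C ((p ^ m : ℕ) : C)⁻¹ * dl0 u)
    (by rw [coeff_C_mul, dl0, mul_assoc, coeff_zero_X_mul, mul_zero]) fun d hd => by
      obtain ⟨l, hl, e⟩ := h d hd
      obtain ⟨c, hc, rfl⟩ := lev_down (n := n) hl fun i hi => by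
        have := congrFun e i
        rw [cu, lev_neg p n _ hi, Pi.smul_apply, nsmul_eq_mul] at this
        exact (mul_eq_zero.1 this.symm).resolve_left q0
      rw [← map_nsmul] at e
      convert hc using 2 with i
      rw [coeff_C_mul, congrFun (lev_inj e) i, Pi.smul_apply, nsmul_eq_mul,
        inv_mul_cancel_left₀ q0]
  refine ⟨_, w, h1, eq_of_dl0 u0 (by simpa using congrArg (· ^ p ^ m) h2) ?_⟩
  rw [dl0_pow (h2 ▸ one_ne_zero), h3, nsmul_eq_mul, ← map_natCast (PowerSeries.C (R := C)),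
    ← mul_assoc, ← map_mul, mul_inv_cancel₀ q0, map_one, one_mul]

theorem nrm : NRM C := by
  intro a b h u c N hN ha hb b0 e hu c0 hh
  have u0 : coeff 0 u ≠ 0 := norm_ne_zero_iff.1 (hu.2 ▸ one_ne_zero)
  have e0 : coeff 0 h ^ N = c * coeff 0 u := by simpa using congrArg (coeff 0) hh
  have h0 : coeff 0 h ≠ 0 := fun k => mul_ne_zero c0 u0 (by rw [← e0, k, zero_pow hN.ne'])
  obtain ⟨w, hw⟩ : ∃ w, w = PowerSeries.C (coeff 0 h)⁻¹ * h := ⟨_, rfl⟩
  have w0 : coeff 0 w = 1 := by rw [hw, coeff_C_mul, inv_mul_cancel₀ h0]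
  refine ⟨_, w, h0, ⟨?_, by rw [w0, norm_one]⟩, by
    rw [hw, ← mul_assoc, ← map_mul, mul_inv_cancel₀ h0, map_one, one_mul]⟩
  have o : (0 : ℝ) ≤ 1 := zero_le_one
  have hb' := bnd_iff.2 hb
  have wN : An4.Bnd 1 1 (w ^ N) := bnd_iff.2 fun n => by
    rw [hw, mul_pow, hh, ← map_pow, ← mul_assoc, ← map_mul, coeff_C_mul, inv_pow, e0, norm_mul,
      mul_inv_rev, inv_mul_cancel_right₀ c0, norm_inv, hu.2, inv_one, one_mul]
    exact hu.1 n
  obtain ⟨M, M1, bw⟩ : ∃ M : ℝ, 1 ≤ M ∧ An4.Bnd 1 M (b * w) :=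
    ⟨max 1 (‖(coeff 0 h)⁻¹‖ * 1), le_max_left _ _, by
      rw [hw, mul_left_comm, e]
      exact ((An4.bnd_C 1 _).mul o (bnd_iff.2 ha)).mono (le_max_right _ _)⟩
  have k1 : ∀ n, An4.Bnd 1 (M ^ N) (b ^ N * w ^ n) := fun n => by
    have lt := (Nat.mod_lt n hN).le
    have : b ^ N * w ^ n = (b * w) ^ (n % N) * (b ^ (N - n % N) * (w ^ N) ^ (n / N)) := by
      conv_lhs => rw [← Nat.mod_add_div n N, ← Nat.add_sub_cancel' lt]
      rw [pow_add, pow_add, pow_mul, mul_pow, Nat.add_sub_cancel' lt]; ring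
    rw [this]
    refine ((bw.pow o _).mul o ((hb'.pow o _).mul o (wN.pow o _))).mono ?_
    rw [one_pow, one_pow, mul_one, mul_one]
    exact pow_le_pow_right₀ M1 lt
  let S : C⟦X⟧ → Prop := fun g => ∀ n, An4.Bnd 1 (M ^ N) (b ^ N * w ^ n * g)
  intro k
  induction k using Nat.strong_induction_on with
  | _ k ih =>
    obtain ⟨t, ht⟩ : ∃ t : C⟦X⟧, t = trunc k w := ⟨_, rfl⟩
    have t1 : An4.Bnd 1 1 t := bnd_iff.2 fun n => by
      rw [ht, Polynomial.coeff_coe, coeff_trunc]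
      split_ifs with l
      exacts [ih n l, by simp]
    have k2 : ∀ n, S ((w - t) ^ n) := fun n => by
      induction n with
      | zero => exact fun n => by rw [pow_zero, mul_one]; exact k1 n
      | succ n ih =>
        intro j
        have : b ^ N * w ^ j * (w - t) ^ (n + 1) =
            b ^ N * w ^ (j + 1) * (w - t) ^ n - b ^ N * w ^ j * (w - t) ^ n * t := by ring
        exact this ▸ (ih _).sub o (mul_one (M ^ N) ▸ (ih j).mul o t1)
    obtain ⟨f, hf⟩ : (X : C⟦X⟧) ^ k ∣ w - t := X_pow_dvd_iff.2 fun n l => by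
      rw [map_sub, ht, Polynomial.coeff_coe, coeff_trunc, if_pos l, sub_self]
    have f0 : coeff k w = constantCoeff f := by
      have := congrArg (coeff (0 + k)) hf
      rwa [coeff_X_pow_mul, zero_add, map_sub, ht, Polynomial.coeff_coe, coeff_trunc,
        if_neg (lt_irrefl k), sub_zero, coeff_zero_eq_constantCoeff_apply] at this
    have g0 : 0 < ‖constantCoeff (divXPowOrder (b ^ N))‖ := norm_pos_iff.2
      (mt constantCoeff_divXPowOrder_eq_zero_iff.1 (pow_ne_zero N b0))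
    refine not_lt.1 fun lt => ?_
    obtain ⟨n, hn⟩ := pow_unbounded_of_one_lt (M ^ N / ‖constantCoeff (divXPowOrder (b ^ N))‖) lt
    have := bnd_iff.1 (k2 n 0) (0 + ((b ^ N).order.toNat + k * n))
    rw [pow_zero, mul_one, hf, ← X_pow_order_mul_divXPowOrder (f := b ^ N), mul_pow, ← pow_mul,
      mul_mul_mul_comm, ← pow_add, X_pow_order_mul_divXPowOrder, coeff_X_pow_mul,
      coeff_zero_eq_constantCoeff_apply, map_mul, map_pow, norm_mul, norm_pow, ← f0] at this
    exact this.not_gt (by rwa [div_lt_iff₀ g0, mul_comm] at hn)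

end Vale.Agent.P022K.WB
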