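import Vale.Agent.P022K.WB.Nv0
import Vale.Agent.P022K.FI.Fac
import Vale.Agent.P022K.FI.Zeta
import Vale.Agent.P027M.G.Brid

/-!
# P022K, block WB, row NRD: a function whose expansion on an open disc is a `p`-th power is near a
`p`-th power at the boundary norm
-/

set_option linter.all false

noncomputable section

open IntermediateField Vale.Agent.P019P P025H746 P025H492 Module PowerSeries Filter Topology
open scoped LaurentSeries

namespace Vale.Agent.P022K.WB.Nv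

open Vale.Agent.P027M.I Vale.Agent.P022K.FI

variable {C : Type} [NontriviallyNormedField C] [IsUltrametricDist C] [IsAlgClosed C]
  {p : ℕ} {ζ : C} {K : Type} [Field K] [Algebra C K] {w : NV C K} {f : K}

namespace Nrd

/-- either near a power, or the reduction of the cover is inseparable -/
theorem dich (h : PZ p ζ) (hC : P025H458.Sph C) (hn : ∀ r : ℝ, 0 ≤ r → ∃ x : C, ‖x‖ = r)
    {T : K} [FiniteDimensional C⟮T⟯ K] (hw : w.OverG T) (hf : f ≠ 0) :
    Nr p ζ w f ∨ ∃ (z : K) (γ : C) (b : K), z ≠ 0 ∧ ‖(p : C)‖ < ‖γ‖ ^ (p - 1) ∧ ‖γ‖ ≤ 1 ∧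
      w b = 1 ∧ f / z ^ p = 1 + algebraMap C K γ ^ p * b ∧ ∀ α : kap w, α ^ p ≠ w.red b := by
  by_cases hgp : ∃ b : K, b ^ p = f
  · obtain ⟨b, rfl⟩ := hgp
    exact Or.inl (Sp.of_pow h fun e => hf (by rw [e, zero_pow h.hp.ne_zero])).nr
  push Not at hgp
  have hirr : Irreducible (Polynomial.X ^ p - Polynomial.C f : Polynomial K) :=
    X_pow_sub_C_irreducible_of_prime h.hp hgp
  haveI := Fact.mk hirr
  let W := AdjoinRoot (Polynomial.X ^ p - Polynomial.C f : Polynomial K)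
  have hφ : (AdjoinRoot.root _ : W) ^ p = algebraMap K W f := root_X_pow_sub_C_pow p f
  have htop : K⟮(AdjoinRoot.root _ : W)⟯ = ⊤ := by
    rw [eq_top_iff, ← toSubalgebra_le_toSubalgebra, top_toSubalgebra,
      ← AdjoinRoot.adjoinRoot_eq_top]
    exact algebra_adjoin_le_adjoin _ _
  obtain ⟨hfd, -, -⟩ := P025H992.kummer_galois h.hp h.ne hgp hφ htop
  have hT : Transcendental C T := hw.transc
  have hT' : Transcendental C (algebraMap K W T) := by
    rw [transcendental_algebraMap_iff (FaithfulSMul.algebraMap_injective K W)]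
    exact hT
  have hfW : FiniteDimensional C⟮algebraMap K W T⟯ W := finite_adjoin_map
  have hp1 : p - 1 ≠ 0 := Nat.sub_ne_zero_of_lt h.hp.one_lt
  rcases P025H992.near_or_far' hn h.hp h.ne h.lt hf hgp hφ htop
    (sum_finrank_eq hC hn hT) (sum_finrank_eq hC hn hT') (fun w hw => by
      have := hw.finite
      exact Module.finrank_pos) hw with ⟨z, -, hz⟩ | ⟨z, β, b, hz, hβ, hβ1, hb, e, hb'⟩
  · refine Or.inl ⟨z⁻¹, ?_⟩
    rw [inv_pow, ← div_eq_mul_inv]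
    rw [← h.pow_eq, ← pow_mul, mul_comm, pow_mul] at hz
    exact le_of_pow_le_pow_left₀ hp1 h.pos'.le hz
  obtain ⟨γ, rfl⟩ := IsAlgClosed.exists_pow_nat_eq β h.hp.pos
  rw [norm_pow, ← pow_mul, mul_comm, pow_mul] at hβ
  rw [norm_pow] at hβ1
  exact Or.inr ⟨z, γ, b, hz, lt_of_pow_lt_pow_left₀ _ (by positivity) hβ,
    (pow_le_one_iff_of_nonneg (norm_nonneg _) h.hp.ne_zero).1 hβ1, hb,
    by rw [← map_pow]; exact sub_eq_iff_eq_add'.1 e, hb'⟩

omit [IsAlgClosed C] in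
theorem ex_pow (hp : p.Prime) {P Q : C⟦X⟧} (hP : Ig P) (hQ : Ig Q) :
    ∃ S, Ig S ∧ (P + Q) ^ p = P ^ p + Q ^ p + PowerSeries.C (p : C) * (Q * S) := by
  obtain ⟨r, hr⟩ := exists_add_pow_prime_eq hp (⟨P, mem_IgS.2 hP⟩ : IgS C) ⟨Q, mem_IgS.2 hQ⟩
  have e := congrArg Subtype.val hr
  simp only [Subring.coe_add, Subring.coe_mul, SubmonoidClass.coe_pow, Subring.coe_natCast] at e
  exact ⟨P * r, hP.mul (mem_IgS.1 r.2), by rw [e, map_natCast]; ring⟩

omit [IsAlgClosed C] in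
theorem bound (hp : p.Prime) {N A B S : C⟦X⟧} {γ : C} (hN : Ig N) (hA : Ig A) (hB : Ig B)
    (hS : Ig S) (h0 : rd B ≠ 0) (h1 : ‖(p : C)‖ < ‖γ‖ ^ (p - 1))
    (e : N ^ p * B = PowerSeries.C (γ ^ p) * A - PowerSeries.C (p : C) * (N * S)) (n : ℕ) :
    ‖coeff n N‖ ≤ ‖γ‖ := by
  by_contra hc
  push Not at hc
  obtain ⟨d, h2, h3⟩ := exists_deg hB fun s => h0 ((rd_eq_zero hB).2 s)
  obtain ⟨r₀, a1, a2, a3⟩ := near_bd hB h2 h3
  have key : ∀ (m : ℕ) (a : ℝ), a < ‖coeff n N‖ ^ m →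
      ∀ᶠ r in 𝓝[<] (1 : ℝ), a < (‖coeff n N‖ * r ^ n) ^ m * r ^ d := fun m a ha => by
    have : Tendsto (fun r : ℝ => (‖coeff n N‖ * r ^ n) ^ m * r ^ d) (𝓝[<] 1)
        (𝓝 ((‖coeff n N‖ * 1 ^ n) ^ m * 1 ^ d)) :=
      (Continuous.tendsto (by fun_prop) 1).mono_left nhdsWithin_le_nhds
    rw [one_pow, one_pow, mul_one, mul_one] at this
    exact this.eventually_const_lt ha
  obtain ⟨r, ⟨b1, b2⟩, b3, b4⟩ := (((key p _ (pow_lt_pow_left₀ hc (norm_nonneg _) hp.ne_zero)).and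
    (key (p - 1) _ (h1.trans_le (pow_le_pow_left₀ (norm_nonneg _) hc.le _)))).and
    (Ioo_mem_nhdsLT a2)).exists
  have hr := a1.trans b3
  have cN := hN.cv hr b4
  have g1 := le_gn cN n
  have g0 : 0 < ‖coeff n N‖ * r ^ n := mul_pos ((norm_nonneg _).trans_lt hc) (pow_pos hr _)
  have g2 := gn_sub_le hr ((cv_C r (γ ^ p)).mul (hA.cv hr b4))
    ((cv_C r (p : C)).mul ((hN.mul hS).cv hr b4))
  rw [← e, gn_mul hr (cN.pow p) (hB.cv hr b4), gn_pow hr cN, (a3 r b3.le b4).1,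
    gn_mul hr (cv_C _ _) (hA.cv hr b4), gn_mul hr (cv_C _ _) ((hN.mul hS).cv hr b4), gn_C hr,
    gn_C hr, gn_mul hr cN (hS.cv hr b4), norm_pow] at g2
  refine absurd g2 (not_le.2 (max_lt ?_ ?_))
  · refine (mul_le_of_le_one_right (by positivity) (hA.gn_le hr b4.le)).trans_lt (b1.trans_le ?_)
    gcongr
  · have g3 : ‖(p : C)‖ < gn r N ^ (p - 1) * r ^ d := b2.trans_le (by gcongr)
    calc _ ≤ ‖(p : C)‖ * gn r N := mul_le_mul_of_nonneg_left
            (mul_le_of_le_one_right (gn_nonneg hr _) (hS.gn_le hr b4.le)) (norm_nonneg _)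
      _ < gn r N ^ (p - 1) * r ^ d * gn r N := mul_lt_mul_of_pos_right g3 (g0.trans_le g1)
      _ = _ := by rw [mul_right_comm, ← pow_succ, Nat.sub_add_cancel hp.one_le]

omit [IsAlgClosed C] in
/-- the reduction of `(a ^ p - 1) / γ ^ p` is a power -/
theorem root (hp : p.Prime) {a x : C⸨X⸩} {za zx : (kC C)⸨X⸩} {γ : C} (ha : Rd a za) (hx : Rd x zx)
    (h1 : ‖(p : C)‖ < ‖γ‖ ^ (p - 1)) (e : a ^ p = 1 + algebraMap C C⸨X⸩ γ ^ p * x) :
    ∃ y, y ^ p = zx := by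
  obtain ⟨P, Q, a1, a2, a3, a4, -⟩ := ha
  obtain ⟨A, B, b1, b2, b3, b4, b5⟩ := hx
  have hp1 : p - 1 ≠ 0 := Nat.sub_ne_zero_of_lt hp.one_lt
  have hγ : γ ≠ 0 := fun e => by
    rw [e, norm_zero, zero_pow hp1] at h1
    exact absurd h1 (not_lt.2 (norm_nonneg _))
  have hγ0 := norm_pos_iff.2 hγ
  have e1 : P ^ p * B = Q ^ p * (B + PowerSeries.C (γ ^ p) * A) := am_inj (by
    simp only [map_mul, map_add, map_pow, am_C, ← a4, ← b4, mul_pow, e]; ring)
  obtain ⟨S, hS, e2⟩ := ex_pow hp a2 (a1.sub a2)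
  rw [add_sub_cancel] at e2
  have e3 : (P - Q) ^ p * B = PowerSeries.C (γ ^ p) * (Q ^ p * A) -
      PowerSeries.C (p : C) * ((P - Q) * (S * B)) := by linear_combination e1 - B * e2
  have hb := bound hp (a1.sub a2) ((a2.pow p).mul b1) b2 (hS.mul b2) b3 h1 e3
  obtain ⟨N, hN⟩ : ∃ N, N = PowerSeries.C γ⁻¹ * (P - Q) := ⟨_, rfl⟩
  have hN1 : Ig N := fun n => by
    rw [hN, coeff_C_mul, norm_mul, norm_inv, inv_mul_le_one₀ hγ0]
    exact hb n
  have hN2 : P - Q = PowerSeries.C γ * N := by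
    rw [hN, ← mul_assoc, ← map_mul, mul_inv_cancel₀ hγ, map_one, one_mul]
  obtain ⟨δ, hδ⟩ : ∃ δ : C, δ = p / γ ^ (p - 1) := ⟨_, rfl⟩
  have hδ1 : ‖δ‖ < 1 := by rwa [hδ, norm_div, norm_pow, div_lt_one (pow_pos hγ0 _)]
  have hδ2 : (p : C) * γ = γ ^ p * δ := by
    rw [hδ, ← Nat.sub_add_cancel hp.one_le, pow_succ, Nat.sub_add_cancel hp.one_le]
    field_simp
  have e4 : N ^ p * B = Q ^ p * A - PowerSeries.C δ * (N * (S * B)) := by
    refine mul_left_cancel₀ (show PowerSeries.C (γ ^ p) ≠ (0 : C⟦X⟧) from fun e =>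
      pow_ne_zero p hγ (by simpa using congrArg constantCoeff e)) ?_
    have := congrArg (PowerSeries.C (R := C)) hδ2
    rw [map_mul, map_mul] at this
    rw [hN2, mul_pow, ← map_pow] at e3
    linear_combination e3 - N * (S * B) * this
  have c1 := hN1.mul (hS.mul b2)
  have e5 := congrArg rd e4
  rw [rd_mul (hN1.pow p) b2, rd_sub ((a2.pow p).mul b1) ((ig_C hδ1.le).mul c1),
    rd_mul (ig_C hδ1.le) c1, rd_C, (cred_eq_zero hδ1.le).2 hδ1, map_zero, zero_mul, sub_zero,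
    rd_mul (a2.pow p) b1, rd_pow hN1, rd_pow a2] at e5
  refine ⟨am _ (rd N) / am _ (rd Q), mul_right_cancel₀ (am_ne b3) ?_⟩
  rw [b5, div_pow, div_mul_eq_mul_div, ← map_pow, ← map_mul, e5, map_mul, map_pow,
    mul_div_cancel_left₀ _ (pow_ne_zero _ (am_ne a3))]

omit [IsAlgClosed C] in
/-- the residue field embeds in the Laurent series -/
theorem emb (ε : K →+* C⸨X⸩) (hε : ∀ x, w x ≤ 1 → ∃ z, Rd (ε x) z ∧ (w x < 1 → z = 0)) :
    ∃ ρ : kap w →+* (kC C)⸨X⸩, ∀ x, w x ≤ 1 → Rd (ε x) (ρ (w.red x)) := by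
  choose φ h1 h2 using hε
  let ψ : w.ring →+* (kC C)⸨X⸩ :=
    { toFun := fun x => φ x x.2
      map_one' := (h1 _ _).unique (by simpa using rd_one')
      map_mul' := fun x y => (h1 _ _).unique (by simpa using (h1 _ x.2).mul (h1 _ y.2))
      map_zero' := (h1 _ _).unique (by simpa using rd_zero')
      map_add' := fun x y => (h1 _ _).unique (by simpa using (h1 _ x.2).add (h1 _ y.2)) }
  haveI : IsLocalHom ψ := ⟨fun x hx => isUnit_ring_iff.2 (le_antisymm x.2 (not_lt.1 fun e =>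
    hx.ne_zero (h2 _ x.2 e)))⟩
  refine ⟨IsLocalRing.ResidueField.lift ψ, fun x hx => ?_⟩
  rw [NV.red_of hx, IsLocalRing.ResidueField.lift_residue_apply]
  exact h1 x hx

/-- powers in a function field are seen in any field in which not all elements become powers -/
theorem pow_of (k : Type) {L M : Type} [Field k] [Field L] [Field M] [Algebra k L] [CFF k L]
    (hp : p.Prime) (h0 : (p : L) = 0) (ρ : L →+* M) {b t : L} (hb : ∃ y, y ^ p = ρ b)
    (ht : ∀ y, y ^ p ≠ ρ t) : ∃ α, α ^ p = b := by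
  haveI := Fact.mk hp
  haveI : CharP L p := (CharP.charP_iff_prime_eq_zero hp).2 h0
  haveI : CharP M p := charP_of_injective_ringHom ρ.injective p
  haveI := IntermediateField.isSimpleOrder_of_finrank_prime
    (iterateFrobenius L p 1).fieldRange L (by rw [finrank_frob k L 1, pow_one]; exact hp)
  let S : IntermediateField (iterateFrobenius L p 1).fieldRange L :=
    ((frobenius M p).fieldRange.comap ρ).toIntermediateField (by
      rintro ⟨_, x, rfl⟩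
      exact ⟨ρ x, show ρ x ^ p = ρ (x ^ p ^ 1) by rw [pow_one, map_pow]⟩)
  rcases eq_bot_or_eq_top S with e | e
  · obtain ⟨⟨_, α, rfl⟩, hα⟩ := IntermediateField.mem_bot.1 (e ▸ (show b ∈ S from hb))
    exact ⟨α, (show α ^ p = α ^ p ^ 1 by rw [pow_one]).trans hα⟩
  · obtain ⟨y, hy⟩ : t ∈ S := e ▸ IntermediateField.mem_top
    exact absurd hy (ht y)

end Nrd

/-- **NRD** -/
theorem nrd [CFF C K] (h : PZ p ζ) (hC : P025H458.Sph C) (hn : ∀ r : ℝ, 0 ≤ r → ∃ x : C, ‖x‖ = r)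
    (ε : K →ₐ[C] C⸨X⸩) (hε : ∀ x, x ≠ 0 → ∃ c D, Fac (ε x) c D) (hw : Gs ε w)
    {t : K} {c : C} {D : C →₀ ℤ} (ht : Fac (ε t) c D) (hD : ¬ (p : ℤ) ∣ dgD D)
    {ω : C⸨X⸩} {c' : C} {D' : C →₀ ℤ} (hω : Fac ω c' D') {a : C} (ha : a ≠ 0)
    (hf : ε f = algebraMap C C⸨X⸩ a * ω ^ p) : Nr p ζ w f := by
  obtain ⟨ρ, hρ⟩ := Nrd.emb (w := w) (ε : K →+* C⸨X⸩) fun x hx => by
    rcases eq_or_ne x 0 with rfl | h0
    · exact ⟨0, by simpa using rd_zero', fun _ => rfl⟩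
    · obtain ⟨c, D, H⟩ := hε x h0
      rw [hw _ _ _ H] at hx ⊢
      obtain ⟨z, a1, a2, -⟩ := H.red hx
      exact ⟨z, a1, a2⟩
  obtain ⟨T, hT⟩ : ∃ T, T = algebraMap C K c⁻¹ * t := ⟨_, rfl⟩
  have h1 : Fac (ε T) 1 D := by
    have := ht.smul (inv_ne_zero ht.1)
    rwa [inv_mul_cancel₀ ht.1, ← ε.commutes, ← map_mul, ← hT] at this
  have h2 : w T ≤ 1 := by rw [hw _ _ _ h1, norm_one]
  have h3 : (ρ (w.red T)).order = dgD D := (h1.rd_order (hρ T h2) fun e => by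
    simpa using (h1.rd_eq_zero (hρ T h2)).1 e).2
  have h4 : Transcendental (kC C) (w.red T) := fun ha => by
    obtain ⟨b, hb⟩ := (IsAlgClosed.algebraMap_bijective_of_isIntegral (k := kC C)
      (K := integralClosure (kC C) (kap w))).2 ⟨_, ha.isIntegral⟩
    obtain ⟨b, hb1, rfl⟩ := cred_surj b
    have e : w.red T = w.red (algebraMap C K b) := by
      rw [NV.red_algebraMap hb1]; exact (congrArg Subtype.val hb).symm
    have e' := hρ (algebraMap C K b) (by rwa [w.ext'])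
    rw [RingHom.coe_coe, ε.commutes] at e'
    rw [e, e'.unique (rd_const hb1), order_const] at h3
    exact hD (h3 ▸ dvd_zero _)
  have h5 := Vale.Agent.P027M.G.overG_of_transc h2 h4
  haveI := (finite_of_notMem (k := C) (x := T)
    fun a e => h5.transc (e ▸ isAlgebraic_algebraMap a)).2
  haveI := h5.cff
  obtain ⟨a, rfl⟩ := IsAlgClosed.exists_pow_nat_eq a h.hp.pos
  have ha' : a ≠ 0 := fun e => ha (by rw [e, zero_pow h.hp.ne_zero])
  have hω' := hω.smul ha'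
  rw [map_pow, ← mul_pow] at hf
  refine (Nrd.dich h hC hn h5 fun e => pow_ne_zero p hω'.ne (by
    rw [← hf, e, map_zero])).resolve_right ?_
  rintro ⟨z, γ, b, hz, g1, g2, g3, g4, g5⟩
  obtain ⟨c1, D1, H1⟩ := hε z hz
  have H2 := hω'.div H1
  have e : (algebraMap C C⸨X⸩ a * ω / ε z) ^ p = 1 + algebraMap C C⸨X⸩ γ ^ p * ε b := by
    rw [div_pow, ← hf, ← map_pow, ← map_div₀, g4, map_add, map_one, map_mul, map_pow, ε.commutes]
  have g6 := hρ b g3.le
  have g7 := (H2.pow p).le_of_rd (by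
    rw [e, ← map_pow]
    exact rd_one'.add ((rd_const (by rw [norm_pow]; exact pow_le_one₀ (norm_nonneg _) g2)).mul g6))
  rw [norm_pow, pow_le_one_iff_of_nonneg (norm_nonneg _) h.hp.ne_zero] at g7
  obtain ⟨za, g8, -⟩ := H2.red g7
  obtain ⟨α, hα⟩ := Nrd.pow_of (kC C) h.hp (by
    rw [← (red_natCast (w := w) p).2]
    exact NV.red_of_lt (by rw [P025H992.nv_natCast]; exact h.lt)) ρ (t := w.red T)
    (Nrd.root h.hp g8 g6 g1 e) fun y hy => hD ⟨y.order, by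
      rw [← h3, ← hy, ← zpow_natCast, order_zpow]⟩
  exact g5 α hα

end Vale.Agent.P022K.WB.Nv
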