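import Vale.Agent.P027M.I.All0

/-!
# P022K, block WB, row NV: the Hurwitz inequality for `p`-groups in characteristic `p`
-/

set_option linter.all false

noncomputable section

open IntermediateField Vale.Agent.P019P P025H746 P025H492 Module

namespace Vale.Agent.P022K.WB.Nv

open Vale.Agent.P027M.I

namespace Hp

theorem dim_le {k W : Type} [Field k] [AddCommGroup W] [Module k W] (N : W →ₗ[k] W) (m : ℕ) :
    ∀ (V : Submodule k W) [FiniteDimensional k V], (∀ z ∈ V, (N ^ m) z = 0) →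
      finrank k V ≤ ∑ j ∈ Finset.range m, finrank k ↥(V.map (N ^ j) ⊓ LinearMap.ker N) := by
  induction m with
  | zero =>
    intro V _ h
    rw [(Submodule.eq_bot_iff V).2 h]
    simp
  | succ m ih =>
    intro V _ h
    have h1 := ih (V.map N) (by
      rintro _ ⟨z, hz, rfl⟩
      exact (LinearMap.congr_fun (pow_succ N m) z).symm.trans (h z hz))
    have h2 := LinearMap.finrank_range_add_finrank_ker (N.domRestrict V)
    rw [LinearMap.range_domRestrict, LinearMap.ker_domRestrict,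
      ← Submodule.finrank_map_subtype_eq, Submodule.map_comap_subtype] at h2
    rw [Finset.sum_range_succ', pow_zero, Module.End.one_eq_id, Submodule.map_id, ← h2]
    refine Nat.add_le_add_right (h1.trans (le_of_eq (Finset.sum_congr rfl fun j _ => ?_))) _
    rw [← Submodule.map_comp, pow_succ]
    rfl

variable {k F₀ F₁ : Type} [Field k] [Field F₀] [Field F₁] [Algebra k F₀] [Algebra k F₁]
  [Algebra F₀ F₁] [IsScalarTower k F₀ F₁] [CFF k F₀] [CFF k F₁] {p : ℕ} [Fact p.Prime] [CharP k p]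

theorem vl_aut {σ : F₁ ≃ₐ[F₀] F₁} {y : Plk k F₁} (h : σ ∈ inertia F₀ y) {u : F₁} (hu : u ∈ y.1) :
    σ u ∈ y.1 ∧ vl y (σ u) = vl y u := by
  have h1 : ∀ z, ord y (σ z) = ord y z := fun z => by
    rw [← ord_conj σ y z, mem_inertia.1 h]
  have h2 : ∀ z n, z ∈ Mge y n → σ z ∈ Mge y n := fun z n hz =>
    mem_Mge.2 ((mem_Mge.1 hz).imp (fun e => by rw [e, map_zero]) fun e => by rwa [h1])
  refine ⟨mem_Mge0.1 (h2 _ _ (mem_Mge0.2 hu)), vl_eq ?_⟩
  have := h2 _ _ (sub_vl hu)
  rwa [map_sub, IsScalarTower.algebraMap_apply k F₀ F₁, σ.commutes,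
    ← IsScalarTower.algebraMap_apply] at this

/-- wild inertia raises the order -/
theorem raise {σ : F₁ ≃ₐ[F₀] F₁} (hσ : σ ^ p = 1) {y : Plk k F₁} (h : σ ∈ inertia F₀ y) {z : F₁}
    {a : ℤ} (hz : z ∈ Mge y a) : σ z - z ∈ Mge y (a + 1) := by
  by_cases z0 : z = 0
  · rw [z0, map_zero, sub_zero]; exact zero_mem _
  have h1 : ord y (σ z) = ord y z := by rw [← ord_conj σ y z, mem_inertia.1 h]
  have s0 : σ z ≠ 0 := (_root_.map_ne_zero σ).2 z0
  have hu : σ z / z ∈ y.1 := (mem_iff_ord _ _).2 (Or.inr (by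
    rw [div_eq_mul_inv, ord_mul y s0 (inv_ne_zero z0), ord_inv, h1, add_neg_cancel]))
  have it : ∀ i : ℕ, (σ ^ i) z / z ∈ y.1 ∧ vl y ((σ ^ i) z / z) = vl y (σ z / z) ^ i := by
    intro i
    induction i with
    | zero =>
      rw [pow_zero, AlgEquiv.one_apply, div_self z0, pow_zero]
      exact ⟨one_mem _, vl_one'⟩
    | succ i ih =>
      obtain ⟨a1, a2⟩ := vl_aut h ih.1
      rw [show (σ ^ (i + 1)) z / z = σ ((σ ^ i) z / z) * (σ z / z) by
        rw [pow_succ', AlgEquiv.mul_apply, map_div₀, div_mul_div_cancel₀ s0]]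
      exact ⟨mul_mem a1 hu, by rw [vl_mul' a1 hu, a2, ih.2, pow_succ]⟩
  have h2 := (it p).2
  rw [hσ, AlgEquiv.one_apply, div_self z0, vl_one'] at h2
  have h3 : vl y (σ z / z) = 1 := by
    have := sub_pow_char (p := p) (vl y (σ z / z)) 1
    rw [← h2, one_pow, sub_self] at this
    exact sub_eq_zero.1 (pow_eq_zero_iff (Fact.out : p.Prime).ne_zero |>.1 this)
  have h4 := mul_mem_Mge hz (sub_vl hu)
  rwa [h3, map_one, mul_sub, mul_one, mul_div_cancel₀ _ z0] at h4

variable [FiniteDimensional F₀ F₁] [IsGalois F₀ F₁]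

theorem dim (hr : finrank F₀ F₁ = p) (R : Finset (Plk k F₀))
    (hR : ∀ y : Plk k F₁, down F₀ y ∈ R → ram F₀ y ≠ 1) (D : Plk k F₀ →₀ ℤ) :
    finrank k (LL k (pull F₁ D)) ≤ finrank k (LL k D) +
      (p - 1) * finrank k (LL k (D - ∑ x ∈ R, Finsupp.single x 1)) := by
  classical
  have pp : p.Prime := Fact.out
  have hc : Nat.card (F₁ ≃ₐ[F₀] F₁) = p := (IsGalois.card_aut_eq_finrank F₀ F₁).trans hr
  haveI := isCyclic_of_prime_card hc
  obtain ⟨σ, hσ⟩ := IsCyclic.exists_generator (α := F₁ ≃ₐ[F₀] F₁)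
  have hp : σ ^ p = 1 := by rw [← hc, pow_card_eq_one']
  let s : Module.End k F₁ := (σ.restrictScalars k).toLinearMap
  have si : ∀ (i : ℕ) z, (s ^ i) z = (σ ^ i) z := fun i z => by
    induction i with
    | zero => rfl
    | succ i ih => rw [pow_succ', pow_succ', Module.End.mul_apply, ih]; rfl
  haveI : CharP (Module.End k F₁) p := charP_of_injective_algebraMap (algebraMap k _).injective p
  have hN : (s - 1) ^ p = 0 := by
    rw [sub_pow_char_of_commute p (Commute.one_right s), one_pow, sub_eq_zero]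
    exact LinearMap.ext fun z => by rw [si, hp]; rfl
  have st : ∀ (j : ℕ), ∀ z ∈ LL k (pull F₁ D), ((s - 1) ^ j) z ∈ LL k (pull F₁ D) := by
    intro j z hz
    induction j with
    | zero => exact hz
    | succ j ih =>
      rw [pow_succ', Module.End.mul_apply]
      exact sub_mem (RhcP.aut_mem σ ih) ih
  let ι : F₀ →ₗ[k] F₁ := (IsScalarTower.toAlgHom k F₀ F₁).toLinearMap
  have le : ∀ (E : Plk k F₀ →₀ ℤ) (W : Submodule k F₁), (∀ z ∈ W, ∀ y : Plk k F₁,
      z ∈ Mge y (-(ram F₀ y * (E (down F₀ y) + 1)) + 1)) →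
      finrank k ↥(W ⊓ LinearMap.ker (s - 1)) ≤ finrank k (LL k E) := fun E W hW => by
    refine (Submodule.finrank_mono (t := (LL k E).map ι) ?_).trans (Submodule.finrank_map_le _ _)
    rintro z ⟨h1, h2⟩
    have h3 : σ z = z := sub_eq_zero.1 h2
    obtain ⟨u, rfl⟩ := (IsGalois.mem_range_algebraMap_iff_fixed (F := F₀) z).2 fun τ =>
      (show Subgroup.zpowers σ ≤ MulAction.stabilizer _ z from Subgroup.zpowers_le.2 h3) (hσ τ)
    refine ⟨u, mem_LL_iff.2 fun x => ?_, rfl⟩
    obtain ⟨y, rfl⟩ := exists_over (L := F₁) x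
    refine mem_Mge.2 ((mem_Mge.1 (hW _ h1 y)).imp (_root_.map_eq_zero _).1 fun e => ?_)
    rw [ord_algebraMap] at e
    have e0 : (0 : ℤ) < ram F₀ y := by exact_mod_cast ram_pos (K := F₀) y
    have : 0 < ord (down F₀ y) u + (E (down F₀ y) + 1) :=
      (mul_pos_iff_of_pos_left e0).1 (by linarith)
    omega
  have h1 := dim_le (s - 1) p (LL k (pull F₁ D)) fun z _ => by rw [hN]; rfl
  obtain ⟨n, rfl⟩ : ∃ n, p = n + 1 := ⟨p - 1, (Nat.sub_add_cancel pp.one_le).symm⟩
  rw [Finset.sum_range_succ', add_comm] at h1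
  refine h1.trans (Nat.add_le_add (le _ _ ?_) ?_)
  · rintro _ ⟨z, hz, rfl⟩ y
    refine Mge_mono y ?_ (mem_LL_iff.1 (st 0 z hz) y)
    have e0 : (0 : ℤ) < ram F₀ y := by exact_mod_cast ram_pos (K := F₀) y
    rw [pull_apply]
    linarith
  · refine (Finset.sum_le_card_nsmul _ _ _ fun j _ =>
      le (D - ∑ x ∈ R, Finsupp.single x 1) _ ?_).trans (by simp)
    rintro _ ⟨z, hz, rfl⟩ y
    have e0 : (0 : ℤ) < ram F₀ y := by exact_mod_cast ram_pos (K := F₀) y
    have hE : (∑ x ∈ R, Finsupp.single x (1 : ℤ) : Plk k F₀ →₀ ℤ) (down F₀ y) =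
        if down F₀ y ∈ R then 1 else 0 := by
      simp only [Finsupp.finset_sum_apply, Finsupp.single_apply, Finset.sum_ite_eq']
    rw [Finsupp.sub_apply, hE]
    split_ifs with hy
    · have h2 : inertia F₀ y = ⊤ := by
        refine ((inertia F₀ y).eq_bot_or_eq_top_of_prime_card (hp := ⟨hc ▸ pp⟩)).resolve_left ?_
        rw [← ram_eq_one_iff]
        exact hR y hy
      have h3 := raise hp (y := y) (h2 ▸ Subgroup.mem_top σ) (mem_LL_iff.1 (st j z hz) y)
      rw [pow_succ', Module.End.mul_apply, sub_add_cancel]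
      exact h3
    · refine Mge_mono y ?_ (mem_LL_iff.1 (st (j + 1) z hz) y)
      rw [pull_apply]
      linarith

theorem ncard_eq (x : Plk k F₀) :
    Set.ncard {y : Plk k F₁ | down F₀ y = x} = (over_finite (L := F₁) x).toFinset.card :=
  Set.ncard_eq_toFinset_card _ _

/-- degree `p` -/
theorem step (hr : finrank F₀ F₁ = p) (S : Finset (Plk k F₀)) :
    (p : ℤ) * (gen k F₀ - 1) + ∑ x ∈ S, ((p : ℤ) - Set.ncard {y : Plk k F₁ | down F₀ y = x}) ≤
      gen k F₁ - 1 := by
  classical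
  have pp : p.Prime := Fact.out
  let R := S.filter fun x => ∀ y : Plk k F₁, down F₀ y = x → ram F₀ y ≠ 1
  have h1 : ∑ x ∈ S, ((p : ℤ) - Set.ncard {y : Plk k F₁ | down F₀ y = x}) ≤ (p - 1) * R.card := by
    rw [Finset.card_filter, Nat.cast_sum, Finset.mul_sum]
    refine Finset.sum_le_sum fun x _ => ?_
    rw [ncard_eq]
    split_ifs with hx
    · obtain ⟨y, hy⟩ := exists_over (L := F₁) x
      have := Finset.card_pos.2 ⟨y, mem_over.2 hy⟩
      push_cast
      omega
    · push Not at hx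
      obtain ⟨y, hy, e⟩ := hx
      have := sum_ram (L := F₁) x
      rw [Finset.sum_congr rfl fun P hP =>
        (ram_eq_of_down_eq ((mem_over.1 hP).trans hy.symm)).trans e, hr] at this
      simp only [Finset.sum_const, smul_eq_mul, mul_one] at this
      simp [this]
  obtain ⟨x₀⟩ := nonempty_Plk (k := k) (F := F₀)
  obtain ⟨N, hN⟩ : ∃ N : ℤ, N = R.card + |dg (can k F₀)| + |dg (can k F₁)| + 1 := ⟨_, rfl⟩
  have a0 := abs_nonneg (dg (can k F₀))
  have a1 := abs_nonneg (dg (can k F₁))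
  have b0 := le_abs_self (dg (can k F₀))
  have b1 := le_abs_self (dg (can k F₁))
  have r1 : (1 : ℤ) ≤ p := by exact_mod_cast pp.one_le
  have c0 : (0 : ℤ) ≤ R.card := Int.natCast_nonneg _
  have dR : dg (∑ x ∈ R, Finsupp.single x (1 : ℤ) : Plk k F₀ →₀ ℤ) = R.card := by
    simp [map_sum, dg_sgl]
  have e1 := RR_large (D := pull F₁ (Finsupp.single x₀ N)) (by rw [dg_pull, dg_sgl, hr]; nlinarith)
  have e2 := RR_large (D := Finsupp.single x₀ N) (by rw [dg_sgl]; linarith)
  have e3 := RR_large (D := Finsupp.single x₀ N - ∑ x ∈ R, Finsupp.single x 1) (by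
    rw [map_sub, dg_sgl, dR]; linarith)
  have d := dim (F₁ := F₁) hr R (fun y hy => (Finset.mem_filter.1 hy).2 y rfl)
    (Finsupp.single x₀ N)
  zify [pp.one_le] at d
  rw [e1, e2, e3, dg_pull, map_sub, dg_sgl, dR, hr] at d
  linarith

end Hp

open Hp in
/-- **the Hurwitz inequality for `p`-groups** -/
theorem rhp {k : Type} [Field k] (p : ℕ) [Fact p.Prime] [CharP k p] (n : ℕ) :
    ∀ (F₀ F₁ : Type) [Field F₀] [Field F₁] [Algebra k F₀] [Algebra k F₁] [Algebra F₀ F₁]
      [IsScalarTower k F₀ F₁] [CFF k F₀] [CFF k F₁] [FiniteDimensional F₀ F₁] [IsGalois F₀ F₁],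
      finrank F₀ F₁ = p ^ n → ∀ S : Finset (Plk k F₀),
      (finrank F₀ F₁ : ℤ) * (gen k F₀ - 1) +
        ∑ x ∈ S, ((finrank F₀ F₁ : ℤ) - Set.ncard {y : Plk k F₁ | down F₀ y = x}) ≤
        gen k F₁ - 1 := by
  classical
  have pp : p.Prime := Fact.out
  induction n with
  | zero =>
    intro F₀ F₁ _ _ _ _ _ _ _ _ _ _ hr S
    haveI : Subsingleton (F₁ ≃ₐ[F₀] F₁) := (Nat.card_eq_one_iff_unique.1
      ((IsGalois.card_aut_eq_finrank F₀ F₁).trans hr)).1
    have h := rhc k F₀ F₁ ∅ inferInstance (by rw [hr]; simp)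
    have h1 : ∑ x ∈ S, ((finrank F₀ F₁ : ℤ) - Set.ncard {y : Plk k F₁ | down F₀ y = x}) ≤ 0 :=
      Finset.sum_nonpos fun x _ => by
        obtain ⟨y, hy⟩ := exists_over (L := F₁) x
        have := Finset.card_pos.2 ⟨y, mem_over.2 hy⟩
        rw [ncard_eq, hr, pow_zero]
        omega
    rw [Finset.sum_empty] at h
    linarith
  | succ n ih =>
    intro F₀ F₁ _ _ _ _ _ _ _ _ _ _ hr S
    have hc : Nat.card (F₁ ≃ₐ[F₀] F₁) = p ^ (n + 1) := (IsGalois.card_aut_eq_finrank F₀ F₁).trans hr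
    have hG := IsPGroup.of_card hc
    haveI : Nontrivial (F₁ ≃ₐ[F₀] F₁) := Finite.one_lt_card_iff_nontrivial.1
      (hc ▸ Nat.one_lt_pow n.succ_ne_zero pp.one_lt)
    haveI := hG.center_nontrivial
    obtain ⟨m, hm⟩ := (hG.to_subgroup (Subgroup.center _)).exists_card_eq
    obtain ⟨z, hz⟩ := exists_prime_orderOf_dvd_card' (G := Subgroup.center (F₁ ≃ₐ[F₀] F₁)) p (by
      rw [hm]
      refine dvd_pow_self p fun e => ?_
      rw [e, pow_zero] at hm
      exact Finite.one_lt_card.ne' hm)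
    let Z := Subgroup.zpowers z.1
    haveI : Z.Normal := ⟨fun a ha g => by
      rw [Subgroup.mem_center_iff.1 (Subgroup.zpowers_le.2 z.2 ha) g, mul_inv_cancel_right]
      exact ha⟩
    let M := IntermediateField.fixedField Z
    haveI : CFF k M := cff_of_finite (K := F₀)
    haveI : IsScalarTower k M F₁ := IsScalarTower.of_algebraMap_eq fun _ => rfl
    have h1 : finrank M F₁ = p := by
      rw [IntermediateField.finrank_fixedField_eq_card, Nat.card_zpowers, Subgroup.orderOf_coe, hz]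
    have h2 : finrank F₀ M = p ^ n := by
      have := Module.finrank_mul_finrank F₀ M F₁
      rw [h1, hr, pow_succ] at this
      exact Nat.eq_of_mul_eq_mul_right pp.pos this
    have a := ih F₀ M h2 S
    have b := step (k := k) h1 (S.biUnion fun x => (over_finite (L := M) x).toFinset)
    rw [Finset.sum_biUnion fun x _ x' _ e => Finset.disjoint_left.2 fun y h h' =>
      e ((mem_over.1 h).symm.trans (mem_over.1 h'))] at b
    have c : ∀ x ∈ S, ∑ y ∈ (over_finite (L := M) x).toFinset,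
        ((p : ℤ) - Set.ncard {u : Plk k F₁ | down M u = y}) =
        p * Set.ncard {y : Plk k M | down F₀ y = x} - Set.ncard {u : Plk k F₁ | down F₀ u = x} := by
      intro x _
      rw [Finset.sum_sub_distrib, Finset.sum_const, nsmul_eq_mul, mul_comm, ncard_eq, ncard_eq,
        Finset.card_eq_sum_card_fiberwise (f := down M) (t := (over_finite (L := M) x).toFinset)
          (s := (over_finite (L := F₁) x).toFinset) fun u hu =>
            mem_over.2 ((down_down u).trans (mem_over.1 hu)), Nat.cast_sum]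
      refine congrArg _ (Finset.sum_congr rfl fun y hy => ?_)
      rw [ncard_eq]
      refine congrArg _ (congrArg _ (Finset.ext fun u => ?_))
      rw [Finset.mem_filter, mem_over, mem_over]
      exact ⟨fun e => ⟨by rw [← mem_over.1 hy, ← e, down_down], e⟩, fun e => e.2⟩
    rw [Finset.sum_congr rfl c, Finset.sum_sub_distrib, ← Finset.mul_sum] at b
    rw [h2, Finset.sum_sub_distrib, Finset.sum_const, nsmul_eq_mul] at a
    rw [hr, Finset.sum_sub_distrib, Finset.sum_const, nsmul_eq_mul]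
    have r0 : (0 : ℤ) ≤ p := Int.natCast_nonneg _
    have d := mul_le_mul_of_nonneg_left a r0
    push_cast at d ⊢
    rw [pow_succ]
    linarith

end Vale.Agent.P022K.WB.Nv
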