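import Vale.Agent.P022K.WB.Nv0
import Vale.Agent.P022K.WB.Nv3a
import Vale.Agent.P022K.FI.X0B

/-!
# P022K, block WB, row NV: covers which are etale at the vertices are etale over the nodes
-/

set_option linter.all false

noncomputable section

open IntermediateField Vale.Agent.P019P P025H746 P025H492 Module

namespace Vale.Agent.P022K.WB.Nv

open Vale.Agent.P027M.I Vale.Agent.P027M.I.DecP Vale.Agent.P027M.I.Cov Vale.Agent.P022K.FI.X0

variable {C F L : Type} [NontriviallyNormedField C] [IsUltrametricDist C] [IsAlgClosed C]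
  [Field F] [Algebra C F] [CFF C F] [Field L] [Algebra C L] [Algebra F L] [IsScalarTower C F L]
  {p : ℕ} {ζ : C}

theorem PZ.charP (h : PZ p ζ) : CharP (kC C) p := by
  haveI := Fact.mk h.hp
  refine (CharP.charP_iff_prime_eq_zero h.hp).2 ?_
  rw [← map_natCast (IsLocalRing.residue (OC C)), ← (cred_eq_zero h.lt.le).2 h.lt, cred_of h.lt.le]
  exact congrArg _ (Subtype.ext (by simp))

section cov

variable [CFF C L] [FiniteDimensional F L] [IsGalois F L] (T : F)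
  [FiniteDimensional C⟮T⟯ F] [FiniteDimensional C⟮algebraMap F L T⟯ L]

theorem decE (hin : ∀ (v : WW C (algebraMap F L T)), ∀ τ ∈ DG F v.1,
      (∀ y, v.1 y ≤ 1 → v.1 (τ y - y) < 1) → τ = 1)
    (hF : Full C T) : Full C (algebraMap F L T) ∧
      ∀ w : WW C T,
        ∑ᶠ v : {v : NV C L // NVExt w.1 v}, finrank (kap w.1) (kap v.1) = finrank F L ∧
        ∀ (v : NV C L) [NVExt w.1 v], IsGalois (kap w.1) (kap v) ∧
          finrank (kap w.1) (kap v) = Nat.card (DG F v) ∧ Function.Bijective (rho w.1 v) := by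
  classical
  have hval : ∀ w : WW C T, ∀ x : F, ∃ c : C, ‖c‖ = w.1 x := fun w => exists_norm_eq w.2
  have hfin : ∀ w : WW C T, Finite {v : NV C L // NVExt w.1 v} := fun w => finite_ext w.1 (hval w)
  letI : ∀ w : WW C T, Fintype {v : NV C L // NVExt w.1 v} := fun w => Fintype.ofFinite _
  have inj : ∀ (w : WW C T) (v : NV C L) [NVExt w.1 v], Function.Injective (rho w.1 v) := by
    intro w v _
    rw [injective_iff_map_eq_one]
    intro g hg
    refine Subtype.ext (hin ⟨v, NVExt.overG.2 w.2⟩ g.1 g.2 fun y hy => ?_)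
    rw [← red_eq_iff (by rw [g.2]; exact hy) hy, ← rho_red w.1 v g y, hg, AlgEquiv.one_apply]
  have le1 : ∀ (w : WW C T) (v : NV C L) [NVExt w.1 v],
      Nat.card (DG F v) ≤ Nat.card (kap v ≃ₐ[kap w.1] kap v) ∧
      Nat.card (kap v ≃ₐ[kap w.1] kap v) ≤ finrank (kap w.1) (kap v) := by
    intro w v _
    haveI := finite_resdeg w.1 (hval w) v
    exact ⟨Nat.card_le_card_of_injective _ (inj w v),
      by rw [Nat.card_eq_fintype_card]; exact AlgEquiv.card_le⟩
  have sm : ∀ w : WW C T,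
      ∑ v : {v : NV C L // NVExt w.1 v}, finrank (kap w.1) (kap v.1) = finrank F L := fun w =>
    le_antisymm (sum_resdeg_le w.1 (hval w) (fun v : {v : NV C L // NVExt w.1 v} => v.1)
      Subtype.val_injective) ((sum_card w.1 (hval w)).symm.trans_le
        (Finset.sum_le_sum fun v _ => (le1 w v.1).1.trans (le1 w v.1).2))
  have eq1 : ∀ (w : WW C T) (v : NV C L) [h : NVExt w.1 v],
      Nat.card (DG F v) = finrank (kap w.1) (kap v) := fun w v h =>
    (Finset.sum_eq_sum_iff_of_le fun (u : {v : NV C L // NVExt w.1 v}) _ =>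
      (le1 w u.1).1.trans (le1 w u.1).2).1 ((sum_card w.1 (hval w)).trans (sm w).symm) ⟨v, h⟩
      (Finset.mem_univ _)
  refine ⟨?_, fun w => ⟨by rw [finsum_eq_sum_of_fintype, sm w], fun v _ => ?_⟩⟩
  · unfold Full at hF ⊢
    refine (Fintype.sum_equiv (sg T L).symm _ (fun p => finrank
      (kC C)⟮p.2.1.red (algebraMap F L T)⟯ (kap p.2.1)) (fun v => rfl)).trans ?_
    rw [Fintype.sum_sigma, finrank_up, ← hF, Finset.sum_mul]
    refine Finset.sum_congr rfl fun w _ => ?_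
    rw [← sm w, Finset.mul_sum]
    exact Finset.sum_congr rfl fun v _ => (finrank_mul_resdeg w.2.apply_T.le).symm
  · haveI := finite_resdeg w.1 (hval w) v
    have e1 := eq1 w v
    have e2 : Nat.card (kap v ≃ₐ[kap w.1] kap v) = finrank (kap w.1) (kap v) :=
      le_antisymm (le1 w v).2 (e1 ▸ (le1 w v).1)
    exact ⟨IsGalois.of_card_aut_eq_finrank _ _ e2, e1.symm,
      (inj w v).bijective_of_nat_card_le (e2.trans e1.symm).le⟩

variable {T} in
theorem pairE [Fact p.Prime] [CharP (kC C) p] (w : WW C T) (v : WW C (algebraMap F L T))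
    [hx : NVExt w.1 v.1] [FiniteDimensional (kap w.1) (kap v.1)] [IsGalois (kap w.1) (kap v.1)]
    {n : ℕ} (hn : finrank (kap w.1) (kap v.1) = p ^ n) (S : Finset (Br C T))
    (S' : Finset (Br C (algebraMap F L T)))
    (hS' : ∀ b', b' ∈ S' ↔ ∃ b ∈ S, Tw (algebraMap F L) b b') :
    ∃ δ : ℤ, 0 ≤ δ ∧
      (finrank (kap w.1) (kap v.1) : ℤ) * (gen (kC C) (kap w.1) - 1) + δ ≤
        gen (kC C) (kap v.1) - 1 ∧
      (finrank (kap w.1) (kap v.1) : ℤ) * (fib S w).ncard ≤ (fib S' v).ncard + δ ∧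
      (δ ≤ 0 → ∀ y : Plk (kC C) (kap v.1), down (kap w.1) y ∈ fib S w →
        inertia (kap w.1) y = ⊥) := by
  classical
  have h := rhp (k := kC C) p n (kap w.1) (kap v.1) hn (fib_card S w).1.toFinset
  have h2 : ∑ x ∈ (fib_card S w).1.toFinset,
      Set.ncard {y : Plk (kC C) (kap v.1) | down (kap w.1) y = x} ≤ (fib S' v).ncard := by
    refine sum_fib_le _ (fib_card S' v).1 _ _ fun x hx' y hy => ?_
    obtain ⟨hf, hb⟩ := (Set.Finite.mem_toFinset _).1 hx'
    subst hy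
    have hT : v.1.red (algebraMap F L T) ∈ y.1 := by
      rw [red_algebraMap' (w := w.1) (Itg.self (C := C) (T := T) w)]
      exact hf
    refine ⟨hT, (hS' _).2 ⟨_, hb, hx.out, fun z hz => ?_⟩⟩
    change v.1.red (algebraMap F L z) ∈ y.1 ↔ _
    rw [red_algebraMap' (w := w.1) hz]
    rfl
  have h0 : ∀ x ∈ (fib_card S w).1.toFinset, (0 : ℤ) ≤ finrank (kap w.1) (kap v.1) -
      Set.ncard {y : Plk (kC C) (kap v.1) | down (kap w.1) y = x} := fun x _ => by
    rw [Hp.ncard_eq, sub_nonneg]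
    exact_mod_cast card_fibre_le x
  refine ⟨_, Finset.sum_nonneg h0, h, ?_, fun hδ y hy => ?_⟩
  · rw [Finset.sum_sub_distrib, Finset.sum_const, ← Set.ncard_eq_toFinset_card _ (fib_card S w).1,
      ← Nat.cast_sum, nsmul_eq_mul]
    have h3 : ((∑ x ∈ (fib_card S w).1.toFinset,
        Set.ncard {y : Plk (kC C) (kap v.1) | down (kap w.1) y = x} : ℕ) : ℤ) ≤
          (fib S' v).ncard := by exact_mod_cast h2
    linarith
  · have := (Finset.sum_eq_zero_iff_of_nonneg h0).1 (le_antisymm hδ (Finset.sum_nonneg h0)) _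
      ((Set.Finite.mem_toFinset _).2 hy)
    rw [Hp.ncard_eq, sub_eq_zero] at this
    exact (ram_eq_one_iff y).1 (ram_eq_one_of_card (by exact_mod_cast this.le) rfl)

/-- unramified Galois covers of nodal curves without inertia at the vertices, the decomposition
groups being `p`-groups, are nodal and etale over the nodes -/
theorem covE [CharZero C] [Fact p.Prime] [CharP (kC C) p] (hF : Full C T) {S : Finset (Br C T)}
    (hS : Nodal C T S) (hU : IsUnr C F L)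
    (hin : ∀ (v : WW C (algebraMap F L T)), ∀ τ ∈ DG F v.1,
      (∀ y, v.1 y ≤ 1 → v.1 (τ y - y) < 1) → τ = 1)
    (hpg : ∀ v : WW C (algebraMap F L T), IsPGroup p (DG F v.1)) :
    Full C (algebraMap F L T) ∧
      (∀ (v : WW C (algebraMap F L T)) (G : L ≃+* L), (∀ y, v.1 (G y) = v.1 y) →
        (∀ x : F, v.1 (algebraMap F L x) ≤ 1 →
          v.1 (G (algebraMap F L x) - algebraMap F L x) < 1) →
        ∃ δ ∈ DG F v.1, ∀ y, v.1 y ≤ 1 → v.1 (G y - δ y) < 1) ∧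
      (∀ (v : WW C (algebraMap F L T)), (∀ τ ∈ DG F v.1, τ = 1) → ∀ y : L, v.1 y ≤ 1 →
        ∃ y₀ : F, v.1 (y - algebraMap F L y₀) < 1) ∧
      ∃ S' : Finset (Br C (algebraMap F L T)), Nodal C (algebraMap F L T) S' ∧
        (∀ b', b' ∈ S' ↔ ∃ b ∈ S, Tw (algebraMap F L) b b') ∧
        ∀ b' ∈ S', ∀ τ : L ≃ₐ[F] L, Tw (τ : L →+* L) b' b' → τ = 1 := by
  classical
  obtain ⟨hL, hw⟩ := decE T hin hF
  obtain ⟨-, hb⟩ := trb C F L T
  have hpos : ∀ v : NV C L, 0 < Nat.card (DG F v) := fun v => Nat.card_pos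
  refine ⟨hL, fun v G h1 h2 => ?_, fun v hv y hy => ?_, ?_⟩
  · obtain ⟨-, -, hτ⟩ := (hw ⟨v.1.comap F, v.2.comap⟩).2 v.1
    let a : kap v.1 →ₐ[kap (v.1.comap F)] kap v.1 :=
      { rm (G : L →+* L) h1 with
        commutes' := fun a => by
          obtain ⟨x, hx, rfl⟩ := NV.red_surj a
          rw [← red_algebraMap' hx]
          exact (rm_red (G : L →+* L) h1 _).trans
            ((red_eq_iff (w := v.1) ((h1 _).trans_le hx) hx).2 (h2 x hx)) }
    obtain ⟨δ, hδ⟩ := hτ.2 (AlgEquiv.ofBijective a ⟨(a : kap v.1 →+* kap v.1).injective,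
      rm_surj (G : L →+* L) h1 fun y _ => ⟨G.symm y, by simp⟩⟩)
    refine ⟨δ.1, δ.2, fun y hy => ?_⟩
    rw [← red_eq_iff (by rw [h1]; exact hy) (by rw [δ.2]; exact hy),
      ← rho_red (v.1.comap F) v.1 δ y, hδ]
    exact (rm_red (G : L →+* L) h1 y).symm
  · obtain ⟨hG, hd, hτ⟩ := (hw ⟨v.1.comap F, v.2.comap⟩).2 v.1
    have : FiniteDimensional (kap (v.1.comap F)) (kap v.1) :=
      FiniteDimensional.of_finrank_pos (hd ▸ hpos v.1)
    have h1 : v.1.red y ∈ (algebraMap (kap (v.1.comap F)) (kap v.1)).range := by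
      refine (IsGalois.mem_range_algebraMap_iff_fixed _).2 fun τ => ?_
      obtain ⟨g, rfl⟩ := hτ.2 τ
      rw [show g = 1 from Subtype.ext (hv g.1 g.2), map_one, AlgEquiv.one_apply]
    obtain ⟨z, hz⟩ := h1
    obtain ⟨y₀, hy₀, rfl⟩ := NV.red_surj z
    refine ⟨y₀, (red_eq_iff hy hy₀).1 ?_⟩
    exact hz.symm.trans (red_algebraMap' (w := v.1.comap F) (v := v.1) hy₀).symm
  · let S' : Finset (Br C (algebraMap F L T)) := S.biUnion fun b => (hb b).1.toFinset
    have hS' : ∀ b', b' ∈ S' ↔ ∃ b ∈ S, Tw (algebraMap F L) b b' := by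
      intro b'
      simp only [S', Finset.mem_biUnion, Set.Finite.mem_toFinset, Set.mem_ofPred_eq]
    have hp : ∀ b' ∈ S', ∃ b'' ∈ S', b'' ≠ b' ∧ Glue b' b'' := by
      intro b' hb'
      obtain ⟨b, hbS, ht⟩ := (hS' b').1 hb'
      obtain ⟨b₂, hb₂, hne, hg⟩ := hS.2 b hbS
      obtain ⟨b'', ht', hg'⟩ := lift' C F L T b b₂ hg b' ht
      refine ⟨b'', (hS' _).2 ⟨b₂, hb₂, ht'⟩, ?_, hg'⟩
      rintro rfl
      exact hne (ht'.inj_left ht)
    have hfin : Finite (Σ w : WW C T, {v : NV C L // NVExt w.1 v}) :=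
      Finite.of_equiv _ (sg T L).symm
    have hfin' : ∀ w : WW C T, Finite {v : NV C L // NVExt w.1 v} := fun w =>
      Finite.of_injective _ (sigma_mk_injective (β := fun w : WW C T =>
        {v : NV C L // NVExt w.1 v}) (i := w))
    let _i : ∀ w : WW C T, Fintype {v : NV C L // NVExt w.1 v} := fun w => Fintype.ofFinite _
    have key : ∀ q : Σ w : WW C T, {v : NV C L // NVExt w.1 v}, ∃ δ : ℤ, 0 ≤ δ ∧
        (finrank (kap q.1.1) (kap q.2.1) : ℤ) * (gen (kC C) (kap q.1.1) - 1) + δ ≤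
          gen (kC C) (kap (sg T L q).1) - 1 ∧
        (finrank (kap q.1.1) (kap q.2.1) : ℤ) * (fib S q.1).ncard ≤ (fib S' (sg T L q)).ncard + δ ∧
        (δ ≤ 0 → ∀ x hx y hy, (⟨q.1, x, hx⟩ : Br C T) ∈ S →
          Tw (algebraMap F L) ⟨q.1, x, hx⟩ ⟨sg T L q, y, hy⟩ → ∀ τ : L ≃ₐ[F] L,
          Tw (τ : L →+* L) ⟨sg T L q, y, hy⟩ ⟨sg T L q, y, hy⟩ → τ = 1) := by
      rintro ⟨w, v⟩
      obtain ⟨hG, hd, hτ⟩ := (hw w).2 v.1
      have : FiniteDimensional (kap w.1) (kap v.1) :=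
        FiniteDimensional.of_finrank_pos (hd ▸ hpos v.1)
      obtain ⟨n, hn⟩ := (hpg (sg T L ⟨w, v⟩)).exists_card_eq
      obtain ⟨δ, h0, h1, h2, h3⟩ := @pairE C F L _ _ _ _ _ _ _ _ _ _ p _ _ _ T _ _ _ _ w
        (sg T L ⟨w, v⟩) v.2 this hG n (hd.trans hn) S S' hS'
      refine ⟨δ, h0, h1, h2, fun hδ x hx (y : Plk (kC C) (kap v.1)) hy hc ht τ hτ' => ?_⟩
      have e : down (kap w.1) y = x := Subtype.ext (ValuationSubring.ext _ _ fun z => by
        obtain ⟨z, hz, rfl⟩ := NV.red_surj z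
        rw [mem_down, ← red_algebraMap' hz]
        exact ht.2 z hz)
      have h4 : inertia (kap w.1) y = ⊥ := h3 hδ y (e ▸ ⟨hx, hc⟩)
      have h5 : rho w.1 v.1 ⟨τ, hτ'.1⟩ ∈ inertia (kap w.1) y :=
        Subtype.ext (ValuationSubring.ext _ _ fun z => by
          obtain ⟨z, rfl⟩ := (rho w.1 v.1 ⟨τ, hτ'.1⟩).surjective z
          obtain ⟨z, hz, rfl⟩ := NV.red_surj z
          rw [mem_conj, AlgEquiv.symm_apply_apply, rho_red]
          exact (hτ'.2 z hz).symm)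
      rw [h4, Subgroup.mem_bot] at h5
      exact congrArg Subtype.val ((injective_iff_map_eq_one _).1 hτ.1 _ h5)
    choose δ d0 d1 d2 d3 using key
    have hs : ∀ a : WW C T → ℤ, ∑ q : Σ w : WW C T, {v : NV C L // NVExt w.1 v},
        (finrank (kap q.1.1) (kap q.2.1) : ℤ) * a q.1 = finrank F L * ∑ w, a w := fun a => by
      rw [Fintype.sum_sigma, Finset.mul_sum]
      refine Finset.sum_congr rfl fun w _ => ?_
      rw [← (hw w).1, finsum_eq_sum_of_fintype, Nat.cast_sum, Finset.sum_mul]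
    have a1 := Finset.sum_le_sum fun q (_ : q ∈ Finset.univ) => d1 q
    have a2 := Finset.sum_le_sum fun q (_ : q ∈ Finset.univ) => d2 q
    rw [Finset.sum_add_distrib, hs fun w => gen (kC C) (kap w.1) - 1,
      Equiv.sum_comp (sg T L) fun v => (gen (kC C) (kap v.1) - 1 : ℤ)] at a1
    rw [Finset.sum_add_distrib, hs fun w => (fib S w).ncard,
      Equiv.sum_comp (sg T L) fun v => ((fib S' v).ncard : ℤ), ← Nat.cast_sum, ← Nat.cast_sum,
      ← card_fib, ← card_fib, hS.1] at a2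
    have a3 := half' C L _ hL S' hp
    have a4 := hU.genus
    have a5 := Finset.sum_nonneg fun q (_ : q ∈ Finset.univ) => d0 q
    unfold Nodal cd at *
    have a6 : ∑ q, δ q ≤ 0 := by linarith
    refine ⟨S', ⟨by linarith, hp⟩, hS', fun b hbS τ hτ => ?_⟩
    obtain ⟨c, hc, ht⟩ := (hS' b).1 hbS
    exact d3 ⟨c.w, b.w.1, ⟨ht.1⟩⟩ ((Finset.single_le_sum (fun q _ => d0 q)
      (Finset.mem_univ _)).trans a6) c.x c.fin b.x b.fin hc ht τ hτ

end cov

theorem near_le (h : PZ p ζ) {v : NV C L} {u : L} (hu : v (u ^ p - 1) ≤ ‖ζ - 1‖ ^ p) :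
    v (u - 1) ≤ ‖ζ - 1‖ := by
  by_contra hc
  push Not at hc
  have h1 := congrArg (Polynomial.eval u) (X_pow_sub_C_eq_prod
    (h.prim.map_of_injective (algebraMap C L).injective) h.hp.pos (one_pow p))
  simp only [Polynomial.eval_sub, Polynomial.eval_pow, Polynomial.eval_X, Polynomial.eval_C,
    Polynomial.eval_prod, mul_one] at h1
  rw [h1, map_prod] at hu
  refine absurd hu (not_le.2 ((pow_lt_pow_left₀ hc h.pos.le h.hp.ne_zero).trans_le ?_))
  calc v (u - 1) ^ p = ∏ _i ∈ Finset.range p, v (u - 1) := by simp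
    _ ≤ _ := Finset.prod_le_prod (fun _ _ => v.av.nonneg _) fun i _ => not_lt.1 fun e => by
      have h2 : v (algebraMap C L ζ ^ i - 1) < v (u - 1) := by
        rw [← map_pow, ← map_one (algebraMap C L), ← map_sub, v.ext', map_one]
        exact (norm_pow_sub_le h.norm_one.le i).trans_lt hc
      have := NV.add_lt e h2
      rw [sub_add_sub_cancel] at this
      exact lt_irrefl _ this

theorem fix_of (h : PZ p ζ) {v : NV C L} {τ : L ≃ₐ[F] L} {y : L} {f z : F}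
    (hy : y ^ p = algebraMap F L f) (h1 : v ((y * algebraMap F L z) ^ p - 1) < 1)
    (h2 : v (τ (y * algebraMap F L z) - y * algebraMap F L z) < ‖ζ - 1‖) : τ y = y := by
  have h3 : v (y * algebraMap F L z) = 1 := by
    have := eq_one h1
    rw [map_pow] at this
    exact (pow_eq_one_iff_of_nonneg (v.av.nonneg _) h.hp.ne_zero).1 this
  by_cases hy0 : y = 0
  · rw [hy0, map_zero]
  obtain ⟨μ, hμ, hτ⟩ := Node.exists_mu (C := C) h.hp.ne_zero τ hy0 hy
  rw [map_mul τ, τ.commutes, hτ, mul_assoc, ← sub_one_mul, map_mul, h3, mul_one,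
    ← map_one (algebraMap C L), ← map_sub, v.ext'] at h2
  by_cases h5 : μ = 1
  · rw [hτ, h5, map_one, one_mul]
  · exact absurd (h.norm_eq hμ h5) h2.ne

theorem up_eq {y : L} {f : F} (hy : y ^ p = algebraMap F L f) (z : F) :
    (y * algebraMap F L z) ^ p - 1 = algebraMap F L (f * z ^ p - 1) := by
  rw [mul_pow, hy, map_sub, map_mul, map_pow, map_one]

/-- the decomposition group fixes the roots of split classes -/
theorem Sp.fix (h : PZ p ζ) {v : NV C L} {τ : L ≃ₐ[F] L} (hv : ∀ y, v (τ y) = v y) {y : L} {f : F}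
    (hy : y ^ p = algebraMap F L f) (hf : Sp p ζ (v.comap F) f) : τ y = y := by
  obtain ⟨z, hz⟩ := hf
  have h1 : v ((y * algebraMap F L z) ^ p - 1) < ‖ζ - 1‖ ^ p := by rw [up_eq hy]; exact hz
  obtain ⟨j, hj⟩ := root_near h h1
  refine fix_of h hy (h1.trans h.lt_one') ?_
  have h3 : v (τ (y * algebraMap F L z) - algebraMap C L (ζ ^ j)) < ‖ζ - 1‖ := by
    rw [← Node.aut_const τ (ζ ^ j), ← map_sub, hv]; exact hj
  have h4 := NV.sub_lt h3 hj
  rwa [sub_sub_sub_cancel_right] at h4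

/-- the inertia group fixes the roots of etale classes -/
theorem Nr.fix (h : PZ p ζ) {v : NV C L} {τ : L ≃ₐ[F] L}
    (hv : ∀ y, v y ≤ 1 → v (τ y - y) < 1) {y : L} {f : F}
    (hy : y ^ p = algebraMap F L f) (hf : Nr p ζ (v.comap F) f) : τ y = y := by
  obtain ⟨z, hz⟩ := hf
  have h1 : v ((y * algebraMap F L z) ^ p - 1) ≤ ‖ζ - 1‖ ^ p := by rw [up_eq hy]; exact hz
  refine fix_of h hy (h1.trans_lt h.lt_one') ?_
  have h2 := hv ((y * algebraMap F L z - 1) / algebraMap C L (ζ - 1)) (by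
    rw [map_div₀, v.ext', div_le_one h.pos]; exact near_le h h1)
  rwa [map_div₀ τ, Node.aut_const, map_sub τ, map_one, ← sub_div, sub_sub_sub_cancel_right,
    map_div₀, v.ext', div_lt_one h.pos] at h2

variable {T : F} [FiniteDimensional C⟮T⟯ F] {g : F ≃+* F} {s : C ≃+* C}

open Node

theorem coreE [CharZero C] [CFF C L] [FiniteDimensional F L] (h : PZ p ζ)
    (hF : Full C T) {S : Finset (Br C T)} (hS : Nodal C T S) {c : ℕ} (hg : Semi C g s)
    (hs : s ζ = ζ ^ c) (hfix : ∀ (w : WW C T) y, w.1 (g y) = w.1 y)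
    (hb : ∀ b ∈ S, Tw (g : F →+* F) b b) {Y : Set L} (hY : IntermediateField.adjoin F Y = ⊤)
    (hy : ∀ y ∈ Y, ∃ f : F, y ^ p = algebraMap F L f ∧ (∀ P : Plk C F, (p : ℤ) ∣ ord P f) ∧
      ∀ w : WW C T, Sp p ζ w.1 f ∨ (Nr p ζ w.1 f ∧ ∀ y, w.1 y ≤ 1 → w.1 (g y - y) < 1))
    (G : L ≃+* L) (hGg : ∀ x, G (algebraMap F L x) = algebraMap F L (g x)) {y : L} {f : F}
    (hy0 : y ≠ 0) (hyf : y ^ p = algebraMap F L f) : ∃ z : F, z ≠ 0 ∧ g f = f ^ c * z ^ p := by
  haveI := Fact.mk h.hp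
  haveI := h.charP
  have hm0 := h.hp.ne_zero
  haveI : IsGalois F L := isGalois_radicals (k := C) hY fun y hyY => by
    obtain ⟨f, h1, -⟩ := hy y hyY
    exact ⟨p, f, h.ne, h1⟩
  haveI : FiniteDimensional C⟮algebraMap F L T⟯ L := finite_adjoin_map
  let Tr : NV C L → Prop := fun v => ∀ x : F, v (algebraMap F L x) ≤ 1 →
    v (algebraMap F L (g x - x)) < 1
  have hfree : ∀ v : WW C (algebraMap F L T), ¬ Tr v.1 → ∀ τ ∈ DG F v.1, τ = 1 :=
    fun v hv τ hτ => eq_one_of_gen hY fun y hyY => by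
      obtain ⟨f, h1, -, h2⟩ := hy y hyY
      exact Sp.fix h hτ h1 ((h2 ⟨v.1.comap F, v.2.comap⟩).resolve_right fun e => hv e.2)
  have hin : ∀ v : WW C (algebraMap F L T), ∀ τ : L ≃ₐ[F] L,
      (∀ y, v.1 y ≤ 1 → v.1 (τ y - y) < 1) → τ = 1 := fun v τ hτ => eq_one_of_gen hY fun y hyY => by
    obtain ⟨f, h1, -, h2⟩ := hy y hyY
    exact Nr.fix h hτ h1 ((h2 ⟨v.1.comap F, v.2.comap⟩).elim Sp.nr fun e => e.1)
  have hpg : IsPGroup p (L ≃ₐ[F] L) := fun τ => ⟨1, eq_one_of_gen hY fun y hyY => by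
    by_cases hy0 : y = 0
    · rw [hy0, map_zero]
    obtain ⟨f, hf, -⟩ := hy y hyY
    obtain ⟨μ, hμ, h2⟩ := exists_mu (C := C) hm0 τ hy0 hf
    have h3 : ∀ n : ℕ, (τ ^ n) y = algebraMap C L (μ ^ n) * y := fun n => by
      induction n with
      | zero => simp
      | succ n ih =>
        rw [pow_succ', AlgEquiv.mul_apply, ih, map_mul, aut_const, h2, pow_succ, map_mul,
          mul_assoc]
    rw [pow_one, h3, hμ, map_one, one_mul]⟩
  obtain ⟨hFL, hli, hsu, S', hS', hS'', het⟩ := covE (p := p) T hF hS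
    (isUnr_radicals hY fun y hyY => by
      obtain ⟨f, h1, h2, -⟩ := hy y hyY
      exact ⟨p, f, h.ne, h1, h2⟩) (fun v τ _ => hin v τ) fun v => hpg.to_subgroup _
  have semi : ∀ G : L ≃+* L, (∀ x, G (algebraMap F L x) = algebraMap F L (g x)) → Semi C G s :=
    fun G hG => ⟨fun a => by
      rw [IsScalarTower.algebraMap_apply C F L, hG, hg.1, ← IsScalarTower.algebraMap_apply], hg.2⟩
  have stb : ∀ G : L ≃+* L, (∀ x, G (algebraMap F L x) = algebraMap F L (g x)) →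
      Stb C G (algebraMap F L T) := fun G hG => (stb_of_fix hg hfix).up hG
  have hli' : ∀ G : L ≃+* L, (∀ x, G (algebraMap F L x) = algebraMap F L (g x)) →
      ∀ v : WW C (algebraMap F L T), (∀ y, v.1 (G y) = v.1 y) → Tr v.1 →
      ∃ δ ∈ DG F v.1, ∀ y, v.1 y ≤ 1 → v.1 (G y - δ y) < 1 := fun G hG v h1 h2 =>
    hli v G h1 fun x hx => by rw [hG, ← map_sub]; exact h2 x hx
  obtain ⟨v₀⟩ := hFL.nonempty
  obtain ⟨G', hG', hv₀, hv₀'⟩ : ∃ G' : L ≃+* L,
      (∀ x, G' (algebraMap F L x) = algebraMap F L (g x)) ∧ (∀ y, v₀.1 (G' y) = v₀.1 y) ∧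
      (Tr v₀.1 → ∀ y, v₀.1 y ≤ 1 → v₀.1 (G' y - y) < 1) := by
    obtain ⟨v₁, hv₁⟩ := exists_w' (semi G hGg) (stb G hGg) v₀
    obtain ⟨τ₀, hτ₀⟩ := P025H992.exists_cj (K := F) v₀.1 v₁.1 (P025H992.nv_ext fun x => by
      obtain ⟨x, rfl⟩ := g.surjective x
      rw [P025H992.resK_apply, P025H992.resK_apply, ← hGg x, hv₁, hGg]
      exact hfix ⟨v₀.1.comap F, v₀.2.comap⟩ x)
    let G₁ : L ≃+* L := G.trans (τ₀ : L ≃+* L)
    have hG₁ : ∀ x, G₁ (algebraMap F L x) = algebraMap F L (g x) := fun x => by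
      change τ₀ (G _) = _
      rw [hGg, τ₀.commutes]
    have h1 : ∀ y, v₀.1 (G₁ y) = v₀.1 y := fun y => by
      rw [← hv₁ y, hτ₀]; rfl
    by_cases e : Tr v₀.1
    · obtain ⟨δ, hδ, h2⟩ := hli' G₁ hG₁ v₀ h1 e
      refine ⟨G₁.trans (δ.symm : L ≃+* L), fun x => ?_, fun y => ?_, fun _ y hy => ?_⟩
      · change δ.symm (G₁ _) = _
        rw [hG₁, δ.symm.commutes]
      · change v₀.1 (δ.symm (G₁ y)) = _
        rw [← hδ, δ.apply_symm_apply, h1]
      · change v₀.1 (δ.symm (G₁ y) - y) < 1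
        rw [← hδ, map_sub, δ.apply_symm_apply]
        exact h2 y hy
    · exact ⟨G₁, hG₁, h1, fun e' => absurd e' e⟩
  have hex : ∀ b ∈ S', ∃ b₁ : Br C (algebraMap F L T), Tw (G' : L →+* L) b b₁ := fun b hbS => by
    obtain ⟨b₀, hb₀, h1⟩ := (hS'' b).1 hbS
    refine exists_tw' (semi G' hG') (stb G' hG') b ?_
    have h2 : G'.symm (algebraMap F L T) = algebraMap F L (g.symm T) := by
      rw [RingEquiv.symm_apply_eq, hG', g.apply_symm_apply]
    have h3 : b₀.w.1 (g.symm T) ≤ 1 := by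
      rw [← hfix, g.apply_symm_apply]; exact b₀.w.2.apply_T.le
    rw [h2]
    refine (h1.2 _ h3).2 (((hb b₀ hb₀).2 _ h3).1 ?_)
    change b₀.w.1.red (g (g.symm T)) ∈ _
    rw [g.apply_symm_apply]
    exact b₀.fin
  have hov : ∀ {b₀ : Br C T} {b b₁ : Br C (algebraMap F L T)}, b₀ ∈ S →
      Tw (algebraMap F L) b₀ b → Tw (G' : L →+* L) b b₁ → Tw (algebraMap F L) b₀ b₁ :=
    fun hb₀ h1 h2 => (((hb _ hb₀).symm.comp h1).comp h2).congr fun x => by
      change _ = G' (algebraMap F L (g.symm x))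
      rw [hG', g.apply_symm_apply]
  have hall : ∀ v : WW C (algebraMap F L T), (∀ y, v.1 (G' y) = v.1 y) ∧
      (Tr v.1 → ∀ y, v.1 y ≤ 1 → v.1 (G' y - y) < 1) := by
    rcases cong' C L _ hFL S' hS' {v | (∀ y, v.1 (G' y) = v.1 y) ∧
        (Tr v.1 → ∀ y, v.1 y ≤ 1 → v.1 (G' y - y) < 1)} (fun b hbS b' hbS' hgl hw => by
      by_cases e : b' = b
      · rw [e]; exact hw
      obtain ⟨b₀, hb₀, h1⟩ := (hS'' b).1 hbS
      obtain ⟨b₀', hb₀', h1'⟩ := (hS'' b').1 hbS'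
      obtain ⟨b₂, h2'⟩ := hex b' hbS'
      have h2 : Tw (G' : L →+* L) b b := by
        by_cases t : Tr b.w.1
        · exact I1b.tw_self b hw.1 (hw.2 t)
        obtain ⟨b₁, h2⟩ := hex b hbS
        have e1 : b = b₁ := h1.inj_right (hov hb₀ h1 h2)
          (Subtype.ext (P025H992.nv_ext fun y => by
            obtain ⟨y, rfl⟩ := G'.surjective y
            exact (hw.1 y).trans (h2.1 y).symm)) (hsu _ (hfree _ t))
        exact e1 ▸ h2
      have e2 : b' = b₂ := (acl' C L _ hFL S' hS').1 b hbS b' hbS' b₂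
        ((hS'' b₂).2 ⟨b₀', hb₀', hov hb₀' h1' h2'⟩) e
        (by rintro rfl; exact e (h2'.inj_left h2)) hgl (glue_tw hFL (semi G' hG') (stb G' hG')
          (fun c hc => hex c (mem_of_glue hFL hS' hbS hc)) h2 h2' hgl)
      subst e2
      refine ⟨h2'.1, fun t => ?_⟩
      obtain ⟨δ, hδ, h3⟩ := hli' G' hG' b'.w h2'.1 t
      rw [het b' hbS' δ ⟨hδ, fun y hy => by
        rw [← h2'.2 y hy]
        exact iff_of_eq (congrArg (· ∈ b'.x.1) ((red_eq_iff ((h2'.1 y).trans_le hy)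
          ((hδ y).trans_le hy)).2 (h3 y hy)).symm)⟩] at h3
      exact h3) with h1 | h1
    · have : v₀ ∈ {v : WW C (algebraMap F L T) | (∀ y, v.1 (G' y) = v.1 y) ∧
        (Tr v.1 → ∀ y, v.1 y ≤ 1 → v.1 (G' y - y) < 1)} := ⟨hv₀, hv₀'⟩
      rw [h1] at this
      exact this.elim
    · intro v
      have : v ∈ {v : WW C (algebraMap F L T) | (∀ y, v.1 (G' y) = v.1 y) ∧
        (Tr v.1 → ∀ y, v.1 y ≤ 1 → v.1 (G' y - y) < 1)} := h1 ▸ Set.mem_univ _
      exact this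
  have hcomm : ∀ (τ : L ≃ₐ[F] L) y, τ (G' y) = G' (τ y) := fun τ y => by
    let ρ : L ≃ₐ[F] L := AlgEquiv.ofRingEquiv
      (f := ((G'.symm.trans (τ : L ≃+* L)).trans G').trans (τ.symm : L ≃+* L)) fun x => by
        obtain ⟨x, rfl⟩ := g.surjective x
        change τ.symm (G' (τ (G'.symm _))) = _
        rw [← hG' x, G'.symm_apply_apply, τ.commutes, hG', τ.symm.commutes]
    obtain ⟨v₂, hv₂⟩ := (Semi.of_alg (τ.restrictScalars C)).exists_w
      (T := algebraMap F L T) (τ.commutes T) v₀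
    have h2 : ∀ y, v₂.1 (τ y) = v₀.1 y := hv₂
    have h1 : ρ = 1 := by
      by_cases t : Tr v₀.1
      · refine hin v₀ ρ fun y hy => ?_
        obtain ⟨y, rfl⟩ := G'.surjective y
        rw [hv₀] at hy
        change v₀.1 (τ.symm (G' (τ (G'.symm (G' y)))) - G' y) < 1
        rw [← h2, map_sub, τ.apply_symm_apply, G'.symm_apply_apply,
          ← sub_sub_sub_cancel_right _ _ (τ y)]
        refine NV.sub_lt ((hall v₂).2 (fun x hx => ?_) _ (by rw [h2]; exact hy)) ?_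
        · rw [← τ.commutes x, h2] at hx
          rw [← τ.commutes (g x - x), h2]
          exact t x hx
        · rw [← map_sub, h2]
          exact hv₀' t y hy
      · refine hfree v₀ t ρ fun y => ?_
        change v₀.1 (τ.symm (G' (τ (G'.symm y)))) = _
        rw [← h2, τ.apply_symm_apply, (hall v₂).1, h2, ← hv₀, G'.apply_symm_apply]
    have h2 : τ.symm (G' (τ (G'.symm (G' y)))) = G' y := AlgEquiv.congr_fun h1 (G' y)
    rw [G'.symm_apply_apply] at h2
    rw [← h2, τ.apply_symm_apply]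
  obtain ⟨z, hz⟩ := (IsGalois.mem_range_algebraMap_iff_fixed (F := F) (G' y / y ^ c)).2 fun τ => by
    obtain ⟨μ, hμ, h1⟩ := exists_mu (C := C) hm0 τ hy0 hyf
    have h2 : algebraMap C L μ ≠ 0 := by
      rw [Ne, map_eq_zero]; rintro rfl; rw [zero_pow hm0] at hμ; exact zero_ne_one hμ
    have h3 : s μ = μ ^ c := by
      obtain ⟨i, rfl⟩ := h.exists_pow hμ
      rw [map_pow, hs, ← pow_mul, ← pow_mul, mul_comm]
    rw [map_div₀, map_pow, hcomm, h1, map_mul, (semi G' hG').1, h3, map_pow, mul_pow,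
      mul_div_mul_left _ _ (pow_ne_zero c h2)]
  have h3 : G' y ≠ 0 := (map_ne_zero G').2 hy0
  refine ⟨z, fun h0 => ?_, (algebraMap F L).injective ?_⟩
  · rw [h0, map_zero] at hz
    exact div_ne_zero h3 (pow_ne_zero c hy0) hz.symm
  · rw [← hG', ← hyf, map_mul, map_pow, map_pow, map_pow, hz, ← hyf, div_pow, ← pow_mul, ← pow_mul,
      mul_comm p c, mul_div_cancel₀ _ (pow_ne_zero _ hy0)]

/-- **an automorphism which fixes the components and the nodal branches acts by the cyclotomic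
character** on the Kummer classes which at each vertex are split, or etale, the action on the
residue field being trivial -/
theorem nodeE [CharZero C] (h : PZ p ζ) (hF : Full C T) {S : Finset (Br C T)} (hS : Nodal C T S)
    {c : ℕ} (hg : Semi C g s) (hs : s ζ = ζ ^ c) (hfix : ∀ (w : WW C T) y, w.1 (g y) = w.1 y)
    (hb : ∀ b ∈ S, Tw (g : F →+* F) b b) {f : F} (hf : ∀ P : Plk C F, (p : ℤ) ∣ ord P f)
    (hn : ∀ w : WW C T, Sp p ζ w.1 f ∨ (Nr p ζ w.1 f ∧ ∀ y, w.1 y ≤ 1 → w.1 (g y - y) < 1)) :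
    ∃ z : F, z ≠ 0 ∧ g f = f ^ c * z ^ p := by
  have hm0 := h.hp.ne_zero
  let Ω := AlgebraicClosure F
  let Y : Set Ω := {y | ∃ f : F, y ^ p = algebraMap F Ω f ∧ (∀ P : Plk C F, (p : ℤ) ∣ ord P f) ∧
    ∀ w : WW C T, Sp p ζ w.1 f ∨ (Nr p ζ w.1 f ∧ ∀ y, w.1 y ≤ 1 → w.1 (g y - y) < 1)}
  have hne : ∀ f : F, (∀ w : WW C T, Sp p ζ w.1 f ∨
      (Nr p ζ w.1 f ∧ ∀ y, w.1 y ≤ 1 → w.1 (g y - y) < 1)) → f ≠ 0 := fun f h1 =>
    ((h1 hF.nonempty.some).elim Sp.nr fun e => e.1).ne h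
  let L := IntermediateField.adjoin F Y
  haveI : FiniteDimensional F L := fin_roots (C := C) h.ne fun y ⟨f, h1, h2, h3⟩ =>
    ⟨f, hne f h3, h1, h2⟩
  haveI : CFF C L := cff_of_finite (K := F)
  let H : Ω ≃+* Ω := IsAlgClosure.equivOfEquiv Ω Ω g
  have hH : ∀ x, H (algebraMap F Ω x) = algebraMap F Ω (g x) :=
    IsAlgClosure.equivOfEquiv_algebraMap Ω Ω g
  have hH' : ∀ x, H.symm (algebraMap F Ω x) = algebraMap F Ω (g.symm x) :=
    IsAlgClosure.equivOfEquiv_symm_algebraMap Ω Ω g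
  have hfix' : ∀ (w : WW C T) y, w.1 (g.symm y) = w.1 y := fun w y => by
    rw [← hfix, g.apply_symm_apply]
  have hY : ∀ y ∈ Y, H y ∈ Y := fun y ⟨f, h1, h2, h3⟩ =>
    ⟨g f, by rw [← map_pow, h1, hH], hg.dvd_ord h2, fun w =>
      (h3 w).imp (Sp.map g (hfix w)) fun e => ⟨e.1.map g (hfix w), e.2⟩⟩
  have hY' : ∀ y ∈ Y, H.symm y ∈ Y := fun y ⟨f, h1, h2, h3⟩ =>
    ⟨g.symm f, by rw [← map_pow, h1, hH'], hg.symm.dvd_ord h2, fun w =>
      (h3 w).imp (Sp.map g.symm (hfix' w)) fun e => ⟨e.1.map g.symm (hfix' w), e.2⟩⟩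
  let G : L ≃+* L :=
    { toFun := fun x => ⟨H x, map_mem H g hH hY x.2⟩
      invFun := fun x => ⟨H.symm x, map_mem H.symm g.symm hH' hY' x.2⟩
      left_inv := fun x => Subtype.ext (H.symm_apply_apply x)
      right_inv := fun x => Subtype.ext (H.apply_symm_apply x)
      map_mul' := fun x y => Subtype.ext (map_mul H x.1 y.1)
      map_add' := fun x y => Subtype.ext (map_add H x.1 y.1) }
  obtain ⟨y, hy⟩ := IsAlgClosed.exists_pow_nat_eq (algebraMap F Ω f) h.hp.pos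
  have hyY : y ∈ Y := ⟨_, hy, hf, hn⟩
  exact coreE (L := L) h hF hS hg hs hfix hb
    (Y := {x : L | (x : Ω) ∈ Y}) (lift_injective L (by
      rw [lift_adjoin, lift_top]
      congr 1
      ext x
      exact ⟨by rintro ⟨x, hx, rfl⟩; exact hx, fun hx => ⟨⟨x, subset_adjoin _ _ hx⟩, hx, rfl⟩⟩))
    (fun x ⟨f, h1, h2, h3⟩ => ⟨f, Subtype.ext h1, h2, h3⟩) G (fun x => Subtype.ext (hH x))
    (y := ⟨y, subset_adjoin _ _ hyY⟩) (f := f) (fun h0 => by
      have h3 : y = 0 := congrArg Subtype.val h0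
      rw [h3, zero_pow hm0, eq_comm, map_eq_zero] at hy
      exact hne f hn hy) (Subtype.ext hy)

end Vale.Agent.P022K.WB.Nv
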