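import Vale.Agent.P022K.WB.Nv1
import Vale.Agent.P022K.WB.Nv3

/-!
# P022K, block WB, row NV: inertia on classes which are etale at the vertices
-/

set_option linter.all false

noncomputable section

open IntermediateField Vale.Agent.P019P P025H746 P025H492 Module

namespace Vale.Agent.P022K.WB.Nv

open Vale.Agent.P027M.I Vale.Agent.P027M.I.I1b Vale.Agent.P022K.FI.X0

variable {C : Type} [NontriviallyNormedField C] [IsUltrametricDist C] [IsAlgClosed C] [CharZero C]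
  {p : ℕ} {ζ : C}

/-- good reduction: a class which is split at the vertex is trivial -/
theorem keyP {F : Type} [Field F] [Algebra C F] [CFF C F] {T : F} [FiniteDimensional C⟮T⟯ F]
    (h : PZ p ζ) (hF : Full C T) (h0 : cd C T = 0) {f : F}
    (hf : ∀ P : Plk C F, (p : ℤ) ∣ ord P f) (hs : ∀ w : WW C T, Sp p ζ w.1 f) :
    ∃ z : F, z ≠ 0 ∧ f = z ^ p := by
  have hf0 : f ≠ 0 := (hs hF.nonempty.some).nr.ne h
  obtain ⟨y, hy⟩ := IsAlgClosed.exists_pow_nat_eq (algebraMap F (AlgebraicClosure F) f) h.hp.pos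
  let L := F⟮y⟯
  haveI : FiniteDimensional F L := adjoin.finiteDimensional (Algebra.IsIntegral.isIntegral y)
  haveI : CFF C L := cff_of_finite (K := F)
  haveI : FiniteDimensional C⟮algebraMap F L T⟯ L := finite_adjoin_map
  have hY : IntermediateField.adjoin F {AdjoinSimple.gen F y} = (⊤ : IntermediateField F L) :=
    lift_injective L (by rw [lift_adjoin_simple, lift_top]; rfl)
  have hy' : AdjoinSimple.gen F y ^ p = algebraMap F L f := Subtype.ext hy
  haveI : IsGalois F L := isGalois_radicals (k := C) hY fun x hx => ⟨p, f, h.ne, hx ▸ hy'⟩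
  have fr : ∀ (τ : L ≃ₐ[F] L) (v : WW C (algebraMap F L T)), (∀ y, v.1 (τ y) = v.1 y) →
      τ (AdjoinSimple.gen F y) = AdjoinSimple.gen F y := fun τ v hv =>
    Sp.fix h hv hy' (hs ⟨v.1.comap F, v.2.comap⟩)
  obtain ⟨hL, -, S', hS', hm⟩ := covS (L := L) T hF (S := ∅) ⟨by simp [h0], by simp⟩
    (isUnr_radicals hY fun x hx => ⟨p, f, h.ne, hx ▸ hy', hf⟩)
    fun τ v hv => Node.eq_one_of_gen hY fun x hx => hx ▸ fr τ v hv
  obtain ⟨v⟩ := hL.nonempty
  have h1 := (cong' C L _ hL S' hS' {v} fun b hb => by simpa using (hm b).1 hb).resolve_left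
    (Set.singleton_ne_empty v)
  obtain ⟨z, hz⟩ := (IsGalois.mem_range_algebraMap_iff_fixed (F := F) (AdjoinSimple.gen F y)).2
    fun τ => by
      obtain ⟨v', hv'⟩ := (Lift.semi (C := C) τ).exists_w (τ.commutes T) v
      have h2 : v' ∈ ({v} : Set _) := h1 ▸ Set.mem_univ _
      exact fr τ v (Set.mem_singleton_iff.1 h2 ▸ hv')
  have e : f = z ^ p := (algebraMap F L).injective (by rw [map_pow, hz, hy'])
  exact ⟨z, fun e0 => hf0 (by rw [e, e0, zero_pow h.hp.ne_zero]), e⟩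

variable {K₀ K : Type} [Field K₀] [Algebra C K₀] [CFF C K₀] [Field K] [Algebra C K] [CFF C K]
  [Algebra K₀ K] [IsScalarTower C K₀ K] [FiniteDimensional K₀ K] [IsGalois K₀ K] {T : K₀}
  [FiniteDimensional C⟮T⟯ K₀] {w : Fin 2 → NV C K} {σ : K ≃+* K} {d : K ≃ₐ[K₀] K}

theorem dvd_pow' {f : K} (hf : ∀ P : Plk C K, (p : ℤ) ∣ ord P f) (c : ℕ) (P : Plk C K) :
    (p : ℤ) ∣ ord P (f ^ c) := by
  rw [ord_pow]; exact (hf P).mul_left _

/-- the three step identity -/
theorem iguP (h : PZ p ζ) {v : Fin 2 → WW C T} {S : Finset (Br C T)} {σ₀ : K ≃+* K}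
    {d₀ : K ≃ₐ[K₀] K} (hd : ((finrank K₀ K : ℕ) : kC C) ≠ 0) (hu : IsUnr C K₀ K)
    (hcy : IsCyclic (K ≃ₐ[K₀] K)) (hF : Full C T) (hS : Nodal C T S) (hall : ∀ w, ∃ i, w = v i)
    (hsep : ∀ b b' : Br C T, b.w = b'.w → Glue b b' → b = b')
    (hw : ∀ i y, w i (algebraMap K₀ K y) = (v i).1 y)
    (hI : Inr' C w σ d) {s : C ≃+* C} (hσ : Semi C σ s) {c : ℕ} (hs : s ζ = ζ ^ c)
    (h₀ : Inr' C w σ₀ d₀) {f : K} (hf : ∀ P : Plk C K, (p : ℤ) ∣ ord P f)
    (hn : ∀ u : WW C (algebraMap K₀ K T), Nr p ζ u.1 f) {A B : K} (hA' : A = σ f / f ^ c)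
    (hB : B = σ A / d A ^ c) : ∃ z : K, z ≠ 0 ∧ d₀ B = B * z ^ p := by
  have : FiniteDimensional C⟮algebraMap K₀ K T⟯ K := finite_adjoin_map
  have hc := comm_of_cyc hcy
  obtain ⟨hF', -, S', hS', hm'⟩ := cov' C K₀ K T hF S hS hu hd fun u => cyc hcy u.1
  have hf0 : f ≠ 0 := (hn hF'.nonempty.some).ne h
  have hA0 : A ≠ 0 := by rw [hA']; exact div_ne_zero ((map_ne_zero σ).2 hf0) (pow_ne_zero _ hf0)
  have hAo : ∀ P : Plk C K, (p : ℤ) ∣ ord P A := by
    rw [hA']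
    exact dvd_div ((map_ne_zero σ).2 hf0) (pow_ne_zero _ hf0) (hσ.dvd_ord hf) (dvd_pow' hf c)
  have t0 : ∀ u : WW C (algebraMap K₀ K T),
      (∀ y, u.1 (algebraMap K₀ K y) = w 0 (algebraMap K₀ K y)) → Sp p ζ u.1 A := fun u hu => by
    rw [hA']; exact (hn u).eqv h hσ hs (side0' hI hu).1 (side0' hI hu).2
  have mp : ∀ (g : K ≃+* K) (t : C ≃+* C), Semi C g t → Stb C g (algebraMap K₀ K T) → ∀ x : K,
      (∀ u : WW C (algebraMap K₀ K T), Nr p ζ u.1 x) →
      ∀ u : WW C (algebraMap K₀ K T), Nr p ζ u.1 (g x) := fun g t hg hT x hx u => by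
    obtain ⟨u', hu'⟩ := exists_w' hg.symm (hT.symm hg) u
    exact (hx u').map g fun y => by rw [← hu', g.symm_apply_apply]
  have nA : ∀ u : WW C (algebraMap K₀ K T), Nr p ζ u.1 A := fun u => by
    rw [hA']
    exact (mp σ s hσ (hI.stb hc hall hw) f hn u).div h ((hn u).pow h c)
  have fx := fixes' hc hS hall hsep hw h₀ hF' hS' hm'
  obtain ⟨z, hz, e⟩ := nodeE h hF' hS' (c := 1) (Lift.semi (C := C) d₀) (pow_one ζ).symm
    (Node.all_fixed cong' hF' hS' (Lift.semi (C := C) d₀) (d₀.commutes T) fx) fx (f := B) (by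
      rw [hB]
      exact dvd_div ((map_ne_zero σ).2 hA0) (pow_ne_zero _ ((map_ne_zero d).2 hA0))
        (hσ.dvd_ord hAo) (dvd_pow' ((Lift.semi (C := C) d).dvd_ord hAo) c)) fun u => Or.inl (by
      obtain ⟨i, hi⟩ := hall ⟨u.1.comap K₀, u.2.comap⟩
      have h1 : ∀ y, u.1 (algebraMap K₀ K y) = w i (algebraMap K₀ K y) := fun y => by
        rw [hw, ← hi]; rfl
      rw [hB]
      fin_cases i
      · obtain ⟨u', hu'⟩ := (Lift.semi (C := C) d).symm.exists_w (symm_fix (d.commutes T)) u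
        have h2 : ∀ y, u.1 (d y) = u'.1 y := fun y => by
          rw [← hu']; exact congrArg u'.1 (d.symm_apply_apply y)
        exact ((t0 u h1).map σ (side0' hI h1).1).div h
          (((t0 u' fun y => by rw [← h2, d.commutes]; exact h1 y).map d h2).pow h c)
      · rw [← gam_s (s := d) A]
        exact Nr.eqv h (g := gam σ d) ((Lift.semi (C := C) d).symm.trans hσ) hs
          (side1' hc hI h1).1 (side1' hc hI h1).2
          (mp (d : K ≃+* K) _ (Lift.semi (C := C) d)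
            (fun u => by rw [show (d : K ≃+* K) (algebraMap K₀ K T) = _ from d.commutes T]) A nA u))
  exact ⟨z, hz, by rw [pow_one] at e; exact e⟩

end Vale.Agent.P022K.WB.Nv
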