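import Mathlib.RepresentationTheory.Basic
import Mathlib.GroupTheory.Index
import Mathlib.Tactic

/-!
# P022K, block WB, row NV: algebra of modules on which the trace operators are scalars
-/

set_option autoImplicit false

namespace Vale.Agent.P022K.WB.Nv

variable {R Γ M : Type*} [CommRing R] [Group Γ] [AddCommGroup M] [Module R M]

/-- `Y` is stable and the trace operators are the scalars `t` on `Y` -/
structure Ps (g : Representation R Γ M) (ε t : Γ → R) (Y : Submodule R M) : Prop where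
  mul : ∀ a b, ε (a * b) = ε a * ε b
  st : ∀ s, ∀ v ∈ Y, g s v ∈ Y
  tr : ∀ s, ∀ v ∈ Y, g s v + ε s • g s⁻¹ v = t s • v

variable {g : Representation R Γ M} {ε t : Γ → R} {Y : Submodule R M}

theorem g_mul (g : Representation R Γ M) (a b : Γ) (v : M) : g (a * b) v = g a (g b v) := by
  rw [map_mul]; rfl

theorem g_inv (g : Representation R Γ M) (a : Γ) (v : M) : g a⁻¹ (g a v) = v := by
  rw [← g_mul, inv_mul_cancel, map_one]; rfl

theorem g_inv' (g : Representation R Γ M) (a : Γ) (v : M) : g a (g a⁻¹ v) = v := by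
  rw [← g_mul, mul_inv_cancel, map_one]; rfl

theorem Ps.mono (h : Ps g ε t Y) {Y' : Submodule R M} (le : Y' ≤ Y)
    (st : ∀ s, ∀ v ∈ Y', g s v ∈ Y') : Ps g ε t Y' :=
  ⟨h.mul, st, fun s v hv => h.tr s v (le hv)⟩

theorem Ps.sq (h : Ps g ε t Y) (s : Γ) {v : M} (hv : v ∈ Y) :
    g s (g s v) = t s • g s v - ε s • v := by
  have := h.tr s _ (h.st s v hv)
  rw [g_inv] at this
  exact eq_sub_of_add_eq this

theorem Ps.comm (h : Ps g ε t Y) (hc : ∀ a b, ∀ v ∈ Y, g a (g b v) = g b (g a v)) (a b c : Γ)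
    {v : M} (hv : v ∈ Y) : (t (a * b * c) - t (a * c * b)) • v = 0 := by
  rw [sub_smul, ← h.tr _ v hv, ← h.tr _ v hv]
  simp only [mul_inv_rev, g_mul, h.mul]
  rw [hc b c v hv, hc c⁻¹ b⁻¹ _ (h.st _ v hv), mul_right_comm (ε a), sub_self]

/-- an element of determinant `-1` which acts as a sign -/
theorem Ps.sign (h : Ps g ε t Y) (h2 : ∀ v ∈ Y, (2 : R) • v = 0 → v = 0) {s₀ : Γ}
    (hε : ∀ v ∈ Y, ε s₀ • v = -v) {μ : R} (hμ : μ * μ = 1) (h0 : ∀ v ∈ Y, g s₀ v = μ • v)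
    (a b : Γ) (v : M) (hv : v ∈ Y) : g a (g b v) = g b (g a v) := by
  have h1 : ∀ v ∈ Y, g s₀⁻¹ v = μ • v := fun v hv => by
    conv_lhs => rw [← one_smul R v, ← hμ, mul_smul, ← h0 _ (Y.smul_mem μ hv), g_inv]
  have key : ∀ s, ∀ v ∈ Y, (2 : R) • g s v = (t s + μ * t (s₀ * s)) • v := fun s v hv => by
    rw [add_smul, mul_smul, ← h.tr _ v hv, ← h.tr _ v hv, mul_inv_rev, g_mul, g_mul, h.mul,
      h0 _ (h.st s v hv), h1 v hv, map_smul, mul_smul,
      hε _ (Y.smul_mem _ (Y.smul_mem _ (h.st _ v hv))), smul_add, smul_neg, smul_comm (ε s) μ,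
      smul_smul, smul_smul μ μ, hμ, one_smul, one_smul, two_smul]
    abel
  have e : ∀ a b, (2 : R) • (2 : R) • g a (g b v) =
      ((t a + μ * t (s₀ * a)) * (t b + μ * t (s₀ * b))) • v := fun a b => by
    rw [key a _ (h.st b v hv), smul_comm, key b v hv, mul_smul]
  have hm := Y.sub_mem (h.st a _ (h.st b v hv)) (h.st b _ (h.st a v hv))
  refine sub_eq_zero.1 (h2 _ hm (h2 _ (Y.smul_mem _ hm) ?_))
  rw [smul_sub, smul_sub, e, e, mul_comm, sub_self]

theorem nil_zero {P : M → Prop} {B : Module.End R M} (hP : ∀ v, P v → B v = 0 → v = 0)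
    (hB : ∀ v, P v → P (B v)) (n : ℕ) : ∀ v, P v → (B ^ n) v = 0 → v = 0 := by
  induction n with
  | zero => exact fun v _ h => h
  | succ n ih =>
    intro v hv h
    rw [pow_succ, Module.End.mul_apply] at h
    exact hP v hv (ih _ (hB v hv) h)

/-- **odd residue characteristic** -/
theorem Ps.odd (h : Ps g ε t Y) (h2 : ∀ v ∈ Y, (2 : R) • v = 0 → v = 0) {s₀ : Γ}
    (hε : ∀ v ∈ Y, ε s₀ • v = -v) (D : Module.End R M) (hD : ∀ v ∈ Y, D v ∈ Y)
    (hg : ∀ s, ∀ v ∈ Y, D (g s v) = g s (D v)) (hDD : ∀ v ∈ Y, D (D v) = v)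
    (hn : ∀ v ∈ Y, ∃ n : ℕ, ((g s₀ - D) ^ n) v = 0) {a b c : Γ}
    (irr : ∀ v ∈ Y, (t (a * b * c) - t (a * c * b)) • v = 0 → v = 0) : Y = ⊥ := by
  have key : ∀ μ : R, μ * μ = 1 → ∀ v ∈ Y, D v = μ • v → v = 0 := by
    intro μ hμ
    let Y1 : Submodule R M := Y ⊓ LinearMap.ker (D - μ • 1)
    have m1 : ∀ v, v ∈ Y1 ↔ v ∈ Y ∧ D v = μ • v := fun v => by
      simp [Y1, sub_eq_zero]
    have p1 : Ps g ε t Y1 := h.mono inf_le_left fun s v hv => by
      rw [m1] at hv ⊢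
      exact ⟨h.st s v hv.1, by rw [hg s v hv.1, hv.2, map_smul]⟩
    let B : Module.End R M := g s₀ - μ • 1
    have hB : ∀ v, B v = g s₀ v - μ • v := fun v => rfl
    have mB : ∀ v ∈ Y1, B v ∈ Y1 := fun v hv => Y1.sub_mem (p1.st _ v hv) (Y1.smul_mem _ hv)
    have nB : ∀ n : ℕ, ∀ v ∈ Y1, (B ^ n) v = ((g s₀ - D) ^ n) v := by
      intro n
      induction n with
      | zero => exact fun v _ => rfl
      | succ n ih =>
        intro v hv
        rw [pow_succ, pow_succ, Module.End.mul_apply, Module.End.mul_apply, ih _ (mB v hv), hB,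
          LinearMap.sub_apply, ((m1 v).1 hv).2]
    have q : ∀ v ∈ Y1, B (B v + (2 * μ - t s₀) • v) = (μ * t s₀) • v := fun v hv => by
      rw [map_add, map_smul, hB (B v), hB v, map_sub, map_smul, p1.sq s₀ hv,
        hε v ((m1 v).1 hv).1]
      match_scalars
      · ring
      · linear_combination -hμ
    -- the part killed by the trace
    let Y2 : Submodule R M := Y1 ⊓ LinearMap.ker (t s₀ • (1 : Module.End R M))
    have m2 : ∀ v, v ∈ Y2 ↔ v ∈ Y1 ∧ t s₀ • v = 0 := fun v => by simp [Y2]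
    have p2 : Ps g ε t Y2 := p1.mono inf_le_left fun s v hv => by
      rw [m2] at hv ⊢
      exact ⟨p1.st s v hv.1, by rw [← map_smul, hv.2, map_zero]⟩
    have le2 : Y2 ≤ Y := inf_le_left.trans inf_le_left
    have z2 : ∀ v ∈ Y2, B v = 0 := fun v hv => by
      have mB2 : ∀ v ∈ Y2, B v ∈ Y2 := fun v hv => Y2.sub_mem (p2.st _ v hv) (Y2.smul_mem _ hv)
      have e : ∀ v ∈ Y2, B (B v) = (-(2 * μ)) • B v := fun v hv => by
        have := q v ((m2 v).1 hv).1
        rw [mul_smul, ((m2 v).1 hv).2, smul_zero, sub_smul, ((m2 v).1 hv).2, sub_zero, map_add,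
          map_smul] at this
        rw [neg_smul]
        exact eq_neg_of_add_eq_zero_left this
      obtain ⟨n, hn⟩ := hn v (le2 hv)
      rw [← nB n v ((m2 v).1 hv).1] at hn
      refine nil_zero (B := B) (P := fun w => w ∈ Y2 ∧ B w = (-(2 * μ)) • w) (fun w hw h0 => ?_)
        (fun w hw => ⟨mB2 w hw.1, e w hw.1⟩) n _ ⟨mB2 v hv, e v hv⟩ ?_
      · rw [hw.2, neg_smul, neg_eq_zero, mul_smul] at h0
        have := h2 _ (Y.smul_mem _ (le2 hw.1)) h0
        rw [← one_smul R w, ← hμ, mul_smul, this, smul_zero]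
      · rw [← Module.End.mul_apply, ← pow_succ, pow_succ', Module.End.mul_apply, hn, map_zero]
    have b2 : ∀ v ∈ Y2, v = 0 := fun v hv => irr v (le2 hv)
      (p2.comm (p2.sign (fun v hv => h2 v (le2 hv)) (fun v hv => hε v (le2 hv)) hμ
        fun v hv => sub_eq_zero.1 (z2 v hv)) a b c hv)
    have inj : ∀ v ∈ Y1, B v = 0 → v = 0 := fun v hv h0 => b2 v ((m2 v).2 ⟨hv, by
      have := q v hv
      rw [map_add, map_smul, h0, map_zero, smul_zero, add_zero] at this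
      rw [← one_smul R (t s₀ • v), ← hμ, mul_smul, smul_smul μ (t s₀), ← this, smul_zero]⟩)
    intro v hv hv'
    obtain ⟨n, hn⟩ := hn v hv
    exact nil_zero (P := (· ∈ Y1)) inj mB n v ((m1 v).2 ⟨hv, hv'⟩)
      (by rw [nB n v ((m1 v).2 ⟨hv, hv'⟩), hn])
  refine (Submodule.eq_bot_iff Y).2 fun v hv => h2 v hv ?_
  have e1 := key 1 (one_mul 1) (v + D v) (Y.add_mem hv (hD v hv))
    (by rw [map_add, hDD v hv, one_smul, add_comm])
  have e2 := key (-1) (by ring) (v - D v) (Y.sub_mem hv (hD v hv))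
    (by rw [map_sub, hDD v hv, neg_one_smul, neg_sub])
  rw [two_smul, ← sub_add_cancel (v + v) (D v), show v + v - D v + D v = v + D v + (v - D v) by abel,
    e1, e2, add_zero]

/-- an element which acts trivially -/
theorem Ps.triv (h : Ps g ε t Y) {s₀ : Γ} (hε : ∀ v ∈ Y, ε s₀ • v = v)
    (h0 : ∀ v ∈ Y, g s₀ v = v) (s : Γ) {v : M} (hv : v ∈ Y) : (t (s₀ * s) - t s) • v = 0 := by
  have h1 : g s₀⁻¹ v = v := by
    conv_lhs => rw [← h0 v hv, g_inv]
  rw [sub_smul, ← h.tr _ v hv, ← h.tr _ v hv, mul_inv_rev, g_mul, g_mul, h.mul, h1,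
    h0 _ (h.st s v hv), mul_smul, hε _ (Y.smul_mem _ (h.st _ v hv)), sub_self]

theorem card_le_of {A B : Submodule R M} [Finite Y] (hA : A ≤ Y) (hB : B ≤ Y)
    (h : ∀ v ∈ A, v ∈ B → v = 0) : Nat.card A * Nat.card B ≤ Nat.card Y := by
  rw [← Nat.card_prod]
  refine Nat.card_le_card_of_injective
    (fun q : A × B => (⟨q.1.1 + q.2.1, Y.add_mem (hA q.1.2) (hB q.2.2)⟩ : Y)) fun q q' e => ?_
  have e1 : q.1.1 + q.2.1 = q'.1.1 + q'.2.1 := congrArg Subtype.val e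
  have e2 : q.1.1 - q'.1.1 = q'.2.1 - q.2.1 := by
    rw [sub_eq_sub_iff_add_eq_add, e1, add_comm]
  have e3 := h _ (A.sub_mem q.1.2 q'.1.2) (e2 ▸ B.sub_mem q'.2.2 q.2.2)
  exact Prod.ext (Subtype.ext (sub_eq_zero.1 e3)) (Subtype.ext (sub_eq_zero.1 (e2 ▸ e3)).symm)

theorem card_le_map {A B : Submodule R M} [Finite B] (f : Module.End R M) (hf : ∀ v ∈ A, f v ∈ B)
    (inj : ∀ v ∈ A, f v = 0 → v = 0) : Nat.card A ≤ Nat.card B :=
  Nat.card_le_card_of_injective (fun v : A => (⟨f v, hf v v.2⟩ : B)) fun v w e =>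
    Subtype.ext (sub_eq_zero.1 (inj _ (A.sub_mem v.2 w.2) (by
      rw [map_sub, sub_eq_zero]; exact congrArg Subtype.val e)))

theorem card_le_ker {Z : Submodule R M} [Finite Z] (f : Module.End R M) (hf : ∀ v ∈ Y, f v ∈ Z) :
    Nat.card Y ≤ Nat.card (Y ⊓ LinearMap.ker f : Submodule R M) * Nat.card Z := by
  let φ : Y →+ Z :=
    { toFun := fun v => ⟨f v, hf v v.2⟩
      map_zero' := by simp
      map_add' := fun a b => by simp }
  have e : φ.ker ≃ (Y ⊓ LinearMap.ker f : Submodule R M) :=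
    { toFun := fun v => ⟨v.1.1, v.1.2, congrArg Subtype.val v.2⟩
      invFun := fun v => ⟨⟨v.1, v.2.1⟩, Subtype.ext v.2.2⟩
      left_inv := fun _ => rfl
      right_inv := fun _ => rfl }
  rw [← φ.ker.card_mul_index, AddSubgroup.index_ker, Nat.card_congr e]
  exact Nat.mul_le_mul_left _ (Nat.card_le_card_of_injective _ Subtype.val_injective)

/-- **residue characteristic two, regular Frobenius** -/
theorem Ps.reg [Finite Y] (h : Ps g ε t Y) (h2 : ∀ v ∈ Y, v + v = 0) (hε : ∀ s, ∀ v ∈ Y, ε s • v = v)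
    {φ s : Γ} (hφ : ∀ v ∈ Y, t φ • v = 0 → v = 0)
    (hs : ∀ v ∈ Y, t (φ * s * φ⁻¹ * s⁻¹) • v = 0 → v = 0) (U P : Module.End R M)
    (hU : ∀ v ∈ Y, U v ∈ Y) (hP : ∀ v ∈ Y, P v ∈ Y)
    (hg : ∀ s, ∀ v ∈ Y, U (g s v) = g s (U v)) (hPP : ∀ v ∈ Y, P (P v) = v)
    (hUP : ∀ v ∈ Y, U (P (U v)) = U v) (Z : Submodule R M) (hZ : Z ≤ Y)
    (h1 : ∀ v ∈ Y, g φ v - U v ∈ Z) (h3 : ∀ v ∈ Z, P v ∈ Z → g φ (g φ v) = v) : Y = ⊥ := by
  have ng : ∀ v ∈ Y, -v = v := fun v hv => neg_eq_of_add_eq_zero_left (h2 v hv)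
  have sq : ∀ a, ∀ v ∈ Y, g a (g a v) = t a • g a v - v := fun a v hv => by
    rw [h.sq a hv, hε a v hv]
  have gi : ∀ a v, g a v = 0 → v = 0 := fun a v e => by rw [← g_inv g a v, e, map_zero]
  have fin : ∀ A : Submodule R M, A ≤ Y → Finite A := fun A hA =>
    Finite.of_injective _ (Submodule.inclusion_injective hA)
  -- an element `a` with `t a` injective has no fixed vector of its square
  have nf : ∀ a, (∀ v ∈ Y, t a • v = 0 → v = 0) → ∀ v ∈ Y, g a (g a v) = v → v = 0 := by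
    intro a ha v hv e
    rw [sq a v hv, sub_eq_iff_eq_add, h2 v hv] at e
    exact gi a v (ha _ (h.st a v hv) e)
  let Z' : Submodule R M := Y ⊓ Z.comap P
  let N : Submodule R M := Y ⊓ LinearMap.ker (g φ - U)
  let N' : Submodule R M := Y ⊓ LinearMap.ker (g φ + U - t φ • 1)
  let Y2 : Submodule R M := Y ⊓ LinearMap.ker (U * U - t φ • U + 1)
  have mN : ∀ v, v ∈ N ↔ v ∈ Y ∧ g φ v = U v := fun v => by simp [N, sub_eq_zero]
  have mN' : ∀ v, v ∈ N' ↔ v ∈ Y ∧ g φ v + U v = t φ • v := fun v => by simp [N', sub_eq_zero]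
  have m2 : ∀ v, v ∈ Y2 ↔ v ∈ Y ∧ U (U v) - t φ • U v + v = 0 := fun v => by simp [Y2]
  have := fin Z hZ
  have := fin Z' inf_le_left
  have := fin N' inf_le_left
  have := fin Y2 inf_le_left
  have c1 : Nat.card Z * Nat.card Z' ≤ Nat.card Y := card_le_of hZ inf_le_left fun v hv hv' =>
    nf φ hφ v (hZ hv) (h3 v hv hv'.2)
  have c2 : Nat.card Z ≤ Nat.card Z' := card_le_map P
    (fun v hv => ⟨hP v (hZ hv), by
      change P (P v) ∈ Z
      rwa [hPP v (hZ hv)]⟩) fun v hv e => by rw [← hPP v (hZ hv), e, map_zero]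
  have c3 : Nat.card Y ≤ Nat.card N * Nat.card Z := card_le_ker (g φ - U) h1
  have l1 : N ≤ Y2 := fun v hv => by
    obtain ⟨hv, e⟩ := (mN v).1 hv
    refine (m2 v).2 ⟨hv, ?_⟩
    have : U (U v) = g φ (g φ v) := by rw [← e, hg φ v hv, e]
    rw [this, sq φ v hv, e]
    abel
  have l2 : N' ≤ Y2 := fun v hv => by
    obtain ⟨hv, e⟩ := (mN' v).1 hv
    refine (m2 v).2 ⟨hv, ?_⟩
    have e1 : U v = t φ • v - g φ v := eq_sub_of_add_eq' e
    have : U (U v) = t φ • U v - g φ (U v) := by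
      conv_lhs => rw [e1, map_sub, map_smul, hg φ v hv]
    rw [this, e1, map_sub, map_smul, sq φ v hv]
    abel
  have c4 : Nat.card N * Nat.card N' ≤ Nat.card Y2 := card_le_of l1 l2 fun v hv hv' => by
    obtain ⟨hv, e⟩ := (mN v).1 hv
    have := ((mN' v).1 hv').2
    rw [e, h2 _ (hU v hv)] at this
    exact hφ v hv this.symm
  have c5 : Nat.card N ≤ Nat.card N' := card_le_map (g φ * g s - g s * g φ) (fun v hv => by
    obtain ⟨hv, e⟩ := (mN v).1 hv
    have hs' := h.st s v hv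
    refine (mN' _).2 ⟨Y.sub_mem (h.st _ _ hs') (h.st _ _ (h.st _ v hv)), ?_⟩
    simp only [LinearMap.sub_apply, Module.End.mul_apply, map_sub]
    rw [hg φ _ hs', hg s v hv, hg s _ (h.st φ v hv), hg φ v hv, ← e, sq φ _ hs', sq φ v hv,
      map_sub, map_smul, smul_sub]
    abel) fun v hv e => by
    obtain ⟨hv, -⟩ := (mN v).1 hv
    have hw := h.st s _ (h.st φ v hv)
    have e1 : g (φ * s * φ⁻¹ * s⁻¹) (g s (g φ v)) = g s (g φ v) := by
      rw [g_mul, g_mul, g_mul, g_inv, g_inv]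
      exact sub_eq_zero.1 e
    exact gi φ v (gi s _ (nf _ hs _ hw (by rw [e1, e1])))
  have pos : 0 < Nat.card Y := Nat.card_pos
  have c6 : Nat.card Y ≤ Nat.card Y2 := by
    refine Nat.le_of_mul_le_mul_right (c := Nat.card Y) ?_ pos
    calc Nat.card Y * Nat.card Y ≤ Nat.card N * Nat.card Z * (Nat.card N * Nat.card Z) :=
          Nat.mul_le_mul c3 c3
      _ = Nat.card N * Nat.card N * (Nat.card Z * Nat.card Z) := by ring
      _ ≤ _ := Nat.mul_le_mul ((Nat.mul_le_mul_left _ c5).trans c4)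
          ((Nat.mul_le_mul_left _ c2).trans c1)
  have all : ∀ v ∈ Y, v ∈ Y2 := fun v hv => by
    obtain ⟨w, hw⟩ := ((Submodule.inclusion_injective (inf_le_left : Y2 ≤ Y)).bijective_of_nat_card_le
      c6).2 ⟨v, hv⟩
    have e : w.1 = v := congrArg Subtype.val hw
    exact e ▸ w.2
  have ui : ∀ v ∈ Y, U v = 0 → v = 0 := fun v hv e => by
    simpa [e] using ((m2 v).1 (all v hv)).2
  have pu : ∀ v ∈ Y, U v = P v := fun v hv => by
    have := ui _ (Y.sub_mem (hP _ (hU v hv)) hv) (by rw [map_sub, hUP v hv, sub_self])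
    rw [← hPP _ (hU v hv), sub_eq_zero.1 this]
  refine (Submodule.eq_bot_iff Y).2 fun v hv => ui v hv (hφ _ (hU v hv) ?_)
  have := ((m2 v).1 (all v hv)).2
  rw [pu _ (hU v hv), pu v hv, hPP v hv, sub_add_eq_add_sub, h2 v hv, zero_sub, neg_eq_zero,
    ← pu v hv] at this
  exact this

end Vale.Agent.P022K.WB.Nv
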