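import Vale.Agent.P022K.Glue.Alg

/-!
# P022K, block WB, row NV: trace inequalities for absolutely irreducible representations
-/

set_option autoImplicit false

open Matrix

namespace Vale.Agent.P022K.WB.Nv

open Vale.Agent.P022K.Glue (Spans)

variable {κ Γ : Type*} [Field κ] [Group Γ] {ρ : Γ →* Matrix (Fin 2) (Fin 2) κ}

theorem ex_triple (h : Spans ρ Set.univ) :
    ∃ a b c, (ρ (a * b * c)).trace ≠ (ρ (a * c * b)).trace := by
  by_contra hc
  push Not at hc
  obtain ⟨b, -, hb⟩ := h.irr ![1, 0] (by simp)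
  obtain ⟨c, e⟩ := h.schur (x := ρ b) fun c _ => h.ext fun a _ => by
    rw [trace_mul_comm, trace_mul_comm (ρ c * ρ b), ← mul_assoc, ← mul_assoc, ← map_mul, ← map_mul,
      ← map_mul, ← map_mul, hc]
  refine hb c ?_
  rw [e]
  ext i
  fin_cases i <;> simp [mulVec, dotProduct, Fin.sum_univ_two]

theorem ex_ne (h : Spans ρ Set.univ) {s₀ : Γ} (h0 : ρ s₀ ≠ 1) :
    ∃ s, (ρ (s₀ * s)).trace ≠ (ρ s).trace := by
  by_contra hc
  push Not at hc
  exact h0 (h.ext fun s _ => by rw [← map_mul, hc, one_mul])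

theorem spans_map {K : Type*} [Field K] (f : κ →+* K) (h : Spans ρ Set.univ) :
    Spans (fun s => (ρ s).map f) Set.univ := by
  have h1 : ∀ m : Matrix (Fin 2) (Fin 2) κ,
      m.map f ∈ Submodule.span K ((fun s => (ρ s).map f) '' Set.univ) := fun m => by
    induction h.ge (Submodule.mem_top : m ∈ ⊤) using Submodule.span_induction with
    | mem z hz => obtain ⟨t, ht, rfl⟩ := hz; exact Submodule.subset_span ⟨t, ht, rfl⟩
    | zero => rw [Matrix.map_zero _ (map_zero f)]; exact zero_mem _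
    | add a b _ _ h1 h2 => rw [Matrix.map_add _ (map_add f)]; exact add_mem h1 h2
    | smul c a _ h1 =>
      rw [show (c • a).map f = f c • a.map f by ext; simp]
      exact Submodule.smul_mem _ _ h1
  refine eq_top_iff.2 fun m _ => ?_
  rw [matrix_eq_sum_single m]
  refine sum_mem fun i _ => sum_mem fun j _ => ?_
  rw [show single i j (m i j) = m i j • (single i j (1 : κ)).map f by
    rw [Matrix.map_single _ _ _ f, map_one, smul_single, smul_eq_mul, mul_one]]
  exact Submodule.smul_mem _ _ (h1 _)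

theorem det_ne (s : Γ) : (ρ s).det ≠ 0 :=
  left_ne_zero_of_mul_eq_one (b := (ρ s⁻¹).det) (by
    rw [← det_mul, ← map_mul, mul_inv_cancel, map_one, det_one])

theorem ex_both (h : Spans ρ Set.univ) : ∃ s, ρ s 0 1 ≠ 0 ∧ ρ s 1 0 ≠ 0 := by
  obtain ⟨a, -, ha⟩ := h.irr ![0, 1] (by simp)
  obtain ⟨b, -, hb⟩ := h.irr ![1, 0] (by simp)
  have a1 : ρ a 0 1 ≠ 0 := fun e => ha (ρ a 1 1) (by
    ext i
    fin_cases i <;> simp [mulVec, dotProduct, Fin.sum_univ_two, e])
  have b1 : ρ b 1 0 ≠ 0 := fun e => hb (ρ b 0 0) (by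
    ext i
    fin_cases i <;> simp [mulVec, dotProduct, Fin.sum_univ_two, e])
  by_cases a2 : ρ a 1 0 = 0
  · by_cases b2 : ρ b 0 1 = 0
    · have da := det_ne (ρ := ρ) a
      have db := det_ne (ρ := ρ) b
      rw [det_fin_two, a2, mul_zero, sub_zero] at da
      rw [det_fin_two, b2, zero_mul, sub_zero] at db
      refine ⟨b * a, ?_, ?_⟩ <;> rw [map_mul, mul_apply, Fin.sum_univ_two]
      · rw [b2, zero_mul, add_zero]
        exact mul_ne_zero (left_ne_zero_of_mul db) a1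
      · rw [a2, mul_zero, add_zero]
        exact mul_ne_zero b1 (left_ne_zero_of_mul da)
    · exact ⟨b, b2, b1⟩
  · exact ⟨a, a1, a2⟩

theorem det_comm (φ s : Γ) : (ρ φ * ρ s - ρ s * ρ φ).det =
    (2 - (ρ (φ * s * φ⁻¹ * s⁻¹)).trace) * ((ρ s).det * (ρ φ).det) := by
  have e : ρ φ * ρ s - ρ s * ρ φ = (ρ (φ * s * φ⁻¹ * s⁻¹) - 1) * (ρ s * ρ φ) := by
    rw [sub_mul, one_mul, ← map_mul, ← map_mul, ← map_mul]
    congr 2
    group
  have d : (ρ (φ * s * φ⁻¹ * s⁻¹)).det = 1 := by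
    have h1 : ∀ a, (ρ a).det * (ρ a⁻¹).det = 1 := fun a => by
      rw [← det_mul, ← map_mul, mul_inv_cancel, map_one, det_one]
    simp only [map_mul, det_mul]
    linear_combination (ρ s).det * (ρ s⁻¹).det * h1 φ + h1 s
  rw [e, det_mul, det_mul]
  congr 1
  generalize ρ (φ * s * φ⁻¹ * s⁻¹) = m at d
  rw [det_fin_two] at d
  rw [det_fin_two, trace_fin_two]
  simp
  linear_combination d

theorem ex_comm' [IsAlgClosed κ] (h : Spans ρ Set.univ) {φ : Γ}
    (hφ : (ρ φ).trace ^ 2 ≠ 4 * (ρ φ).det) : ∃ s, (ρ φ * ρ s - ρ s * ρ φ).det ≠ 0 := by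
  obtain ⟨a, ha⟩ := IsAlgClosed.exists_root (Polynomial.X ^ 2 - Polynomial.C (ρ φ).trace *
    Polynomial.X + Polynomial.C (ρ φ).det) (by
      have : (Polynomial.X ^ 2 - Polynomial.C (ρ φ).trace * Polynomial.X +
        Polynomial.C (ρ φ).det : Polynomial κ).degree = 2 := by compute_degree!
      rw [this]
      simp)
  have ha' : a ^ 2 - (ρ φ).trace * a + (ρ φ).det = 0 := by simpa using ha
  obtain ⟨d, hd⟩ : ∃ d, d = (ρ φ).trace - a := ⟨_, rfl⟩
  have hne : a - d ≠ 0 := fun e => hφ (by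
    rw [hd] at e
    linear_combination (-4) * ha' + (2 * a - (ρ φ).trace) * e)
  have ev : ∀ x, x ^ 2 - (ρ φ).trace * x + (ρ φ).det = 0 →
      ∃ u : Fin 2 → κ, u ≠ 0 ∧ ρ φ *ᵥ u = x • u := fun x hx => by
    obtain ⟨u, h0, hu⟩ := (exists_mulVec_eq_zero_iff (M := ρ φ - x • 1)).2 (by
      rw [det_fin_two, trace_fin_two] at hx
      rw [det_fin_two]
      simp
      linear_combination hx)
    refine ⟨u, h0, ?_⟩
    rwa [sub_mulVec, smul_mulVec, one_mulVec, sub_eq_zero] at hu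
  obtain ⟨u, u0, hu⟩ := ev a ha'
  obtain ⟨v, v0, hv⟩ := ev d (by rw [hd]; linear_combination ha')
  let P : Matrix (Fin 2) (Fin 2) κ := !![u 0, v 0; u 1, v 1]
  have hP : ρ φ * P = P * !![a, 0; 0, d] := by
    have h1 := congrFun hu
    have h2 := congrFun hv
    simp only [mulVec, dotProduct, Fin.sum_univ_two, Pi.smul_apply, smul_eq_mul] at h1 h2
    ext i j
    fin_cases i <;> fin_cases j <;> simp [P, mul_apply, Fin.sum_univ_two, h1, h2] <;>
      exact mul_comm _ _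
  have dP : P.det ≠ 0 := fun e => by
    obtain ⟨w, w0, hw⟩ := exists_mulVec_eq_zero_iff.2 e
    have h1 : w 0 • u + w 1 • v = 0 := by
      rw [← hw]
      ext i
      fin_cases i <;> simp [P, mulVec, dotProduct, Fin.sum_univ_two] <;> ring
    have h2 := congrArg (ρ φ *ᵥ ·) h1
    simp only [mulVec_add, mulVec_smul, hu, hv, mulVec_zero] at h2
    have h3 : ((a - d) * w 0) • u = 0 := by
      linear_combination (norm := module) h2 - d • h1
    have h4 : ((a - d) * w 1) • v = 0 := by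
      linear_combination (norm := module) a • h1 - h2
    refine w0 (funext fun i => ?_)
    fin_cases i
    · exact (mul_eq_zero.1 ((smul_eq_zero.1 h3).resolve_right u0)).resolve_left hne
    · exact (mul_eq_zero.1 ((smul_eq_zero.1 h4).resolve_right v0)).resolve_left hne
  have p1 : P * P⁻¹ = 1 := mul_nonsing_inv _ dP.isUnit
  have p2 : P⁻¹ * P = 1 := nonsing_inv_mul _ dP.isUnit
  let ρ' : Γ →* Matrix (Fin 2) (Fin 2) κ :=
    { toFun := fun s => P⁻¹ * ρ s * P
      map_one' := by rw [map_one, mul_one, p2]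
      map_mul' := fun s t => by
        rw [map_mul, mul_assoc (P⁻¹ * ρ s) P, ← mul_assoc P, ← mul_assoc P, p1, one_mul]
        simp only [mul_assoc] }
  have h' : Spans ρ' Set.univ := Glue.spans_of_trace h fun x => (Glue.trace_conj p1 _).symm
  obtain ⟨s, h1, h2⟩ := ex_both h'
  have e1 : ρ' φ = !![a, 0; 0, d] := by
    change P⁻¹ * ρ φ * P = _
    rw [mul_assoc, hP, ← mul_assoc, p2, one_mul]
  have e2 : ρ' φ * ρ' s - ρ' s * ρ' φ = P⁻¹ * (ρ φ * ρ s - ρ s * ρ φ) * P := by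
    rw [← map_mul, ← map_mul, ← map_mul, ← map_mul, mul_sub, sub_mul]
    rfl
  refine ⟨s, fun e => ?_⟩
  have e3 := congrArg det e2
  rw [det_mul, det_mul, e, mul_zero, zero_mul, e1, det_fin_two] at e3
  simp [mul_apply, Fin.sum_univ_two, vecMul, dotProduct] at e3
  exact mul_ne_zero (mul_ne_zero h1 h2) (pow_ne_zero 2 hne) (by linear_combination e3)

theorem ex_comm (h : Spans ρ Set.univ) {φ : Γ} (hφ : (ρ φ).trace ^ 2 ≠ 4 * (ρ φ).det) :
    ∃ s, (ρ (φ * s * φ⁻¹ * s⁻¹)).trace ≠ 2 := by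
  let f := algebraMap κ (AlgebraicClosure κ)
  let ρ' : Γ →* Matrix (Fin 2) (Fin 2) (AlgebraicClosure κ) := f.mapMatrix.toMonoidHom.comp ρ
  have e1 : ∀ s, (ρ' s).trace = f (ρ s).trace := fun s => (AddMonoidHom.map_trace f _).symm
  have e2 : ∀ s, (ρ' s).det = f (ρ s).det := fun s => (f.map_det _).symm
  obtain ⟨s, hs⟩ := ex_comm' (ρ := ρ') (spans_map f h) (φ := φ) fun e => hφ (f.injective (by
    rw [map_pow, map_mul, ← e1, ← e2, e, map_ofNat]))
  refine ⟨s, fun e => hs ?_⟩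
  rw [det_comm, e1, e, map_ofNat, sub_self, zero_mul]

end Vale.Agent.P022K.WB.Nv
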