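import Vale.Agent.P022K.WB.Sw1
import Vale.Agent.P022K.WB.Nv4
import Vale.Agent.P022K.WB.Nv4m

/-!
# P022K, block WB, row NV: from the geometric identities to the vanishing of the socle
-/

set_option autoImplicit false

noncomputable section

namespace Vale.Agent.P022K.WB.Nv

open Vale.Agent.P022K.Glue (Spans)

variable {p : ℕ} [hp : Fact p.Prime] {R M Γ : Type*} [CommRing R] [AddCommGroup M] [Module R M]
  [Group Γ]

/-- the invariants killed by `p` -/
def Kp (ρ : Representation R (G2 p) M) (K : Set M) : Set M :=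
  {v | v ∈ K ∧ p • v = 0 ∧ v ∈ Fx ρ (I1 p)}

/-- **the output of the geometry** for the classes in `K` -/
structure Geo (ρ : Representation R (G2 p) M) (g : Representation R Γ M) (χ : Γ → ℤ_[p])
    (In Fr : Set Γ) (K : Set M) : Prop where
  odd : p ≠ 2 → ∃ (s₀ : Γ) (c : ℤˣ), (p : ℤ_[p]) ∣ χ s₀ + 1 ∧
    ∀ v ∈ Kp ρ K, g s₀ v = (c : ℤ) • ρ (dd (-1) 1) v
  ine : p = 2 → ∀ s ∈ In, ∀ v ∈ Kp ρ K, g s v = v
  frb : p = 2 → ∃ φ : Γ, (φ ∈ Fr ∨ φ⁻¹ ∈ Fr) ∧ ∃ (Z : AddSubgroup M) (U : Module.End R M),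
    (U = Uo ρ ∨ U = ρ (PP p) * So ρ ∨ U = ρ (PP p) * (1 + So ρ) ∨ U = (1 + So ρ) * ρ (PP p)) ∧
      (∀ v ∈ Kp ρ K, g φ v - U v ∈ Z) ∧
      ∀ v ∈ Kp ρ K, v ∈ Z → ρ (PP p) v ∈ Z → g φ (g φ v) = v

variable {ρ : Representation R (G2 p) M} {g : Representation R Γ M} {χ : Γ → ℤ_[p]}
  {In Fr : Set Γ} {K : Set M}

/-- change of the module along a separating family of equivariant maps -/
theorem Geo.of_coord (h : Geo ρ g χ In Fr K) {R' M' ι : Type*} [CommRing R'] [AddCommGroup M']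
    [Module R' M'] {ρ' : Representation R' (G2 p) M'} {g' : Representation R' Γ M'} {K' : Set M'}
    (c : ι → M' →+ M) (inj : ∀ v, (∀ i, c i v = 0) → v = 0)
    (hρ : ∀ i x v, c i (ρ' x v) = ρ x (c i v)) (hg : ∀ i s v, c i (g' s v) = g s (c i v))
    (hK : ∀ v ∈ K', ∀ i, c i v ∈ K) : Geo ρ' g' χ In Fr K' := by
  have kp : ∀ v ∈ Kp ρ' K', ∀ i, c i v ∈ Kp ρ K := fun v hv i =>
    ⟨hK v hv.1 i, by rw [← map_nsmul, hv.2.1, map_zero], fun x hx => by rw [← hρ, hv.2.2 x hx]⟩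
  have ext : ∀ v w, (∀ i, c i v = c i w) → v = w := fun v w e =>
    sub_eq_zero.1 (inj _ fun i => by rw [map_sub, e, sub_self])
  refine ⟨fun h2 => ?_, fun h2 s hs v hv => ext _ _ fun i => by rw [hg, h.ine h2 s hs _ (kp v hv i)],
    fun h2 => ?_⟩
  · obtain ⟨s, c', h1, h3⟩ := h.odd h2
    exact ⟨s, c', h1, fun v hv => ext _ _ fun i => by rw [hg, h3 _ (kp v hv i), map_zsmul, hρ]⟩
  · obtain ⟨φ, h1, Z, U, hU, h3, h4⟩ := h.frb h2
    obtain ⟨U', hU', e⟩ : ∃ U' : Module.End R' M', (U' = Uo ρ' ∨ U' = ρ' (PP p) * So ρ' ∨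
        U' = ρ' (PP p) * (1 + So ρ') ∨ U' = (1 + So ρ') * ρ' (PP p)) ∧
        ∀ i v, c i (U' v) = U (c i v) := by
      rcases hU with rfl | rfl | rfl | rfl
      · exact ⟨_, Or.inl rfl, fun i v => by simp only [Uo_apply, map_sum, hρ]⟩
      · exact ⟨_, Or.inr (Or.inl rfl), fun i v => by
          simp only [Module.End.mul_apply, So_apply, map_sum, hρ]⟩
      · exact ⟨_, Or.inr (Or.inr (Or.inl rfl)), fun i v => by
          simp only [Module.End.mul_apply, LinearMap.add_apply, Module.End.one_apply, So_apply,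
            map_add, map_sum, hρ]⟩
      · exact ⟨_, Or.inr (Or.inr (Or.inr rfl)), fun i v => by
          simp only [Module.End.mul_apply, LinearMap.add_apply, Module.End.one_apply, So_apply,
            map_add, map_sum, hρ]⟩
    refine ⟨φ, h1, ⨅ i, Z.comap (c i), U', hU', fun v hv => AddSubgroup.mem_iInf.2 fun i => ?_,
      fun v hv a b => ext _ _ fun i => ?_⟩
    · rw [AddSubgroup.mem_comap, map_sub, hg, e]
      exact h3 _ (kp v hv i)
    · rw [hg, hg]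
      exact h4 _ (kp v hv i) (AddSubgroup.mem_iInf.1 a i) (hρ i _ v ▸ AddSubgroup.mem_iInf.1 b i)

theorem Geo.mono (h : Geo ρ g χ In Fr K) {K' : Set M} (le : K' ⊆ K) : Geo ρ g χ In Fr K' :=
  h.of_coord (fun _ : Unit => AddMonoidHom.id M) (fun _ e => e ()) (fun _ _ _ => rfl)
    (fun _ _ _ => rfl) fun _ hv _ => le hv

theorem So_two {ρ : Representation R (G2 2) M} (v : M) :
    So ρ v = ρ (ww 2) v + ρ (nn 1) (ρ (ww 2) v) := by
  have e : ρ (nn ((0 : ℕ) : ℚ_[2]) * ww 2) v + ρ (nn ((1 : ℕ) : ℚ_[2]) * ww 2) v =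
      ρ (ww 2) v + ρ (nn 1) (ρ (ww 2) v) := by
    rw [Nat.cast_zero, Nat.cast_one, nn_zero, one_mul, rho_mul]
  rw [So_apply]
  exact (Fin.sum_univ_two (fun x : ZMod 2 => ρ (nn (x.val : ℚ_[2]) * ww 2) v)).trans e

theorem So_So {ρ : Representation R (G2 2) M} {v : M} (hv : v ∈ Fx ρ (I1 2)) (h2 : v + v = 0) :
    So ρ (So ρ v) = So ρ v := by
  have n2 : ‖(2 : ℚ_[2])‖ < 1 := by exact_mod_cast Padic.norm_p_lt_one (p := 2)
  have e1 : ww 2 * nn 1 * ww 2 = nn 1 * ww 2 * mk 1 1 0 (-1) (by simp) := G2_ext (by simp)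
  have m1 : mk (p := 2) 1 1 0 (-1) (by simp) ∈ I1 2 := by
    refine mem_I1.2 ⟨by simp, by simp, by simp, ?_⟩
    simpa [show (-1 - 1 : ℚ_[2]) = -2 by norm_num] using n2
  have e2 : ρ (ww 2) (So ρ v) = v + ρ (nn 1) (ρ (ww 2) v) := by
    rw [So_two, map_add, ← rho_mul, ww_ww, map_one, ← rho_mul, ← rho_mul, e1, rho_mul, hv _ m1,
      rho_mul]
    rfl
  have e3 : ρ (nn 1) (ρ (nn 1) (ρ (ww 2) v)) = ρ (ww 2) v := by
    rw [← rho_mul, ← nn_add, ← rho_mul, ← ww_nl, rho_mul, hv _ (nl_I1 (by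
      rwa [one_add_one_eq_two]))]
  rw [So_two (So ρ v), e2, map_add, e3, hv _ (nn_I1 (by simp)), So_two, add_add_add_comm, h2,
    zero_add, add_comm]

theorem two_dvd (x : ℤ_[2]) : ((2 : ℕ) : ℤ_[2]) ∣ x ∨ ((2 : ℕ) : ℤ_[2]) ∣ x - 1 := by
  have key : ∀ y : ℤ_[2], PadicInt.toZMod y = 0 → ((2 : ℕ) : ℤ_[2]) ∣ y := fun y hy => by
    rwa [← RingHom.mem_ker, PadicInt.ker_toZMod, PadicInt.maximalIdeal_eq_span_p,
      Ideal.mem_span_singleton] at hy
  have : ∀ z : ZMod 2, z = 0 ∨ z = 1 := by decide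
  exact (this (PadicInt.toZMod x)).imp (key x) fun e => key _ (by rw [map_sub, e, map_one, sub_self])

/-- **the socle vanishes** -/
theorem Geo.bot [Algebra ℤ_[p] R] (h : Geo ρ g χ In Fr K) (cen : ∀ a v, ρ (dd a a) v = v)
    (com : ∀ x s, Commute (ρ x) (g s)) {t : Γ → R} {P : Submodule R M} (hP : Gs ρ P)
    (ps : Ps g (fun s => algebraMap ℤ_[p] R (χ s)) t P) (hK : (P : Set M) ⊆ K) {κ : Type*} [Field κ]
    (π : R →+* κ) (hπ : ∀ o, π o = 0 → ∀ v ∈ P, o • v = 0) (hu : ∀ o, π o ≠ 0 → IsUnit o)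
    (h0 : (p : κ) = 0) {r : Γ →* Matrix (Fin 2) (Fin 2) κ} (sp : Spans r Set.univ)
    (ht : ∀ s, π (t s) = (r s).trace) (hd : ∀ s, π (algebraMap ℤ_[p] R (χ s)) = (r s).det)
    (fin : {v | v ∈ P ∧ v ∈ Fx ρ (I1 p)}.Finite)
    (h2 : p = 2 → (∃ s ∈ In, r s ≠ 1) ∨ ∀ φ ∈ Fr, (r φ).trace ≠ 0) :
    ∀ v ∈ P, v ∈ Fx ρ (I1 p) → v = 0 := by
  let Y : Submodule R M := P ⊓ Fx ρ (I1 p)
  have cm : ∀ x s v, ρ x (g s v) = g s (ρ x v) := fun x s v => LinearMap.congr_fun (com x s).eq v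
  have py : Ps g (fun s => algebraMap ℤ_[p] R (χ s)) t Y := ps.mono inf_le_left fun s v hv =>
    ⟨ps.st s v hv.1, fun x hx => by rw [cm, hv.2 x hx]⟩
  have tor : ∀ v ∈ P, p • v = 0 := fun v hv => by
    rw [← Nat.cast_smul_eq_nsmul R]
    exact hπ _ (by rw [map_natCast, h0]) v hv
  have kp : ∀ v ∈ Y, v ∈ Kp ρ K := fun v hv => ⟨hK hv.1, tor v hv.1, hv.2⟩
  have ui : ∀ o, π o ≠ 0 → ∀ v ∈ Y, o • v = 0 → v = 0 := fun o ho v _ e =>
    (hu o ho).smul_eq_zero.1 e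
  have dv : ∀ x : ℤ_[p], (p : ℤ_[p]) ∣ x → π (algebraMap ℤ_[p] R x) = 0 := by
    rintro _ ⟨y, rfl⟩
    rw [map_mul, map_mul, map_natCast, map_natCast, h0, zero_mul]
  suffices Y = ⊥ from fun v hv hv' => (Submodule.eq_bot_iff Y).1 this v ⟨hv, hv'⟩
  by_cases p2 : p = 2
  · subst p2
    have two : ∀ v ∈ Y, v + v = 0 := fun v hv => by rw [← two_nsmul]; exact tor v hv.1
    have d1 : ∀ s, π (algebraMap ℤ_[2] R (χ s) - 1) = 0 := fun s => by
      rcases two_dvd (χ s) with e | e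
      · exact absurd ((hd s).symm.trans (dv _ e)) (det_ne s)
      · simpa using dv _ e
    have hε : ∀ s, ∀ v ∈ Y, algebraMap ℤ_[2] R (χ s) • v = v := fun s v hv => by
      have := hπ _ (d1 s) v hv.1
      rwa [sub_smul, one_smul, sub_eq_zero] at this
    rcases h2 rfl with ⟨s₀, hs, h1⟩ | h1
    · obtain ⟨s, h3⟩ := ex_ne sp h1
      exact (Submodule.eq_bot_iff Y).2 fun v hv => ui _ (by rwa [map_sub, ht, ht, sub_ne_zero]) v hv
        (py.triv (hε s₀) (fun v hv => h.ine rfl s₀ hs v (kp v hv)) s hv)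
    obtain ⟨φ, hφ, Z, U, hU, h3, h4⟩ := h.frb rfl
    have k2 : (2 : κ) = 0 := by exact_mod_cast h0
    have dt : ∀ s, (r s).det = 1 := fun s => by
      have := d1 s
      rwa [map_sub, hd, map_one, sub_eq_zero] at this
    have tφ : (r φ).trace ≠ 0 := by
      rcases hφ with e | e
      · exact h1 φ e
      · have e1 : r φ⁻¹ = (r φ).adjugate := by
          have := Matrix.mul_adjugate (r φ)
          rw [dt, one_smul] at this
          rw [← mul_one (r φ⁻¹), ← this, ← mul_assoc, ← map_mul, inv_mul_cancel, map_one, one_mul]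
        have := h1 _ e
        rw [e1, Matrix.adjugate_fin_two, Matrix.trace_fin_two] at this
        rw [Matrix.trace_fin_two, add_comm]
        simpa using this
    obtain ⟨s, hs⟩ := ex_comm sp (φ := φ) (by
      rw [show (4 : κ) = 2 * 2 by norm_num, k2, zero_mul, zero_mul]
      exact pow_ne_zero 2 tφ)
    have pp : ∀ v, ρ (PP 2) (ρ (PP 2) v) = v := fun v => by rw [← rho_mul, PP_PP, zz, cen]
    have mP : ∀ v ∈ Y, ρ (PP 2) v ∈ Y := fun v hv => ⟨hP _ v hv.1, PP_Fx hv.2⟩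
    have mS : ∀ v ∈ Y, So ρ v ∈ Y := fun v hv =>
      ⟨by rw [So_apply]; exact sum_mem fun x _ => hP _ v hv.1, So_Fx hv.2⟩
    have cS : ∀ s v, So ρ (g s v) = g s (So ρ v) := fun s v => by
      simp only [So_apply, map_sum, cm]
    have hU' : (∀ v ∈ Y, U v ∈ Y) ∧ (∀ s, ∀ v ∈ Y, U (g s v) = g s (U v)) ∧
        ∀ v ∈ Y, U (ρ (PP 2) (U v)) = U v := by
      have tS : ∀ v ∈ Y, v + So ρ v + So ρ (v + So ρ v) = v + So ρ v := fun v hv => by
        rw [map_add, So_So hv.2 (two v hv), two _ (mS v hv), add_zero]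
      rcases hU with rfl | rfl | rfl | rfl
      · exact ⟨fun v hv => by rw [Uo_eq]; exact mS _ (mP v hv),
          fun s v _ => by rw [Uo_eq, Uo_eq, cm, cS], fun v hv => by
            rw [Uo_eq, Uo_eq, pp, So_So (mP v hv).2 (two _ (mP v hv))]⟩
      · exact ⟨fun v hv => mP _ (mS v hv),
          fun s v _ => by simp only [Module.End.mul_apply, cm, cS], fun v hv => by
            simp only [Module.End.mul_apply]
            rw [pp, So_So hv.2 (two v hv)]⟩
      · exact ⟨fun v hv => mP _ (add_mem hv (mS v hv)), fun s v _ => by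
          simp only [Module.End.mul_apply, LinearMap.add_apply, Module.End.one_apply, map_add, cm,
            cS], fun v hv => by
          simp only [Module.End.mul_apply, LinearMap.add_apply, Module.End.one_apply]
          rw [pp, tS v hv]⟩
      · exact ⟨fun v hv => add_mem (mP v hv) (mS _ (mP v hv)), fun s v _ => by
          simp only [Module.End.mul_apply, LinearMap.add_apply, Module.End.one_apply, map_add, cm,
            cS], fun v hv => by
          simp only [Module.End.mul_apply, LinearMap.add_apply, Module.End.one_apply]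
          rw [pp, tS _ (mP v hv)]⟩
    let Z' : Submodule R M :=
      { carrier := {v | v ∈ Y ∧ ∀ o : R, o • v ∈ Z}
        add_mem' := fun a b => ⟨add_mem a.1 b.1, fun o => by
          rw [smul_add]; exact add_mem (a.2 o) (b.2 o)⟩
        zero_mem' := ⟨zero_mem _, fun o => by rw [smul_zero]; exact zero_mem _⟩
        smul_mem' := fun c v a => ⟨Y.smul_mem c a.1, fun o => by rw [smul_smul]; exact a.2 _⟩ }
    have : Finite Y := fin.to_subtype
    refine py.reg two hε (ui _ (by rwa [ht])) (ui _ (by rwa [ht, ← k2])) U (ρ (PP 2)) hU'.1 mP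
      hU'.2.1 (fun v _ => pp v) hU'.2.2 Z' (fun v hv => hv.1) (fun v hv =>
        ⟨sub_mem (py.st φ v hv) (hU'.1 v hv), fun o => ?_⟩) fun v hv hv' =>
      h4 v (kp v hv.1) (by simpa using hv.2 1) (by simpa using hv'.2 1)
    rw [smul_sub, ← map_smul, ← map_smul]
    exact h3 _ (kp _ (Y.smul_mem o hv))
  · obtain ⟨s₀, c, h1, h3⟩ := h.odd p2
    obtain ⟨a, b, d, h4⟩ := ex_triple sp
    have k2 : (2 : κ) ≠ 0 := fun e => p2 (by
      have := (CharP.charP_iff_prime_eq_zero hp.out).2 h0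
      exact (Nat.prime_dvd_prime_iff_eq hp.out Nat.prime_two).1
        ((CharP.cast_eq_zero_iff κ p 2).1 (by exact_mod_cast e)))
    have n1 : ‖((-1 : ℚ_[p]ˣ) : ℚ_[p])‖ = 1 := by simp
    refine py.odd (ui 2 (by rwa [map_ofNat])) (s₀ := s₀) (fun v hv => ?_)
      ((c : ℤ) • ρ (dd (-1) 1)) (fun v hv => ?_) (fun s v _ => ?_) (fun v _ => ?_)
      (fun v hv => ⟨1, ?_⟩) (a := a) (b := b) (c := d) (ui _ (by rwa [map_sub, ht, ht, sub_ne_zero]))
    · have := hπ _ (dv _ h1) v hv.1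
      rwa [map_add, map_one, add_smul, one_smul, add_eq_zero_iff_eq_neg] at this
    · exact zsmul_mem (⟨hP _ v hv.1, dd_Fx n1 (by simp) hv.2⟩ : _ ∈ Y) _
    · simp only [LinearMap.smul_apply, map_zsmul, cm]
    · simp only [LinearMap.smul_apply, map_zsmul]
      rw [← rho_mul, ← dd_mul, smul_smul, ← Units.val_mul, Int.units_mul_self]
      simp
    · rw [pow_one, LinearMap.sub_apply, h3 v (kp v hv), LinearMap.smul_apply, sub_self]

end Vale.Agent.P022K.WB.Nv
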