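import Vale.Agent.P027M.I.Node
import Vale.Agent.P025.R2.H992.Pair3

/-!
# P022K, block WB, row NV: functions near `p`-th powers (`p` the residue characteristic)
-/

set_option linter.all false

noncomputable section

open IntermediateField Vale.Agent.P019P P025H746 P025H492 Module

namespace Vale.Agent.P022K.WB.Nv

open Vale.Agent.P027M.I

variable {C : Type} [NontriviallyNormedField C] [IsUltrametricDist C] [IsAlgClosed C]

/-- `ζ` is a primitive `p`-th root of unity, `p` the residue characteristic -/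
structure PZ (p : ℕ) (ζ : C) : Prop where
  hp : p.Prime
  lt : ‖(p : C)‖ < 1
  prim : IsPrimitiveRoot ζ p

variable {p : ℕ} {ζ : C}

theorem norm_pow_sub_le {μ : C} (h : ‖μ‖ ≤ 1) (n : ℕ) : ‖μ ^ n - 1‖ ≤ ‖μ - 1‖ := by
  induction n with
  | zero => simp
  | succ n ih =>
    rw [show μ ^ (n + 1) - 1 = μ * (μ ^ n - 1) + (μ - 1) by ring]
    refine (IsUltrametricDist.norm_add_le_max _ _).trans (max_le ?_ le_rfl)
    rw [norm_mul]
    exact (mul_le_of_le_one_left (norm_nonneg _) h).trans ih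

theorem PZ.norm_one (h : PZ p ζ) : ‖ζ‖ = 1 := Node.norm_root h.hp.ne_zero h.prim.pow_eq_one

theorem PZ.exists_pow (h : PZ p ζ) {μ : C} (hμ : μ ^ p = 1) : ∃ i, ζ ^ i = μ := by
  haveI : NeZero p := ⟨h.hp.ne_zero⟩
  obtain ⟨i, -, hi⟩ := h.prim.eq_pow_of_pow_eq_one hμ
  exact ⟨i, hi⟩

theorem PZ.of_ne (h : PZ p ζ) {μ : C} (hμ : μ ^ p = 1) (h1 : μ ≠ 1) : PZ p μ := by
  haveI := Fact.mk h.hp
  refine ⟨h.hp, h.lt, ?_⟩
  rw [← orderOf_eq_prime hμ h1]
  exact IsPrimitiveRoot.orderOf μ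

theorem PZ.norm_eq (h : PZ p ζ) {μ : C} (hμ : μ ^ p = 1) (h1 : μ ≠ 1) : ‖μ - 1‖ = ‖ζ - 1‖ := by
  obtain ⟨i, hi⟩ := h.exists_pow hμ
  obtain ⟨j, hj⟩ := (h.of_ne hμ h1).exists_pow h.prim.pow_eq_one
  refine le_antisymm ?_ ?_
  · rw [← hi]; exact norm_pow_sub_le h.norm_one.le i
  · rw [← hj]; exact norm_pow_sub_le (h.of_ne hμ h1).norm_one.le j

theorem PZ.pow_eq (h : PZ p ζ) : ‖ζ - 1‖ ^ (p - 1) = ‖(p : C)‖ := by
  obtain ⟨n, rfl⟩ : ∃ n, p = n + 1 := ⟨p - 1, (Nat.sub_add_cancel h.hp.one_le).symm⟩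
  have h1 := congrArg norm h.prim.prod_one_sub_pow_eq_order
  rw [norm_prod, Finset.prod_congr rfl (g := fun _ => ‖ζ - 1‖) fun k hk => by
    rw [norm_sub_rev]
    refine h.norm_eq (by rw [← pow_mul, mul_comm, pow_mul, h.prim.pow_eq_one, one_pow]) ?_
    exact h.prim.pow_ne_one_of_pos_of_lt (by omega) (by have := Finset.mem_range.1 hk; omega),
    Finset.prod_const, Finset.card_range] at h1
  simpa using h1

theorem PZ.pos (h : PZ p ζ) : 0 < ‖ζ - 1‖ :=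
  norm_pos_iff.2 (sub_ne_zero.2 (h.prim.ne_one h.hp.one_lt))

theorem PZ.ne (h : PZ p ζ) : (p : C) ≠ 0 := by
  rw [← norm_pos_iff, ← h.pow_eq]
  exact pow_pos h.pos _

theorem PZ.lt_one (h : PZ p ζ) : ‖ζ - 1‖ < 1 := by
  by_contra h1
  have := one_le_pow₀ (not_lt.1 h1) (n := p - 1)
  rw [h.pow_eq] at this
  exact absurd h.lt (not_lt.2 this)

theorem PZ.pos' (h : PZ p ζ) : 0 < ‖ζ - 1‖ ^ p := pow_pos h.pos _

theorem PZ.lt_one' (h : PZ p ζ) : ‖ζ - 1‖ ^ p < 1 := pow_lt_one₀ h.pos.le h.lt_one h.hp.ne_zero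

theorem PZ.mul_eq (h : PZ p ζ) : ‖(p : C)‖ * ‖ζ - 1‖ = ‖ζ - 1‖ ^ p := by
  rw [← h.pow_eq, ← pow_succ, Nat.sub_add_cancel h.hp.one_le]

variable {K K' : Type} [Field K] [Algebra C K] [Field K'] [Algebra C K'] {w : NV C K}
  {w' : NV C K'} {f f' : K}

/-- `f` is a `p`-th power in the completion -/
def Sp (p : ℕ) (ζ : C) (w : NV C K) (f : K) : Prop := ∃ z : K, w (f * z ^ p - 1) < ‖ζ - 1‖ ^ p

/-- the cover given by the `p`-th root of `f` has a separable reduction -/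
def Nr (p : ℕ) (ζ : C) (w : NV C K) (f : K) : Prop := ∃ z : K, w (f * z ^ p - 1) ≤ ‖ζ - 1‖ ^ p

theorem eq_one {x : K} (h : w (x - 1) < 1) : w x = 1 := by
  obtain ⟨h1, h2⟩ := Node.eq_one_of_sub h
  refine h1.antisymm (not_lt.1 fun h3 => ?_)
  rw [NV.red_of_lt h3] at h2
  exact zero_ne_one h2

theorem ne_zero_of {x : K} (h : w (x - 1) < 1) : x ≠ 0 := by
  rintro rfl
  have := eq_one h
  rw [map_zero] at this
  exact zero_ne_one this

theorem mul_sub_le {x y : K} {r : ℝ} (hx : w (x - 1) ≤ r) (hy : w (y - 1) ≤ r) (h1 : w y ≤ 1) :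
    w (x * y - 1) ≤ r := by
  rw [show x * y - 1 = (x - 1) * y + (y - 1) by ring]
  refine NV.add_le ?_ hy
  rw [map_mul]
  exact (mul_le_of_le_one_right (w.av.nonneg _) h1).trans hx

theorem mul_sub_lt {x y : K} {r : ℝ} (hx : w (x - 1) < r) (hy : w (y - 1) < r) (h1 : w y ≤ 1) :
    w (x * y - 1) < r :=
  (mul_sub_le (le_max_left _ _) (le_max_right _ _) h1).trans_lt (max_lt hx hy)

theorem inv_sub_eq {x : K} (hx : w (x - 1) < 1) : w (x⁻¹ - 1) = w (x - 1) := by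
  have h0 := ne_zero_of hx
  rw [show x⁻¹ - 1 = -(x - 1) * x⁻¹ by field_simp; ring, map_mul, NV.map_neg', map_inv₀, eq_one hx,
    inv_one, mul_one]

theorem pow_sub_le (h : PZ p ζ) {u : K} (hu : w (u - 1) ≤ 1) :
    w (u ^ p - 1) ≤ max (w (u - 1) ^ p) (‖(p : C)‖ * w (u - 1)) := by
  obtain ⟨s, hs, e⟩ := P025H992.add_pow_ring w h.hp (x := u - 1) (y := 1) hu (by simp)
  rw [sub_add_cancel, one_pow, mul_one] at e
  rw [show u ^ p - 1 = (u - 1) ^ p + p * (u - 1) * s by rw [e]; ring]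
  refine NV.add_le (by rw [map_pow]; exact le_max_left _ _) (le_trans ?_ (le_max_right _ _))
  rw [map_mul, map_mul, P025H992.nv_natCast]
  exact mul_le_of_le_one_right (mul_nonneg (norm_nonneg _) (w.av.nonneg _)) hs

theorem pow_sub_lt (h : PZ p ζ) {u : K} (hu : w (u - 1) < ‖ζ - 1‖) :
    w (u ^ p - 1) < ‖ζ - 1‖ ^ p := by
  refine (pow_sub_le h (hu.trans h.lt_one).le).trans_lt (max_lt ?_ ?_)
  · exact pow_lt_pow_left₀ hu (w.av.nonneg _) h.hp.ne_zero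
  · rw [← h.mul_eq]
    exact mul_lt_mul_of_pos_left hu (norm_pos_iff.2 h.ne)

theorem root_near (h : PZ p ζ) {u : K} (hu : w (u ^ p - 1) < ‖ζ - 1‖ ^ p) :
    ∃ j : ℕ, w (u - algebraMap C K (ζ ^ j)) < ‖ζ - 1‖ := by
  by_contra hc
  push Not at hc
  have h1 := congrArg (Polynomial.eval u) (X_pow_sub_C_eq_prod
    (h.prim.map_of_injective (algebraMap C K).injective) h.hp.pos (one_pow p))
  simp only [Polynomial.eval_sub, Polynomial.eval_pow, Polynomial.eval_X, Polynomial.eval_C,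
    Polynomial.eval_prod, mul_one] at h1
  rw [h1, map_prod] at hu
  refine absurd hu (not_lt.2 ?_)
  calc ‖ζ - 1‖ ^ p = ∏ _i ∈ Finset.range p, ‖ζ - 1‖ := by simp
    _ ≤ _ := Finset.prod_le_prod (fun _ _ => norm_nonneg _) fun i _ => by
      rw [← map_pow]; exact hc i

theorem Sp.nr (hf : Sp p ζ w f) : Nr p ζ w f := hf.imp fun _ h => h.le

theorem Nr.ne (h : PZ p ζ) (hf : Nr p ζ w f) : f ≠ 0 := by
  obtain ⟨z, hz⟩ := hf
  exact left_ne_zero_of_mul (ne_zero_of (hz.trans_lt h.lt_one'))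

theorem Sp.mul (h : PZ p ζ) (hf : Sp p ζ w f) (hf' : Sp p ζ w f') : Sp p ζ w (f * f') := by
  obtain ⟨z, hz⟩ := hf
  obtain ⟨z', hz'⟩ := hf'
  refine ⟨z * z', ?_⟩
  rw [show f * f' * (z * z') ^ p = f * z ^ p * (f' * z' ^ p) by ring]
  exact mul_sub_lt hz hz' (eq_one (hz'.trans h.lt_one')).le

theorem Nr.mul (h : PZ p ζ) (hf : Nr p ζ w f) (hf' : Nr p ζ w f') : Nr p ζ w (f * f') := by
  obtain ⟨z, hz⟩ := hf
  obtain ⟨z', hz'⟩ := hf'
  refine ⟨z * z', ?_⟩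
  rw [show f * f' * (z * z') ^ p = f * z ^ p * (f' * z' ^ p) by ring]
  exact mul_sub_le hz hz' (eq_one (hz'.trans_lt h.lt_one')).le

theorem Sp.inv (h : PZ p ζ) (hf : Sp p ζ w f) : Sp p ζ w f⁻¹ := by
  obtain ⟨z, hz⟩ := hf
  refine ⟨z⁻¹, ?_⟩
  rw [inv_pow, ← mul_inv, inv_sub_eq (hz.trans h.lt_one')]
  exact hz

theorem Nr.inv (h : PZ p ζ) (hf : Nr p ζ w f) : Nr p ζ w f⁻¹ := by
  obtain ⟨z, hz⟩ := hf
  refine ⟨z⁻¹, ?_⟩
  rw [inv_pow, ← mul_inv, inv_sub_eq (hz.trans_lt h.lt_one')]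
  exact hz

theorem Sp.div (h : PZ p ζ) (hf : Sp p ζ w f) (hf' : Sp p ζ w f') : Sp p ζ w (f / f') := by
  rw [div_eq_mul_inv]; exact hf.mul h (hf'.inv h)

theorem Nr.div (h : PZ p ζ) (hf : Nr p ζ w f) (hf' : Nr p ζ w f') : Nr p ζ w (f / f') := by
  rw [div_eq_mul_inv]; exact hf.mul h (hf'.inv h)

theorem Sp.of_pow (h : PZ p ζ) {z : K} (hz : z ≠ 0) : Sp p ζ w (z ^ p) :=
  ⟨z⁻¹, by rw [← mul_pow, mul_inv_cancel₀ hz, one_pow, sub_self, map_zero]; exact h.pos'⟩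

theorem Sp.one (h : PZ p ζ) : Sp p ζ w 1 := by simpa using Sp.of_pow (w := w) h one_ne_zero

theorem Sp.pow (h : PZ p ζ) (hf : Sp p ζ w f) (n : ℕ) : Sp p ζ w (f ^ n) := by
  induction n with
  | zero => simpa using Sp.one h
  | succ n ih => rw [pow_succ]; exact ih.mul h hf

theorem Nr.pow (h : PZ p ζ) (hf : Nr p ζ w f) (n : ℕ) : Nr p ζ w (f ^ n) := by
  induction n with
  | zero => simpa using (Sp.one h).nr
  | succ n ih => rw [pow_succ]; exact ih.mul h hf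

theorem Sp.map {G : Type} [FunLike G K K'] [RingHomClass G K K'] (e : G)
    (hw : ∀ y, w' (e y) = w y) (hf : Sp p ζ w f) : Sp p ζ w' (e f) := by
  obtain ⟨y, hy⟩ := hf
  refine ⟨e y, ?_⟩
  rw [← hw, map_sub, map_mul, map_pow, map_one] at hy
  exact hy

theorem Nr.map {G : Type} [FunLike G K K'] [RingHomClass G K K'] (e : G)
    (hw : ∀ y, w' (e y) = w y) (hf : Nr p ζ w f) : Nr p ζ w' (e f) := by
  obtain ⟨y, hy⟩ := hf
  refine ⟨e y, ?_⟩
  rw [← hw, map_sub, map_mul, map_pow, map_one] at hy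
  exact hy

theorem red_natCast (n : ℕ) : w (n : K) ≤ 1 ∧ w.red (n : K) = n := by
  have h1 : w (n : K) ≤ 1 := by
    rw [P025H992.nv_natCast]; exact IsUltrametricDist.norm_natCast_le_one C n
  refine ⟨h1, ?_⟩
  rw [NV.red_of h1, ← map_natCast (IsLocalRing.residue w.ring)]
  exact congrArg _ (Subtype.ext (by simp))

theorem cast_pow (h : PZ p ζ) (c : ℕ) : (c : kap w) ^ p = c := by
  have h0 : (p : kap w) = 0 := by
    rw [← (red_natCast (w := w) p).2]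
    exact NV.red_of_lt (by rw [P025H992.nv_natCast]; exact h.lt)
  obtain ⟨k, hk⟩ := Int.prime_dvd_pow_self_sub h.hp (c : ℤ)
  have := congrArg (Int.cast : ℤ → kap w) hk
  simp only [Int.cast_sub, Int.cast_pow, Int.cast_natCast, Int.cast_mul, h0, zero_mul] at this
  exact sub_eq_zero.1 this

/-- an automorphism which is trivial on the residue field acts on Artin-Schreier classes by the
cyclotomic character -/
theorem Nr.eqv (h : PZ p ζ) {g : K ≃+* K} {s : C ≃+* C} (hg : Semi C g s) {c : ℕ}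
    (hs : s ζ = ζ ^ c) (hw : ∀ y, w (g y) = w y) (ht : ∀ y, w y ≤ 1 → w (g y - y) < 1)
    (hf : Nr p ζ w f) : Sp p ζ w (g f / f ^ c) := by
  have hf0 := hf.ne h
  obtain ⟨z, hz⟩ := hf
  have hx1 := hz.trans_lt h.lt_one'
  have hz0 : z ≠ 0 := fun e => right_ne_zero_of_mul (ne_zero_of hx1) (by
    rw [e, zero_pow h.hp.ne_zero])
  obtain ⟨π, hπ⟩ : ∃ π : K, π = algebraMap C K ((ζ - 1) ^ p) := ⟨_, rfl⟩
  have hπ1 : w π = ‖ζ - 1‖ ^ p := by rw [hπ, w.ext', norm_pow]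
  have hπ0 : π ≠ 0 := fun e => by rw [e, map_zero] at hπ1; exact h.pos'.ne hπ1
  obtain ⟨A, hA⟩ : ∃ A : K, f * z ^ p = 1 + π * A := ⟨(f * z ^ p - 1) / π, by field_simp; ring⟩
  have hA1 : w A ≤ 1 := by
    rw [hA, add_sub_cancel_left, map_mul, hπ1] at hz
    exact (mul_le_iff_le_one_right h.pos').1 hz
  have hπA : w (π * A) ≤ 1 := NV.mul_le_one (hπ1 ▸ h.lt_one'.le) hA1
  obtain ⟨B, hB⟩ := Polynomial.powAddExpansion (1 : w.ring) ⟨π * A, hπA⟩ c
  have hB' : (1 + π * A) ^ c = 1 + c * (π * A) + B * (π * A) ^ 2 := by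
    simpa using congrArg Subtype.val hB
  obtain ⟨u, hu⟩ : ∃ u : K, u = ∑ i ∈ Finset.range c, algebraMap C K ζ ^ i := ⟨_, rfl⟩
  have hζ1 : w (algebraMap C K ζ - 1) < 1 := by
    rw [← map_one (algebraMap C K), ← map_sub, w.ext']; exact h.lt_one
  obtain ⟨hζ2, hζ3⟩ := Node.eq_one_of_sub hζ1
  have hu1 : w u ≤ 1 := hu ▸ NV.sum_le zero_le_one fun i _ => NV.pow_le_one' hζ2 i
  have hu2 : w.red u = c := by
    rw [hu, NV.red_sum fun i _ => NV.pow_le_one' hζ2 i]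
    simp [NV.red_pow hζ2, hζ3]
  have hgπ : g π = π * u ^ p := by
    rw [hπ, hg.1, map_pow s, map_sub s, hs, map_one, ← geom_sum_mul, mul_pow, map_mul, mul_comm, hu]
    simp
  have hgA : w (g A) ≤ 1 := by rw [hw]; exact hA1
  have hc1 := red_natCast (w := w) c
  have h1 : w (u ^ p * g A - c * A) < 1 := by
    rw [← red_eq_iff (NV.mul_le_one (NV.pow_le_one' hu1 p) hgA) (NV.mul_le_one hc1.1 hA1),
      NV.red_mul (NV.pow_le_one' hu1 p) hgA, NV.red_mul hc1.1 hA1, NV.red_pow hu1, hu2, hc1.2,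
      cast_pow h, (red_eq_iff hgA hA1).2 (ht A hA1)]
  have h2 : w ((B : K) * π * A ^ 2) < 1 := by
    rw [map_mul, map_mul, hπ1]
    exact (mul_le_of_le_one_right (mul_nonneg (w.av.nonneg _) h.pos'.le)
      (NV.pow_le_one' hA1 2)).trans_lt
      ((mul_le_of_le_one_left h.pos'.le B.2).trans_lt h.lt_one')
  have hY : w ((f * z ^ p) ^ c) = 1 := by rw [map_pow, eq_one hx1, one_pow]
  have hY0 : (f * z ^ p) ^ c ≠ 0 := pow_ne_zero _ (ne_zero_of hx1)
  refine ⟨g z / z ^ c, ?_⟩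
  have e : g f / f ^ c * (g z / z ^ c) ^ p - 1 =
      π * (u ^ p * g A - c * A - B * π * A ^ 2) / (f * z ^ p) ^ c := by
    have e1 : g f / f ^ c * (g z / z ^ c) ^ p = g (f * z ^ p) / (f * z ^ p) ^ c := by
      rw [map_mul, map_pow, div_pow, div_mul_div_comm, mul_pow, ← pow_mul, ← pow_mul, mul_comm c p]
    rw [e1, div_sub_one hY0, hA, hB', map_add, map_one, map_mul, hgπ]
    congr 1
    ring
  rw [e, map_div₀, hY, div_one, map_mul, hπ1]
  exact mul_lt_of_lt_one_right h.pos' (NV.sub_lt h1 h2)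

/-- a function which becomes a `p`-th power in a valued field with a residue extension without new
`p`-th roots -/
theorem Nr.of_emb (h : PZ p ζ) (hC : P025H458.Sph C) (hn : ∀ r : ℝ, 0 ≤ r → ∃ x : C, ‖x‖ = r)
    {T : K} [FiniteDimensional C⟮T⟯ K] (hw : w.OverG T) (ι : K →ₐ[C] K')
    (hι : ∀ x, w' (ι x) = w x) (M : Subfield K') (hM : ∀ x, ι x ∈ M)
    (hsep : ∀ u ∈ M, w' u ≤ 1 → ∀ x, w' (u ^ p - ι x) < 1 → ∃ x', w' (u - ι x') < 1)
    (hf : f ≠ 0) {y : K'} (hyM : y ∈ M) (hy : y ^ p = ι f) : Nr p ζ w f := by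
  by_cases hgp : ∃ b : K, b ^ p = f
  · obtain ⟨b, rfl⟩ := hgp
    exact (Sp.of_pow h fun e => hf (by rw [e, zero_pow h.hp.ne_zero])).nr
  push Not at hgp
  have hirr : Irreducible (Polynomial.X ^ p - Polynomial.C f : Polynomial K) :=
    X_pow_sub_C_irreducible_of_prime h.hp hgp
  haveI := Fact.mk hirr
  let W := AdjoinRoot (Polynomial.X ^ p - Polynomial.C f : Polynomial K)
  have hφ : (AdjoinRoot.root _ : W) ^ p = algebraMap K W f := root_X_pow_sub_C_pow p f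
  have htop : K⟮(AdjoinRoot.root _ : W)⟯ = ⊤ := by
    rw [eq_top_iff, ← toSubalgebra_le_toSubalgebra, top_toSubalgebra,
      ← AdjoinRoot.adjoinRoot_eq_top]
    exact algebra_adjoin_le_adjoin _ _
  obtain ⟨hfd, -, -⟩ := P025H992.kummer_galois h.hp h.ne hgp hφ htop
  have hT : Transcendental C T := hw.transc
  have hT' : Transcendental C (algebraMap K W T) := by
    rw [transcendental_algebraMap_iff (FaithfulSMul.algebraMap_injective K W)]
    exact hT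
  have hfW : FiniteDimensional C⟮algebraMap K W T⟯ W := finite_adjoin_map
  have hp1 : p - 1 ≠ 0 := Nat.sub_ne_zero_of_lt h.hp.one_lt
  rcases P025H992.near_or_far' hn h.hp h.ne h.lt hf hgp hφ htop
    (sum_finrank_eq hC hn hT) (sum_finrank_eq hC hn hT') (fun w hw => by
      have := hw.finite
      exact Module.finrank_pos) hw with ⟨z, -, hz⟩ | ⟨z, β, b, hz, hβ, hβ1, hb, e, hb'⟩
  · refine ⟨z⁻¹, ?_⟩
    rw [inv_pow, ← div_eq_mul_inv]
    rw [← h.pow_eq, ← pow_mul, mul_comm, pow_mul] at hz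
    exact le_of_pow_le_pow_left₀ hp1 h.pos'.le hz
  exfalso
  obtain ⟨γ, rfl⟩ := IsAlgClosed.exists_pow_nat_eq β h.hp.pos
  rw [norm_pow, ← pow_mul, mul_comm, pow_mul] at hβ
  have h1 : ‖(p : C)‖ < ‖γ‖ ^ (p - 1) := lt_of_pow_lt_pow_left₀ _ (by positivity) hβ
  have hγ : 0 < ‖γ‖ := norm_pos_iff.2 fun e => by
    rw [e, norm_zero, zero_pow hp1] at h1
    exact absurd h1 (not_lt.2 (norm_nonneg _))
  have hγ' : algebraMap C K' γ ≠ 0 := (map_ne_zero _).2 (norm_pos_iff.1 hγ)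
  obtain ⟨a, ha⟩ : ∃ a : K', a = y / ι z := ⟨_, rfl⟩
  have ha1 : a ^ p = 1 + algebraMap C K' γ ^ p * ι b := by
    rw [ha, div_pow, hy, ← map_pow, ← map_div₀, sub_eq_iff_eq_add'.1 e]
    simp
  have hb1 : w' (algebraMap C K' γ ^ p * ι b) = ‖γ‖ ^ p := by
    rw [map_mul, map_pow, w'.ext', hι, hb, mul_one]
  have ha2 : w' a ≤ 1 := by
    have : w' a ^ p ≤ 1 := by
      rw [← map_pow, ha1]
      exact NV.add_le (by simp) (by rw [hb1, ← norm_pow]; exact hβ1)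
    exact (pow_le_one_iff_of_nonneg (w'.av.nonneg _) h.hp.ne_zero).1 this
  obtain ⟨s, hs, e'⟩ := P025H992.add_pow_ring w' h.hp (x := a - 1) (y := 1)
    (NV.sub_le ha2 (by simp)) (by simp)
  rw [sub_add_cancel, one_pow, mul_one, ha1] at e'
  have e2 : (a - 1) ^ p = algebraMap C K' γ ^ p * ι b - p * (a - 1) * s := by
    linear_combination -e'
  have h2 : w' (p * (a - 1) * s) ≤ ‖(p : C)‖ * w' (a - 1) := by
    rw [map_mul, map_mul, P025H992.nv_natCast]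
    exact mul_le_of_le_one_right (mul_nonneg (norm_nonneg _) (w'.av.nonneg _)) hs
  have hpp : ∀ t : ℝ, t ^ p = t ^ (p - 1) * t := fun t => by
    rw [← pow_succ, Nat.sub_add_cancel h.hp.one_le]
  have h3 : w' (a - 1) ≤ ‖γ‖ := by
    by_contra hc
    push Not at hc
    have h4 : w' ((a - 1) ^ p) < w' (a - 1) ^ p := by
      conv_lhs => rw [e2]
      refine NV.sub_lt (hb1 ▸ pow_lt_pow_left₀ hc hγ.le h.hp.ne_zero) (h2.trans_lt ?_)
      rw [hpp]
      exact mul_lt_mul_of_pos_right (h1.trans_le (pow_le_pow_left₀ hγ.le hc.le _)) (hγ.trans hc)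
    rw [map_pow] at h4
    exact lt_irrefl _ h4
  have hu1 : w' ((a - 1) / algebraMap C K' γ) ≤ 1 := by
    rw [map_div₀, w'.ext', div_le_one hγ]; exact h3
  have hu2 : w' (((a - 1) / algebraMap C K' γ) ^ p - ι b) < 1 := by
    rw [show ((a - 1) / algebraMap C K' γ) ^ p - ι b = -(p * (a - 1) * s) / algebraMap C K' γ ^ p by
      rw [div_pow, e2]; field_simp; ring, map_div₀, NV.map_neg', map_pow, w'.ext',
      div_lt_one (pow_pos hγ _), hpp]
    exact h2.trans_lt ((mul_le_mul_of_nonneg_left h3 (norm_nonneg _)).trans_lt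
      (mul_lt_mul_of_pos_right h1 hγ))
  obtain ⟨x, hx⟩ := hsep _ (div_mem (sub_mem (ha ▸ div_mem hyM (hM z)) (one_mem M))
    (by rw [← ι.commutes]; exact hM _)) hu1 b hu2
  have hx1 : w' (ι x) ≤ 1 := le_one_of_sub hu1 hx
  have hb2 : w' (ι b) ≤ 1 := by rw [hι, hb]
  have h5 : w' (ι x ^ p - ι b) < 1 := by
    rw [← red_eq_iff (NV.pow_le_one' hx1 p) hb2, NV.red_pow hx1, ← (red_eq_iff hu1 hx1).2 hx,
      ← NV.red_pow hu1, red_eq_iff (NV.pow_le_one' hu1 p) hb2]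
    exact hu2
  rw [← map_pow, ← map_sub, hι] at h5
  rw [hι] at hx1
  exact hb' (w.red x) (by
    rw [← NV.red_pow hx1, red_eq_iff (NV.pow_le_one' hx1 p) hb.le]; exact h5)

variable {T : K} [FiniteDimensional C⟮T⟯ K]

/-- one normalisation for all components -/
theorem exists_norm (h : PZ p ζ) (hf : ∀ w : WW C T, Sp p ζ w.1 f) (hne : Nonempty (WW C T)) :
    ∃ z : K, z ≠ 0 ∧ ∀ w : WW C T, w.1 (f * z ^ p - 1) < ‖ζ - 1‖ ^ p := by
  classical
  choose z hz using hf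
  have hz0 : ∀ w, z w ≠ 0 := fun w h0 => right_ne_zero_of_mul
    (ne_zero_of ((hz w).trans h.lt_one')) (by rw [h0, zero_pow h.hp.ne_zero])
  obtain ⟨w₀, hw₀⟩ := Finite.exists_min fun w : WW C T => w.1 (z w)
  have hε : 0 < ‖ζ - 1‖ * w₀.1 (z w₀) := mul_pos h.pos (w₀.1.av.pos (hz0 w₀))
  choose y hy using fun i => P025H458.exists_approx (C := C) (fun w : WW C T => w.1.av)
    (fun w => w.1.na) (fun w => w.1.ext') (fun w w' e => Subtype.ext (NV.ext e)) i (z i) hε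
  have key : ∀ w : WW C T, w.1 ((∑ i, y i) / z w - 1) < ‖ζ - 1‖ := fun w => by
    have h1 : w.1 (∑ i, y i - z w) < ‖ζ - 1‖ * w₀.1 (z w₀) := by
      rw [← Finset.add_sum_erase _ _ (Finset.mem_univ w), add_sub_right_comm]
      exact NV.add_lt (hy w).1 (NV.sum_lt hε fun i hi =>
        (hy i).2 w (Finset.ne_of_mem_erase hi).symm)
    rw [div_sub_one (hz0 w)]
    change w.1.av _ < _
    rw [map_div₀, div_lt_iff₀ (w.1.av.pos (hz0 w))]
    exact h1.trans_le (mul_le_mul_of_nonneg_left (hw₀ w) h.pos.le)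
  refine ⟨∑ i, y i, fun h0 => ne_zero_of ((key w₀).trans h.lt_one) (by rw [h0, zero_div]),
    fun w => ?_⟩
  have e : f * (∑ i, y i) ^ p = f * z w ^ p * ((∑ i, y i) / z w) ^ p := by
    rw [div_pow, mul_assoc, mul_div_cancel₀ _ (pow_ne_zero p (hz0 w))]
  rw [e]
  exact mul_sub_lt (hz w) (pow_sub_lt h (key w))
    (eq_one ((pow_sub_lt h (key w)).trans h.lt_one')).le

/-- the decomposition groups of split covers are trivial -/
theorem free [CFF C K] (h : PZ p ζ) {L : Type} [Field L] [Algebra C L] [Algebra K L] [IsScalarTower C K L]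
    {Y : Set L} (hY : IntermediateField.adjoin K Y = ⊤)
    (hy : ∀ y ∈ Y, ∃ f : K, y ^ p = algebraMap K L f ∧ ∀ w : WW C T, w.1 (f - 1) < ‖ζ - 1‖ ^ p)
    (τ : L ≃ₐ[K] L) (v : WW C (algebraMap K L T)) (hv : ∀ y, v.1 (τ y) = v.1 y) : τ = 1 := by
  refine Node.eq_one_of_gen hY fun y hyY => ?_
  obtain ⟨f, hf, hf1⟩ := hy y hyY
  have h1 : v.1 (y ^ p - 1) < ‖ζ - 1‖ ^ p := by
    rw [hf, ← map_one (algebraMap K L), ← map_sub]
    exact hf1 ⟨v.1.comap K, v.2.comap⟩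
  have h2 : v.1 y = 1 := by
    have := eq_one (h1.trans h.lt_one')
    rw [map_pow] at this
    exact (pow_eq_one_iff_of_nonneg (v.1.av.nonneg _) h.hp.ne_zero).1 this
  have hy0 : y ≠ 0 := by rintro rfl; rw [map_zero] at h2; exact zero_ne_one h2
  obtain ⟨μ, hμ, hτ⟩ := Node.exists_mu (C := C) h.hp.ne_zero τ hy0 hf
  obtain ⟨j, hj⟩ := root_near h h1
  have h3 : v.1 (τ y - algebraMap C L (ζ ^ j)) < ‖ζ - 1‖ := by
    rw [← Node.aut_const τ (ζ ^ j), ← map_sub, hv]; exact hj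
  have h4 := NV.sub_lt h3 hj
  rw [sub_sub_sub_cancel_right, hτ, ← sub_one_mul, map_mul, h2, mul_one,
    ← map_one (algebraMap C L), ← map_sub, v.1.ext'] at h4
  by_cases h5 : μ = 1
  · rw [hτ, h5, map_one, one_mul]
  · exact absurd (h.norm_eq hμ h5) h4.ne

end Vale.Agent.P022K.WB.Nv
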