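import Vale.Agent.P022K.WB.Itg
import Vale.Agent.P022K.WB.Lo
import Vale.Agent.P022K.WB.Pw

/-!
# P022K, block WB: change of the additive character, periodic functionals on an exhausting family
-/

set_option autoImplicit false

open Filter

noncomputable section

namespace Vale.Agent.P022K.WB

variable {p : ℕ} [hp : Fact p.Prime] {C : Type} [NontriviallyNormedField C] [IsUltrametricDist C]
  [CharZero C] {ψ ψ' : ℚ_[p] → C}

omit [IsUltrametricDist C] [CharZero C] in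
theorem Psi.ex_int (h : Psi p ψ) (h' : Psi p ψ') : ∃ c : ℤ_[p], ∀ b, ψ (c * b) = ψ' b := by
  have p0 : (p : ℚ_[p]) ≠ 0 := p_ne p
  choose n _ hn using fun k => (h.primL k).eq_pow_of_pow_eq_one (h'.primL k).pow_eq_one
  have st : ∀ {ψ : ℚ_[p] → C}, Psi p ψ → ∀ k,
      ψ ((p : ℚ_[p])⁻¹ ^ k) = ψ ((p : ℚ_[p])⁻¹ ^ (k + 1)) ^ p := fun h k => by
    rw [← h.nat, pow_succ', mul_inv_cancel_left₀ p0]
  have hi : ∀ k, (p : ℤ) ^ k ∣ (n (k + 1) : ℤ) - n k := fun k => by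
    have e : ψ ((p : ℚ_[p])⁻¹ ^ k) ^ n k = ψ ((p : ℚ_[p])⁻¹ ^ k) ^ n (k + 1) := by
      rw [hn, st h', ← hn, st h k, pow_right_comm]
    rw [((h.primL k).isOfFinOrder (pow_pos hp.out.pos k).ne').pow_eq_pow_iff_modEq,
      ← (h.primL k).eq_orderOf] at e
    exact_mod_cast e.dvd
  refine ⟨PadicInt.ofIntSeq _ (PadicInt.isCauSeq_padicNorm_of_pow_dvd_sub (fun k => n k) p hi), fun b => ?_⟩
  obtain ⟨k, hk⟩ := h.tors b
  rw [← h.nat, h.ker] at hk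
  obtain ⟨y, hy⟩ : ∃ y : ℤ_[p], (y : ℚ_[p]) = (p ^ k : ℕ) * b := ⟨⟨_, hk⟩, rfl⟩
  have e : b = y * (p : ℚ_[p])⁻¹ ^ k := by
    rw [hy, Nat.cast_pow, mul_right_comm, ← mul_pow, mul_inv_cancel₀ p0, one_pow, one_mul]
  have e1 := h.appr (h.primL k).pow_eq_one _ (n := n k)
    ((PadicInt.toZModPow_ofIntSeq_of_pow_dvd_sub (fun k => n k) p hi k).trans (Int.cast_natCast _))
  rw [hn] at e1
  rw [e, mul_left_comm, h'.appr (h'.primL k).pow_eq_one y (ZMod.natCast_zmod_val _).symm,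
    h.appr (e1 ▸ (h'.primL k).pow_eq_one) y (ZMod.natCast_zmod_val _).symm, e1]

omit [IsUltrametricDist C] [CharZero C] in
/-- two characters differ by a unit -/
theorem Psi.ex_unit (h : Psi p ψ) (h' : Psi p ψ') :
    ∃ c : ℤ_[p]ˣ, ∀ b, ψ ((c : ℤ_[p]) * b) = ψ' b := by
  obtain ⟨c, hc⟩ := h.ex_int h'
  obtain ⟨c', hc'⟩ := h'.ex_int h
  exact ⟨Units.mkOfMulEqOne c c' (h.inj fun b => by
    rw [PadicInt.coe_mul, mul_assoc, hc, hc', PadicInt.coe_one, one_mul]), hc⟩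

variable {Γ : Type} [Group Γ] {act : Γ →* Iso C} {χ : Γ →* ℤ_[p]ˣ}
  {R M : Type*} [CommRing R] [AddCommGroup M] [Module R M] {ρ : Representation R (G2 p) M}
  {γ : Γ → M → M} {ok : Og ψ act χ}

/-- change of the character -/
theorem Wg.of_psi (ok : Og ψ act χ) (ok' : Og ψ' act χ)
    (com : ∀ s x v, γ s (ρ x v) = ρ x (γ s v)) : ∃ x : G2 p, ∀ (P : Submodule R M) W, Gs ρ P →
      Wg ok ρ γ P W → Wg ok' ρ γ P (W.comp (ρ x).toAddMonoidHom) := by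
  obtain ⟨c, hc⟩ := ok.psi.ex_unit ok'.psi
  refine ⟨dd (uq c) 1, fun P W hP w => ⟨fun b v hv => ?_, fun v hv => ?_, fun s v hv => ?_⟩⟩
  · show W (ρ _ (ρ _ v)) = ok'.psi.n b (W (ρ _ v))
    rw [← rho_mul, dd_nn, rho_mul, w.n _ _ (hP _ _ hv)]
    obtain ⟨l, e⟩ := Y.mk_surj (W (ρ (dd (uq c) 1) v))
    rw [← e, Psi.n_mk, Psi.n_mk]
    congr 1
    funext i
    rw [← hc]
    rw [Units.val_one, div_one, mul_assoc]
    rfl
  · show W (ρ _ (ρ _ v)) = Y.phi p C (W (ρ _ v))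
    rw [← rho_mul, ← (Hon.tt_dd _ _).eq, rho_mul, w.t _ (hP _ _ hv)]
  · show W (ρ _ (ρ _ _)) = Y.gal _ (W (ρ _ v))
    rw [← w.s s _ (hP _ _ hv), com, ← rho_mul, ← rho_mul, ← dd_mul, ← dd_mul, mul_comm]

/-- **a functional which is periodic on an exhausting family vanishes on the common kernel** -/
theorem pg_zero [CompleteSpace C] [IsAlgClosed C] (adm : ∀ v, ∃ P, Adm ρ P ∧ v ∈ P)
    (hz : ∀ a v, ρ (dd a a) v = v) {P : ℕ → Submodule R M} {q : ℕ → ℕ}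
    (hq : ∀ j, 0 < q j) {W : M →+ Y p C} (H : ∀ j, Hon.Pg ok ρ γ (P j) (q j) W)
    (hP : ∀ j, Gs ρ (P j)) (hγ : ∀ j s, ∀ v ∈ P j, γ s v ∈ P j)
    (com : ∀ s x v, γ s (ρ x v) = ρ x (γ s v)) (ex : ∀ v, ∀ᶠ j in atTop, v ∈ P j) {v : M}
    (ht : ∃ k : ℕ, p ^ k • v = 0) (h0 : ∀ W, Wg ok ρ γ ⊤ W → W v = 0) : W v = 0 := by
  by_contra hn
  have : ∀ j, ∃ w, Wg ok ρ γ (P j) w ∧ w v ≠ 0 := fun j => by
    obtain ⟨ζ, e, h1⟩ : ∃ ζ e, Hon.hon ρ (hq j) (ζ := ζ) e W v ≠ 0 := by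
      by_contra! h2
      exact hn (Hon.hon_inj (hq j) ht h2)
    exact ⟨_, (H j).wg (hq j) e (hP j) (hγ j) fun s i v _ => com s _ v, h1⟩
  choose w h1 h2 using this
  have ev := fun v => (ex v).filter_mono Nat.hyperfilter_le_atTop
  obtain ⟨W', h3, h4⟩ := ult ok adm hz (hyperfilter ℕ) (fun j => w j)
    (fun a b => .of_forall fun j => map_add _ a b) (fun b v => (ev v).mono fun j => (h1 j).n b v)
    (fun v => (ev v).mono fun j => (h1 j).t v) fun s v => (ev v).mono fun j => (h1 j).s s v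
  obtain ⟨j, e⟩ := (h4 v).exists
  exact h2 j (e.trans (h0 W' h3))

end Vale.Agent.P022K.WB
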