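import Vale.Agent.P022K.WB.Nv2
import Vale.Agent.P022K.FI.X0C

/-!
# P022K, block WB, row NV: two vertices (fixed nodes, the ordinary vertex, approximation)
-/

set_option linter.all false

noncomputable section

open IntermediateField Vale.Agent.P019P P025H746 P025H492 Module

namespace Vale.Agent.P022K.WB.Nv

open Vale.Agent.P027M Vale.Agent.P027M.I Vale.Agent.P027M.I.I1b Vale.Agent.P022K.FI.X0

variable {C : Type} [NontriviallyNormedField C] [IsUltrametricDist C] [IsAlgClosed C]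
  {p : ℕ} {ζ : C}

section apx

variable {K : Type} [Field K] [Algebra C K] {ι : Type} [Finite ι] {w : ι → NV C K} {f : K}

/-- weak approximation, multiplicative form -/
theorem apx0 (hw : Function.Injective w) (z : ι → K) (hz : ∀ i, z i ≠ 0) {ε : ℝ} (hε : 0 < ε) :
    ∃ y, ∀ i, w i (y / z i - 1) < ε := by
  classical
  rcases isEmpty_or_nonempty ι with _ | _
  · exact ⟨0, fun i => isEmptyElim i⟩
  letI := Fintype.ofFinite ι
  obtain ⟨i₀, h0⟩ := Finite.exists_min fun i => w i (z i)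
  have h1 : 0 < ε * w i₀ (z i₀) := mul_pos hε ((w i₀).av.pos (hz i₀))
  choose y hy using fun i => P025H458.exists_approx (C := C) (fun i => (w i).av)
    (fun i => (w i).na) (fun i => (w i).ext') (fun _ _ e => hw (NV.ext e)) i (z i) h1
  refine ⟨∑ i, y i, fun i => ?_⟩
  have h2 : w i (∑ j, y j - z i) < ε * w i₀ (z i₀) := by
    rw [← Finset.add_sum_erase _ _ (Finset.mem_univ i), add_sub_right_comm]
    exact NV.add_lt (hy i).1 (NV.sum_lt h1 fun j hj => (hy j).2 i (Finset.ne_of_mem_erase hj).symm)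
  rw [div_sub_one (hz i)]
  change (w i).av _ < _
  rw [map_div₀, div_lt_iff₀ ((w i).av.pos (hz i))]
  exact h2.trans_le (mul_le_mul_of_nonneg_left (h0 i) hε.le)

/-- **APX**: one normalisation for finitely many valuations -/
theorem apx (h : PZ p ζ) (hf : ∀ i, Nr p ζ (w i) f) : ∃ z : K, ∀ i,
    w i (f * z ^ p - 1) ≤ ‖ζ - 1‖ ^ p ∧ (Sp p ζ (w i) f → w i (f * z ^ p - 1) < ‖ζ - 1‖ ^ p) := by
  have key : ∀ u : Set.range w, ∃ z : K, u.1 (f * z ^ p - 1) ≤ ‖ζ - 1‖ ^ p ∧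
      (Sp p ζ u.1 f → u.1 (f * z ^ p - 1) < ‖ζ - 1‖ ^ p) := by
    rintro ⟨_, i, rfl⟩
    by_cases c : Sp p ζ (w i) f
    · exact c.imp fun z hz => ⟨hz.le, fun _ => hz⟩
    · exact (hf i).imp fun z hz => ⟨hz, fun e => absurd e c⟩
  choose z hz using key
  have hz0 : ∀ u, z u ≠ 0 := fun u h0 => right_ne_zero_of_mul
    (ne_zero_of ((hz u).1.trans_lt h.lt_one')) (by rw [h0, zero_pow h.hp.ne_zero])
  obtain ⟨y, hy⟩ := apx0 (w := fun u : Set.range w => u.1) Subtype.val_injective z hz0 h.pos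
  refine ⟨y, fun i => ?_⟩
  have h1 := pow_sub_lt h (hy ⟨_, i, rfl⟩)
  have h2 := (eq_one (h1.trans h.lt_one')).le
  rw [show f * y ^ p = f * z ⟨_, i, rfl⟩ ^ p * (y / z ⟨_, i, rfl⟩) ^ p by
    rw [div_pow, mul_assoc, mul_div_cancel₀ _ (pow_ne_zero p (hz0 _))]]
  exact ⟨mul_sub_le (hz ⟨_, i, rfl⟩).1 h1.le h2, fun c => mul_sub_lt ((hz ⟨_, i, rfl⟩).2 c) h1 h2⟩

theorem apx2 (h : PZ p ζ) {w₀ w₁ : NV C K} (h0 : Nr p ζ w₀ f) (h1 : Nr p ζ w₁ f) :
    ∃ z : K, w₀ (f * z ^ p - 1) ≤ ‖ζ - 1‖ ^ p ∧ w₁ (f * z ^ p - 1) ≤ ‖ζ - 1‖ ^ p := by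
  obtain ⟨z, hz⟩ := apx (w := ![w₀, w₁]) h (Fin.forall_fin_two.2 ⟨h0, h1⟩)
  exact ⟨z, (hz 0).1, (hz 1).1⟩

variable {v : NV C K}

theorem prod_sub_lt {r : ℝ} (hr : 0 < r) (s : Finset ι) {a b : ι → K} (ha : ∀ i, v (a i) ≤ 1)
    (hb : ∀ i, v (b i) ≤ 1) (e : ∀ i, v (a i - b i) < r) :
    v (∏ i ∈ s, a i - ∏ i ∈ s, b i) < r := by
  classical
  induction s using Finset.induction_on with
  | empty => simpa using hr
  | insert i s hi ih =>
    rw [Finset.prod_insert hi, Finset.prod_insert hi,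
      show ∀ x y x' y' : K, x * y - x' * y' = (x - x') * y + x' * (y - y') from
        fun _ _ _ _ => by ring]
    refine NV.add_lt ?_ ?_ <;> rw [map_mul]
    · refine (mul_le_of_le_one_right (v.av.nonneg _) ?_).trans_lt (e i)
      rw [map_prod]
      exact Finset.prod_le_one (fun _ _ => v.av.nonneg _) fun j _ => ha j
    · exact (mul_le_of_le_one_left (v.av.nonneg _) (hb i)).trans_lt ih

/-- a product of `p m` congruent étale classes is split -/
theorem prod_lt (h : PZ p ζ) [Fintype ι] (hc : p ∣ Fintype.card ι) {a : ι → K} {b : K}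
    (hb : v (b - 1) ≤ ‖ζ - 1‖ ^ p) (e : ∀ i, v (a i - b) < ‖ζ - 1‖ ^ p) :
    v (∏ i, a i - 1) < ‖ζ - 1‖ ^ p := by
  obtain ⟨m, hm⟩ := hc
  have b1 := (eq_one (hb.trans_lt h.lt_one')).le
  have h1 := prod_sub_lt h.pos' Finset.univ (a := a) (b := fun _ => b) (fun i => by
    simpa using NV.add_le ((e i).trans h.lt_one').le b1) (fun _ => b1) e
  have h2 : v (b ^ p - 1) < ‖ζ - 1‖ ^ p := pow_sub_lt h (hb.trans_lt (by
    simpa using pow_lt_pow_right_of_lt_one₀ h.pos h.lt_one h.hp.one_lt))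
  have h3 := prod_sub_lt h.pos' (Finset.univ : Finset (Fin m)) (a := fun _ => b ^ p)
    (b := fun _ => 1) (fun _ => NV.pow_le_one' b1 p) (fun _ => by simp) fun _ => h2
  rw [Finset.prod_const, Finset.card_univ, hm, pow_mul] at h1
  rw [Finset.prod_const, Finset.card_univ, Fintype.card_fin, Finset.prod_const_one] at h3
  simpa using NV.add_lt h1 h3

/-- residue characteristic two: `1 + 4 B` and `1 + 4 B ^ 2` have the same class -/
theorem sq_lt (h2 : ‖(2 : C)‖ < 1) {A B : K} (hB : v B ≤ 1) (e : v (A - B ^ 2) < 1) :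
    v ((1 + 4 * B) / (1 + 4 * A) * (1 - 2 * B) ^ 2 - 1) < ‖(2 : C)‖ ^ 2 ∨ (2 : C) = 0 := by
  refine or_iff_not_imp_right.2 fun h0 => ?_
  have n2 : v (4 : K) = ‖(2 : C)‖ ^ 2 := by
    rw [show (4 : K) = ((2 : ℕ) : K) ^ 2 by norm_num, map_pow, P025H992.nv_natCast]
    norm_num
  have p4 : 0 < v (4 : K) := n2 ▸ pow_pos (norm_pos_iff.2 h0) 2
  have l4 : v (4 : K) < 1 := n2 ▸ pow_lt_one₀ (norm_nonneg _) h2 two_ne_zero
  have hA : v A ≤ 1 := by simpa using NV.add_le e.le (NV.pow_le_one' hB 2)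
  have ml : ∀ x, v x ≤ 1 → v (4 * x) < 1 := fun x hx => by
    rw [map_mul]
    exact (mul_le_of_le_one_right p4.le hx).trans_lt l4
  have h1 : v (1 + 4 * A - 1) < 1 := by rw [add_sub_cancel_left]; exact ml A hA
  have h3 := ne_zero_of h1
  rw [show (1 + 4 * B) / (1 + 4 * A) * (1 - 2 * B) ^ 2 - 1 =
    4 * (4 * (B ^ 3 - B ^ 2) - (A - B ^ 2)) / (1 + 4 * A) by field_simp; ring, map_div₀, eq_one h1,
    div_one, map_mul, ← n2]
  exact mul_lt_of_lt_one_right p4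
    (NV.sub_lt (ml _ (NV.sub_le (NV.pow_le_one' hB 3) (NV.pow_le_one' hB 2))) e)

end apx

section two

variable {K K' F : Type} [Field K] [Algebra C K] [CFF C K] [Field K'] [Algebra C K'] [CFF C K']
  [Field F] [Algebra C F] [CFF C F] {j : K →ₐ[C] F} {j' : K' →ₐ[C] F} {u : NV C K} {u' : NV C K'}
  {q : ℕ}

/-- the residue field grows at the second vertex -/
theorem not_den {v v' : NV C F} (h : Sd j u v v' q) (hq : 1 < q) :
    ¬ ∀ y, v' y ≤ 1 → ∃ y₁, v' (y - j y₁) < 1 := fun hd => by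
  obtain ⟨T, hT⟩ := h.good
  haveI := fin_of_transc hT.og.transc
  haveI := hT.og.cff
  obtain ⟨x⟩ := nonempty_Plk (k := kC C) (F := kap u)
  obtain ⟨t, -, ht⟩ := exists_unif x
  obtain ⟨y, hy, rfl⟩ := NV.red_surj t
  obtain ⟨z, h1, h2⟩ := h.fro y hy
  obtain ⟨y₁, h3⟩ := hd z h1
  have h4 := le_one_of_sub h1 h3
  have h5 : u y₁ ≤ 1 := h.e1 y₁ ▸ h4
  have h6 : u.red y = u.red y₁ ^ q := (rm (j : K →+* F) h.e1).injective (by
    have r := rm_red (j : K →+* F) h.e1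
    rw [map_pow, r, r]
    exact ((red_eq_iff (by rw [← h.e1] at hy; exact hy) (NV.pow_le_one' h1 q)).2 h2).trans
      ((NV.red_pow h1 q).trans (congrArg (· ^ q) ((red_eq_iff h1 h4).2 h3))))
  rw [h6, ord_pow] at ht
  have := Int.eq_one_of_mul_eq_one_right (by omega) ht
  omega

/-- **UNI**: the first vertex is the extension of residue degree one -/
theorem uniq {v v' w : NV C F} (h : Sd j u v v' q) (hq : 1 < q) (hw : ∀ y, w (j y) = u y)
    (hd : ∀ y, w y ≤ 1 → ∃ y₁, w (y - j y₁) < 1) : w = v :=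
  (h.all w hw).resolve_right fun e => not_den h hq (e ▸ hd)

theorem sd_ne {v v' : NV C F} (h : Sd j u v v' q) (hq : 1 < q) : v ≠ v' :=
  fun e => not_den h hq (e ▸ h.den)

/-- semilinear isometries respect the two vertices -/
theorem sd_map {v v' : NV C F} {F' : Type} [Field F'] [Algebra C F'] [CFF C F'] {i : K' →ₐ[C] F'}
    {w w' : NV C F'} (h : Sd j u v v' q) (h' : Sd i u' w w' q) (hq : 1 < q) (e : F ≃+* F')
    {s : C ≃+* C} (he : ∀ c, e (algebraMap C F c) = algebraMap C F' (s c))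
    (hs : ∀ c, ‖s c‖ = ‖c‖) (h1 : ∀ y, ∃ y', e (j y) = i y' ∧ u' y' = u y)
    (h2 : ∀ y', ∃ y, e (j y) = i y') : (∀ y, w (e y) = v y) ∧ ∀ y, w' (e y) = v' y := by
  have a : pullNV (e : F →+* F') he hs w = v := uniq h hq (fun y => by
    obtain ⟨y', h3, h4⟩ := h1 y
    exact (congrArg w h3).trans ((h'.e0 y').trans h4)) fun y hy => by
      obtain ⟨y', h3⟩ := h'.den (e y) hy
      obtain ⟨y₁, h4⟩ := h2 y'
      exact ⟨y₁, by rwa [← h4, ← map_sub] at h3⟩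
  refine ⟨fun y => a ▸ rfl, fun y => ?_⟩
  rcases h.all (pullNV (e : F →+* F') he hs w') (fun y => by
    obtain ⟨y', h3, h4⟩ := h1 y
    exact (congrArg w' h3).trans ((h'.e1 y').trans h4)) with b | b
  · refine absurd (NV.ext (AbsoluteValue.ext fun z => ?_)) (sd_ne h' hq)
    obtain ⟨z, rfl⟩ := e.surjective z
    exact congrArg (fun n : NV C F => n z) (a.trans b.symm)
  · exact b ▸ rfl

variable {T : F} [FiniteDimensional C⟮T⟯ F]

theorem fix_side {v v' : WW C T} (h : Sd j u v.1 v'.1 q) (h' : Sd j' u' v'.1 v.1 q) {N : ℕ}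
    (hN : N ≠ 0) (hF : Full C T) (hW : ∀ w : NV C F, w.OverG T ↔ w = v.1 ∨ w = v'.1)
    {g : F ≃+* F} (hg : ∀ y, v.1 (g y) = v.1 y)
    (H : ∀ y y', u y ≤ 1 → u' y' ≤ 1 → v'.1 (j y - j' y') < 1 → v.1 (g (j' y') - j y ^ N) < 1)
    {b b' : Br C T} (e : b.w = v) (e' : b'.w = v') (gl : Glue b b') : Tw (g : F →+* F) b b := by
  obtain ⟨w, x, hx⟩ := b
  obtain ⟨w', x', hx'⟩ := b'
  dsimp only at e e'
  subst e e'
  have hW' : ∀ z : NV C F, z.OverG T ↔ z = w'.1 ∨ z = w.1 := fun z => (hW z).trans or_comm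
  have r := rm_red (g : F →+* F) hg
  have k1 : ∀ z, (h'.mp (h.mp z) ∈ x.1 ↔ z ∈ x.1) ∧
      rm (g : F →+* F) hg (h'.mp (h.mp z)) = z ^ N := fun z => by
    obtain ⟨y, hy, rfl⟩ := h.surj z
    obtain ⟨y', hy', e⟩ := h'.surj (w'.1.red (j y))
    have a : w.1 (j y) ≤ 1 := (h.e0 y).trans_le hy
    have a' : w.1 (j' y') ≤ 1 := (h'.e1 y').trans_le hy'
    rw [h.mp_red, ← e, h'.mp_red]
    refine ⟨⟨fun m => h.same hF hW gl.symm hy (e ▸ h'.same hF hW' gl hy' m),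
      fun m => h'.same hF hW' gl.symm hy' (e ▸ h.same hF hW gl hy m)⟩, ?_⟩
    exact (r _).trans (((red_eq_iff ((hg _).trans_le a') (NV.pow_le_one' a N)).2 (H y y' hy hy'
      ((red_eq_iff ((h.e1 y).trans_le hy) ((h'.e0 y').trans_le hy')).1 e.symm))).trans
      (NV.red_pow a N))
  refine ⟨hg, fun y hy => ?_⟩
  obtain ⟨k2, k3⟩ := k1 (rm (g : F →+* F) hg (w.1.red y))
  rw [← map_pow] at k3
  rw [(rm (g : F →+* F) hg).injective k3, r, ← x.1.valuation_le_one_iff, map_pow, pow_le_one_iff hN,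
    x.1.valuation_le_one_iff] at k2
  exact k2.symm

/-- **FIXB**: an automorphism which inverts the square of Frobenius fixes the nodes -/
theorem fixb {v v' : NV C F} (h : Sd j u v v' q) (h' : Sd j' u' v' v q) {N : ℕ} (hN : N ≠ 0)
    (hF : Full C T) {S : Finset (Br C T)} (hS : Nodal C T S)
    (hW : ∀ w : NV C F, w.OverG T ↔ w = v ∨ w = v') {g : F ≃+* F} (hg : ∀ y, v (g y) = v y)
    (hg' : ∀ y, v' (g y) = v' y)
    (H : ∀ y y', u y ≤ 1 → u' y' ≤ 1 → v' (j y - j' y') < 1 → v (g (j' y') - j y ^ N) < 1)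
    (H' : ∀ y y', u y ≤ 1 → u' y' ≤ 1 → v (j' y' - j y) < 1 → v' (g (j y) - j' y' ^ N) < 1) :
    ∀ b ∈ S, Tw (g : F →+* F) b b := fun b hb => by
  obtain ⟨b', -, ne, gl⟩ := hS.2 b hb
  let w : WW C T := ⟨v, (hW v).2 (Or.inl rfl)⟩
  let w' : WW C T := ⟨v', (hW v').2 (Or.inr rfl)⟩
  have hW' : ∀ z : NV C F, z.OverG T ↔ z = v' ∨ z = v := fun z => (hW z).trans or_comm
  have al : ∀ z : WW C T, z = w ∨ z = w' := fun z => ((hW _).1 z.2).imp Subtype.ext Subtype.ext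
  rcases al b.w with e | e <;> rcases al b'.w with e' | e'
  · exact absurd (sep_of (v := w) (v' := w') h hF hW e e' gl).symm ne
  · exact fix_side (v := w) (v' := w') h h' hN hF hW hg H e e' gl
  · exact fix_side (v := w') (v' := w) h' h hN hF hW' hg' (fun y' y a b => H' y y' b a) e e' gl
  · exact absurd (sep_of (v := w') (v' := w) h' hF hW' e e' gl).symm ne

/-- the automorphism of `fixb` acts on the split classes by the cyclotomic character -/
theorem frbP [CharZero C] (hz : PZ p ζ) (hC : P025H458.Sph C)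
    (hn : ∀ r : ℝ, 0 ≤ r → ∃ x : C, ‖x‖ = r) {v v' : NV C F} (h : Sd j u v v' q)
    (h' : Sd j' u' v' v q) (hq : 1 < q) {N : ℕ} (hN : N ≠ 0) {g : F ≃+* F} {s : C ≃+* C}
    (hs : Semi C g s) {c : ℕ} (hc : s ζ = ζ ^ c) (hg : ∀ y, v (g y) = v y)
    (hg' : ∀ y, v' (g y) = v' y)
    (H : ∀ y y', u y ≤ 1 → u' y' ≤ 1 → v' (j y - j' y') < 1 → v (g (j' y') - j y ^ N) < 1)
    (H' : ∀ y y', u y ≤ 1 → u' y' ≤ 1 → v (j' y' - j y) < 1 → v' (g (j y) - j' y' ^ N) < 1)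
    {f : F} (hf : ∀ P : Plk C F, (p : ℤ) ∣ ord P f) (h0 : Sp p ζ v f) (h1 : Sp p ζ v' f) :
    ∃ z : F, z ≠ 0 ∧ g f = f ^ c * z ^ p := by
  obtain ⟨t, _, w, rfl, rfl, al, hF, -, S, hS⟩ := nod hC hn h h' hq
  have hW : ∀ z : NV C F, z.OverG t ↔ z = (w 0).1 ∨ z = (w 1).1 := fun z =>
    ⟨fun o => by
      obtain ⟨i, e⟩ := al ⟨z, o⟩
      fin_cases i
      exacts [Or.inl (congrArg Subtype.val e), Or.inr (congrArg Subtype.val e)],
    by rintro (rfl | rfl); exacts [(w 0).2, (w 1).2]⟩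
  refine nodeE hz hF hS hs hc (fun z => ?_) (fixb h h' hN hF hS hW hg hg' H H') hf
    fun z => Or.inl ?_ <;> rcases (hW _).1 z.2 with e | e <;> rw [e] <;> assumption

end two

section odd

variable [CharZero C] {K₀ K : Type} [Field K₀] [Algebra C K₀] [CFF C K₀] [Field K] [Algebra C K]
  [CFF C K] [Algebra K₀ K] [IsScalarTower C K₀ K] [FiniteDimensional K₀ K] [IsGalois K₀ K] {T : K₀}
  [FiniteDimensional C⟮T⟯ K₀] {w : Fin 2 → NV C K} {σ : K ≃+* K}

/-- an automorphism which is inertial at all vertices acts on the étale classes by the cyclotomic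
character -/
theorem oddP (h : PZ p ζ) {v : Fin 2 → WW C T} {S : Finset (Br C T)}
    (hd : ((finrank K₀ K : ℕ) : kC C) ≠ 0) (hu : IsUnr C K₀ K) (hcy : IsCyclic (K ≃ₐ[K₀] K))
    (hF : Full C T) (hS : Nodal C T S) (hall : ∀ w, ∃ i, w = v i)
    (hw : ∀ i y, w i (algebraMap K₀ K y) = (v i).1 y) {s : C ≃+* C} (hσ : Semi C σ s) {c : ℕ}
    (hs : s ζ = ζ ^ c) (com : ∀ (g : K ≃ₐ[K₀] K) y, σ (g y) = g (σ y))
    (n : ∀ i y, w i (σ y) = w i y) (t : ∀ i y, w i y ≤ 1 → w i (σ y - y) < 1) {f : K}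
    (hf : ∀ P : Plk C K, (p : ℤ) ∣ ord P f) (hn : ∀ i (g : K ≃ₐ[K₀] K), Nr p ζ (w i) (g f)) :
    ∃ z : K, z ≠ 0 ∧ σ f = f ^ c * z ^ p := by
  have : FiniteDimensional C⟮algebraMap K₀ K T⟯ K := finite_adjoin_map
  obtain ⟨hF', -, S', hS', -⟩ := cov' C K₀ K T hF S hS hu hd fun u => cyc hcy u.1
  have key : ∀ u : WW C (algebraMap K₀ K T), (∀ y, u.1 (σ y) = u.1 y) ∧ Nr p ζ u.1 f ∧
      ∀ y, u.1 y ≤ 1 → u.1 (σ y - y) < 1 := fun u => by
    obtain ⟨i, hi⟩ := hall ⟨u.1.comap K₀, u.2.comap⟩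
    obtain ⟨g, hg⟩ := exists_conj (u' := u.1) (u := w i) fun y => by rw [hw, ← hi]; rfl
    refine ⟨fun y => by rw [hg, hg, ← com, n], ?_, fun y hy => ?_⟩
    · simpa using (hn i g).map g.symm fun y => by rw [hg, g.apply_symm_apply]
    · rw [hg, map_sub, ← com]
      exact t i _ (hg y ▸ hy)
  exact nodeE h hF' hS' hσ hs (fun u => (key u).1)
    (fun b _ => tw_self b (key b.w).1 (key b.w).2.2) hf fun u => Or.inr (key u).2

end odd

end Vale.Agent.P022K.WB.Nv
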