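import Vale.Agent.P022K.WB.Etn0
import Vale.Agent.P022K.FI.Locx
import Vale.Agent.P022K.FI.AllB
import Vale.Agent.P022K.FI.Res2

/-!
# P022K, block WB, rows ETN, LP: the predicate `EtA`
-/

set_option autoImplicit false
set_option linter.unusedSectionVars false
set_option linter.style.haveILetI false

open UpperHalfPlane PowerSeries
open scoped MatrixGroups LaurentSeries

noncomputable section

namespace Vale.Agent.P022K.WB.Nv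

open Vale.Agent.P022K.Sh Vale.Agent.P022.H218.L3 Vale.Agent.P019P P025H746 FI FI.Hk FI.X1 FI.Br
  Vale.Agent.P027M

namespace Etn

variable {C L Γ O E : Type} [NontriviallyNormedField C] [IsUltrametricDist C] [CompleteSpace C]
  [IsAlgClosed C] [CharZero C] [Field L] [Algebra C L] [Group Γ] [CommRing O] [IsDomain O]
  [IsDiscreteValuationRing O] [Field E] [Algebra O E] [Algebra E C] {A : AT C L Γ O E}
  {D : LTD C O E} {x : Plk C L} {θ : L →ₐ[C] C⸨X⸩} {g : GL (Fin 2) E} {b : C}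
  {ε : ℤ → L →ₐ[C] C⸨X⸩} {W : Subgroup Γ}

/-- a function of the vertex whose expansion has degree one -/
theorem deg_one (hA : A.Ok) (hD : D.Ok A.ϖ) (hb : A.Bas D x θ g b ε) (hW : W ∈ A.Wl) (n : ℤ) :
    ∃ t ∈ A.Kv W (g * Sh.dg (A.ϖ ^ n)), ∃ c Dv, Fac (ε n t) c Dv ∧ dgD Dv = 1 := by
  haveI := hA.cff W hW _ (hA.rMAT.1 (g * Sh.dg (A.ϖ ^ n)))
  obtain ⟨j, hj, -⟩ := hA.rDSC D hD x θ g b ε hb n W hW _ (hA.rMAT.1 _) (Lx.np_vx hA.rMAT g n)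
  obtain ⟨η, e1, _, z, -, e2⟩ := bra hA.gf _ _ j hj
  obtain ⟨t, t0, t1⟩ := exists_unif z
  obtain ⟨h, h1, rfl⟩ := NV.red_surj t
  obtain ⟨c, Dv, hc, -⟩ := hj.fac h (by rintro rfl; exact t0 (NV.red_of_lt (by simp)))
  refine ⟨h, h.2, c, Dv, hc, (e2 h c Dv hc ?_).symm.trans t1⟩
  rw [← e1 h c Dv hc]
  exact h1.eq_of_not_lt fun h2 => t0 (NV.red_of_lt h2)

section down

variable {p : ℕ} [Fact p.Prime] {ψ : ℚ_[p] → C} (hp : ‖(p : C)‖ < 1)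

include hp

theorem ex_pre {b : C} (hb : ‖b‖ < 1) : ∃ a : C, ‖a‖ < 1 ∧ ev a ((1 + X) ^ p - 1 : C⟦X⟧) = b ∧
    ev a (d⁄dX C ((1 + X) ^ p - 1 : C⟦X⟧)) ≠ 0 := by
  have H := (Slc.dg_frob hp).sub_C hb
  obtain ⟨D, h1, h2, h3⟩ := H.fac
  obtain ⟨a, ha⟩ : ∃ a, D a ≠ 0 := by
    by_contra! h4
    rw [show D = 0 from Finsupp.ext h4, dgD_zero] at h3
    exact H.pos.ne (by exact_mod_cast h3)
  have h4 := h1.lt ha
  have h5 := (h1.pos_iff H.ig h4).1 (lt_of_le_of_ne (h2 a) ha.symm)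
  rw [(Slc.dg_frob hp).ig.ev_sub (ig_C hb.le) h4, ev_C] at h5
  refine ⟨a, h4, sub_eq_zero.1 h5, ?_⟩
  have e : d⁄dX C ((1 + X) ^ p - 1 : C⟦X⟧) =
      ((Polynomial.C (p : C) * (1 + Polynomial.X) ^ (p - 1) : Polynomial C) : C⟦X⟧) := by
    rw [Polynomial.coe_mul, Polynomial.coe_C]
    simp [Derivation.leibniz_pow]
  rw [e, ev_poly]
  simp only [map_mul, map_pow, map_add, map_one, Polynomial.aeval_X, Polynomial.aeval_C]
  refine mul_ne_zero (Nat.cast_ne_zero.2 (Fact.out : p.Prime).ne_zero) (pow_ne_zero _ fun e => ?_)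
  rw [eq_neg_of_add_eq_zero_right e, norm_neg, norm_one] at h4
  exact lt_irrefl _ h4

/-- a function which becomes a power at some level -/
theorem down (hψ : Psi p ψ) {x : ℕ → C⸨X⸩} (h0 : Slc.Fc (x 0))
    (hs : ∀ n, x (n + 1) = sub ((1 + X) ^ p - 1) (x n)) {n m : ℕ} {y : C⸨X⸩} (hy : Slc.Fc y)
    (e : x n = y ^ p ^ m) : Slc.Et (p ^ m) (x 0) := by
  have H := Slc.dg_frob hp
  have S := fst p C ψ hψ hp
  have c0 : constantCoeff ((1 + X) ^ p - 1 : C⟦X⟧) = 0 := by simp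
  have k : ∀ n, Slc.Fc (x n) → Cm ((1 + X) ^ p - 1) (x n) (x (n + 1)) := fun n ⟨_, _, h⟩ =>
    (H.sb_iff_cm c0 h).1 ((sb_eq_sub c0 H.ne).2 (hs n))
  have k1 : ∀ n, Slc.Fc (x n) := fun n => by
    induction n with
    | zero => exact h0
    | succ n ih => exact ih.cm H (k n ih)
  obtain ⟨c, D, h1⟩ := h0
  have k2 : ∀ n c' D', Fac (x n) c' D' → (∀ a, ((p ^ m : ℕ) : ℤ) ∣ D' a) →
      ∀ a, ((p ^ m : ℕ) : ℤ) ∣ D a := fun n => by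
    induction n with
    | zero => exact fun c' D' h2 h3 => (h1.unique h2).2 ▸ h3
    | succ n ih =>
      intro c' D' h2 h3
      obtain ⟨c₁, D₁, h4⟩ := k1 n
      refine ih c₁ D₁ h4 fun b => ?_
      by_cases hb : ‖b‖ < 1
      · obtain ⟨a, a1, rfl, a3⟩ := ex_pre hp hb
        obtain ⟨r, -, r1, -, r2⟩ := H.cm_od a1
        have := h3 a
        rwa [r2 _ _ _ _ _ _ h4 (k n (k1 n)) h2, r1 a3, Nat.cast_one, one_mul] at this
      · rw [h4.out hb]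
        exact dvd_zero _
  have k3 : ∀ k a, 0 < k → ‖a‖ = 1 → ∀ n, Slc.sl p ψ n k a (x n) = Slc.sl p ψ 0 k a (x 0) :=
    fun l a hl ha n => by
      induction n with
      | zero => rfl
      | succ n ih => rw [Slc.sl_lvl S hp hl ha (k1 n) (k n (k1 n)), ih]
  refine Slc.sl_inj (n := 0) (k0 := 0) hψ hp h1 ?_ fun l a hl ha =>
    ⟨_, Slc.sl_mem S hl ha y, by rw [← k3 l a hl ha n, e, Slc.sl_pow S hy]⟩
  obtain ⟨c', D', h2⟩ := hy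
  exact k2 n _ _ (e ▸ h2.pow _) fun a => ⟨D' a, by simp⟩

end down

end Etn

variable {G0 G : Type} [Group G0] [Group G] {T : Tw G0 G} {hT : T.Ok}
  {O K : Type} [CommRing O] [IsDomain O] [IsDiscreteValuationRing O] [Field K] [Algebra O K]
  {w : T.Lc O K} {p : ℕ} [Fact p.Prime] {D : Emb w p} {U : Subgroup G} [Algebra K (Cx D.ι)]
  {A : AT (Cx D.ι) (LW T) (Gm hT) O K} {LD : LTD (Cx D.ι) O K} {x : G} {ζ : Cx D.ι}

variable (A LD) in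
/-- the expansions in all the basins have the form `c (1 + X) ^ i z ^ N` -/
def EtA (N : ℕ) (φ : SR hT) : Prop := ∀ τ x, Ord w D.e τ x → ∀ θ b ε,
  A.Bas LD (plL hT D.ι τ) θ (w.π x) b ε → Ev x φ ∈ A.Ln (w.π x) 0 → Slc.Et N (ε 0 (Ev x φ))

theorem mem_Ln (d : Dic hT D A) {φ : SR hT}
    (hφ : ∀ b : O, ∀ z ∈ Zl K, φ.1 (x * w.ι (X1.nn K b * z)) = φ.1 x) :
    Ev x φ ∈ A.Ln (w.π x) 0 := A.mem_K.2 fun γ hγ => by
  obtain ⟨h1, c, ⟨b, hb⟩, h2⟩ := Gn.mem_Nn.1 hγ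
  obtain ⟨z, hz, e⟩ := Gn.fm_iff.1 h2
  obtain ⟨V, hV, h3⟩ := φ.2
  rw [zpow_zero, Units.val_one, div_one] at hb
  refine Subtype.ext ((Lx.act_un d hV h3 (k := X1.nn K b * z) h1 ?_ rfl).trans (hφ b z hz))
  rw [e, X1.nn, hb, ← mul_assoc, mul_assoc _ z, ← Gn.zl_comm hz, ← mul_assoc]

theorem mem_Ln1 (d : Dic hT D A) (hU : U ∈ T.Lev) {φ : SR hT} (hφ : Inv (U1 w U) φ.1) :
    Ev x φ ∈ A.Ln (w.π x) 0 := mem_Ln d fun b _ hz =>
  hφ x _ (iota_mem hU (Subgroup.mul_mem_sup (nn_Iw1 b) hz))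

/-- **LP** -/
theorem lp (hA : A.Ok) (hD : LD.Ok A.ϖ) {ψ : ℚ_[p] → Cx D.ι} (hψ : Psi p ψ)
    (hf : LD.f = (1 + X) ^ p - 1) (y : SR hT) (h0 : ∀ x, y.1 x ≠ 0) : EtA A LD p (y ^ p) := by
  intro τ x _ θ b ε hb hl
  have h1 : Ev x y ≠ 0 := fun e => h0 x (congrArg Subtype.val e)
  obtain ⟨n, hn⟩ := (hA.rGNN (w.π x) 0).2.2.2.1 (Ev x y)
  rw [map_pow] at hl ⊢
  have := Etn.down (m := 1) (n := n.toNat) (x := fun n => ε n (Ev x y ^ p)) (Cx.norm_p_lt D.ι) hψ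
    (hb.fac 0 _ hl (pow_ne_zero _ h1)) (fun n => hf ▸ Cl.eps_succ hA hD hb n _)
    (hb.fac (n.toNat : ℕ) _ (Gn.Ln_mono hA _ (Int.self_le_toNat n) hn) h1)
    (by rw [pow_one, map_pow])
  rwa [pow_one] at this

variable [∀ x, CFF ℂ (KX T U x)] (h : Ctx D U) {A : AT (Cx D.ι) (LW T) (Gm h.ok) O K}

theorem xp_of (hA : A.Ok) (d : Dic h.ok D A) (hD : LD.Ok A.ϖ) {y θ b ε ν}
    (hb : A.Bas LD y θ (w.π x) b ε) (hν : A.Gv (w.π x) ε ν) : Xp D U ν x (ε 0) := by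
  refine ⟨fun f hf h0 => ?_, ?_⟩
  · obtain ⟨φ, h1, h2⟩ := ex_SR (hT := h.ok) (x := x) (lev_U1 h) ⟨f, hf⟩
    obtain rfl : f = Ev x φ := Subtype.ext h2
    have h3 := mem_Ln1 (x := x) d h.lev h1
    obtain ⟨c, Dv, h4⟩ := hb.fac 0 _ h3 h0
    exact ⟨c, Dv, h4, hν 0 _ h3 c Dv h4⟩
  · obtain ⟨W, hW, lev⟩ := d.lev U h.lev h.neat h.mx x
    have l0 := lev 1
    rw [map_one, mul_one, mul_one] at l0
    obtain ⟨t, h1, h2⟩ := Etn.deg_one hA hD hb hW 0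
    rw [zpow_zero, Gn.dg_one, mul_one] at h1
    exact ⟨t, KX_mono (lev_of h (Iw1_le.trans Iw0_le)) x ((Lx.mem_K d h.lev l0 t).1 h1), h2⟩

end Vale.Agent.P022K.WB.Nv
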