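import Vale.Agent.P022K.WB.WfSt
import Vale.Agent.P022K.Top.Gk0

/-!
# P022K, block WB: the slices vanish on the kernel of the equivariant functionals
-/

set_option autoImplicit false
set_option linter.all false

open UpperHalfPlane
open scoped MatrixGroups

noncomputable section

namespace Vale.Agent.P022K.WB.Gl

open Vale.Agent.P022K.Sh Hon
open Vale.Agent.P022K.FI (Ord CS d2 mem_Zl d2_mul d2_inv)

variable {G0 G : Type} [Group G0] [Group G] {T : Tw G0 G} {p : ℕ} [Fact p.Prime]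
  {w : T.Lc ℤ_[p] ℚ_[p]} {e : ℚ_[p] →+* ℂ} {ψ : ℚ_[p] → CS p} {χ : Iso (CS p) →* ℤ_[p]ˣ}
  {ok : Og ψ (MonoidHom.id _) χ} {M : Type} [AddCommGroup M] {a : Representation ℤ G M}
  {W : ℍ → G → ℕ → ℚ_[p] → M →+ Y p (CS p)} {R : Iso (CS p) → ℍ → G → ℍ → G → Prop}
  {H : Type} [Group H] [TopologicalSpace H] {g : Representation ℤ H M} {d : Iso (CS p) →* H}
  {U : Subgroup G}

theorem gs_tame (U : Subgroup G) : Gs (p := p) (a.comp w.ι) (Fv a (U ⊓ w.π.ker)) :=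
  fun x v hv u hu => (LinearMap.congr_fun ((w.com x u hu.2).map a).eq v).symm.trans
    (congrArg (a (w.ι x)) (hv u hu))

theorem adm_at (c : T.CC p a g) (w : T.Lc ℤ_[p] ℚ_[p]) (v : M) :
    ∃ P, Adm (p := p) (a.comp w.ι) P ∧ v ∈ P := by
  obtain ⟨U, hU, hv⟩ := c.sm v
  refine ⟨Fv a (U ⊓ w.π.ker), ⟨gs_tame U, fun v _ => ?_, fun v _ => c.tor v,
    (c.adm _ (w.lev U hU.1 1)).subset fun v hv =>
      ⟨(sup_le (sup_le hv.1 fun z hz => LinearMap.congr_fun (c.z z hz) v) (by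
        rintro _ ⟨g, hg, rfl⟩
        exact hv.2.2 g (Kn_le_I1 one_pos ((Top.Gk.Km_eq 1).le hg))) : _ ≤ Top.Gk.Sb a v),
        hv.2.1⟩⟩, fun u hu => hv u hu.1⟩
  obtain ⟨U, hU, hv⟩ := c.sm v
  obtain ⟨m, hm⟩ := w.op U hU.1
  exact ⟨m, fun g hg => hv _ (hm ((Top.Gk.Km_eq m).ge hg))⟩

theorem ac_tame (c : T.CC p a g) (U : Subgroup G) :
    Ac (p := p) (a.comp w.ι) (fun s => g (d s)) (Fv a (U ⊓ w.π.ker)) where
  gs := gs_tame U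
  tor v _ := c.tor v
  mem s v hv u hu := (LinearMap.congr_fun (c.com u (d s)).eq v).trans
    (congrArg (g (d s)) (hv u hu))
  com s x v _ := (LinearMap.congr_fun (c.com (w.ι x) (d s)).eq v).symm
  one v _ := by simp
  mul s t v _ := by simp

theorem fix_cen (c : T.CC p a g) (hU : U ∈ T.Lev) {u : G} (hu : u ∈ U) (hz : w.π u ∈ Zl ℚ_[p])
    {v : M} (hv : v ∈ Fv a (U ⊓ w.π.ker)) : a u v = v := by
  have h := w.cen _ hz
  rw [← FI.Lv.aw_mul w u, map_mul, c.z _ h, mul_one]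
  exact hv _ ⟨U.mul_mem hu (U.inv_mem ((sInf_le hU : T.Z ≤ U) h)), FI.Lv.pi_aw w u⟩

theorem d2_dd (a d : ℚ_[p]ˣ) : d2 a d = dd a d := Units.ext rfl

theorem Ml.mv {γ : Iso (CS p) → M → M} (m : Ml w e ok a γ W R) (c : T.CC p a g) (hU : U ∈ T.Lev)
    {τ : ℍ} {y u : G} (h : Ord w e τ y) (δ : G0) (hu : u ∈ U) (hz : w.π u ∈ Zl ℚ_[p]) (k : ℕ)
    (b : ℚ_[p]) {v : M} (hv : v ∈ Fv a (U ⊓ w.π.ker)) :
    W (T.r δ • τ) (T.j δ * y * u) k b v = W τ y k b v := by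
  rw [m.away _ _ (h.left δ) u hz, fix_cen c hU hu hz hv, m.left _ _ h]

theorem split_d2 (hU : w.At (KK ℤ_[p] ℚ_[p]) U) {u : G} (hu : u ∈ U) {x z : ℚ_[p]ˣ}
    (h : w.π u = d2 x z) :
    ∃ c : ℤ_[p]ˣ, ∃ u' ∈ U, w.π u' ∈ Zl ℚ_[p] ∧ u = w.ι (dd (uq c) 1) * u' := by
  have h1 := (FI.Lv.d2_mem w).1 (h ▸ hU.2 u hu)
  have h2 : FI.Lv.vl w ((x / z : ℚ_[p]ˣ) : ℚ_[p]) = 1 := by
    rw [Units.val_div_eq_div_val, map_div₀, h1, div_self (FI.Lv.pos w x).ne']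
  obtain ⟨y, hy⟩ := (FI.Lv.le_one w).1 h2.le
  obtain ⟨c, rfl⟩ := (FI.Lv.unit_iff w (y := y)).2 (by rw [hy, h2])
  have h3 : uq c = x / z := Units.ext hy
  have h4 : dd (uq c) 1 ∈ KK ℤ_[p] ℚ_[p] :=
    FI.Lv.Km_le 0 ((Top.Gk.Km_eq 0).ge (Du_Kn (k := 0) (by simp)))
  refine ⟨c, (w.ι (dd (uq c) 1))⁻¹ * u, mul_mem (inv_mem (hU.1 _ h4)) hu, mem_Zl.2 ⟨z, ?_⟩,
    by group⟩
  rw [map_mul, map_inv, w.πι, h, ← d2_dd, d2_inv, d2_mul, h3]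
  simp

theorem sc_tame (hT : T.Ok) (hc : FI.Cmp w e) (c : T.CC p a g)
    (m : Ml w e ok a (fun s => g (d s)) W R) (hU : U ∈ T.Lev) (hK : w.At (KK ℤ_[p] ℚ_[p]) U)
    (r : Pr w e R U) {τ : ℍ} {y : G} (h : Ord w e τ y) :
    Sc ok (a.comp w.ι) (fun s => g (d s)) (Fv a (U ⊓ w.π.ker)) (W τ y) := by
  have A := ac_tame (w := w) (d := d) c U
  obtain ⟨n, col, t, z, h1, h2⟩ := r.fin τ y h
  refine Sc.of_cs ok A (fun k b hk hb v _ => m.ref τ y h k b hk hb v)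
    (fun k b b' hb v _ => by rw [m.cong τ y k b b' hb]) (fun r v _ => m.n τ y h r v)
    (fun s hs k b _ _ v hv => ?_) (fun s hs k b _ _ v hv => ?_) col fun s s' hs => ?_
  · obtain ⟨δ, u, hu, hz, hr⟩ := r.fro s hs τ y h
    have h' : Ord w e τ (y * w.ι (tt p)⁻¹) :=
      h.right (a' := (pu p)⁻¹) (d' := 1⁻¹) (by rw [w.πι, d2_dd, dd_inv]; rfl)
    have m1 : a (w.ι (dd (uq (χ s)) 1)) (g (d s) v) ∈ _ := A.gs _ _ (A.mem s v hv)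
    have e1 := m.gal s τ y _ _ hr h k b v
    have e2 := m.t τ _ h' k b (a (w.ι (tt p)⁻¹) (a (w.ι (dd (uq (χ s)) 1)) (g (d s) v)))
    rw [mul_assoc _ y, m.mv c hU h' δ hu hz k b m1] at e1
    rw [mul_assoc, ← map_mul, inv_mul_cancel, map_one, mul_one] at e2
    obtain ⟨N, t1⟩ := tor_w' (c.tor
      (a (w.ι (tt p)⁻¹) (a (w.ι (dd (uq (χ s)) 1)) (g (d s) v)))) (W τ y k b)
    rw [mul_one, pow_one, rho_mul, Units.val_one, PadicInt.coe_one, div_one]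
    refine e1.symm.trans (Eq.trans ?_ (e2.trans (zs_one (tor_it t1 1)).symm))
    exact congrArg _ (rho_inv' (ρ := a.comp w.ι) _ _).symm
  · obtain ⟨δ, u, hu, hz, hr⟩ := r.ine s hs τ y h
    have m1 : a (w.ι (dd (uq (χ s)) 1)) (g (d s) v) ∈ _ := A.gs _ _ (A.mem s v hv)
    have e1 := m.gal s τ y _ _ hr h k b v
    rw [m.mv c hU h δ hu hz k b m1] at e1
    obtain ⟨N, t1⟩ := tor_w' (c.tor (a (w.ι (dd (uq (χ s)) 1)) (g (d s) v))) (W τ y k b)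
    rw [mul_one, pow_zero, one_mul, Units.val_one, PadicInt.coe_one, div_one]
    exact e1.symm.trans (zs_one t1).symm
  · have key : ∀ s k b, ∀ v ∈ Fv a (U ⊓ w.π.ker), tw (MonoidHom.id _) χ (a.comp w.ι)
        (fun s => g (d s)) (W τ y) s k b v = W (t s) (z s) k b v := fun s k b v hv => by
      refine (m.gal s τ y _ _ (h1 s).1 h k b _).symm.trans (congrArg _ ?_)
      have m1 := A.gs (dd (uq (χ s)) 1)⁻¹ _ hv
      rw [← A.mul _ _ _ m1, mul_inv_cancel, A.one _ m1]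
      exact rho_inv' (ρ := a.comp w.ι) _ _
    obtain ⟨δ, u, hu, e1, e2⟩ := FI.pm_eq.1 (h2 s s' hs).symm
    have o1 := (h1 s).2
    rw [e1, e2] at o1
    obtain ⟨x, x', hx⟩ := ((h1 s').2.left δ).diag hT hc o1
    obtain ⟨c', u', hu', hz, rfl⟩ := split_d2 hK hu hx
    refine ⟨c', Rel.law A fun k b hk hb v hv => ?_⟩
    have o2 : Ord w e (t s') (z s' * w.ι (dd (uq c') 1)) := (h1 s').2.right (w.πι _)
    have c0 : ((c' : ℤ_[p]) : ℚ_[p]) ≠ 0 := norm_ne_zero_iff.1 (by rw [norm_u]; exact one_ne_zero)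
    have e3 := m.tor _ _ (h1 s').2 c' k (b / ((c' : ℤ_[p]) : ℚ_[p]))
      (by rw [norm_div, hb, norm_u, div_one]) v
    rw [mul_div_cancel₀ _ c0] at e3
    rw [key s k b v hv, key s' k _ _ (A.gs _ _ hv), e1, e2, ← mul_assoc, mul_assoc _ (z s'),
      m.mv c hU o2 δ hu' hz k b hv]
    exact e3

variable (w e ok a W R) in
/-- **VAN** -/
theorem van : VAN w e ok a W R := by
  rintro hT hc H _ _ g d c ⟨U0, h0, k0⟩ m r v hv τ y h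
  have inf : ∀ {U U' : Subgroup G}, w.At (KK ℤ_[p] ℚ_[p]) U → w.At (KK ℤ_[p] ℚ_[p]) U' →
      w.At (KK ℤ_[p] ℚ_[p]) (U ⊓ U') := fun h h' =>
    ⟨fun x hx => ⟨h.1 x hx, h'.1 x hx⟩, fun u hu => h.2 u hu.1⟩
  refine wt (J := {U // U ∈ T.Nl ∧ w.At (KK ℤ_[p] ℚ_[p]) U})
    (P := fun j => Fv a (j.1 ⊓ w.π.ker)) ok (adm_at c w)
    (fun x v => LinearMap.congr_fun (c.z _ (w.cen _ (mem_Zl.2 ⟨x, rfl⟩))) v)
    (fin_of_dir (fun i j => ?_) fun v => ?_) (fun j => ac_tame c _)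
    (fun j => sc_tame hT hc c m j.2.1.1 j.2.2 (r _ j.2.1 j.2.2) h) fun W' hW u => hv W' hW _
  · exact ⟨⟨i.1 ⊓ j.1, ⟨hT.inf _ i.2.1.1 _ j.2.1.1, FI.Lv.neat_le i.2.1.2 inf_le_left⟩,
      inf i.2.2 j.2.2⟩, fun v hv u hu => hv u ⟨hu.1.1, hu.2⟩, fun v hv u hu => hv u ⟨hu.1.2, hu.2⟩⟩
  · obtain ⟨U, hU, hv⟩ := c.sm v
    refine ⟨⟨U0 ⊓ w.set (KK ℤ_[p] ℚ_[p]) U, ⟨hT.inf _ h0.1 _ (FI.Lv.set_KK hU.1),
      FI.Lv.neat_le h0.2 inf_le_left⟩, inf k0 (FI.Lv.At_set hU.1)⟩, fun u hu => hv u ?_⟩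
    exact FI.Lv.aw_of w hu.2 ▸ ((FI.Lv.mem_set hU.1).1 hu.1.2).1

end Vale.Agent.P022K.WB.Gl
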