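import Vale.Agent.P022K.WB.Wf
import Vale.Agent.P022K.WB.Wf3
import Vale.Agent.P022K.WB.Psi
import Vale.Agent.P022K.WB.Etn1
import Vale.Agent.P022K.FI.Wf1

/-!
# P022K, block WB: the Kummer functions of the common kernel of the functionals
-/

set_option autoImplicit false
set_option linter.all false

open UpperHalfPlane
open scoped MatrixGroups

noncomputable section

namespace Vale.Agent.P022K.WB.Gl

open Vale.Agent.P022K.Sh Vale.Agent.P022.H218.L3 FI FI.Hk FI.Br FI.X1 FI.Wf WB.Wf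

variable {G0 G : Type} [Group G0] [Group G] {T : Tw G0 G} {A : T.Ax} {p : ℕ} [Fact p.Prime]
  {H : Type} [Group H] [TopologicalSpace H] {th : H → (G → Mer) → G → Mer}
  {M : Type} [AddCommGroup M] {a : Representation ℤ G M} {g : Representation ℤ H M}
  {im : ∀ k U, T.Hn (p ^ k) U →+ M} {hT : T.Ok} {w : T.Lc ℤ_[p] ℚ_[p]} {D : Emb w p}
  [Algebra ℚ_[p] (Cx D.ι)] {LD : LTD (Cx D.ι) ℤ_[p] ℚ_[p]} {ψ : ℚ_[p] → Cx D.ι}
  {U : Subgroup G} {v : M} {φ : SR hT}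

theorem lv_one (hU : U ∈ T.Lev) (hφ : Inv (Nv.U1 w U) φ.1) : Wf.Lv w.ι 0 φ.1 := fun b hb =>
  funext fun x => hφ x _ (X1.iota_mem hU (Subgroup.mem_sup_left
    (nn_Iw1 (O := ℤ_[p]) (K := ℚ_[p]) ⟨b, by simpa using hb⟩)))

theorem wgf_of (K : A.Kk p th a g im) (h : Cf hT D LD) (hψ : Psi p ψ) (d : Iso (CS p) →* H)
    {W : ℍ → G → ℕ → ℚ_[p] → M →+ Y p (CS p)} {R : Iso (CS p) → ℍ → G → ℍ → G → Prop}
    (ml : Ml w D.e (Psi.chg (Cx.iso D.ι) hψ).og a (fun s => g (d s)) W R)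
    (pr : ∀ U ∈ T.Nl, w.At (KK ℤ_[p] ℚ_[p]) U → Pr w D.e R U)
    (sp : ∀ τ y, Ord w D.e τ y → ∃ B : Xp T w.ι ψ fun n => Ex hT D LD n τ y,
      ∀ k b v, W τ y k b v = 0 → B.wp K k b v = 0)
    (hv : ∀ W', Wg (ok0 p) (a.comp w.ι) (fun s => g (d s)) ⊤ W' → ∀ x, W' (a (w.ι x) v) = 0)
    (kd : A.Kd im U 1 φ.1 v) (l : Wf.Lv w.ι 0 φ.1) : Nv.EtA (tw w hT D.ι) LD p φ := by
  intro τ x o θ b ε hb _
  obtain ⟨B, hB⟩ := sp τ x o
  obtain ⟨V, hV⟩ := h.nl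
  obtain ⟨c, hc⟩ := Wg.chg_psi (ρ := a.comp w.ι) (P := ⊤) (γ := fun s => g (d s))
    (ok' := (Psi.chg (Cx.iso D.ι) hψ).og) (ok0 p) (fun _ _ _ => trivial)
    fun s y v _ => LinearMap.congr_fun (K.cc.com _ _).eq v
  obtain ⟨k1, h1⟩ := van w D.e _ a W R hT D.cmp g d K.cc ⟨V, ⟨hV.lev, hV.neat⟩, hV.mx⟩ ml pr v
    (fun W' w' y => by
      have := hv _ (hc W' w') ((dd (uq c) 1)⁻¹ * y)
      rwa [AddMonoidHom.comp_apply, LinearMap.toAddMonoidHom_coe, MonoidHom.comp_apply,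
        ← Module.End.mul_apply, ← map_mul, ← map_mul, mul_inv_cancel_left] at this) τ x o
  have := B.wp_et K (fun k hk t ht => hB _ _ _ (h1 k hk t ht)) kd l
  rwa [pow_one, Ex_eq (f := Ev x φ) rfl, h.ee_eq hb] at this

end Vale.Agent.P022K.WB.Gl
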