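import Vale.Agent.P022K.WB.Wf5
import Vale.Agent.P022K.WB.Wf7
import Vale.Agent.P022K.FI.Wf6

/-!
# P022K, block WB: row WGF
-/

set_option autoImplicit false
set_option linter.all false

noncomputable section

namespace Vale.Agent.P022K.WB.Gl

open Vale.Agent.P022K.Sh Vale.Agent.P022.H218.L3 FI FI.Hk FI.Br FI.X1 FI.Wf WB.Wf

variable {G0 G : Type} [Group G0] [Group G] {T : Tw G0 G} {A : T.Ax} {p : ℕ} [Fact p.Prime]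
  {H : Type} [Group H] [TopologicalSpace H] {th : H → (G → Mer) → G → Mer}
  {M : Type} [AddCommGroup M] {a : Representation ℤ G M} {g : Representation ℤ H M}
  {im : ∀ k U, T.Hn (p ^ k) U →+ M} {hT : T.Ok} {w : T.Lc ℤ_[p] ℚ_[p]} {D : Emb w p}
  [Algebra ℚ_[p] (Cx D.ι)] {LD : LTD (Cx D.ι) ℤ_[p] ℚ_[p]} {ψ : ℚ_[p] → Cx D.ι}
  {U : Subgroup G} {v : M} {φ : SR hT}

/-- **WGF** -/
theorem wgf (K : A.Kk p th a g im) (h : Cf hT D LD) (m : Mu LD w.ϖ ψ) (hϖ : (w.ϖ : ℚ_[p]) = p)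
    (ar : Ar D) (d : Iso (CS p) →* H)
    (ga : ∀ s : Iso (CS p), ∃ σ θ, T.Sl σ θ ∧ (∀ c, D.ι (σ c) = s.1 (D.ι c)) ∧
      ∀ U ∈ T.Nl, ∀ k b b', T.Ga θ (p ^ k) U b b' → T.Ga (th (d s)) (p ^ k) U b b')
    (hv : ∀ W, Wg (ok0 p) (a.comp w.ι) (fun s => g (d s)) ⊤ W → ∀ x, W (a x v) = 0)
    (hU : U ∈ T.Lev) (kd : A.Kd im (Nv.U1 w U) 1 φ.1 v) : Nv.EtA (tw w hT D.ι) LD p φ :=
  wgf_of K h m.psi d (R := Rr D fun s => th (d s)) (ml h m hϖ K d fun _ _ _ _ _ r => r)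
    (fun _ hV mx => pr h m hϖ ar ga hV mx)
    (fun _ _ o => ⟨xp h m hϖ o, fun k b v e =>
      (Y.chg_eq_zero _ _).1 ((Wx_eq h m hϖ K o k b v).symm.trans e)⟩)
    (fun W u _ => hv W u _) kd (lv_one hU (kd.mem K).2)

end Vale.Agent.P022K.WB.Gl
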