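import Vale.Agent.P022K.WB.NvP3

/-!
# P022K, block WB, row NV: the square of the Frobenius, and all function level rows
-/

set_option autoImplicit false
set_option linter.unusedSectionVars false
set_option linter.style.haveILetI false

open UpperHalfPlane IsLocalRing
open scoped MatrixGroups

noncomputable section

namespace Vale.Agent.P022K.WB.Nv.P5

open Vale.Agent.P022K.Sh Vale.Agent.P022.H218.L3 Vale.Agent.P019P P025H746 FI FI.Hk FI.X1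
  Vale.Agent.P027M

variable {G0 G : Type} [Group G0] [Group G] {T : Tw G0 G}
  {O K : Type} [CommRing O] [IsDomain O] [IsDiscreteValuationRing O] [Field K] [Algebra O K]
  {w : T.Lc O K} {p : ℕ} [Fact p.Prime] {D : Emb w p} {U V : Subgroup G} {τ : ℍ} {x x' y : G}
  {v v' : NV (Cx D.ι) (LW T)} {σ : ℂ ≃+* ℂ} {θ : (G → Mer) → G → Mer}

theorem iw (hq : qq O = 2) : Iw0 O K ≤ Iw1 O K := fun _ h => by
  obtain ⟨k, h1, rfl⟩ := Iw0_ex h
  obtain ⟨a, -, ha⟩ := (Nat.card_eq_two_iff' (0 : ResidueField O)).1 hq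
  refine gK_Iw1 h1 ((residue_eq_zero_iff _).1 ?_)
  rw [map_sub, ha _ ((diag_unit h1).1.map (residue O)).ne_zero,
    ha _ ((diag_unit h1).2.map (residue O)).ne_zero, sub_self]

variable [∀ x, CFF ℂ (KX T U x)] {h : Ctx D U}

theorem rel2 (h : Ctx D U) (x : G) {g : GL (Fin 2) K} (e : g.det = w.ϖ) :
    T.Rel U x (x * w.ι g * w.ι g) :=
  (rel_sa h.sa h.lev x (g := g * g * (d2 w.ϖ w.ϖ)⁻¹) (by
    rw [map_mul, map_mul, map_inv, Lv.det_d2, e, mul_inv_cancel])).trans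
    ⟨1, w.ι (d2 w.ϖ w.ϖ), Br.Z_le h.lev (w.cen _ (mem_Zl.2 ⟨_, rfl⟩)), by
      rw [map_one, one_mul, mul_assoc, mul_assoc, ← map_mul, ← map_mul, inv_mul_cancel_right]⟩

variable {s : T.Sl σ θ} (d : ∀ c, ‖D.ι (σ c)‖ = ‖D.ι c‖) (f : h.Fro (thU s h.lev))
include d f

theorem n1 (o : Oq D U v x) {φ : SR h.ok} (hφ : Inv (UI w U) φ.1) :
    v (Ev (x * st w) (Th s φ)) = v (Ev x φ) := by
  obtain ⟨τ, l, o⟩ := o
  refine nrm2 (V := UI w U) ((Ev (x * st w)).comp (Th s)) (v_Th s d _) (fun φ hφ h1 => ?_) hφ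
  have c := fro1 h l o s f hφ h1
  refine ⟨c.1, fun e => c.one (by rw [map_pow, e, one_pow]), fun e => ?_⟩
  have := c.symm.one e
  rwa [map_pow, pow_eq_one_iff_of_nonneg (v.av.nonneg _) (qq_ne w)] at this

theorem n2 (o : Oq D U v x) {φ : SR h.ok} (hφ : Inv (UI w U) φ.1) :
    v (Ev x (Th s (Th s φ))) = v (Ev x φ) := by
  have hI := levI h
  rw [← vuq0 f o o.st.st (rel2 h x (by rw [tt, Lv.det_d2, one_mul]))
    (Th_inv s hI (Th_inv s hI hφ)), n1 d f o.st (Th_inv s hI hφ), n1 d f o hφ]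

omit d in
theorem f2 (o : Oq D U v x) {ψ : SR h.ok} (hψ : Inv U ψ.1)
    (h1 : v (Ev (x * w.ι (Sh.dg w.ϖ)) ψ) ≤ 1) :
    Cg v (Ev (x * st w) (Th s (Th s ψ))) (Ev (x * w.ι (Sh.dg w.ϖ)) ψ ^ (qq O * qq O)) := by
  have c := froU (o.dg w.ϖ) f hψ h1
  rw [Ev_st h (Th_inv s h.lev hψ)] at c
  rw [pow_mul]
  exact (froU o f (Th_inv s h.lev hψ) c.1).trans (c.pow _)

end Vale.Agent.P022K.WB.Nv.P5

namespace Vale.Agent.P022K.WB.Nv

open Vale.Agent.P022K.Sh Vale.Agent.P022.H218.L3 Vale.Agent.P019P P025H746 FI FI.Hk FI.X1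
  Vale.Agent.P027M

variable {G0 G : Type} [Group G0] [Group G] {T : Tw G0 G}
  {O K : Type} [CommRing O] [IsDomain O] [IsDiscreteValuationRing O] [Field K] [Algebra O K]
  {w : T.Lc O K} {p : ℕ} [Fact p.Prime] {D : Emb w p} {U : Subgroup G}
  [∀ x, CFF ℂ (KX T U x)] {h : Ctx D U} {ζ : Cx D.ι}

/-- **P4F** -/
theorem p4g (n : RDT D U) (hz : PZ p ζ) (hp : p = 2) (hq : qq O = 2) : P4F h ζ := by
  rintro σ θ s d f φ ⟨hφ, g, g0, hg⟩ ⟨ψ₀, p0, q0⟩ ⟨ψ₁, p1, q1⟩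
  have hI := levI h
  have hV := levJ h
  have e : U1 w U = UI w U := le_antisymm (set_mono h.lev Iw1_le) (set_mono h.lev (P5.iw hq))
  refine eq1_of (Th_inv s hV (Th_inv s hV hφ)) hφ fun τ x o => ?_
  have p1' := inv_P1 h.lev p1
  rw [e] at hφ p0 p1'
  obtain ⟨v, l'⟩ := n τ x o
  have l : Vl D U v τ := fun y o => (l' y o).1
  have oq : Oq D U v x := ⟨τ, l, o⟩
  haveI := (h.cf _ (h.ok.fu _ hI x)).1
  haveI : Fact (w.set (Iw0 O K) U ≤ U) := ⟨lev_of h Iw0_le⟩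
  obtain ⟨η, a⟩ := ex_nv (hT := h.ok) hI (Tw.Rel.refl x) v
  obtain ⟨η', a'⟩ := ex_nv (hT := h.ok) hI (rel_sa h.sa hI x (det_ss (O := O))) v
  have ti : ∀ φ : SR h.ok, Inv (UI w U) φ.1 → Inv (UI w U) (Th s (Th s φ)).1 := fun φ hφ =>
    Th_inv s hI (Th_inv s hI hφ)
  obtain ⟨t, ht⟩ := ex_ac (hT := h.ok) (x := x) hI ((Th s).comp (Th s)) ti
    (fun ψ hψ => by
      obtain ⟨χ, h1, rfl⟩ := ex_Th s hI hψ
      obtain ⟨χ', h2, rfl⟩ := ex_Th s hI h1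
      exact ⟨χ', h2, rfl⟩) fun φ hφ e => by
      have := P5.n2 d.iso f oq hφ
      rw [show Ev x φ = 0 from Subtype.ext e, map_zero, map_eq_zero] at this
      exact congrArg Subtype.val this
  obtain ⟨y, hy⟩ := ex_K hφ x
  have y0 : y ≠ 0 := fun e => pow_ne_zero p (g0 x) (by
    rw [← Pi.pow_apply, ← hg, ← hy, e, map_zero])
  refine (frbP hz (Cx.sph _) (Cx.exists_norm_eq _) (sd0 h l o a a') (sd1 h l o a a')
    (by omega) (N := qq O * qq O) (by rw [hq]; omega) (g := t)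
    (s := (au D.ι σ).trans (au D.ι σ)) ⟨fun b => Kf.val_inj ((ht (algebraMap ℂ _ b) _
      (fun _ _ _ => rfl) rfl).trans (congrFun (congrArg Subtype.val
        ((congrArg (Th s) (Th_cst s b)).trans (Th_cst s (σ b)))) x)),
      fun b => (d.iso _).trans (d.iso b)⟩ (c := 1)
    (by rw [((congrArg (IsPrimitiveRoot ζ) hp).mp hz.prim).eq_neg_one_of_two_right, map_neg, map_one,
      pow_one])
    (fun y => ?_) (fun y => ?_) (fun y y' c1 c2 c3 => ?_) (fun y y' c1 c2 c3 => ?_) (f := y)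
    (dvd_ord h.ok hI (Lv.neat_le h.neat (lev_of h Iw0_le)) y0 (hy.trans (congrFun hg x)))
    ((Nv_eq a hφ p0 hy).imp fun z e => e.trans_lt (q0 v x oq))
    ((Nv_eq a' hφ p1' hy).imp fun z e => e.trans_lt (by rw [Ev_side]; exact q1 v _ (oq.dg _)))).elim
    fun z ⟨z0, hz'⟩ => ?_
  rotate_right
  · have h2 := congrArg Kf.val hz'
    rw [map_mul, map_pow, map_pow, ht φ y hφ hy, hy, pow_one] at h2
    exact ⟨⟨Kf.val z, by rw [show w.set (Iw1 O K) U = _ from e]; exact z.val_mem⟩,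
      fun e => z0 (Kf.val_inj ((congrArg Kf.val e).trans ((map_zero _).trans (map_zero _).symm))), h2⟩
  · obtain ⟨ψ, h1, h2⟩ := ex_SR (hT := h.ok) hI y
    rw [a _ _ (ti ψ h1) (ht ψ y h1 h2), a ψ y h1 h2, P5.n2 d.iso f oq h1]
  · obtain ⟨ψ, h1, h2⟩ := ex_SR (hT := h.ok) hI y
    rw [a' _ _ (ti ψ h1) (ht ψ y h1 h2), a' ψ y h1 h2, Ev_s1, Ev_s1 ψ, ← Th_Rt, ← Th_Rt]
    exact P5.n2 d.iso f (oq.dg _) (e ▸ inv_P1 h.lev (e.symm ▸ h1))
  all_goals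
    obtain ⟨ψ, h1, h2⟩ := ex_SR (hT := h.ok) h.lev y
    obtain ⟨ψ', h3, h4⟩ := ex_SR (hT := h.ok) h.lev y'
    have i1 := inv_I h h1
    have i2 := PP_inv h h3
    have v1 : Kf.val (IsScalarTower.toAlgHom (Cx D.ι) (Kf T U x) (K0 w U x) y) = _ :=
      (Kf.val_alg y).trans h2
    have v2 := pS_eq h h3 h4
    rw [nmF_eq h h1 h2, ← v_Ev h (l x o) h1] at c1
    rw [nmF_eq h h3 h4, ← v_Ev h (l _ o.step) h3] at c2
  · rw [a' (ψ - Rt _ ψ') _ (inv_sub i1 i2) (by rw [map_sub, v2]; exact congrArg (· - _) v1),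
      map_sub, Ev_ss h h1, Ev_ssP] at c3
    have c4 := Cg.of (a := Ev (x * w.ι (Sh.dg w.ϖ)) ψ') c1 (by rwa [v.av.map_sub] at c3)
    rw [a (Th s (Th s (Rt _ ψ')) - ψ ^ _) _ (inv_sub (ti _ i2) (inv_pow' i1 _)) (by
      rw [map_sub, map_pow, ht _ _ i2 v2]; exact congrArg (_ - · ^ _) v1), map_sub, map_pow,
      Th_Rt, Th_Rt, Ev_PP h (Th_inv s h.lev (Th_inv s h.lev h3))]
    exact ((P5.f2 f oq h3 c4.1).trans (c4.pow _)).lt
  · have r := P5.rel2 h x (g := Sh.dg w.ϖ) (by rw [Gn.dg_eq, Lv.det_d2, mul_one])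
    have o2 := (oq.dg w.ϖ).dg w.ϖ
    rw [a (Rt _ ψ' - ψ) _ (inv_sub i2 i1) (by rw [map_sub, v2]; exact congrArg (_ - ·) v1),
      ← vuq0 f oq o2 r (inv_sub i2 i1), map_sub, Ev_PP h h3, Ev_st h h3] at c3
    have c5 := (v_rel h oq o2 r h1).trans_le c1
    have c4 := Cg.of c5 c3
    have c6 := P5.f2 f (oq.dg w.ϖ) h1 c5
    rw [Ev_st h (Th_inv s h.lev (Th_inv s h.lev h1))] at c6
    rw [a' (Th s (Th s ψ) - Rt _ ψ' ^ _) _ (inv_sub (ti _ i1) (inv_pow' i2 _)) (by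
      rw [map_sub, map_pow, ht _ _ i1 v1, v2]; rfl), map_sub, map_pow,
      Ev_ss h (Th_inv s h.lev (Th_inv s h.lev h1)), Ev_ssP]
    exact (c6.trans (c4.symm.pow _)).lt

/-- **GEOF** -/
theorem geof (n : Nx h) (hz : PZ p ζ) : GEOF h ζ :=
  ⟨vuq n, inf n hz, fun hp hq => p3f hz hp hq (vuq n), p4g n.tam hz⟩

end Vale.Agent.P022K.WB.Nv
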