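import Vale.Agent.P022K.WB.Etn1
import Vale.Agent.P022K.FI.As2

/-!
# P022K, block WB, row ETN
-/

set_option autoImplicit false
set_option linter.unusedSectionVars false

noncomputable section

namespace Vale.Agent.P022K.WB.Nv

open Vale.Agent.P022K.Sh Vale.Agent.P019P FI FI.Hk FI.X1 FI.Br

variable {G0 G : Type} [Group G0] [Group G] {T : Tw G0 G}
  {O K : Type} [CommRing O] [IsDomain O] [IsDiscreteValuationRing O] [Field K] [Algebra O K]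
  {w : T.Lc O K} {p : ℕ} [Fact p.Prime] {D : Emb w p} {U : Subgroup G} [Algebra K (Cx D.ι)]
  {LD : LTD (Cx D.ι) O K} {ζ : Cx D.ι} [∀ x, CFF ℂ (KX T U x)] (h : Ctx D U)
  {A : AT (Cx D.ι) (LW T) (Gm h.ok) O K}

/-- **ETN** -/
theorem etn (hA : A.Ok) (d : Dic h.ok D A) (hx : EXO w D.e) (hD : LD.Ok A.ϖ) (hz : PZ p ζ) :
    ETN h ζ (EtA A LD p) := etn_of h hz fun τ x o => by
  obtain ⟨ν, h1⟩ := ex_nu hA d hD o
  obtain ⟨θ, b, ε, h2, h3⟩ := h1 x o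
  refine ⟨ν, ε 0, fun y o' => ?_, xp_of h hA d hD h2 h3, fun φ h4 h5 =>
    h5 τ x o θ b ε h2 (mem_Ln1 d h.lev h4)⟩
  obtain ⟨θ', b', ε', h6, h7⟩ := h1 y o'
  exact rLOCX hA d LD hD (one hA d hx hD) U h.lev h.neat h.mx τ y o' θ' b' ε' ν h6 h7

end Vale.Agent.P022K.WB.Nv
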