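import Vale.Agent.P022K.FI.X1J
import Vale.Agent.P022K.FI.X1R
import Vale.Agent.P022K.WB.Nv0

/-!
# P022K, block WB, row NV: the rows on the tower of a quaternion algebra
-/

set_option autoImplicit false
set_option linter.unusedSectionVars false

open UpperHalfPlane IsLocalRing
open scoped MatrixGroups

noncomputable section

namespace Vale.Agent.P022K.WB.Nv

open Vale.Agent.P022K.Sh Vale.Agent.P022.H218.L3 Vale.Agent.P019P P025H746 FI FI.Hk FI.X1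

variable {G0 G : Type} [Group G0] [Group G] {T : Tw G0 G}
  {O K : Type} [CommRing O] [IsDomain O] [IsDiscreteValuationRing O] [Field K] [Algebra O K]
  {w : T.Lc O K} {p : ℕ} [Fact p.Prime] {D : Emb w p} {U : Subgroup G}
  [∀ x, CFF ℂ (KX T U x)]

variable (D U) in
/-- `v` is an ordinary valuation at the frame `x` -/
def Oq (v : NV (Cx D.ι) (LW T)) (x : G) : Prop := ∃ τ, Vl D U v τ ∧ Ord w D.e τ x

variable (w U) in
/-- the Iwahori level -/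
abbrev UI : Subgroup G := w.set (Iw0 O K) U

variable (w U) in
/-- the pro-`p` Iwahori level -/
abbrev U1 : Subgroup G := w.set (Iw1 O K) U

variable (D) in
/-- `c` is the tame character of `σ` -/
def Tc (σ : ℂ ≃+* ℂ) (c : Oˣ) : Prop := ∃ a : ℂ, ‖D.ι a‖ ^ (qq O - 1) = ‖D.ι (D.e w.ϖ)‖ ∧
  ‖D.ι (a - D.e (algebraMap O K c) * σ a)‖ < ‖D.ι a‖

variable (h : Ctx D U) (ζ : Cx D.ι)

/-- etale at one ordinary valuation -/
def NrP (v : NV (Cx D.ι) (LW T)) (x : G) (φ : SR h.ok) : Prop :=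
  ∃ ψ : SR h.ok, Inv (U1 w U) ψ.1 ∧ v (Ev x (φ * ψ ^ p) - 1) ≤ ‖ζ - 1‖ ^ p

/-- etale at all ordinary valuations -/
def NrA (φ : SR h.ok) : Prop := ∃ ψ : SR h.ok, Inv (U1 w U) ψ.1 ∧
  ∀ v x, Oq D U v x → v (Ev x (φ * ψ ^ p) - 1) ≤ ‖ζ - 1‖ ^ p

/-- split at all ordinary valuations -/
def SpA (φ : SR h.ok) : Prop := ∃ ψ : SR h.ok, Inv (U1 w U) ψ.1 ∧
  ∀ v x, Oq D U v x → v (Ev x (φ * ψ ^ p) - 1) < ‖ζ - 1‖ ^ p

/-- a function of level `U1` which is locally a `p`-th power -/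
def Kq (φ : SR h.ok) : Prop := Inv (U1 w U) φ.1 ∧ ∃ g : G → Mer, (∀ x, g x ≠ 0) ∧ φ.1 = g ^ p

/-- the same class -/
def Eq1 (φ φ' : SR h.ok) : Prop :=
  ∃ ψ : SR h.ok, Inv (U1 w U) ψ.1 ∧ (∀ x, ψ.1 x ≠ 0) ∧ φ = φ' * ψ ^ p

/-- **the data at a level** -/
structure Nx : Prop where
  tam : RDT D U
  fro : ∃ σ θ, ∃ s : T.Sl σ θ, Dec D.ι D.e (qq O) σ ∧ h.Fro (thU s h.lev)
  ine : ∀ c : Oˣ, ∃ σ θ, ∃ s : T.Sl σ θ, Dec D.ι D.e 1 σ ∧ h.Ine (thU s h.lev) ∧ Tc D σ c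
  sq : ∀ x, ∀ γ ∈ T.Gam (UI w U) x, ∃ e : Oˣ,
    (w.ι (dO K (e * e)))⁻¹ * (x⁻¹ * T.j γ * x) ∈ U1 w U

/-- **VUQ**: one ordinary vertex on each component -/
def VUQ : Prop := ∀ v x v' x', Oq D U v x → Oq D U v' x' → T.Rel (U1 w U) x x' →
  ∀ φ : SR h.ok, Inv (U1 w U) φ.1 → v (Ev x φ) = v' (Ev x' φ)

/-- **INF**: inertia -/
def INF : Prop := ∀ σ θ (s : T.Sl σ θ) (c : Oˣ) (k : ℕ), Dec D.ι D.e 1 σ → h.Ine (thU s h.lev) →
  Tc D σ c → (c : O) * c - 1 ∈ maximalIdeal O → σ ζ = (ζ ^ k : Cx D.ι) → ∀ φ, Kq h φ →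
  NrA h ζ φ → NrA h ζ (Rt (w.ι (X1.PP w)) φ) → Eq1 h (Rt (w.ι (dO K c)) (Th s φ)) (φ ^ k)

/-- **P3F**: the Frobenius at the ordinary vertices, `q = p = 2` -/
def P3F : Prop := ∀ σ θ (s : T.Sl σ θ), Dec D.ι D.e (qq O) σ → h.Fro (thU s h.lev) →
  ∀ φ φ' : SR h.ok, Inv (U1 w U) φ.1 → Inv (U1 w U) φ'.1 → Th s φ' = φ → NrA h ζ φ →
  NrA h ζ (Rt (w.ι (X1.PP w)) φ) → SpA h ζ (φ' * Rt (w.ι (X1.PP w))
    (Rt (w.ι (ss O K)) φ * Rt (w.ι (X1.nn K (1 : O) * ss O K)) φ * φ))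

/-- **P4F**: the square of the Frobenius on the classes which split everywhere, `q = p = 2` -/
def P4F : Prop := ∀ σ θ (s : T.Sl σ θ), Dec D.ι D.e (qq O) σ → h.Fro (thU s h.lev) →
  ∀ φ, Kq h φ → SpA h ζ φ → SpA h ζ (Rt (w.ι (X1.PP w)) φ) → Eq1 h (Th s (Th s φ)) φ

/-- **GEOF**: all function level rows -/
structure GEOF : Prop where
  vuq : VUQ h
  inf : INF h ζ
  p3 : p = 2 → qq O = 2 → P3F h ζ
  p4 : p = 2 → qq O = 2 → P4F h ζ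

/-- **ETN**: `E` is the class of functions with expansions `c (1 + X) ^ i z ^ p` -/
def ETN (E : SR h.ok → Prop) : Prop := ∀ φ β y : SR h.ok, Kq h φ → Kq h β → E φ → E β →
  β = y ^ p → Rt (w.ι (X1.nn K (1 : O))) y = algebraMap ℂ (SR h.ok) ζ * y →
  ∀ τ x, Ord w D.e τ x → ∃ v j, Vl D U v τ ∧ NrP h ζ v x (φ * β ^ (j : ℕ))

end Vale.Agent.P022K.WB.Nv
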