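import Vale.Agent.P022K.WB.NvB
import Vale.Agent.P022K.WB.NvF

/-!
# P022K, block WB, row NRX: Kummer functions of non Eisenstein classes are etale at the ordinary
valuations
-/

set_option autoImplicit false
set_option linter.unusedSectionVars false

open UpperHalfPlane IsLocalRing
open scoped MatrixGroups

noncomputable section

namespace Vale.Agent.P022K.WB.Nv

open Vale.Agent.P022K.Sh Vale.Agent.P022.H218.L3 Vale.Agent.P019P P025H746 FI FI.Hk FI.X1 Tw Tw.Ax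

variable {G0 G : Type} [Group G0] [Group G] {T : Tw G0 G}
  {O L : Type} [CommRing O] [IsDomain O] [IsDiscreteValuationRing O] [Field L] [Algebra O L]
  {w : T.Lc O L} {p : ℕ} [Fact p.Prime] {D : Emb w p} {U : Subgroup G}
  [∀ x, CFF ℂ (KX T U x)] {h : Ctx D U} {ζ : Cx D.ι} {R : ℝ → Prop} {φ ψ : SR h.ok}

/-- initial segments of the unit interval -/
structure Sg (R : ℝ → Prop) : Prop where
  zero : R 0
  lt : ∀ a, R a → a < 1
  mx : ∀ a b c, R a → R b → c ≤ max a b → R c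

theorem sg_le (hz : PZ p ζ) : Sg fun a => a ≤ ‖ζ - 1‖ ^ p :=
  ⟨hz.pos'.le, fun _ h => h.trans_lt hz.lt_one', fun _ _ _ h h' e => e.trans (max_le h h')⟩

theorem sg_lt (hz : PZ p ζ) : Sg fun a => a < ‖ζ - 1‖ ^ p :=
  ⟨hz.pos', fun _ h => h.trans hz.lt_one', fun _ _ _ h h' e => e.trans_lt (max_lt h h')⟩

theorem Sg.mul (r : Sg R) {v : NV (Cx D.ι) (LW T)} {a b : LW T} (ha : R (v (a - 1)))
    (hb : R (v (b - 1))) : R (v (a * b - 1)) :=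
  r.mx _ _ _ ha hb (mul_sub_le (le_max_left _ _) (le_max_right _ _) (eq_one (r.lt _ hb)).le)

variable (h R) in
/-- close to a `p`-th power at all ordinary valuations -/
def Na (φ : SR h.ok) : Prop := ∃ ψ : SR h.ok, Inv (U1 w U) ψ.1 ∧
  ∀ v x, Oq D U v x → R (v (Ev x (φ * ψ ^ p) - 1))

theorem Na.mul (r : Sg R) (a : Na h R φ) (b : Na h R ψ) : Na h R (φ * ψ) := by
  obtain ⟨c, h1, h2⟩ := a
  obtain ⟨d, h3, h4⟩ := b
  refine ⟨c * d, inv_mul h1 h3, fun v x o => ?_⟩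
  rw [mul_pow, mul_mul_mul_comm, map_mul]
  exact r.mul (h2 v x o) (h4 v x o)

theorem Na.pw (r : Sg R) (hφ : Inv (U1 w U) φ.1) (h0 : ∀ x, φ.1 x ≠ 0) : Na h R (φ ^ p) :=
  ⟨pinv φ, fun x u hu => congrArg (·⁻¹) (hφ x u hu), fun v x _ => by
    rw [← mul_pow, map_pow, map_mul, Ev_inv,
      mul_inv_cancel₀ fun e => h0 x (congrArg Subtype.val e), one_pow, sub_self, map_zero]
    exact r.zero⟩

theorem Na.hec (r : Sg R) {Q : Set G} (c : Cor (U1 w U) Q (U1 w U)) {I : Type} {s : Finset I}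
    {g : I → G} (e : Rep Q (U1 w U) s g) (hg : ∀ i, w.π (g i) = 1) (a : Na h R φ) :
    Na h R (∏ i ∈ s, Rt (g i) φ) := by
  obtain ⟨ψ, h1, h2⟩ := a
  refine ⟨∏ i ∈ s, Rt (g i) ψ, fun x u hu => ?_, fun v x ⟨τ, l, o⟩ => ?_⟩
  · have := hp_inv c h1 x u hu
    rw [e.hp h1, e.hp h1] at this
    rw [SubmonoidClass.coe_finsetProd, Finset.prod_apply, Finset.prod_apply]
    exact this
  · rw [← Finset.prod_pow, ← Finset.prod_mul_distrib, map_prod]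
    refine Finset.prod_induction _ (fun a => R (v (a - 1))) (fun _ _ => r.mul) (by simpa using r.zero)
      fun i _ => ?_
    rw [← map_pow, ← map_mul, Ev_Rt]
    exact h2 v _ ⟨τ, l, o.right ((hg i).trans d2_one.symm)⟩

theorem NrA.mul (hz : PZ p ζ) (a : NrA h ζ φ) (b : NrA h ζ ψ) : NrA h ζ (φ * ψ) :=
  Na.mul (h := h) (sg_le hz) a b

theorem SpA.mul (hz : PZ p ζ) (a : SpA h ζ φ) (b : SpA h ζ ψ) : SpA h ζ (φ * ψ) :=
  Na.mul (h := h) (sg_lt hz) a b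

theorem SpA.pw (hz : PZ p ζ) (hφ : Inv (U1 w U) φ.1) (h0 : ∀ x, φ.1 x ≠ 0) : SpA h ζ (φ ^ p) :=
  Na.pw (h := h) (sg_lt hz) hφ h0

theorem SpA.nr (a : SpA h ζ φ) : NrA h ζ φ := a.imp fun _ a => ⟨a.1, fun v x o => (a.2 v x o).le⟩

theorem le_PP (hU : U ∈ T.Lev) : U1 w U ≤ cj (w.ι (X1.PP w)) (U1 w U) := fun _ hk =>
  mem_cj.2 (set_conj hU (fun _ => PP_Iw1 w) hk)

theorem ex_tr (D : Emb w p) {n : ℕ} (hn : n = p) (c : ZMod n) :
    ∃ t : O →+ ZMod n, (∀ a ∈ maximalIdeal O, t a = 0) ∧ t 1 = c := by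
  subst hn
  have hp : (n : O) ∈ maximalIdeal O := by
    by_contra e
    have := nrm_unit (D := D) (notMem_maximalIdeal.1 e)
    rw [map_natCast, map_natCast] at this
    exact (Cx.norm_p_lt D.ι).ne (by rw [← this, ← map_natCast (Cx.of D.ι)]; rfl)
  have : CharP (ResidueField O) n := (CharP.charP_iff_prime_eq_zero Fact.out).2 (by
    rw [← map_natCast (residue O)]
    exact (residue_eq_zero_iff _).2 hp)
  let _ := ZMod.algebra (ResidueField O) n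
  obtain ⟨f, hf⟩ := (Algebra.linearMap (ZMod n) (ResidueField O)).exists_leftInverse_of_injective
    (LinearMap.ker_eq_bot.2 (algebraMap (ZMod n) (ResidueField O)).injective)
  refine ⟨(AddMonoidHom.mulLeft c).comp (f.toAddMonoidHom.comp (residue O).toAddMonoidHom),
    fun a ha => ?_, ?_⟩
  · simp [(residue_eq_zero_iff _).2 ha]
  · simpa using congrArg (c * ·) (LinearMap.congr_fun hf 1)

variable {A : T.Ax} {H : Type} [Group H] [TopologicalSpace H] {th : H → (G → Mer) → G → Mer}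
  {M : Type} [AddCommGroup M] {a : Representation ℤ G M} {g : Representation ℤ H M}
  {im : ∀ k U, T.Hn (p ^ k) U →+ M} (K : A.Kk p th a g im) (hA : ∀ᶠ i in A.F, w.Ne (A.w i))
  {z : M}
include K hA

theorem prj_na (r : Sg R) (e : Ke (T := T) im (U1 w U) 1 ψ.1 z) (b : Na h R ψ)
    (d : A.Kd im (U1 w U) 1 φ.1 z) : Na h R φ := by
  have m := d.1.1
  refine K.prf d.1 (P := fun f => ∀ f' : SR h.ok, f'.1 = f → Na h R f') (fun u hu u0 f e => ?_)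
    (fun f hf f' hf' _ _ q q' _ e => ?_) (hA.mono fun i ne hi f hf _ q _ e => ?_) e
    (fun _ e => Subtype.ext e ▸ b) d φ rfl
  · obtain rfl : f = (⟨u, _, m, hu⟩ : SR h.ok) ^ p := Subtype.ext (by rw [e, pow_one]; rfl)
    exact Na.pw r hu.2 u0
  · rw [show _ = (⟨f, _, m, hf⟩ * ⟨f', _, m, hf'⟩ : SR h.ok) from Subtype.ext e]
    exact (q _ rfl).mul r (q' _ rfl)
  · have := (A.w i).fin
    let _ := Fintype.ofFinite (ResidueField ℤ_[A.l i])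
    have s := hi.2.rep_To hi.1
    have := (q ⟨f, _, m, hf⟩ rfl).hec r (Lc.L0.cor _ hi) s fun _ => ne.1 _
    convert this using 1
    refine Subtype.ext (e.trans (funext fun x => ?_))
    rw [s.hp hf.2, SubmonoidClass.coe_finsetProd, Finset.prod_apply]
    rfl

theorem prj_nr (hz : PZ p ζ) (e : Ke (T := T) im (U1 w U) 1 ψ.1 z) (b : NrA h ζ ψ)
    (d : A.Kd im (U1 w U) 1 φ.1 z) : NrA h ζ φ := prj_na (h := h) K hA (sg_le hz) e b d

theorem prj_sp (hz : PZ p ζ) (e : Ke (T := T) im (U1 w U) 1 ψ.1 z) (b : SpA h ζ ψ)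
    (d : A.Kd im (U1 w U) 1 φ.1 z) : SpA h ζ φ := prj_na (h := h) K hA (sg_lt hz) e b d

omit hA in
theorem kq_ke (e : Ke (T := T) im (U1 w U) 1 φ.1 z) : Kq h φ :=
  ⟨(e.mem K).2, e.root.imp fun _ e => ⟨e.1, by rw [e.2, pow_one]⟩⟩

/-- **NRX** -/
theorem nrx (hz : PZ p ζ) (vuq : VUQ h) {E : SR h.ok → Prop} (etn : ETN h ζ E)
    (lp : ∀ y : SR h.ok, (∀ x, y.1 x ≠ 0) → Inv (U1 w U) (y ^ p).1 → E (y ^ p))
    (d : A.Kd im (U1 w U) 1 φ.1 z) (hE : E φ) : NrA h ζ φ := by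
  obtain ⟨c, hc⟩ := ex_eM (K.pos 1) (y := algebraMap ℂ Mer ζ) (by
    rw [pow_one]
    exact (map_pow (algebraMap ℂ Mer) ζ p).symm.trans
      ((congrArg _ hz.prim.pow_eq_one).trans (map_one _)))
  obtain ⟨t, t0, t1⟩ := ex_tr D (pow_one p) c
  obtain ⟨y, h1, h2, h3, -, h4, h5⟩ := K.bet d.1 h.ok (Lv.At_set h.lev) t t0
  rw [pow_one] at h3
  let Y : SR h.ok := ⟨y, _, w.lev _ d.1.1 1, h1⟩
  have key : ∀ x, ∃ (j : ℕ) (ψ : SR h.ok), Inv (U1 w U) ψ.1 ∧ ∀ v x', T.Rel (U1 w U) x x' →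
      Oq D U v x' → ∃ v₀ x₀, T.Rel (U1 w U) x x₀ ∧ Oq D U v₀ x₀ ∧
        v₀ (Ev x₀ (φ * (Y ^ p) ^ j * ψ ^ p) - 1) ≤ ‖ζ - 1‖ ^ p := fun x => by
    by_cases e : ∃ x₀ τ, T.Rel (U1 w U) x x₀ ∧ Ord w D.e τ x₀
    · obtain ⟨x₀, τ, r, o⟩ := e
      obtain ⟨v, j, l, ψ, i, b⟩ := etn φ (Y ^ p) Y (kq_ke K d.ke) ⟨h3.2, y, h2, rfl⟩ hE
        (lp Y h2 h3.2) rfl (Subtype.ext (funext fun x => (h4 1 x).trans (by rw [t1, ← hc]; rfl))) τ x₀ o
      exact ⟨j, ψ, i, fun _ _ _ _ => ⟨v, x₀, r, ⟨τ, l, o⟩, b⟩⟩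
    · exact ⟨0, 1, fun _ _ _ => rfl, fun _ x' r ⟨τ, _, o⟩ => (e ⟨x', τ, r, o⟩).elim⟩
  choose j ψ i b using key
  have e := h5 (fun x => j (T.rp (U1 w U) x)) fun _ _ r => congrArg j (rp_eq r)
  let B : SR h.ok := ⟨_, _, d.1.1, e.mem K⟩
  have m : (fun x => (ψ (T.rp (U1 w U) x)).1 x) ∈ T.RU (U1 w U) := mem_RU.2 ⟨fun x u hu => by
    beta_reduce
    rw [← rp_eq (rel_right x hu), i _ x u hu], fun γ x => by
    rw [← rp_eq (rel_left γ x), (mem_RU.1 (sr_mem _ (i _))).2]⟩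
  let Ψ : SR h.ok := ⟨_, _, d.1.1, m⟩
  refine prj_nr K hA hz (ψ := φ * B) (add_zero z ▸ d.ke.mul K e :) ⟨Ψ, m.2, fun v x o => ?_⟩ d
  obtain ⟨v₀, x₀, r, o', le⟩ := b _ v x (rel_rp x).symm o
  have := vuq v x v₀ x₀ o o' ((rel_rp x).trans r) (φ * B * Ψ ^ p - 1) (inv_sub (inv_mul
    (inv_mul (d.mem K).2 (e.mem K).2) (pow_mem m p).2) fun _ _ _ => rfl)
  rw [map_sub (Ev x), map_sub (Ev x₀), map_one, map_one] at this
  refine this.trans_le (Eq.trans_le (congrArg (fun a => v₀ (a - 1)) (Subtype.ext ?_)) le)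
  show φ.1 x₀ * (y ^ p ^ 1) x₀ ^ j (T.rp _ x₀) * (ψ (T.rp _ x₀)).1 x₀ ^ p =
    φ.1 x₀ * (y x₀ ^ p) ^ j (T.rp _ x) * (ψ (T.rp _ x)).1 x₀ ^ p
  rw [pow_one, ← rp_eq ((rel_rp x).trans r)]
  rfl

end Vale.Agent.P022K.WB.Nv
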