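import Vale.Agent.P022K.FI.X1M
import Vale.Agent.P022K.F0.NuH

/-!
# P022K, block WB, row SQL: only square diamonds act on a component (helper80)
-/

set_option autoImplicit false

open IsLocalRing Polynomial
open scoped MatrixGroups

noncomputable section

namespace Vale.Agent.P022K.WB.Sql

open Vale.Agent.P022K.Sh FI.X1

variable {G0 G : Type} [Group G0] [Group G] {T : Tw G0 G}
  {O K : Type} [CommRing O] [IsDomain O] [IsDiscreteValuationRing O] [Field K] [Algebra O K]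
  {w : T.Lc O K} {U : Subgroup G} {ν : G →* ℤˣ}

variable (w U) in
/-- only square diamonds act on the components (the clause `sq` of `Nv.Nx`) -/
def Sq : Prop := ∀ x, ∀ γ ∈ T.Gam (w.set (Iw0 O K) U) x, ∃ e : Oˣ,
  (w.ι (dO K (e * e)))⁻¹ * (x⁻¹ * T.j γ * x) ∈ w.set (Iw1 O K) U

theorem two : ∀ a b : ZMod 2, a * b = 1 → a - 1 = 0 := by decide

theorem det_sq (w : T.Lc O K) (h2 : IsUnit (2 : O)) {v : GL (Fin 2) K} (hv : v ∈ Iw1 O K) :
    IsSquare (Matrix.GeneralLinearGroup.det v) := by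
  have := w.cpl
  obtain ⟨k, h1, h3, rfl⟩ := Iw1_ex hv
  obtain ⟨a, ha, -⟩ := HenselianRing.is_henselian (I := maximalIdeal O) (X ^ 2 - C (k.det : O))
    (monic_X_pow_sub_C _ two_ne_zero) (k 0 0) (by
      convert add_mem (Ideal.mul_mem_left _ (k 0 0) h3) (Ideal.mul_mem_left _ (k 0 1) h1) using 1
      simp [Matrix.det_fin_two]
      ring) (by
      refine IsUnit.map _ ?_
      simpa [one_add_one_eq_two] using h2.mul (diag_unit h1).1)
  have e : a * a = k.det := by simpa [sub_eq_zero, sq] using ha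
  obtain ⟨u, rfl⟩ := isUnit_of_mul_isUnit_left (e ▸ k.det.isUnit)
  rw [Matrix.GeneralLinearGroup.map_det, ← (Units.ext e : u * u = _), map_mul]
  exact ⟨_, rfl⟩

theorem set_le (h2 : IsUnit (2 : O)) (lev : ∃ W ∈ T.Lev, W ≤ ν.ker)
    (sq : ∀ g, IsSquare (Matrix.GeneralLinearGroup.det g) → ν (w.ι g) = 1)
    (h : ∀ u ∈ U, w.π u = 1 → ν u = 1) : w.set (Iw1 O K) U ≤ ν.ker :=
  sup_le (sup_le (fun u hu => h u hu.1 hu.2) (lev.elim fun _ a => (sInf_le a.1).trans a.2))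
    fun _ ⟨v, hv, e⟩ => e ▸ sq v (det_sq w h2 hv)

/-- odd residue characteristic -/
theorem sq_of (h2 : IsUnit (2 : O)) (j : ∀ γ, ν (T.j γ) = 1) (lev : ∃ W ∈ T.Lev, W ≤ ν.ker)
    (sq : ∀ g, IsSquare (Matrix.GeneralLinearGroup.det g) → ν (w.ι g) = 1)
    (ns : ∀ c : Oˣ, ¬ IsSquare c → ν (w.ι (dO K c)) = -1) (hU : U ∈ T.Lev)
    (h : ∀ u ∈ U, w.π u = 1 → ν u = 1) : Sq w U := fun x γ hγ => by
  obtain ⟨c, hc⟩ := lev_dO hU (T.mem_Gam.1 hγ)
  obtain ⟨e, rfl⟩ : IsSquare c := by_contra fun n => by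
    have := MonoidHom.mem_ker.1 (set_le h2 lev sq h hc)
    rw [map_mul, map_mul, map_mul, j, mul_one, map_inv, map_inv, inv_mul_cancel, ns c n] at this
    exact absurd this (by decide)
  exact ⟨e, hc⟩

/-- the residue field with two elements -/
theorem sq_two (h : ∀ c : Oˣ, (c : O) - 1 ∈ maximalIdeal O) (hU : U ∈ T.Lev) : Sq w U :=
  fun x γ hγ => by
  obtain ⟨c, hc⟩ := lev_dO hU (T.mem_Gam.1 hγ)
  have := mul_mem (iota_mem' hU (dO_Iw1 (h c))) hc
  exact ⟨1, by rwa [mul_one, dO_one, map_one, inv_one, one_mul, ← mul_inv_cancel_left (w.ι _) (_ * x)]⟩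

/-- **SQL** -/
theorem sql {F : Type} [Field F] [NumberField F] {X : QD F} {p : ℕ} [hp : Fact p.Prime] {v : Pl F}
    {L : X.tw.Lc ℤ_[p] ℚ_[p]} (h : X.IsPl v L) : ∃ U0 ∈ X.tw.Lev, ∀ U ∈ X.tw.Lev,
      (∀ u ∈ U, L.π u = 1 → u ∈ U0) → Sq L U := by
  by_cases e : p = 2
  · subst e
    refine ⟨_, X.UN_mem one_pos, fun U hU _ => sq_two (fun c => ?_) hU⟩
    rw [← PadicInt.ker_toZMod, RingHom.mem_ker, map_sub, map_one]
    exact two _ _
      ((map_mul _ _ _).symm.trans ((congrArg PadicInt.toZMod c.mul_inv).trans (map_one _)))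
  · have h2 : IsUnit (2 : ℤ_[p]) := by
      rw [← notMem_maximalIdeal, ← PadicInt.ker_toZMod, RingHom.mem_ker, map_ofNat]
      exact fun k => e ((Nat.prime_dvd_prime_iff_eq hp.out Nat.prime_two).1
        ((ZMod.natCast_eq_zero_iff 2 p).1 k))
    obtain ⟨ν, j, ⟨W, a, b⟩, sq, ns⟩ := h.ex_nu h2
    exact ⟨W, a, fun U hU k => sq_of h2 j ⟨W, a, b⟩ sq ns hU fun u c d => b (k u c d)⟩

end Vale.Agent.P022K.WB.Sql
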