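import Vale.Agent.P022K.WB.NvF
import Vale.Agent.P022K.FI.X1V

/-!
# P022K, block WB, row NV: the decomposition group on the tower of a quaternion algebra
-/

set_option autoImplicit false
set_option linter.all false

open NumberField

noncomputable section

namespace Vale.Agent.P022K.WB.Nv

open Vale.Agent.P022 Vale.Agent.P022K.Sh Vale.Agent.P022K.F0 Vale.Agent.P022.H218.L3
  Vale.Agent.P019P FI FI.Hk FI.X1

variable {F : Type} [Field F] [NumberField F] {X : QD F}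
  {O K : Type} [CommRing O] [IsDomain O] [IsDiscreteValuationRing O] [Field K] [Algebra O K]
  {L : X.tw.Lc O K} {w : Pl F} {j : F →+* Qb} {io : Qb →+* ℂ}

theorem ex_sl (can : X.CAN) (hj : X.Emb j io) {g : GQ} (hg : g ∈ GK j) {σ : ℂ ≃+* ℂ}
    (e : Tw.Ext io g σ) : ∃ θ, X.tw.Sl σ θ := can.ex σ (by
  rintro _ ⟨c, rfl⟩
  rw [← hj, RingHom.comp_apply, e, hg])

/-- the action depends only on the Galois element -/
theorem ga_of (can : X.CAN) (hj : X.Emb j io) {g : GQ} {σ σ₁ : ℂ ≃+* ℂ}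
    {θ θ₁ : (X.G → Mer) → X.G → Mer} (s : X.tw.Sl σ θ) (s₁ : X.tw.Sl σ₁ θ₁) (e : Tw.Ext io g σ)
    (e₁ : Tw.Ext io g σ₁) {U : Subgroup X.G} (hU : U ∈ X.tw.Nl) {n : ℕ} (hn : 0 < n)
    (b b' : X.tw.Hn n U) : X.tw.Ga θ n U b b' → X.tw.Ga θ₁ n U b b' :=
  (chg X.ok io can.mod (fun _ e => ex_sl can hj (one_mem _) e) hU.1 hU.2 s s₁
    fun a => (e a).trans (e₁ a).symm).2 n hn b b'

/-- inertia and Frobenius at all levels -/
theorem dec_if (noa : NOA) (left : X.tw.LEFT) (ari : ARIX X) (rdx : RDX X) (hw : X.IsPl w L)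
    {p : ℕ} [Fact p.Prime] {D : Emb L p} (he : IsE X L D.e) {σ : ℂ ≃+* ℂ}
    {θ : (X.G → Mer) → X.G → Mer} (s : X.tw.Sl σ θ) {U : Subgroup X.G}
    [∀ x, CFF ℂ (KX X.tw U x)] (h : Ctx D U) : (Dec D.ι D.e 1 σ → h.Ine (thU s h.lev)) ∧
      (Dec D.ι D.e (qq O) σ → h.Fro (thU s h.lev)) := by
  obtain ⟨sa, rd⟩ := rdx O K L w hw p D he
  have main : ∀ d, Dec D.ι D.e (qq O ^ d) σ → ∃ th, IsTh L D.e σ θ U th ∧
      ∀ y, th y = (fw L D.e U)^[d] y := fun d dec => by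
    obtain ⟨h1, h2⟩ := noa _ _ X.tw X.ok (Tw.pts_of X.ok X.tw.cf) (mul_row X.ok) (Oc.ff X.ok left)
      (cenx X) (cjx X) O K L D.e D.cmp (ari (sa_of X rdx) O K L w hw D.e) σ θ s dec.fix
    obtain ⟨th, t⟩ := h1 U h.lev
    refine ⟨th, t, h2 d (fun V hV nV mV th t => ?_) U h.lev h.neat h.mx th t⟩
    haveI := fun x => (X.tw.cf _ (X.ok.fu V hV x)).1
    exact Ctx.rigb ⟨X.ok, X.tw.cf, X.tw.gen, hV, nV, mV, sa, rd V hV nV mV⟩ s ⟨dec.iso, dec.pow⟩ t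
  refine ⟨fun dec => ?_, fun dec => ?_⟩
  · obtain ⟨th, t, e⟩ := main 0 (by rwa [pow_zero])
    exact h.ine s ⟨dec.iso, dec.pow⟩ t e
  · obtain ⟨th, t, e⟩ := main 1 (by rwa [pow_one])
    exact h.fro s ⟨dec.iso, dec.pow⟩ t e

/-- the embedding at a prime, with all tame characters -/
theorem emb_tc (can : X.CAN) (hw : X.IsPl w L) (hj : X.Emb j io) {P : Ideal (𝓞 Qb)}
    (hP : P.IsPrime) (hb : below j P = w.asIdeal) : ∃ (p : ℕ) (_ : Fact p.Prime) (D : Emb L p),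
      IsE X L D.e ∧ (∀ x : 𝓞 Qb, ‖D.ι (io x)‖ < 1 ↔ x ∈ P) ∧
      (∀ Q, 0 < Q → ∀ g ∈ GK j, (∀ x : 𝓞 Qb, g • x - x ^ Q ∈ P) →
        ∃ σ θ, X.tw.Sl σ θ ∧ Tw.Ext io g σ ∧ Dec D.ι D.e Q σ) ∧
      ∀ d : Oˣ, ∃ σ θ, X.tw.Sl σ θ ∧ Dec D.ι D.e 1 σ ∧ Nv.Tc D σ d := by
  obtain ⟨p, _, D, -, he, ⟨n, n0, hn⟩, hp, h1⟩ := emb X (cmpx X) L w hw j io hj P hP hb
  refine ⟨p, inferInstance, D, he, hp, fun Q Q0 g hg h => ?_, fun d => ?_⟩
  · obtain ⟨σ, e, dec⟩ := h1 Q Q0 g hg h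
    exact ⟨σ, (ex_sl can hj hg e).imp fun _ s => ⟨s, e, dec⟩⟩
  have := L.fr
  have := L.fin
  have hE : ∀ c, ‖(D.ι.toRingHom.comp D.e) c‖ ≤ 1 ↔ ig O c := D.int
  have m0 : 0 < qq O - 1 := Nat.sub_pos_of_lt Finite.one_lt_card
  obtain ⟨π, p1, p2, p3⟩ := ex_pi X hw D he
  obtain ⟨l, hl⟩ := IsAlgClosed.exists_pow_nat_eq (j π) m0
  have l1 : ‖D.ι (io l)‖ ^ (qq O - 1) = ‖D.ι (D.e L.ϖ)‖ := by
    rw [← norm_pow, ← map_pow, ← map_pow, hl, ← p3, ← hj, RingHom.comp_apply]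
  have l0 : l ≠ 0 := fun e => by
    rw [e, map_zero, map_zero, norm_zero, zero_pow m0.ne'] at l1
    simpa using l1.symm
  obtain ⟨ζ, z1, z2⟩ := ex_root hE (D.ι.toRingHom.comp io) d
  have z0 : ζ ≠ 0 := fun e => by simp [e, m0.ne'] at z1
  obtain ⟨g, g1, g2, g3⟩ := tch F j w P hP hb π p1 p2 (qq O - 1) (fun h => by
    rw [← hb, below, Ideal.mem_comap, map_natCast, Nat.cast_sub (by omega), hn, Nat.cast_pow,
      Nat.cast_one] at h
    have h2 : (p : 𝓞 Qb) ∈ P := (hp _).1 (by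
      rw [show ((p : 𝓞 Qb) : Qb) = p from rfl, map_natCast, map_natCast]
      exact CS.norm_p_lt p)
    exact hP.ne_top ((Ideal.eq_top_iff_one P).2 (by
      simpa using sub_mem (P.pow_mem_of_mem h2 n n0) h))) l ζ⁻¹ hl (by rw [inv_pow, z1, inv_one])
  obtain ⟨σ, e, dec⟩ := h1 1 one_pos g g1 (by simpa only [pow_one] using g2)
  obtain ⟨θ, s⟩ := ex_sl can hj g1 e
  refine ⟨σ, θ, s, dec, io l, l1, ?_⟩
  have e1 : io l - D.e (algebraMap O K d) * σ (io l) =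
      -(σ (io l) * (D.e (algebraMap O K d) - io ζ)) := by
    rw [e, g3, mul_sub, ← map_mul io, mul_right_comm, inv_mul_cancel₀ z0, one_mul]
    ring
  rw [e1, map_neg, norm_neg, map_mul, norm_mul, dec.iso, map_sub]
  exact mul_lt_of_lt_one_right (by simpa using l0) z2

/-- the action on a root of unity -/
theorem ext_zeta {p : ℕ} [hp : Fact p.Prime] {g : GQ} {σ : ℂ ≃+* ℂ} (e : Tw.Ext io g σ) {ζ : ℂ}
    (hz : ζ ^ p = 1)
    (h : (p : ℤ_[p]) ∣ (cyclotomicCharacter Qb p g.toRingEquiv : ℤ_[p]ˣ) + 1) :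
    σ ζ = ζ ^ (p - 1) := by
  have : ∀ i, HasEnoughRootsOfUnity Qb (p ^ i) := fun i => by
    have : NeZero ((p ^ i : ℕ) : Qb) := ⟨by exact_mod_cast (NeZero.ne (p ^ i))⟩
    infer_instance
  have : NeZero (p : Qb) := ⟨by exact_mod_cast hp.out.ne_zero⟩
  obtain ⟨z, h1⟩ := HasEnoughRootsOfUnity.exists_primitiveRoot Qb p
  obtain ⟨i, -, rfl⟩ := (h1.map_of_injective io.injective).eq_pow_of_pow_eq_one hz
  rw [← map_pow, ← map_pow, map_eq_one_iff _ io.injective] at hz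
  have h2 := cyclotomicCharacter.spec p (n := 1) g.toRingEquiv _ (by rwa [pow_one])
  rw [← map_pow, e, ← map_pow]
  refine congrArg io (h2.trans (mul_right_cancel₀ (b := z ^ i)
    (fun e => by simp [e, hp.out.ne_zero] at hz) ?_))
  rw [pow_sub_one_mul hp.out.ne_zero, hz, ← pow_succ]
  obtain ⟨y, hy⟩ := h
  have h3 := congrArg (PadicInt.toZModPow 1) hy
  rw [map_add, map_one, map_mul, map_natCast, ← ZMod.natCast_zmod_val (PadicInt.toZModPow 1 _),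
    ← Nat.cast_succ, show ((p : ℕ) : ZMod (p ^ 1)) = 0 from
      (ZMod.natCast_eq_zero_iff _ _).2 (by rw [pow_one]), zero_mul, ZMod.natCast_eq_zero_iff] at h3
  obtain ⟨m, hm⟩ := h3
  rw [show _ + 1 = p ^ 1 * m from hm, pow_mul, pow_one p, hz, one_pow]

end Vale.Agent.P022K.WB.Nv
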