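import Mathlib

/-!
# P022K, block WB: matrix units from the relation of Cayley and Hamilton
-/

set_option autoImplicit false

noncomputable section

namespace Vale.Agent.P022K.WB

open Matrix

variable {H O N : Type*} [Group H] [CommRing O] [AddCommGroup N] [Module O N]

theorem ch_ker {A : Type*} [Ring A] [Algebra O A] (φ : A →ₐ[O] Matrix (Fin 2) (Fin 2) O)
    (ψ : A →ₐ[O] Module.End O N) (hφ : Function.Surjective φ)
    (T : A → Module.End O N) (hT : ∀ a, T a = (φ a).trace • 1 - ψ a)
    (hm : ∀ a b, T (a * b) = T b * T a) {k : A} (hk : φ k = 0) : ψ k = 0 := by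
  have h0 : ∀ k, φ k = 0 → T k = -ψ k := fun k hk => by rw [hT, hk, trace_zero, zero_smul, zero_sub]
  have h1 : ∀ k, φ k = 0 → ∀ b, ψ k * ψ b = T b * ψ k := fun k hk b => by
    have := hm k b
    rw [h0 _ (by rw [map_mul, hk, zero_mul]), h0 k hk, map_mul, mul_neg, neg_inj] at this
    exact this
  have h2 : ∀ k, φ k = 0 → ∀ b c, (T b * T c - T c * T b) * ψ k = 0 := fun k hk b c => by
    rw [sub_mul, ← hm c b, ← hm b c, ← h1 k hk (b * c), map_mul, ← mul_assoc, h1 k hk b, hm c b,
      mul_assoc, mul_assoc, h1 k hk c, sub_self]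
  have h3 : ∀ b c, T b * T c - T c * T b = ψ b * ψ c - ψ c * ψ b := fun b c => by
    simp only [hT, sub_mul, mul_sub, smul_mul_assoc, mul_smul_comm, one_mul, mul_one, smul_sub,
      smul_smul, mul_comm (φ b).trace]
    abel
  obtain ⟨a, ha⟩ := hφ (single 0 0 1)
  obtain ⟨b, hb⟩ := hφ (single 0 1 1)
  obtain ⟨c, hc⟩ := hφ (single 1 0 1)
  have e1 : ψ (a * (b * c)) * ψ k = ψ (a * (c * b)) * ψ k := by
    rw [← sub_eq_zero, ← sub_mul, map_mul, map_mul, map_mul, map_mul, ← mul_sub, mul_assoc, ← h3,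
      h2 k hk, mul_zero]
  have e2 : T (a * (c * b)) * ψ k = T (a * (b * c)) * ψ k := by
    rw [← sub_eq_zero, ← sub_mul, hm, hm, hm, hm, ← sub_mul, mul_assoc, ← h1 k hk, ← map_mul,
      h2 _ (by rw [map_mul, hk, zero_mul])]
  have t1 : (φ (a * (b * c))).trace = 1 := by
    simp [ha, hb, hc]
  have t2 : (φ (a * (c * b))).trace = 0 := by
    simp [ha, hb, hc]
  rw [hT, hT, t1, t2, sub_mul, sub_mul, e1, sub_left_inj, zero_smul, zero_mul, one_smul,
    one_mul] at e2
  exact e2.symm

/-- **matrix units** -/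
theorem exists_E (γ : Representation O H N) (r : H →* Matrix (Fin 2) (Fin 2) O)
    (hr : Submodule.span O (Set.range r) = ⊤)
    (ch : ∀ s, γ s + (r s).det • γ s⁻¹ = (r s).trace • 1) :
    ∃ E : Matrix (Fin 2) (Fin 2) O →ₐ[O] Module.End O N, ∀ s, E (r s) = γ s := by
  let φ : MonoidAlgebra O H →ₐ[O] Matrix (Fin 2) (Fin 2) O := MonoidAlgebra.lift O _ H r
  let ψ := γ.asAlgebraHom
  have f1 : ∀ s, φ (MonoidAlgebra.of O H s) = r s := fun s => MonoidAlgebra.lift_of _ _
  have f2 : ∀ s, ψ (MonoidAlgebra.of O H s) = γ s := fun s => γ.asAlgebraHom_of s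
  have hφ : Function.Surjective φ := fun m => by
    have : Submodule.span O (Set.range r) ≤ LinearMap.range φ.toLinearMap :=
      Submodule.span_le.2 (by rintro _ ⟨s, rfl⟩; exact ⟨_, f1 s⟩)
    exact this (hr ▸ Submodule.mem_top)
  let T : MonoidAlgebra O H →ₗ[O] Module.End O N :=
    (LinearMap.toSpanSingleton O _ 1).comp ((traceLinearMap _ O O).comp φ.toLinearMap) -
      ψ.toLinearMap
  have hT : ∀ a, T a = (φ a).trace • 1 - ψ a := fun _ => rfl
  have f3 : ∀ s, T (MonoidAlgebra.of O H s) = (r s).det • γ s⁻¹ := fun s => by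
    rw [hT, f1, f2, ← ch, add_sub_cancel_left]
  have hm : ∀ a b, T (a * b) = T b * T a := fun a b => by
    induction a using MonoidAlgebra.induction_on with
    | of s =>
      induction b using MonoidAlgebra.induction_on with
      | of t =>
        rw [← map_mul, f3, f3, f3, map_mul, det_mul, _root_.mul_inv_rev, map_mul, smul_mul_smul_comm,
          mul_comm]
      | add x y hx hy => rw [mul_add, map_add, hx, hy, map_add, add_mul]
      | smul o x hx => rw [mul_smul_comm, map_smul, hx, map_smul, smul_mul_assoc]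
    | add x y hx hy => rw [add_mul, map_add, hx, hy, map_add, mul_add]
    | smul o x hx => rw [smul_mul_assoc, map_smul, hx, map_smul, mul_smul_comm]
  have key : ∀ a b, φ a = φ b → ψ a = ψ b := fun a b e => sub_eq_zero.1 (by
    rw [← map_sub]
    exact ch_ker φ ψ hφ T hT hm (by rw [map_sub, e, sub_self]))
  choose g hg using hφ
  refine ⟨AlgHom.ofLinearMap
    { toFun := fun m => ψ (g m)
      map_add' := fun a b => by rw [← map_add]; exact key _ _ (by rw [map_add, hg, hg, hg])
      map_smul' := fun o a => by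
        rw [RingHom.id_apply, ← map_smul]; exact key _ _ (by rw [map_smul, hg, hg]) }
    ((key _ 1 (by rw [hg, map_one])).trans (map_one ψ))
    (fun a b => (key _ (g a * g b) (by rw [map_mul, hg, hg, hg])).trans (map_mul ψ _ _)),
    fun s => (key _ _ (by rw [hg, f1])).trans (f2 s)⟩

/-- spanning lifts from the residue field -/
theorem span_top [IsLocalRing O] {X κ : Type*} [Field κ] (π : O →+* κ)
    (hπ : RingHom.ker π = IsLocalRing.maximalIdeal O) (r : X → Matrix (Fin 2) (Fin 2) O)
    (h : Submodule.span κ (Set.range fun s => (r s).map π) = ⊤) :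
    Submodule.span O (Set.range r) = ⊤ := by
  classical
  obtain ⟨b, hb, h1, h2⟩ := exists_linearIndependent κ (Set.range fun s => (r s).map π)
  let B : Module.Basis b κ (Matrix (Fin 2) (Fin 2) κ) :=
    Module.Basis.mk h2 (by rw [Subtype.range_coe, h1, h])
  let e := B.indexEquiv (stdBasis κ (Fin 2) (Fin 2))
  choose s hs using fun i : b => hb i.2
  let A : Matrix (Fin 2 × Fin 2) (Fin 2 × Fin 2) O := of fun i j => r (s (e.symm j)) i.1 i.2
  have hA : IsUnit A.det := by
    rw [← IsLocalRing.notMem_maximalIdeal, ← hπ, RingHom.mem_ker, RingHom.map_det]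
    have : π.mapMatrix A = (stdBasis κ (Fin 2) (Fin 2)).toMatrix (B.reindex e) := by
      ext i j
      have := congrFun (congrFun (hs (e.symm j)) i.1) i.2
      simp only [Module.Basis.toMatrix_apply, Module.Basis.reindex_apply, B, Module.Basis.mk_apply]
      simpa [stdBasis, A] using this
    rw [this]
    exact ((stdBasis κ (Fin 2) (Fin 2)).isUnit_det (B.reindex e)).ne_zero
  refine eq_top_iff.2 fun m _ => ?_
  have : m = ∑ j, (A⁻¹ *ᵥ fun i => m i.1 i.2) j • r (s (e.symm j)) := by
    ext i i'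
    have := congrFun (mulVec_mulVec (fun i : Fin 2 × Fin 2 => m i.1 i.2) A A⁻¹) (i, i')
    rw [mul_nonsing_inv A hA, one_mulVec] at this
    rw [← this, Matrix.sum_apply, mulVec, dotProduct]
    exact Finset.sum_congr rfl fun j _ => mul_comm _ _
  rw [this]
  exact sum_mem fun j _ => Submodule.smul_mem _ _ (Submodule.subset_span ⟨_, rfl⟩)

end Vale.Agent.P022K.WB
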