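import Vale.Agent.P022K.WB.Tr1

/-!
# P022K, block WB: the transfer at several places, the source side
-/

set_option autoImplicit false

noncomputable section

namespace Vale.Agent.P022K.WB

open Matrix Noe Function

variable {p : ℕ} [Fact p.Prime]

section aug

variable {R M : Type*} [CommRing R] [AddCommGroup M] [Module R M]
  {ρ : Representation R (G2 p) M} {P : Submodule R M}

theorem dd_sq_Tri (hP : Gs ρ P) (hn : ∀ b, nn b ∈ Tri ρ P) (hz : ∀ a, dd a a ∈ Tri ρ P)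
    {a d : ℚ_[p]ˣ} {l : ℚ_[p]} (h2 : l ^ 2 = a * d) : dd a d ∈ Tri ρ P := by
  have h0 : l ≠ 0 := fun e => by
    rw [e, zero_pow two_ne_zero] at h2
    exact (a * d).ne_zero h2.symm
  have := mul_mem (hz (Units.mk0 l h0)) (dd_Tri hP hn (a / Units.mk0 l h0))
  rw [← dd_mul] at this
  convert this using 2
  · simp
  · ext
    have := a.ne_zero
    simp only [inv_div, Units.val_mul, Units.val_mk0, Units.val_div_eq_div_val]
    field_simp
    linear_combination -h2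

/-- elements whose determinant is a square act trivially -/
theorem sq_Tri (hP : Gs ρ P) (hn : ∀ b, nn b ∈ Tri ρ P) (hz : ∀ a, dd a a ∈ Tri ρ P) {g : G2 p}
    {l : ℚ_[p]} (h : l ^ 2 = (g : Matrix (Fin 2) (Fin 2) ℚ_[p]).det) : g ∈ Tri ρ P := by
  obtain ⟨b, hb, ⟨c, -, rfl⟩ | ⟨c, -, rfl⟩⟩ := iwasawa g <;> obtain ⟨b, a, d, rfl⟩ := BB_eq hb
  · exact mul_mem (mul_mem (hn b) (dd_sq_Tri hP hn hz (l := l) (by
      rw [h]; simp [det_fin_two]; ring))) (nl_Tri hP hn c)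
  · have h1 : ww p * dd 1 (-1) ∈ Tri ρ P := by
      have := mul_mem (mul_mem (inv_mem (hn 1)) (nl_Tri hP hn 1)) (inv_mem (hn 1))
      have e := nl_eq (1 : ℚ_[p]ˣ)
      simp only [inv_one, Units.val_one] at e
      rw [e] at this
      convert this using 1
      group
    have h2 : dd a (-d) ∈ Tri ρ P := dd_sq_Tri hP hn hz (l := l) (by
      rw [h]; simp [det_fin_two]; ring)
    have e : dd a d * ww p = dd a d * (ww p * dd 1 (-1)) * (dd a d)⁻¹ * dd a (-d) := by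
      rw [mul_assoc, ← dd_inv, ← dd_mul, mul_assoc, mul_assoc, ← dd_mul]
      simp
    rw [mul_assoc (nn b), e]
    exact mul_mem (mul_mem (hn b) (mul_mem (Tri_conj hP h1 _) h2)) (hn c)

theorem Nq_le (hP : Gs ρ P) : Nq ρ P ≤ P := Gen_le hP (by
  rintro _ ⟨b, v, hv, rfl⟩
  exact sub_mem (hP _ _ hv) hv)

theorem sq_Nq (hP : Gs ρ P) (hz : ∀ a, ∀ v ∈ P, ρ (dd a a) v = v) {g : G2 p} {l : ℚ_[p]}
    (h : l ^ 2 = (g : Matrix (Fin 2) (Fin 2) ℚ_[p]).det) {v : M} (hv : v ∈ P) :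
    ρ g v - v ∈ Nq ρ P := by
  have hQ : Gs ρ (Nq ρ P) := Gen_gs _
  refine (Submodule.Quotient.eq _).1 (sq_Tri (ρ := quo ρ hQ) (P := P.map (Nq ρ P).mkQ) ?_ ?_ ?_ h
    _ ⟨v, hv, rfl⟩)
  · rintro x _ ⟨v, hv, rfl⟩
    exact ⟨_, hP x v hv, quo_mk hQ x v⟩
  · rintro b _ ⟨v, hv, rfl⟩
    exact (Submodule.Quotient.eq _).2 (mem_Gen ⟨b, v, hv, rfl⟩)
  · rintro a _ ⟨v, hv, rfl⟩
    rw [← quo_mk, hz a v hv]

/-- the square of a Hecke operator acts by the square of its degree modulo `Nq` -/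
theorem hecke_Nq (hP : Gs ρ P) (hz : ∀ a, ∀ v ∈ P, ρ (dd a a) v = v) {J : Type*} [Fintype J]
    (g : J → G2 p) (h : ∀ i j, ((g i : G2 p) : Matrix (Fin 2) (Fin 2) ℚ_[p]).det =
      (g j : Matrix (Fin 2) (Fin 2) ℚ_[p]).det) {v : M} (hv : v ∈ P) :
    (∑ i, ρ (g i)) ((∑ i, ρ (g i)) v) - Fintype.card J ^ 2 • v ∈ Nq ρ P := by
  have : (∑ i, ρ (g i)) ((∑ i, ρ (g i)) v) - Fintype.card J ^ 2 • v =
      ∑ i, ∑ j, (ρ (g i * g j) v - v) := by
    simp only [LinearMap.sum_apply, map_sum, rho_mul, Finset.sum_sub_distrib, Finset.sum_const,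
      Finset.card_univ, smul_smul, sq]
    rw [Finset.sum_comm]
  rw [this]
  exact sum_mem fun i _ => sum_mem fun j _ => sq_Nq hP hz
    (l := (g j : Matrix (Fin 2) (Fin 2) ℚ_[p]).det) (by rw [Units.val_mul, det_mul, h i j, sq]) hv

theorem Nq_subZ (hP : Gs ρ P) {v : M} (hv : v ∈ Nq ρ P) :
    ∃ w ∈ Nq (subZ hP) ⊤, (w : M) = v := by
  suffices h : ∀ o : R, ∃ w ∈ Nq (subZ hP) ⊤, (w : M) = o • v by simpa using h 1
  induction hv using Submodule.span_induction with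
  | mem y hy =>
    obtain ⟨g, _, ⟨b, a, ha, rfl⟩, rfl⟩ := hy
    exact fun o => ⟨_, Gen_gs _ g _ (mem_Gen ⟨b, o • ⟨a, ha⟩, trivial, rfl⟩), by
      simp [subZ_val, smul_sub]⟩
  | zero => exact fun o => ⟨0, zero_mem _, by simp⟩
  | add a b _ _ ha hb =>
    intro o
    obtain ⟨x, x1, x2⟩ := ha o
    obtain ⟨y, y1, y2⟩ := hb o
    exact ⟨x + y, add_mem x1 y1, by rw [Submodule.coe_add, x2, y2, smul_add]⟩
  | smul s a _ ha => exact fun o => by rw [smul_smul]; exact ha _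

theorem SlO_map {M' : Type*} [AddCommGroup M'] [Module R M'] {ρ' : Representation R (G2 p) M'}
    {I K : Type} [Zero K] {φ : K → R} {rel : Set (G2 p × I →₀ K)} {x : I → M}
    (h : x ∈ SlO φ ρ rel) (f : M →ₗ[R] M') (hf : ∀ g i, f (ρ g (x i)) = ρ' g (f (x i))) :
    (fun i => f (x i)) ∈ SlO φ ρ' rel := fun r hr => by
  have := congrArg f (h r hr)
  rw [map_zero, map_finsuppSum] at this
  simpa only [map_smul, hf] using this

/-- the solutions which are fixed by the elements of square determinant are bounded -/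
def Aug {I K : Type} [Zero K] (φ : K → R) (rel : Set (G2 p × I →₀ K)) : Prop :=
  ∃ c : ℕ, ∀ (Θ : Type) [AddCommGroup Θ] [Module R Θ] (σ : Representation R (G2 p) Θ) (x : I → Θ),
    (∀ (g : G2 p) (l : ℚ_[p]), l ^ 2 = (g : Matrix (Fin 2) (Fin 2) ℚ_[p]).det →
      ∀ i, σ g (x i) = x i) → x ∈ SlO φ σ rel → ∀ i, p ^ c • x i = 0

theorem Aug.nq {I K : Type} [Zero K] {φ : K → R} {rel : Set (G2 p × I →₀ K)} (h : Aug φ rel) :
    ∃ c : ℕ, ∀ (N : Type) [AddCommGroup N] [Module R N] (ρ : Representation R (G2 p) N)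
      (P : Submodule R N) (x : I → N), Gs ρ P → (∀ a, ∀ v ∈ P, ρ (dd a a) v = v) →
      (∀ i, x i ∈ P) → x ∈ SlO φ ρ rel → ∀ i, p ^ c • x i ∈ Nq ρ P := by
  refine h.imp fun c hc N _ _ ρ P x hP hz hx hs i => ?_
  have hS : Gs ρ (Nq ρ P) := Gen_gs _
  exact (Submodule.Quotient.mk_eq_zero (Nq ρ P)).1 ((map_nsmul (Nq ρ P).mkQ _ _).trans <|
    hc _ (quo ρ hS) (fun i => (Nq ρ P).mkQ (x i))
      (fun g l hl i => (Submodule.Quotient.eq _).2 (sq_Nq hP hz hl (hx i)))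
      (SlO_map hs _ fun g i => quo_mk hS g _) i)

end aug

variable {C : Type} [NontriviallyNormedField C] [IsUltrametricDist C]
  [CharZero C] {ψ : ℚ_[p] → C} {Γ : Type} [Group Γ] {act : Γ →* Iso C} {χ : Γ →* ℤ_[p]ˣ}
  {ok : Og ψ act χ} {O M : Type} [CommRing O] [AddCommGroup M] [Module O M] {Q : Submodule O M}
  {E : Matrix (Fin 2) (Fin 2) O →ₐ[O] Module.End O M}

section src

variable {ρ : Representation O (G2 p) M} {r : Γ →* Matrix (Fin 2) (Fin 2) O}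
  {L : Type} {W : L → M →+ Y p C}

theorem Tg.fin_loc (h : Tg ok ρ Q E r W) (s : Finset M) (hs : ∀ z ∈ s, z ∈ Q) :
    ∃ P ≤ Q, (∀ z ∈ s, z ∈ P) ∧ Adm ρ P ∧ ∀ m, ∀ v ∈ P, E m v ∈ P := by
  classical
  induction s using Finset.induction_on with
  | empty =>
    obtain ⟨P, h1, -, h2⟩ := h.loc 0 (zero_mem Q)
    exact ⟨P, h1, by simp, h2⟩
  | insert z s _ ih =>
    obtain ⟨P, h1, h2, h3, h4⟩ := ih fun y hy => hs y (Finset.mem_insert_of_mem hy)
    obtain ⟨P', k1, k2, k3, k4⟩ := h.loc z (hs z (Finset.mem_insert_self z s))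
    refine ⟨P ⊔ P', sup_le h1 k1, fun y hy => ?_, h3.sup k3, fun m v hv => ?_⟩
    · rcases Finset.mem_insert.1 hy with rfl | hy
      exacts [Submodule.mem_sup_right k2, Submodule.mem_sup_left (h2 y hy)]
    · obtain ⟨a, ha, b, hb, rfl⟩ := Submodule.mem_sup.1 hv
      rw [map_add]
      exact Submodule.add_mem_sup (h4 m a ha) (k4 m b hb)

/-- **TRS**: unbounded solutions give the local condition; `X` is any class of families that is
stable under multiples -/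
theorem Tg.trs0 (h : Tg ok ρ Q E r W) {I K : Type} [Finite I] [Zero K] {φ : K → O}
    {rel : Set (G2 p × I →₀ K)} (X : Set (I → M)) (hX : ∀ x ∈ X, ∀ k : ℕ, k • x ∈ X)
    (sol : ∀ x ∈ X, x ∈ SlO φ ρ rel)
    (mem : ∀ x ∈ X, ∀ i, x i ∈ Q) (unb : ∀ N : ℕ, ∃ x ∈ X, p ^ N • x ≠ 0) {c : ℕ}
    (aug : ∀ P ≤ Q, Adm ρ P → ∀ x ∈ X, (∀ i, x i ∈ P) → ∀ i, p ^ c • x i ∈ Nq ρ P) :
    Loc ok (mv r) (smf φ) rel := by
  classical
  refine ⟨c + 1, fun N => ?_⟩
  have := Fintype.ofFinite I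
  obtain ⟨x, x1, x2⟩ := unb (N + c)
  obtain ⟨P, h1, h2, h3, h4⟩ := h.fin_loc (Finset.univ.image x) (by simpa using mem x x1)
  have h5 : ∀ i, x i ∈ P := by simpa using h2
  obtain ⟨k, k1, k2⟩ := exists_tor (p := p) x2 (by
    choose n hn using fun i => h3.tor _ (h5 i)
    refine ⟨∑ i, n i, funext fun i => ?_⟩
    obtain ⟨d, hd⟩ := Nat.exists_eq_add_of_le'
      (Finset.single_le_sum (f := n) (fun _ _ => Nat.zero_le _) (Finset.mem_univ i))
    rw [smul_comm, Pi.smul_apply, Pi.smul_apply, hd, pow_add p d, mul_smul, hn, smul_zero,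
      smul_zero, Pi.zero_apply])
  let P' := P ⊓ LinearMap.ker ((p ^ (N + (c + 1)) : ℕ) • LinearMap.id)
  have hP : Adm ρ P' := h3.mono inf_le_left fun g v hv => ⟨h3.gs g v hv.1, by
    show p ^ (N + (c + 1)) • ρ g v = 0
    rw [← map_nsmul, show p ^ (N + (c + 1)) • v = 0 from hv.2, map_zero]⟩
  have es : ∀ m, ∀ v ∈ P', E m v ∈ P' := fun m v hv => ⟨h4 m v hv.1, by
    show p ^ (N + (c + 1)) • E m v = 0
    rw [← map_nsmul, show p ^ (N + (c + 1)) • v = 0 from hv.2, map_zero]⟩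
  have le : P' ≤ Q := inf_le_left.trans h1
  have h6 : ∀ i, (p ^ k • x) i ∈ P' := fun i => ⟨nsmul_mem (h5 i) _, by
    show p ^ (N + (c + 1)) • p ^ k • x i = 0
    rw [← add_assoc, pow_succ', mul_smul, smul_comm (p ^ (N + c))]
    exact congrFun k2 i⟩
  choose y y1 y2 using fun i => Nq_subZ hP.gs (aug P' le hP _ (hX x x1 _) h6 i)
  obtain ⟨i, hi⟩ := Function.ne_iff.1 k1
  obtain ⟨q, hq⟩ : ∃ q : L × Fin 2, kap P' E (W q.1) q.2 (p ^ N • y i) ≠ 0 := by
    by_contra! hn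
    have := congrArg Subtype.val (h.kap_inj le _ hn)
    rw [Submodule.coe_smul_of_tower, y2, smul_smul, ← pow_add, Pi.smul_apply, smul_comm] at this
    exact hi this
  refine ⟨P', inferInstance, subZ hP.gs, smf φ, kap P' E (W q.1) q.2, y, hP.subZ,
    fun a v => Subtype.ext (h.cen a v (le v.2)), fun v => Subtype.ext v.2.2,
    h.bm hP.gs le es _ _, fun c _ v a => kap_smul _ _ _ _ _ v a, (Sl.of_subZ hP.gs).2 ?_, y1, i,
    by rwa [← map_nsmul]⟩
  rw [show (fun i => (y i : M)) = p ^ c • p ^ k • x from funext y2]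
  exact sol _ (hX _ (hX x x1 _) _)

/-- **TRS** -/
theorem Tg.trs (h : Tg ok ρ Q E r W) {I K : Type} [Finite I] [Zero K] {φ : K → O}
    {rel : Set (G2 p × I →₀ K)} (aug : Aug φ rel)
    (unb : ∀ N : ℕ, ∃ x ∈ SlO φ ρ rel, (∀ i, x i ∈ Q) ∧ p ^ N • x ≠ 0) :
    Loc ok (mv r) (smf φ) rel := by
  obtain ⟨c, hc⟩ := aug.nq
  exact h.trs0 {x | x ∈ SlO φ ρ rel ∧ ∀ i, x i ∈ Q}
    (fun x hx k => ⟨nsmul_mem hx.1 k, fun i => nsmul_mem (hx.2 i) k⟩) (fun x hx => hx.1)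
    (fun x hx => hx.2) (fun N => by
      obtain ⟨x, x1, x2, x3⟩ := unb N
      exact ⟨x, ⟨x1, x2⟩, x3⟩)
    fun P le hP x hx h1 => hc M ρ P x hP.gs (fun a v hv => h.cen a v (le hv)) h1 hx.1

end src

section multi

/-- the action on functions -/
def piR (ρ : Representation O (G2 p) M) (A : Type) : Representation O (G2 p) (A → M) where
  toFun g := (ρ g).compLeft A
  map_one' := LinearMap.ext fun x => funext fun a => by simp
  map_mul' g h := LinearMap.ext fun x => funext fun a => rho_mul g h (x a)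

/-- the matrix units on functions -/
def piE (E : Matrix (Fin 2) (Fin 2) O →ₐ[O] Module.End O M) (A : Type) :
    Matrix (Fin 2) (Fin 2) O →ₐ[O] Module.End O (A → M) :=
  AlgHom.ofLinearMap
    { toFun := fun m => (E m).compLeft A
      map_add' := fun a b => LinearMap.ext fun x => funext fun a => by simp
      map_smul' := fun a b => LinearMap.ext fun x => funext fun a => by simp }
    (LinearMap.ext fun x => funext fun a => by simp)
    fun a b => LinearMap.ext fun x => funext fun a => by simp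

variable {J : Type} [DecidableEq J] {I K : Type} [Zero K]

/-- solutions at the places of `s` with values in `Q` -/
def SlS (φ : K → O) (σ : J → Representation O (G2 p) M) (rel : J → Set (G2 p × I →₀ K))
    (Q : Submodule O M) (s : Set J) : Submodule O ((J → I) → M) where
  carrier := {x | (∀ a, x a ∈ Q) ∧
    ∀ k ∈ s, ∀ a, (fun i => x (update a k i)) ∈ SlO φ (σ k) (rel k)}
  zero_mem' := ⟨fun _ => zero_mem Q, fun _ _ _ => zero_mem _⟩
  add_mem' hx hy := ⟨fun a => add_mem (hx.1 a) (hy.1 a),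
    fun k hk a => add_mem (hx.2 k hk a) (hy.2 k hk a)⟩
  smul_mem' o _ hx := ⟨fun a => Q.smul_mem o (hx.1 a),
    fun k hk a => Submodule.smul_mem _ o (hx.2 k hk a)⟩

/-- a module with commuting actions at several places -/
structure Td (ok : Og ψ act χ) (σ : J → Representation O (G2 p) M) (Q : Submodule O M)
    (E : Matrix (Fin 2) (Fin 2) O →ₐ[O] Module.End O M) (r : J → Γ →* Matrix (Fin 2) (Fin 2) O)
    {L : J → Type} (W : ∀ k, L k → M →+ Y p C) : Prop where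
  hc : ∀ v w, v ≠ w → ∀ g h z, σ v g (σ w h z) = σ w h (σ v g z)
  gs : ∀ k, Gs (σ k) Q
  es : ∀ m, ∀ v ∈ Q, E m v ∈ Q
  sm : ∀ k, ∀ v ∈ Q, Sm (σ k) v
  tor : ∀ v ∈ Q, ∃ n : ℕ, p ^ n • v = 0
  fin : ∀ n, {v | v ∈ Q ∧ p • v = 0 ∧ ∀ k, v ∈ Fx (σ k) (Kn p n)}.Finite
  com : ∀ k g m, ∀ v ∈ Q, σ k g (E m v) = E m (σ k g v)
  cen : ∀ k a, ∀ v ∈ Q, σ k (dd a a) v = v
  wg : ∀ k i, Wg ok (σ k) (fun s => E (r k s)) Q (W k i)
  inj : ∀ k, ∀ v ∈ Q, (∀ i m, W k i (E m v) = 0) → v = 0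

variable {σ : J → Representation O (G2 p) M} {r : J → Γ →* Matrix (Fin 2) (Fin 2) O}
  {L : J → Type} {W : ∀ k, L k → M →+ Y p C} {φ : K → O} {rel : J → Set (G2 p × I →₀ K)}

/-- the other places are frozen -/
theorem Td.tg [Finite J] [Finite I] (h : Td ok σ Q E r W) (s : Set J) {k : J} (hk : k ∉ s) :
    Tg ok (piR (σ k) (J → I)) (SlS φ σ rel Q s) (piE E (J → I)) (r k)
      fun q : L k × (J → I) => (W k q.1).comp (Pi.evalAddMonoidHom _ q.2) := by
  have gs : Gs (piR (σ k) (J → I)) (SlS φ σ rel Q s) := fun g x hx =>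
    ⟨fun a => h.gs k g _ (hx.1 a), fun k' hk' a => SlO_map (hx.2 k' hk' a) (σ k g) fun g' i =>
      h.hc k k' (fun e => hk (e ▸ hk')) _ _ _⟩
  have es : ∀ m, ∀ x ∈ SlS φ σ rel Q s, piE E (J → I) m x ∈ SlS φ σ rel Q s := fun m x hx =>
    ⟨fun a => h.es m _ (hx.1 a), fun k' hk' a => SlO_map (hx.2 k' hk' a) (E m) fun g' i =>
      (h.com k' _ _ _ (hx.1 _)).symm⟩
  have bd : ∀ {A : Type} [Finite A] (f : A → ℕ), ∃ n, 0 < n ∧ ∀ a, f a ≤ n := fun f => by
    obtain ⟨n, hn⟩ := (Set.finite_range f).bddAbove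
    exact ⟨n + 1, n.succ_pos, fun a => (hn ⟨a, rfl⟩).trans n.le_succ⟩
  refine ⟨fun g m x hx => funext fun a => h.com k g m _ (hx.1 a),
    fun c x hx => funext fun a => h.cen k c _ (hx.1 a),
    fun q => ⟨fun b x hx => (h.wg k q.1).n b _ (hx.1 q.2), fun x hx => (h.wg k q.1).t _ (hx.1 q.2),
      fun t x hx => (h.wg k q.1).s t _ (hx.1 q.2)⟩,
    fun x hx h0 => funext fun a => h.inj k _ (hx.1 a) fun i m => h0 (i, a) m, fun z hz => ?_⟩
  choose f hf using fun q : J × (J → I) => h.sm q.1 _ (hz.1 q.2)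
  obtain ⟨n, n0, hn⟩ := bd f
  refine ⟨Aw (fun k => piR (σ k) (J → I)) (SlS φ σ rel Q s) k fun _ => Kn p n, inf_le_left,
    mem_Aw.2 ⟨hz, fun w _ g hg => funext fun a => hf (w, a) g (Kn_anti (hn _) hg)⟩,
    ⟨Aw_gs (fun v w e g g' x => funext fun a => h.hc v w e g g' (x a)) gs _, fun x hx => ?_,
      fun x hx => ?_, (Set.Finite.pi fun _ : J → I => h.fin n).subset fun x hx a _ =>
        ⟨(mem_Aw.1 hx.1).1.1 a, congrFun hx.2.1 a, fun w g hg => ?_⟩⟩,
    fun m x hx => mem_Aw.2 ⟨es m x (mem_Aw.1 hx).1, fun w hw g hg => funext fun a => ?_⟩⟩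
  · choose f' hf' using fun a => h.sm k _ ((mem_Aw.1 hx).1.1 a)
    obtain ⟨n', -, hn'⟩ := bd f'
    exact ⟨n', fun g hg => funext fun a => hf' a g (Kn_anti (hn' a) hg)⟩
  · choose f' hf' using fun a => h.tor _ ((mem_Aw.1 hx).1.1 a)
    obtain ⟨n', -, hn'⟩ := bd f'
    refine ⟨n', funext fun a => ?_⟩
    obtain ⟨d, rfl⟩ := Nat.exists_eq_add_of_le' (hn' a)
    rw [Pi.smul_apply, pow_add, mul_smul, hf', smul_zero, Pi.zero_apply]
  · by_cases e : w = k
    · subst e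
      exact congrFun (hx.2.2 g (Kn_le_I1 n0 hg)) a
    · exact congrFun ((mem_Aw.1 hx.1).2 w e g hg) a
  · exact (h.com w g m _ ((mem_Aw.1 hx).1.1 a)).trans
      (congrArg (E m) (congrFun ((mem_Aw.1 hx).2 w hw g hg) a))

/-- one more place -/
theorem SlS_step {s : Set J} {k : J} (hk : k ∉ s) {y : I → (J → I) → M}
    (h1 : ∀ i, y i ∈ SlS φ σ rel Q s) (h2 : y ∈ SlO φ (piR (σ k) (J → I)) (rel k)) (i : I)
    (a : J → I) : ∃ x ∈ SlS φ σ rel Q (insert k s), x (update a k i) = y i a := by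
  refine ⟨fun b => y (b k) (update b k (a k)), ⟨fun b => (h1 _).1 _, ?_⟩, by simp⟩
  rintro k' (rfl | hk') b
  · simpa using SlO_map (ρ' := σ k') h2 (LinearMap.proj (update b k' (a k'))) fun _ _ => rfl
  · have e : k ≠ k' := fun e => hk (e ▸ hk')
    simpa only [update_of_ne e, update_comm e] using (h1 (b k)).2 k' hk' (update b k (a k))

variable [CompleteSpace C] [IsAlgClosed C]

/-- **TR**, one step -/
theorem Td.step [Finite J] [Finite I] (hS : SURJ p C) (hF : PHI p C) (sur : Function.Surjective χ)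
    (h : Td ok σ Q E r W) {s : Set J} {k : J} (hk : k ∉ s) (loc : Loc ok (mv (r k)) (smf φ) (rel k))
    (lam : Lam ok (piR (σ k) (J → I)) (SlS φ σ rel Q s) (mv (r k))) (N : ℕ) :
    ∃ x ∈ SlS φ σ rel Q (insert k s), p ^ N • x ≠ 0 := by
  obtain ⟨y, y2, y1, i, hi⟩ := tr_lam hS hF sur loc lam (h.tg (rel := rel) s hk).cen N
  obtain ⟨a, ha⟩ := Function.ne_iff.1 hi
  obtain ⟨x, x1, x2⟩ := SlS_step hk y1 y2 i a
  exact ⟨x, x1, fun e => ha (by rw [Pi.smul_apply, ← x2]; exact congrFun e _)⟩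

/-- **TR at several places** -/
theorem Td.trd [IsDomain O] [IsDiscreteValuationRing O] [Finite J] [Finite I] (hS : SURJ p C)
    (hF : PHI p C) (sur : Function.Surjective χ) (h : Td ok σ Q E r W) (s t : Set J)
    (hl : ∀ k ∈ t, Lat p act (mv (r k)))
    (irr : ∀ k ∈ t, ∃ c : ℕ, ∀ m, p ^ c • m ∈ Submodule.span O (Set.range (r k)))
    (loc : ∀ k ∈ t, Loc ok (mv (r k)) (smf φ) (rel k))
    (unb : ∀ N : ℕ, ∃ x ∈ SlS φ σ rel Q s, p ^ N • x ≠ 0) (N : ℕ) :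
    ∃ x ∈ SlS φ σ rel Q (t ∪ s), p ^ N • x ≠ 0 := by
  induction t, t.toFinite using Set.Finite.induction_on generalizing N with
  | empty => simpa using unb N
  | @insert k t _ _ ih =>
    have ih' := ih (fun j hj => hl j (Or.inr hj)) (fun j hj => irr j (Or.inr hj))
      fun j hj => loc j (Or.inr hj)
    rw [Set.insert_union]
    by_cases hk : k ∈ t ∪ s
    · rw [Set.insert_eq_of_mem hk]
      exact ih' N
    · exact h.step hS hF sur hk (loc k (Or.inl rfl))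
        ((h.tg _ hk).lam hF sur (hl k (Or.inl rfl)) (irr k (Or.inl rfl)) ih') N

omit [CompleteSpace C] [IsAlgClosed C] in
theorem SlS_empty {z : M} (hz : z ∈ Q) : (fun _ => z) ∈ SlS φ σ rel Q ∅ :=
  ⟨fun _ => hz, fun _ h => h.elim⟩

omit [CompleteSpace C] [IsAlgClosed C] in
/-- **TRS at several places** -/
theorem Td.trs [Finite J] [Finite I] (h : Td ok σ Q E r W) (k : J) (aug : Aug φ (rel k))
    (unb : ∀ N : ℕ, ∃ x ∈ SlS φ σ rel Q {k}, p ^ N • x ≠ 0) : Loc ok (mv (r k)) (smf φ) (rel k) := by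
  refine (h.tg (φ := φ) (rel := rel) ∅ (k := k) id).trs aug fun N => ?_
  obtain ⟨x, x1, x2⟩ := unb N
  obtain ⟨a, ha⟩ := Function.ne_iff.1 x2
  refine ⟨fun i _ => x (update a k i), fun q hq => funext fun b => ?_,
    fun i => SlS_empty (x1.1 _), fun e => ha ?_⟩
  · rw [Finsupp.sum, Finset.sum_apply]
    exact x1.2 k rfl a q hq
  · simpa using congrFun (congrFun e (a k)) a

end multi

end Vale.Agent.P022K.WB

end
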