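import Vale.Agent.P022K.WB.Fl1

/-!
# Roots of unity and the elements `ε ^ b` of the tilt
-/

set_option linter.unusedSectionVars false

namespace Vale.Agent.P022K.WB

open Finset Filter Topology

variable {p : ℕ} [Fact p.Prime] {C : Type} [NontriviallyNormedField C] [IsUltrametricDist C]
  [CharZero C] [hp : Fact (‖(p : C)‖ < 1)] {ψ : ℚ_[p] → C}

theorem qp_ne : (p : ℚ_[p]) ≠ 0 := Nat.cast_ne_zero.2 (Fact.out : p.Prime).ne_zero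

theorem lt_one_of_pow {x : ℝ} {n : ℕ} (h : x ^ n < 1) : x < 1 := by
  by_contra hx
  exact absurd (one_le_pow₀ (not_lt.1 hx)) (not_le.2 h)

theorem neq_sub {E : Type*} [SeminormedAddCommGroup E] [IsUltrametricDist E] {a b : E}
    (h : ‖a - b‖ < ‖a‖) : ‖b‖ = ‖a‖ := by
  apply le_antisymm
  · have := nsubm a (a - b)
    rw [sub_sub_cancel] at this
    exact this.trans (max_le le_rfl h.le)
  · have := IsUltrametricDist.norm_add_le_max (a - b) b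
    rw [sub_add_cancel] at this
    exact (le_max_iff.1 this).resolve_left (not_le.2 h)

theorem add_one_pow {a : C} (ha : ‖a‖ ≤ 1) (k : ℕ) :
    ‖(a + 1) ^ p ^ k - 1 - a ^ p ^ k‖ ≤ ‖(p : C)‖ * ‖a‖ := by
  obtain ⟨r, hr⟩ := exists_add_pow_prime_pow_eq (Fact.out : p.Prime) (⟨a, ha⟩ : Oc C) 1 k
  have h := congrArg (fun x : Oc C => (x : C)) hr
  push_cast at h
  have : (a + 1) ^ p ^ k - 1 - a ^ p ^ k = p * a * r := by rw [h]; ring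
  rw [this, norm_mul, norm_mul]
  exact mul_le_of_le_one_right (by positivity) r.2

theorem norm_one_sub_pow {z : C} (hz : ‖z‖ ≤ 1) (k : ℕ) : ‖1 - z ^ k‖ ≤ ‖1 - z‖ := by
  rw [← mul_neg_geom_sum, norm_mul]
  exact mul_le_of_le_one_right (norm_nonneg _)
    (sum_mem fun i _ => pow_mem (mem_Oc.2 hz) i : ∑ i ∈ range k, z ^ i ∈ Oc C)

namespace Psi

theorem sub_le (h : Psi p ψ) (b : ℚ_[p]) : ‖ψ b - 1‖ ≤ 1 := nsub_le (h.norm b).le norm_one.le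

theorem sub_lt (h : Psi p ψ) (b : ℚ_[p]) : ‖ψ b - 1‖ < 1 := by
  obtain ⟨k, hk⟩ := h.tors b
  have h1 := add_one_pow (p := p) (h.sub_le b) k
  rw [sub_add_cancel, hk, sub_self, zero_sub, norm_neg, norm_pow] at h1
  exact lt_one_of_pow (h1.trans_lt
    (mul_lt_one_of_nonneg_of_lt_one_left (norm_nonneg _) (np_lt p C) (h.sub_le b)))

omit hp in
theorem zpow_eq_one (h : Psi p ψ) (i : ℤ) : ψ ((p : ℚ_[p]) ^ i) = 1 ↔ 0 ≤ i := by
  have h1 : (1 : ℝ) < p := by exact_mod_cast (Fact.out : p.Prime).one_lt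
  rw [h.ker, Padic.norm_p_zpow, zpow_le_one_iff_right₀ h1]
  omega

omit hp in
theorem pow_p (h : Psi p ψ) (i : ℤ) : ψ ((p : ℚ_[p]) ^ i) ^ p = ψ ((p : ℚ_[p]) ^ (i + 1)) := by
  rw [← h.nat, zpow_add_one₀ qp_ne, mul_comm]

omit hp in
theorem prim (h : Psi p ψ) : IsPrimitiveRoot (ψ ((p : ℚ_[p]) ^ (-1 : ℤ))) p := by
  have h1 : orderOf (ψ ((p : ℚ_[p]) ^ (-1 : ℤ))) = p :=
    orderOf_eq_prime (by rw [h.pow_p, h.zpow_eq_one]; omega) (by rw [Ne, h.zpow_eq_one]; omega)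
  have := IsPrimitiveRoot.orderOf (ψ ((p : ℚ_[p]) ^ (-1 : ℤ)))
  rwa [h1] at this

omit hp in
theorem cyc1 (h : Psi p ψ) : ‖ψ ((p : ℚ_[p]) ^ (-1 : ℤ)) - 1‖ ^ (p - 1) = ‖(p : C)‖ := by
  have hp1 : p - 1 + 1 = p := Nat.sub_add_cancel (Fact.out : p.Prime).pos
  set z := ψ ((p : ℚ_[p]) ^ (-1 : ℤ)) with hz
  have h0 : IsPrimitiveRoot z (p - 1 + 1) := by rw [hp1]; exact h.prim
  have h1 := congrArg Norm.norm h0.prod_one_sub_pow_eq_order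
  have h2 : ((p - 1 : ℕ) : C) + 1 = p := by exact_mod_cast hp1
  rw [h2, norm_prod] at h1
  rw [← h1, norm_sub_rev, ← card_range (p - 1), ← prod_const, card_range]
  refine prod_congr rfl fun k hk => le_antisymm ?_ (norm_one_sub_pow (h.norm _).le _)
  have hk' : k + 1 < p := by have := mem_range.1 hk; omega
  have hc : (k + 1).Coprime p :=
    (Nat.coprime_of_lt_prime (Nat.succ_ne_zero k) hk' Fact.out).symm
  have h3 := h.prim.pow_of_coprime (k + 1) hc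
  have : NeZero p := ⟨(Fact.out : p.Prime).ne_zero⟩
  obtain ⟨j, _, hj⟩ := h3.eq_pow_of_pow_eq_one h.prim.pow_eq_one
  conv_lhs => rw [hz, ← hj]
  exact norm_one_sub_pow (by rw [norm_pow, h.norm, one_pow]) j

theorem cyc1_ge (h : Psi p ψ) : ‖(p : C)‖ ≤ ‖ψ ((p : ℚ_[p]) ^ (-1 : ℤ)) - 1‖ := by
  rw [← h.cyc1]
  exact pow_le_of_le_one (norm_nonneg _) (h.sub_le _)
    (Nat.sub_ne_zero_of_lt (Fact.out : p.Prime).one_lt)

theorem cyc2 (h : Psi p ψ) :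
    ‖ψ ((p : ℚ_[p]) ^ (-2 : ℤ)) - 1‖ ^ p = ‖ψ ((p : ℚ_[p]) ^ (-1 : ℤ)) - 1‖ := by
  have h1 := add_one_pow (p := p) (h.sub_le ((p : ℚ_[p]) ^ (-2 : ℤ))) 1
  rw [sub_add_cancel, pow_one, h.pow_p] at h1
  have h2 : ‖(p : C)‖ * ‖ψ ((p : ℚ_[p]) ^ (-2 : ℤ)) - 1‖ < ‖ψ ((p : ℚ_[p]) ^ (-1 : ℤ)) - 1‖ :=
    (mul_lt_of_lt_one_right (np_pos p C) (h.sub_lt _)).trans_le h.cyc1_ge
  have h3 := h1.trans_lt h2
  rw [← norm_pow]
  have e : (-2 : ℤ) + 1 = -1 := by norm_num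
  rw [e] at h3
  exact neq_sub h3

theorem cyc2_gt (h : Psi p ψ) : ‖(p : C)‖ < ‖ψ ((p : ℚ_[p]) ^ (-2 : ℤ)) - 1‖ := by
  refine h.cyc1_ge.trans_lt ?_
  rw [← h.cyc2]
  refine pow_lt_self_of_lt_one₀ (norm_pos_iff.2 (sub_ne_zero.2 ?_)) (h.sub_lt _)
    (Fact.out : p.Prime).one_lt
  rw [Ne, h.zpow_eq_one]; omega

omit hp in
theorem sum_pos (h : Psi p ψ) {i : ℤ} (hi : 0 ≤ i) :
    ∑ t ∈ range p, ψ ((p : ℚ_[p]) ^ i) ^ t = p := by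
  simp [(h.zpow_eq_one i).2 hi]

omit hp in
theorem sum_zero (h : Psi p ψ) : ∑ t ∈ range p, ψ ((p : ℚ_[p]) ^ (-1 : ℤ)) ^ t = 0 :=
  h.prim.geom_sum_eq_zero (Fact.out : p.Prime).one_lt

end Psi

variable [CompleteSpace C]

/-- integral powers of Frobenius -/
noncomputable def fr (i : ℤ) : Ot p C ≃+* Ot p C := (frobeniusEquiv (Ot p C) p : RingAut _) ^ i

theorem fr_add (i j : ℤ) (x : Ot p C) : fr (i + j) x = fr i (fr j x) := by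
  rw [fr, zpow_add]; rfl

theorem fr_zero (x : Ot p C) : fr 0 x = x := by rw [fr, zpow_zero]; rfl

theorem fr_one (x : Ot p C) : fr 1 x = x ^ p := by rw [fr, zpow_one]; rfl

theorem fr_nat (n : ℕ) (x : Ot p C) : fr n x = x ^ p ^ n := by
  induction n with
  | zero => simpa using fr_zero x
  | succ n ih => rw [Nat.cast_succ, add_comm, fr_add, fr_one, ih, ← pow_mul, pow_succ]

theorem fr_neg (n : ℕ) (x : Ot p C) : fr (-n) x = rt0 n x :=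
  pow_inj0 n (by rw [rt0_pow, ← fr_nat, ← fr_add, add_neg_cancel, fr_zero])

theorem sh0_fr_ofT (e : Tt p C) (i : ℤ) : sh0 (fr i (ofT e)) = e.1 i := by
  obtain ⟨n, rfl | rfl⟩ := i.eq_nat_or_neg
  · rw [fr_nat, map_pow, sh0_ofT0, Tt_pow e.2, zero_add]
  · rw [fr_neg, sh0_ofT]

theorem sh0_fr_add (i : ℤ) (k : ℕ) (x : Ot p C) : sh0 (fr (i + k) x) = sh0 (fr i x) ^ p ^ k := by
  rw [add_comm, fr_add, fr_nat, map_pow]

theorem gal0_fr (s : Iso C) (i : ℤ) (x : Ot p C) : gal0 s (fr i x) = fr i (gal0 s x) := by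
  obtain ⟨n, rfl | rfl⟩ := i.eq_nat_or_neg
  · rw [fr_nat, fr_nat, map_pow]
  · rw [fr_neg, fr_neg, gal0_rt0]

namespace Psi

/-- `ε ^ b` -/
noncomputable def ep0 (h : Psi p ψ) (b : ℚ_[p]) : Ot p C := ofT (h.eps b)

theorem sh0_ep0 (h : Psi p ψ) (b : ℚ_[p]) (i : ℤ) :
    sh0 (fr i (h.ep0 b)) = ψ (b * (p : ℚ_[p]) ^ i) := sh0_fr_ofT _ _

theorem ep0_add (h : Psi p ψ) (a b : ℚ_[p]) : h.ep0 (a + b) = h.ep0 a * h.ep0 b := by
  rw [ep0, eps_add, ofT_mul]; rfl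

theorem ep0_zero (h : Psi p ψ) : h.ep0 0 = 1 := by rw [ep0, eps_zero, ofT_one]

theorem fr_ep0 (h : Psi p ψ) (b : ℚ_[p]) (i : ℤ) :
    fr i (h.ep0 b) = h.ep0 (b * (p : ℚ_[p]) ^ i) :=
  ext_sh0 fun n => by
    rw [← fr_neg, ← fr_neg, ← fr_add, sh0_ep0, sh0_ep0, zpow_add₀ qp_ne]
    congr 1; ring

theorem gal0_ep0 (h : Psi p ψ) (s : Iso C) (c : ℚ_[p]) (hs : ∀ b, s.1 (ψ b) = ψ (c * b))
    (b : ℚ_[p]) : gal0 s (h.ep0 b) = h.ep0 (c * b) :=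
  ext_sh0 fun n => by
    rw [← gal0_rt0, sh0_gal0, ← fr_neg, ← fr_neg, sh0_ep0, sh0_ep0, hs, mul_assoc]

/-- `ε ^ (p ^ n) - 1` -/
noncomputable def X0 (h : Psi p ψ) (n : ℤ) : Ot p C := h.ep0 ((p : ℚ_[p]) ^ n) - 1

theorem fr_X0 (h : Psi p ψ) (n i : ℤ) : fr i (h.X0 n) = h.X0 (n + i) := by
  rw [X0, map_sub, map_one, fr_ep0, ← zpow_add₀ qp_ne, X0]

theorem X0_succ (h : Psi p ψ) (n : ℤ) : h.X0 (n + 1) = h.X0 n ^ p := by rw [← fr_X0, fr_one]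

variable [IsAlgClosed C]

/-- `ε ^ b` in the field -/
noncomputable def ep (h : Psi p ψ) (b : ℚ_[p]) : Fl p C := Fl.io (h.ep0 b)

theorem ep_eq (h : Psi p ψ) (b : ℚ_[p]) : h.ep b = Fl.eT (h.eps b) := rfl

theorem sharp_ep (h : Psi p ψ) (b : ℚ_[p]) : Fl.sharp (h.ep b) = ψ b := by
  have := h.sh0_ep0 b 0
  rwa [fr_zero, zpow_zero, mul_one, ← Fl.sharp_io] at this

theorem norm_ep (h : Psi p ψ) (b : ℚ_[p]) : ‖h.ep b‖ = 1 := by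
  rw [← Fl.norm_sharp, sharp_ep, h.norm]

theorem ep_add (h : Psi p ψ) (a b : ℚ_[p]) : h.ep (a + b) = h.ep a * h.ep b := by
  rw [ep, ep0_add, map_mul]; rfl

theorem ep_zero (h : Psi p ψ) : h.ep 0 = 1 := by rw [ep, ep0_zero, map_one]

theorem ep_nat (h : Psi p ψ) (k : ℕ) (b : ℚ_[p]) : h.ep (k * b) = h.ep b ^ k := by
  induction k with
  | zero => simp [h.ep_zero]
  | succ k ih => rw [Nat.cast_succ, add_mul, one_mul, h.ep_add, ih, pow_succ]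

theorem rt_ep (h : Psi p ψ) (n : ℕ) (b : ℚ_[p]) :
    Fl.rt n (h.ep b) = h.ep (b * (p : ℚ_[p]) ^ (-n : ℤ)) := by
  rw [ep, Fl.rt_io, ← fr_neg, fr_ep0, ep]

theorem galI_ep (h : Psi p ψ) (s : Iso C) (c : ℚ_[p]) (hs : ∀ b, s.1 (ψ b) = ψ (c * b))
    (b : ℚ_[p]) : (Fl.galI p C s).1 (h.ep b) = h.ep (c * b) := by
  rw [Fl.galI_apply, ep, Fl.galF_io, h.gal0_ep0 s c hs, ep]

theorem galI_ep' (h : Psi p ψ) (s : Iso C) (hs : ∀ b, s.1 (ψ b) = ψ b)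
    (b : ℚ_[p]) : (Fl.galI p C s).1 (h.ep b) = h.ep b := by
  rw [h.galI_ep s 1 (by simpa using hs), one_mul]

theorem ep_sub_lt (h : Psi p ψ) (b : ℚ_[p]) : ‖h.ep b - 1‖ < 1 := by
  refine lt_of_le_of_lt ((Fl.sharp_close (h.norm_ep b).le norm_one.le
    (le_max_left _ ‖ψ b - 1‖)).1 ?_) (max_lt (np_lt p C) (h.sub_lt b))
  rw [sharp_ep, map_one]; exact le_max_right _ _

/-- `ε ^ (p ^ n) - 1` in the field -/
noncomputable def X (h : Psi p ψ) (n : ℤ) : Fl p C := Fl.io (h.X0 n)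

theorem X_eq (h : Psi p ψ) (n : ℤ) : h.X n = h.ep ((p : ℚ_[p]) ^ n) - 1 := by
  rw [X, X0, map_sub, map_one, ep]

theorem X_succ (h : Psi p ψ) (n : ℤ) : h.X (n + 1) = h.X n ^ p := by rw [X, X0_succ, map_pow, X]

theorem X_add (h : Psi p ψ) (n : ℤ) (k : ℕ) : h.X (n + k) = h.X n ^ p ^ k := by
  rw [X, ← fr_X0, fr_nat, map_pow, X]

theorem X_lt (h : Psi p ψ) (n : ℤ) : ‖h.X n‖ < 1 := by rw [X_eq]; exact h.ep_sub_lt _

theorem norm_X2 (h : Psi p ψ) : ‖h.X (-2)‖ = ‖ψ ((p : ℚ_[p]) ^ (-2 : ℤ)) - 1‖ := by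
  have h1 := Fl.sharp_sub (h.norm_ep ((p : ℚ_[p]) ^ (-2 : ℤ))).le norm_one.le
  rw [sharp_ep, map_one, ← X_eq, norm_sub_rev] at h1
  rw [← Fl.norm_sharp]
  exact neq_sub (h1.trans_lt h.cyc2_gt)

theorem norm_X1 (h : Psi p ψ) : ‖h.X (-1)‖ ^ (p - 1) = ‖(p : C)‖ := by
  have : h.X (-1) = h.X (-2) ^ p := by rw [← X_succ]; norm_num
  rw [this, norm_pow, norm_X2, h.cyc2, h.cyc1]

theorem X_ne (h : Psi p ψ) (n : ℤ) : h.X n ≠ 0 := by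
  have h1 : h.X (-1) ≠ 0 := fun h0 => by
    have := h.norm_X1
    rw [h0, norm_zero, zero_pow (Nat.sub_ne_zero_of_lt (Fact.out : p.Prime).one_lt)] at this
    exact (np_pos p C).ne this
  intro h0
  apply h1
  have : h.X0 n = 0 := by
    by_contra h2
    exact Fl.io_ne h2 h0
  rw [X, show (-1 : ℤ) = n + (-1 - n) by ring, ← fr_X0, this, map_zero, map_zero]

theorem X_pos (h : Psi p ψ) (n : ℤ) : 0 < ‖h.X n‖ := norm_pos_iff.2 (h.X_ne n)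

theorem X_anti (h : Psi p ψ) {n m : ℤ} (hn : n ≤ m) : ‖h.X m‖ ≤ ‖h.X n‖ := by
  obtain ⟨k, rfl⟩ := Int.le.dest hn
  rw [X_add, norm_pow]
  exact pow_le_of_le_one (norm_nonneg _) (h.X_lt n).le (pow_ne_zero _ (Fact.out : p.Prime).ne_zero)

/-- the norms of the roots of `X` tend to one -/
theorem exists_X (h : Psi p ψ) {s : ℝ} (hs : 1 < s) : ∃ r : ℕ, ‖h.X (-r)‖⁻¹ ≤ s := by
  obtain ⟨r, hr⟩ := pow_unbounded_of_one_lt ‖h.X 0‖⁻¹ hs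
  refine ⟨r, ?_⟩
  have h1 : h.X 0 = h.X (-r) ^ p ^ r := by rw [← X_add, neg_add_cancel]
  rw [h1, norm_pow, ← inv_pow] at hr
  exact le_of_pow_le_pow_left₀ (pow_ne_zero r (Fact.out : p.Prime).ne_zero) (by positivity)
    (hr.le.trans (pow_le_pow_right₀ hs.le (Nat.lt_pow_self (Fact.out : p.Prime).one_lt).le))

theorem galI_X (h : Psi p ψ) (s : Iso C) (hs : ∀ b, s.1 (ψ b) = ψ b) (n : ℤ) :
    (Fl.galI p C s).1 (h.X n) = h.X n := by rw [X_eq, map_sub, map_one, h.galI_ep' s hs]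

end Psi

end Vale.Agent.P022K.WB
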