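import Vale.Agent.P022K.WB.YSt

/-!
# Block WB, row `FST`: the Serre-Tate functional
-/

set_option linter.all false

open PowerSeries Finset Filter Topology

namespace Vale.Agent.P022K.WB

open Vale.Agent.P022K.FI Vale.Agent.P022K.FI.An4

namespace Fs

variable {p : ℕ} [Fact p.Prime] {C : Type} [NontriviallyNormedField C] [IsUltrametricDist C]

section gh

theorem norm_ghs {a : ℕ → C} (ha : ∀ j, ‖a j‖ ≤ 1) (i : ℕ) :
    ‖ghs p a i - a 0 ^ p ^ i‖ ≤ ‖(p : C)‖ := by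
  rw [ghs, sum_range_succ', pow_zero, one_mul, Nat.sub_zero, add_sub_cancel_right]
  refine IsUltrametricDist.norm_sum_le_of_forall_le_of_nonneg (norm_nonneg _) fun j _ => ?_
  rw [pow_succ', mul_assoc, norm_mul, norm_mul, norm_pow, norm_pow]
  refine mul_le_of_le_one_right (norm_nonneg _) (mul_le_one₀ ?_ (by positivity) ?_)
  · exact pow_le_one₀ (norm_nonneg _) (IsUltrametricDist.norm_natCast_le_one C p)
  · exact pow_le_one₀ (norm_nonneg _) (ha _)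

theorem Gh_cong {c : ℕ → C} (hc : c ∈ Gh p C) (i : ℕ) : ‖c i - c 0 ^ p ^ i‖ ≤ ‖(p : C)‖ := by
  obtain ⟨a, ha, h⟩ := mem_Gh.1 hc
  rw [h i, h 0, ghs_zero]
  exact norm_ghs ha i

theorem Gh_norm {c : ℕ → C} (hc : c ∈ Gh p C) (i : ℕ) : ‖c i‖ ≤ 1 := by
  obtain ⟨w, rfl⟩ := hc
  exact (WittVector.ghostComponent i w).2

variable [CharZero C]

theorem p_ne : (p : C) ≠ 0 := Nat.cast_ne_zero.2 (Fact.out : p.Prime).ne_zero

omit [IsUltrametricDist C] in
/-- Witt coordinates are continuous functions of the ghost coordinates -/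
theorem ex_coord : ∃ f : ℕ → (ℕ → C) → C, (∀ j, Continuous (f j)) ∧
    (∀ c i, ghs p (fun j => f j c) i = c i) ∧ ∀ a j, f j (ghs p a) = a j := by
  have hp : (p : C) ≠ 0 := Nat.cast_ne_zero.2 (Fact.out : p.Prime).ne_zero
  letI : Invertible (p : C) := invertibleOfNonzero hp
  refine ⟨fun j c => MvPolynomial.aeval c (xInTermsOfW p C j), fun j => ?_, fun c i => ?_,
    fun a j => ?_⟩
  · exact MvPolynomial.continuous_eval (xInTermsOfW p C j)
  · have h := congrArg (MvPolynomial.aeval c) (bind₁_xInTermsOfW_wittPolynomial p C i)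
    rw [MvPolynomial.aeval_bind₁, aeval_wittPolynomial, MvPolynomial.aeval_X] at h
    exact h
  · have h := congrArg (MvPolynomial.aeval a) (bind₁_wittPolynomial_xInTermsOfW p C j)
    rw [MvPolynomial.aeval_bind₁, MvPolynomial.aeval_X] at h
    simp only [aeval_wittPolynomial] at h
    exact h

theorem isClosed_Gh : IsClosed (Gh p C : Set (ℕ → C)) := by
  obtain ⟨f, hf, h1, h2⟩ := ex_coord (p := p) (C := C)
  have e : (Gh p C : Set (ℕ → C)) = ⋂ j, {c | ‖f j c‖ ≤ 1} := by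
    ext c
    simp only [SetLike.mem_coe, mem_Gh, Set.mem_iInter, Set.mem_ofPred_eq]
    constructor
    · rintro ⟨a, ha, h⟩ j
      rw [show c = ghs p a from funext h, h2]
      exact ha j
    · exact fun h => ⟨fun j => f j c, h, fun i => (h1 c i).symm⟩
  rw [e]
  exact isClosed_iInter fun j => isClosed_le (hf j).norm continuous_const

theorem Gh_lim {ι : Type*} {l : Filter ι} [l.NeBot] {c : ι → ℕ → C} {d : ℕ → C}
    (hc : ∀ᶠ n in l, c n ∈ Gh p C) (h : ∀ i, Tendsto (fun n => c n i) l (𝓝 (d i))) :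
    d ∈ Gh p C :=
  isClosed_Gh.mem_of_tendsto (tendsto_pi_nhds.2 h) hc

theorem inv_mem (hp : ‖(p : C)‖ < 1) {c : ℕ → C} (hc : c ∈ Gh p C) (h0 : ‖c 0‖ = 1) :
    (fun i => (c i)⁻¹) ∈ Gh p C := by
  have hd : ‖(c 0)⁻¹‖ = 1 := by rw [norm_inv, h0, inv_one]
  have h00 : c 0 ≠ 0 := norm_ne_zero_iff.1 (by rw [h0]; exact one_ne_zero)
  have ht := teich_mem (p := p) hd.le
  set t : ℕ → C := fun i => (c 0)⁻¹ ^ p ^ i with htd
  have he : 1 - t * c ∈ Gh p C := sub_mem (one_mem _) (mul_mem ht hc)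
  have hs : ∀ i, ‖(1 - t * c) i‖ < 1 := fun i => by
    have e : (1 - t * c) i = -((c 0)⁻¹ ^ p ^ i * (c i - c 0 ^ p ^ i)) := by
      simp only [Pi.sub_apply, Pi.mul_apply, Pi.one_apply, htd, mul_sub, ← mul_pow,
        inv_mul_cancel₀ h00, one_pow, neg_sub]
    rw [e, norm_neg, norm_mul, norm_pow, hd, one_pow, one_mul]
    exact (Gh_cong hc i).trans_lt hp
  refine Gh_lim (l := atTop) (c := fun N : ℕ => t * ∑ n ∈ range N, (1 - t * c) ^ n)
    (Eventually.of_forall fun N => mul_mem ht (sum_mem fun n _ => pow_mem he n)) fun i => ?_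
  have h1 := ((hasSum_geometric_of_norm_lt_one (hs i)).tendsto_sum_nat).const_mul (t i)
  have ht0 : t i ≠ 0 := pow_ne_zero _ (inv_ne_zero h00)
  have e : t i * (1 - (1 - t * c) i)⁻¹ = (c i)⁻¹ := by
    simp only [Pi.sub_apply, Pi.mul_apply, Pi.one_apply, sub_sub_cancel, mul_inv,
      mul_inv_cancel_left₀ ht0]
  rw [e] at h1
  simpa only [Pi.mul_apply, Finset.sum_apply, Pi.pow_apply] using h1

end gh

section ints

/-- integral series -/
def In (f : C⟦X⟧) : Prop := ∀ n, ‖coeff n f‖ ≤ 1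

variable {f g u v φ : C⟦X⟧} {a : C} {r : ℝ}

omit [IsUltrametricDist C] in
theorem In.bnd (hf : In f) (h0 : 0 ≤ r) (hr : r ≤ 1) : Bnd r 1 f := fun n =>
  mul_le_one₀ (hf n) (by positivity) (pow_le_one₀ h0 hr)

omit [IsUltrametricDist C] in
theorem in_iff : In f ↔ Bnd 1 1 f := ⟨fun h => h.bnd zero_le_one le_rfl, fun h n => by
  simpa using h n⟩

omit [IsUltrametricDist C] in
theorem In.res (hf : In f) (h0 : 0 ≤ r) (hr : r < 1) : IsRestricted r f :=
  (in_iff.1 hf).res h0 hr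

theorem In.mul (hf : In f) (hg : In g) : In (f * g) := by
  have := (in_iff.1 hf).mul zero_le_one (in_iff.1 hg)
  rw [mul_one] at this
  exact in_iff.2 this

theorem In.add (hf : In f) (hg : In g) : In (f + g) :=
  in_iff.2 ((in_iff.1 hf).add zero_le_one (in_iff.1 hg))

theorem In.sub (hf : In f) (hg : In g) : In (f - g) :=
  in_iff.2 ((in_iff.1 hf).sub zero_le_one (in_iff.1 hg))

omit [IsUltrametricDist C] in
theorem In.neg (hf : In f) : In (-f) := in_iff.2 (in_iff.1 hf).neg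

omit [IsUltrametricDist C] in
theorem in_C (ha : ‖a‖ ≤ 1) : In (PowerSeries.C a) := in_iff.2 ((bnd_C 1 a).mono ha)

omit [IsUltrametricDist C] in
theorem in_one : In (1 : C⟦X⟧) := in_iff.2 (bnd_one 1)

omit [IsUltrametricDist C] in
theorem in_zero : In (0 : C⟦X⟧) := in_iff.2 (bnd_zero 1 zero_le_one)

omit [IsUltrametricDist C] in
theorem in_X : In (X : C⟦X⟧) := in_iff.2 (bnd_X zero_le_one)

theorem in_y : In (1 + X : C⟦X⟧) := in_one.add in_X

theorem In.pow (hf : In f) (n : ℕ) : In (f ^ n) := by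
  have := (in_iff.1 hf).pow zero_le_one n
  rw [one_pow] at this
  exact in_iff.2 this

theorem In.deriv (hf : In f) : In (d⁄dX C f) := by
  have := (in_iff.1 hf).deriv one_pos
  rw [inv_one, one_mul] at this
  exact in_iff.2 this

omit [IsUltrametricDist C] in
theorem In.trunc (hf : In f) (M : ℕ) : In ((trunc M f : Polynomial C) : C⟦X⟧) :=
  in_iff.2 ((in_iff.1 hf).trunc M)

theorem In.cmp (hφ : In φ) (hf : In f) : In (cmp φ f) :=
  in_iff.2 ((in_iff.1 hφ).cmp one_pos (in_iff.1 hf))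

theorem in_inv (h0 : 1 ≤ ‖coeff 0 f‖) (h : ∀ n, 0 < n → ‖coeff n f‖ ≤ 1) : In f⁻¹ := by
  have hi : ‖(constantCoeff f)⁻¹‖ ≤ 1 := by
    rw [norm_inv, ← coeff_zero_eq_constantCoeff_apply]
    exact inv_le_one_of_one_le₀ h0
  intro n
  induction n using Nat.strong_induction_on with
  | _ n ih =>
    rw [coeff_inv]
    split_ifs with hn
    · exact hi
    · rw [norm_mul, norm_neg]
      refine mul_le_one₀ hi (norm_nonneg _) ?_
      refine IsUltrametricDist.norm_sum_le_of_forall_le_of_nonneg zero_le_one ?_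
      rintro ⟨i, j⟩ hij
      have hij : i + j = n := Finset.HasAntidiagonal.mem_antidiagonal.1 hij
      dsimp only
      split_ifs with hj
      · rw [norm_mul]
        exact mul_le_one₀ (h i (by omega)) (norm_nonneg _) (ih j hj)
      · simp

omit [IsUltrametricDist C] in
theorem un_in (hu : Unit u) : In u := hu.1

theorem un_inv (hu : Unit u) : In u⁻¹ := in_inv hu.2.ge fun n _ => hu.1 n

omit [IsUltrametricDist C] in
theorem un_ne (hu : Unit u) : constantCoeff u ≠ 0 := by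
  rw [← coeff_zero_eq_constantCoeff_apply, ← norm_ne_zero_iff, hu.2]
  exact one_ne_zero

theorem in_dl (hu : Unit u) : In (dl u) := (in_y.mul (un_in hu).deriv).mul (un_inv hu)

omit [IsUltrametricDist C] in
theorem lg_mul (hu : constantCoeff u ≠ 0) (hv : constantCoeff v ≠ 0) :
    d⁄dX C (u * v) * (u * v)⁻¹ = d⁄dX C u * u⁻¹ + d⁄dX C v * v⁻¹ := by
  have h1 := PowerSeries.mul_inv_cancel u hu
  have h2 := PowerSeries.mul_inv_cancel v hv
  rw [PowerSeries.mul_inv_rev, Derivation.leibniz, smul_eq_mul, smul_eq_mul]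
  linear_combination (d⁄dX C v * v⁻¹) * h1 + (d⁄dX C u * u⁻¹) * h2

omit [IsUltrametricDist C] in
theorem dl_mul (hu : constantCoeff u ≠ 0) (hv : constantCoeff v ≠ 0) :
    dl (u * v) = dl u + dl v := by
  simp only [dl, mul_assoc, lg_mul hu hv, mul_add]

omit [IsUltrametricDist C] in
theorem dl_C (c : C) : dl (PowerSeries.C c) = 0 := by simp [dl]

theorem ex_rad (hφ : In φ) (h0 : ‖constantCoeff φ‖ < 1) (hr0 : 0 < r) (hr : r < 1) :
    ∃ ρ, 0 < ρ ∧ ρ < 1 ∧ Bnd r ρ φ := by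
  refine ⟨max r ‖constantCoeff φ‖, lt_max_of_lt_left hr0, max_lt hr h0, fun n => ?_⟩
  cases n with
  | zero => simp
  | succ n =>
    refine le_max_of_le_left ?_
    rw [pow_succ, ← mul_assoc]
    exact mul_le_of_le_one_left hr0.le
      (mul_le_one₀ (hφ _) (by positivity) (pow_le_one₀ hr0.le hr.le))

theorem norm_ev (hf : In f) (ha : ‖a‖ ≤ 1) : ‖ev a f‖ ≤ 1 := (in_iff.1 hf).ev ha

variable [CompleteSpace C]

theorem ev_add' (ha : ‖a‖ < 1) (hf : In f) (hg : In g) : ev a (f + g) = ev a f + ev a g :=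
  ev_add le_rfl (hf.res (norm_nonneg _) ha) (hg.res (norm_nonneg _) ha)

theorem ev_sub' (ha : ‖a‖ < 1) (hf : In f) (hg : In g) : ev a (f - g) = ev a f - ev a g :=
  ev_sub le_rfl (hf.res (norm_nonneg _) ha) (hg.res (norm_nonneg _) ha)

theorem ev_mul' (ha : ‖a‖ < 1) (hf : In f) (hg : In g) : ev a (f * g) = ev a f * ev a g :=
  ev_mul le_rfl (hf.res (norm_nonneg _) ha) (hg.res (norm_nonneg _) ha)

theorem ev_pow' (ha : ‖a‖ < 1) (hf : In f) (n : ℕ) : ev a (f ^ n) = ev a f ^ n :=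
  ev_pow le_rfl (hf.res (norm_nonneg _) ha) n

omit [IsUltrametricDist C] [CompleteSpace C] in
theorem ev_one (a : C) : ev a (1 : C⟦X⟧) = 1 := by simpa using ev_C a (1 : C)

omit [IsUltrametricDist C] [CompleteSpace C] in
theorem ev_zero' (a : C) : ev a (0 : C⟦X⟧) = 0 := by simpa using ev_C a (0 : C)

theorem ev_y (ha : ‖a‖ < 1) : ev a (1 + X : C⟦X⟧) = 1 + a := by
  rw [ev_add' ha in_one in_X, ev_one, ev_X]

theorem ev_cmp' (ha : ‖a‖ < 1) (hφ : In φ) (h0 : ‖constantCoeff φ‖ < 1) (hf : In f) :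
    ev a (cmp φ f) = ev (ev a φ) f := by
  obtain ⟨r, h1, h2⟩ := exists_between ha
  have hr : 0 < r := (norm_nonneg _).trans_lt h1
  obtain ⟨ρ, h3, h4, h5⟩ := ex_rad hφ h0 hr h2
  exact ev_cmp hr h1.le h5 (hφ.res hr.le h2) (hf.res h3.le h4)

theorem cmp_mul' (hφ : In φ) (h0 : ‖constantCoeff φ‖ < 1) (hf : In f) (hg : In g) :
    cmp φ (f * g) = cmp φ f * cmp φ g := by
  obtain ⟨ρ, h3, h4, h5⟩ := ex_rad hφ h0 one_half_pos one_half_lt_one
  exact cmp_mul one_half_pos h5 (hf.res h3.le h4) (hg.res h3.le h4)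

theorem cmp_add' (hφ : In φ) (h0 : ‖constantCoeff φ‖ < 1) (hf : In f) (hg : In g) :
    cmp φ (f + g) = cmp φ f + cmp φ g := by
  obtain ⟨ρ, h3, h4, h5⟩ := ex_rad hφ h0 one_half_pos one_half_lt_one
  exact cmp_add one_half_pos h5 (hf.res h3.le h4) (hg.res h3.le h4)

theorem deriv_cmp' (hφ : In φ) (h0 : ‖constantCoeff φ‖ < 1) (hf : In f) :
    d⁄dX C (cmp φ f) = cmp φ (d⁄dX C f) * d⁄dX C φ := by
  obtain ⟨ρ, h3, h4, h5⟩ := ex_rad hφ h0 one_half_pos one_half_lt_one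
  exact deriv_cmp one_half_pos h3 h5 (hf.res h3.le h4)

theorem cmp_inv (hφ : In φ) (h0 : ‖constantCoeff φ‖ < 1) (hu : Unit u) :
    (cmp φ u)⁻¹ = cmp φ u⁻¹ := by
  have h : cmp φ u⁻¹ * cmp φ u = 1 := by
    rw [← cmp_mul' hφ h0 (un_inv hu) (un_in hu), PowerSeries.inv_mul_cancel u (un_ne hu), cmp_one]
  refine ((PowerSeries.eq_inv_iff_mul_eq_one fun h1 => ?_).2 h).symm
  have := congrArg constantCoeff h
  rw [map_mul, h1, mul_zero, map_one] at this
  exact zero_ne_one this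

theorem dl_cmp (hφ : In φ) (h0 : ‖constantCoeff φ‖ < 1) (hu : Unit u) {l : C}
    (hl : (1 + X) * d⁄dX C φ = PowerSeries.C l * (1 + φ)) :
    dl (cmp φ u) = PowerSeries.C l * cmp φ (dl u) := by
  rw [dl, dl, cmp_inv hφ h0 hu, deriv_cmp' hφ h0 (un_in hu),
    cmp_mul' hφ h0 (in_y.mul (un_in hu).deriv) (un_inv hu),
    cmp_mul' hφ h0 in_y (un_in hu).deriv, cmp_add' hφ h0 in_one in_X, cmp_one, cmp_X]
  linear_combination (cmp φ (d⁄dX C u) * cmp φ u⁻¹) * hl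

/-- `dl` of the truncations converges on the open disc -/
theorem tendsto_dl (ha : ‖a‖ < 1) (hu : Unit u) :
    Tendsto (fun N : ℕ => ev a (dl ((trunc (N + 1) u : Polynomial C) : C⟦X⟧))) atTop
      (𝓝 (ev a (dl u))) := by
  obtain ⟨r, h1, h2⟩ := exists_between ha
  have hr : 0 < r := (norm_nonneg _).trans_lt h1
  rw [Metric.tendsto_atTop]
  intro ε hε
  obtain ⟨N, hN⟩ := exists_trunc ((un_in hu).res hr.le h2) (show 0 < r * (ε / 2) by positivity)
  refine ⟨N, fun M hM => ?_⟩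
  have hb := hN (M + 1) (by omega)
  set P : C⟦X⟧ := ((trunc (M + 1) u : Polynomial C) : C⟦X⟧) with hP
  have hPu : Unit P := ⟨(un_in hu).trunc _, by
    rw [hP, Polynomial.coeff_coe, coeff_trunc, if_pos (Nat.succ_pos M)]; exact hu.2⟩
  have e : dl u - dl P = (1 + X) * (d⁄dX C (u - P) * u⁻¹ - (u - P) * (d⁄dX C P * u⁻¹ * P⁻¹)) := by
    have e1 := PowerSeries.mul_inv_cancel u (un_ne hu)
    have e2 := PowerSeries.mul_inv_cancel P (un_ne hPu)
    rw [dl, dl, map_sub]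
    linear_combination (1 + X) * d⁄dX C P * P⁻¹ * e1 - (1 + X) * d⁄dX C P * u⁻¹ * e2
  have b1 := (hb.deriv hr).mul hr.le ((un_inv hu).bnd hr.le h2.le)
  have b2 := hb.mul hr.le
    ((((un_in hPu).deriv.mul (un_inv hu)).mul (un_inv hPu)).bnd hr.le h2.le)
  rw [inv_mul_cancel_left₀ hr.ne', mul_one] at b1
  have b3 := (in_y.bnd hr.le h2.le).mul hr.le (b1.sub hr.le (b2.mono (by nlinarith)))
  rw [← e, one_mul] at b3
  rw [dist_comm, dist_eq_norm, ← ev_sub' ha (in_dl hu) (in_dl hPu)]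
  exact (b3.ev h1.le).trans_lt (by linarith)

end ints

section sums

variable {ψ : ℚ_[p] → C}

theorem qp_ne : (p : ℚ_[p]) ≠ 0 := Nat.cast_ne_zero.2 (Fact.out : p.Prime).ne_zero

theorem nrm_nat (n : ℕ) : ‖(n : ℚ_[p])‖ ≤ 1 := IsUltrametricDist.norm_natCast_le_one ℚ_[p] n

theorem nrm_ppow (n : ℕ) : ‖(p : ℚ_[p]) ^ n‖ ≤ 1 := by
  rw [norm_pow]
  exact pow_le_one₀ (norm_nonneg _) (nrm_nat p)

theorem nrm_mul {x y : ℚ_[p]} (hx : ‖x‖ ≤ 1) (hy : ‖y‖ ≤ 1) : ‖x * y‖ ≤ 1 := by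
  rw [norm_mul]
  exact mul_le_one₀ hx (norm_nonneg _) hy

theorem nrm_add {x y : ℚ_[p]} (hx : ‖x‖ ≤ 1) (hy : ‖y‖ ≤ 1) : ‖x + y‖ ≤ 1 :=
  (IsUltrametricDist.norm_add_le_max x y).trans (max_le hx hy)

theorem nrm_sub {x y : ℚ_[p]} (hx : ‖x‖ ≤ 1) (hy : ‖y‖ ≤ 1) : ‖x - y‖ ≤ 1 := by
  rw [sub_eq_add_neg]
  exact nrm_add hx (by rwa [norm_neg])

theorem nrm_dvd (z : ℤ) (k : ℕ) : ‖(z : ℚ_[p]) / (p : ℚ_[p]) ^ k‖ ≤ 1 ↔ (p : ℤ) ^ k ∣ z := by
  have hp : (0 : ℝ) < p := by exact_mod_cast (Fact.out : p.Prime).pos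
  rw [← Padic.norm_int_le_pow_iff_dvd, norm_div, norm_pow, Padic.norm_p,
    div_le_one (by positivity), zpow_neg, zpow_natCast, inv_pow]

theorem nrm_unit {a : ℚ_[p]} (ha : ‖a‖ = 1) {k : ℕ} (hk : 0 < k) :
    ¬ ‖a / (p : ℚ_[p]) ^ k‖ ≤ 1 := by
  have hp : (1 : ℝ) < p := by exact_mod_cast (Fact.out : p.Prime).one_lt
  rw [norm_div, ha, norm_pow, Padic.norm_p, inv_pow, one_div, inv_inv, not_le]
  exact one_lt_pow₀ hp hk.ne'

theorem ex_appr {a : ℚ_[p]} (ha : ‖a‖ ≤ 1) (k : ℕ) :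
    ∃ t : ℕ, t < p ^ k ∧ ‖(a - t) / (p : ℚ_[p]) ^ k‖ ≤ 1 := by
  obtain ⟨A, rfl⟩ : ∃ A : ℤ_[p], (A : ℚ_[p]) = a := ⟨⟨a, ha⟩, rfl⟩
  refine ⟨PadicInt.appr A k, PadicInt.appr_lt _ _, ?_⟩
  obtain ⟨w, hw⟩ := Ideal.mem_span_singleton'.1 (PadicInt.appr_spec k A)
  have h := congrArg (fun z : ℤ_[p] => (z : ℚ_[p])) hw
  simp only [PadicInt.coe_mul, PadicInt.coe_pow, PadicInt.coe_natCast, PadicInt.coe_sub] at h
  rw [← h, mul_div_cancel_right₀ _ (pow_ne_zero _ qp_ne)]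
  exact w.2

theorem psi_per (h : Psi p ψ) (x : ℚ_[p]) {y : ℚ_[p]} (hy : ‖y‖ ≤ 1) : ψ (x + y) = ψ x := by
  rw [h.add, (h.ker y).2 hy, mul_one]

theorem psi_congr (h : Psi p ψ) {x y : ℚ_[p]} (hy : ‖x - y‖ ≤ 1) : ψ x = ψ y := by
  rw [← psi_per h y hy, add_sub_cancel]

theorem psi_neg (h : Psi p ψ) (x : ℚ_[p]) : ψ (-x) * ψ x = 1 := by
  rw [← h.add, neg_add_cancel, h.zero]

theorem norm_pow_sub (hp : ‖(p : C)‖ < 1) {x : C} (hx : ‖x‖ ≤ 1) (k : ℕ) :
    ‖(1 - x ^ p ^ k) - (1 - x) ^ p ^ k‖ < 1 := by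
  have h : (1 - fun i => x ^ p ^ i) ∈ Gh p C := sub_mem (one_mem _) (teich_mem hx)
  have := Gh_cong h k
  simp only [Pi.sub_apply, Pi.one_apply, pow_zero, pow_one] at this
  exact this.trans_lt hp

theorem psi_sub_one (h : Psi p ψ) (hp : ‖(p : C)‖ < 1) (x : ℚ_[p]) : ‖ψ x - 1‖ < 1 := by
  obtain ⟨k, hk⟩ := h.tors x
  have := norm_pow_sub hp (h.norm x).le k
  rw [hk, sub_self, zero_sub, norm_neg, norm_pow] at this
  rw [norm_sub_rev]
  by_contra h1
  exact absurd (one_le_pow₀ (not_lt.1 h1)) (not_le.2 this)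

theorem norm_one_sub_pow (hp : ‖(p : C)‖ < 1) {x : C} (hx : ‖x‖ ≤ 1) (h1 : 1 ≤ ‖1 - x‖) (k : ℕ) :
    ‖1 - x ^ p ^ k‖ = 1 := by
  have h2 : ‖1 - x‖ = 1 := le_antisymm (by
    rw [sub_eq_add_neg]
    exact (IsUltrametricDist.norm_add_le_max _ _).trans (max_le (by simp) (by simpa using hx))) h1
  have h3 : ‖(1 - x) ^ p ^ k‖ = 1 := by rw [norm_pow, h2, one_pow]
  have h4 := norm_pow_sub hp hx k
  have h5 := IsUltrametricDist.norm_add_eq_max_of_norm_ne_norm (h4.trans_eq h3.symm).ne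
  rw [sub_add_cancel, h3, max_eq_right h4.le] at h5
  exact h5

theorem geo (h : Psi p ψ) {x : ℚ_[p]} {M : ℕ} (hM : ‖(M : ℚ_[p]) * x‖ ≤ 1) :
    ∑ t ∈ range M, ψ (t * x) = if ‖x‖ ≤ 1 then (M : C) else 0 := by
  simp only [h.nat]
  split_ifs with hx
  · simp [(h.ker x).2 hx]
  · have h1 : ψ x ≠ 1 := fun e => hx ((h.ker x).1 e)
    have h2 : ψ x ^ M = 1 := by rw [← h.nat]; exact (h.ker _).2 hM
    rw [geom_sum_eq h1, h2, sub_self, zero_div]

theorem sum_mul_range (f : ℕ → C) (a b : ℕ) :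
    ∑ j ∈ range (a * b), f j = ∑ t ∈ range a, ∑ s ∈ range b, f (t * b + s) := by
  induction a with
  | zero => simp
  | succ a ih => rw [Nat.succ_mul, sum_range_add, ih, sum_range_succ]

/-- `ℤ_p`-periodic functions -/
def Per (g : ℚ_[p] → C) : Prop := ∀ x y, ‖x - y‖ ≤ 1 → g x = g y

theorem sum_aff {g : ℚ_[p] → C} (hg : Per g) (m : ℕ) {t l : ℚ_[p]}
    (ht : ‖t * (p : ℚ_[p]) ^ m‖ ≤ 1) (hl : ‖l‖ = 1) :
    ∑ j ∈ range (p ^ m), g (t + l * (j / (p : ℚ_[p]) ^ m)) =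
      ∑ j ∈ range (p ^ m), g (j / (p : ℚ_[p]) ^ m) := by
  haveI : NeZero (p ^ m) := ⟨pow_ne_zero _ (Fact.out : p.Prime).ne_zero⟩
  have hq : (p : ℚ_[p]) ^ m ≠ 0 := pow_ne_zero _ qp_ne
  set G : ZMod (p ^ m) → C := fun z => g ((z.val : ℚ_[p]) / (p : ℚ_[p]) ^ m) with hG
  have key : ∀ y : ℤ_[p], g ((y : ℚ_[p]) / (p : ℚ_[p]) ^ m) = G (PadicInt.toZModPow m y) := by
    intro y
    refine hg _ _ ?_
    have h1 : y - ((PadicInt.toZModPow m y).val : ℤ_[p]) ∈ RingHom.ker (PadicInt.toZModPow m) := by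
      rw [RingHom.mem_ker, map_sub, map_natCast, ZMod.natCast_zmod_val, sub_self]
    rw [PadicInt.ker_toZModPow] at h1
    obtain ⟨w, hw⟩ := Ideal.mem_span_singleton'.1 h1
    have h := congrArg (fun z : ℤ_[p] => (z : ℚ_[p])) hw
    simp only [PadicInt.coe_mul, PadicInt.coe_pow, PadicInt.coe_natCast, PadicInt.coe_sub] at h
    rw [← sub_div, ← h, mul_div_cancel_right₀ _ hq]
    exact w.2
  have rng : ∀ F : ZMod (p ^ m) → C, ∑ j ∈ range (p ^ m), F (j : ZMod (p ^ m)) = ∑ z, F z := by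
    intro F
    refine sum_bij' (fun j _ => (j : ZMod (p ^ m))) (fun z _ => z.val) (fun _ _ => mem_univ _)
      (fun z _ => mem_range.2 (ZMod.val_lt z)) (fun j hj => ZMod.val_cast_of_lt (mem_range.1 hj))
      (fun z _ => ZMod.natCast_zmod_val z) fun _ _ => rfl
  obtain ⟨T, hT⟩ : ∃ A : ℤ_[p], (A : ℚ_[p]) = t * (p : ℚ_[p]) ^ m := ⟨⟨_, ht⟩, rfl⟩
  obtain ⟨L, rfl⟩ : ∃ A : ℤ_[p], (A : ℚ_[p]) = l := ⟨⟨l, hl.le⟩, rfl⟩
  have hu : IsUnit (PadicInt.toZModPow m L) := (PadicInt.isUnit_iff.2 hl).map _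
  obtain ⟨U, hU⟩ := hu
  have e1 : ∀ j : ℕ, g (t + L * (j / (p : ℚ_[p]) ^ m)) =
      G (PadicInt.toZModPow m T + U * (j : ZMod (p ^ m))) := fun j => by
    rw [hU, ← map_natCast (PadicInt.toZModPow m) j, ← map_mul, ← map_add, ← key]
    congr 1
    simp only [PadicInt.coe_add, PadicInt.coe_mul, PadicInt.coe_natCast, hT]
    field_simp
  have e2 : ∀ j : ℕ, g (j / (p : ℚ_[p]) ^ m) = G (j : ZMod (p ^ m)) := fun j => by
    rw [← map_natCast (PadicInt.toZModPow m) j, ← key, PadicInt.coe_natCast]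
  simp only [e1, e2]
  rw [rng fun z => G (PadicInt.toZModPow m T + U * z), rng G]
  exact Equiv.sum_comp ((Units.mulLeft U).trans (Equiv.addLeft (PadicInt.toZModPow m T))) G

end sums

section amice

variable [CharZero C] {ψ : ℚ_[p] → C} {f g u φ : C⟦X⟧}

theorem per_ev (h : Psi p ψ) (f : C⟦X⟧) {c : ℚ_[p]} (hc : ‖c‖ ≤ 1) :
    Per fun x => ψ (-c * x) * ev (ψ x - 1) f := fun x y hxy => by
  dsimp only
  rw [psi_congr h hxy, psi_congr h (x := -c * x) (y := -c * y)]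
  rw [← mul_sub]
  exact nrm_mul (by rwa [norm_neg]) hxy

theorem mu_zero (ψ : ℚ_[p] → C) (m : ℕ) (c : ℚ_[p]) : mu p ψ 0 m c = 0 := by
  simp [mu, ev_zero']

theorem mu_cong (h : Psi p ψ) (f : C⟦X⟧) (m : ℕ) {c c' : ℚ_[p]}
    (hc : ‖(c - c') / (p : ℚ_[p]) ^ m‖ ≤ 1) : mu p ψ f m c = mu p ψ f m c' := by
  unfold mu
  congr 1
  refine sum_congr rfl fun j _ => ?_
  rw [psi_congr h (x := -c * _) (y := -c' * (j / (p : ℚ_[p]) ^ m))]
  have e : -c * (j / (p : ℚ_[p]) ^ m) - -c' * (j / (p : ℚ_[p]) ^ m) =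
      -((c - c') / (p : ℚ_[p]) ^ m * j) := by ring
  rw [e, norm_neg]
  exact nrm_mul hc (nrm_nat j)

theorem mu_ref (h : Psi p ψ) (f : C⟦X⟧) (m : ℕ) (c : ℚ_[p]) :
    mu p ψ f m c = ∑ t ∈ range p, mu p ψ f (m + 1) (c + t * (p : ℚ_[p]) ^ m) := by
  have hq : (p : ℚ_[p]) ≠ 0 := qp_ne
  have hp : (p : C) ≠ 0 := p_ne
  have hp0 : 0 < p := (Fact.out : p.Prime).pos
  unfold mu
  rw [← mul_sum, sum_comm, pow_succ p m, sum_mul_range]
  have e1 : ∀ j : ℕ, ∑ t ∈ range p, ψ (-(c + t * (p : ℚ_[p]) ^ m) * (j / (p : ℚ_[p]) ^ (m + 1))) *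
      ev (ψ (j / (p : ℚ_[p]) ^ (m + 1)) - 1) f = (if p ∣ j then (p : C) else 0) *
        (ψ (-c * (j / (p : ℚ_[p]) ^ (m + 1))) * ev (ψ (j / (p : ℚ_[p]) ^ (m + 1)) - 1) f) := by
    intro j
    have e2 : ∀ t : ℕ, ψ (-(c + t * (p : ℚ_[p]) ^ m) * (j / (p : ℚ_[p]) ^ (m + 1))) =
        ψ (t * (((-j : ℤ) : ℚ_[p]) / (p : ℚ_[p]) ^ 1)) * ψ (-c * (j / (p : ℚ_[p]) ^ (m + 1))) := by
      intro t
      rw [← h.add]
      congr 1
      push_cast
      field_simp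
      ring
    simp only [e2, mul_assoc]
    rw [← sum_mul, geo h]
    · simp only [nrm_dvd]
      simp only [pow_one, dvd_neg, Int.natCast_dvd_natCast]
    · rw [pow_one, mul_div_cancel₀ _ hq]
      exact IsUltrametricDist.norm_intCast_le_one ℚ_[p] _
  simp only [e1]
  have e3 : ∀ t : ℕ, ∑ s ∈ range p, (if p ∣ t * p + s then (p : C) else 0) *
      (ψ (-c * (((t * p + s : ℕ) : ℚ_[p]) / (p : ℚ_[p]) ^ (m + 1))) *
        ev (ψ (((t * p + s : ℕ) : ℚ_[p]) / (p : ℚ_[p]) ^ (m + 1)) - 1) f) =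
      p * (ψ (-c * (t / (p : ℚ_[p]) ^ m)) * ev (ψ (t / (p : ℚ_[p]) ^ m) - 1) f) := by
    intro t
    rw [sum_eq_single_of_mem 0 (mem_range.2 hp0)]
    · have e4 : ((t * p + 0 : ℕ) : ℚ_[p]) / (p : ℚ_[p]) ^ (m + 1) = t / (p : ℚ_[p]) ^ m := by
        push_cast
        field_simp
        ring
      rw [e4, if_pos (by simp)]
    · intro s hs h0
      rw [if_neg, zero_mul]
      rw [Nat.dvd_add_right (Nat.dvd_mul_left p t)]
      exact Nat.not_dvd_of_pos_of_lt (Nat.pos_of_ne_zero h0) (mem_range.1 hs)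
  simp only [e3]
  rw [← mul_sum, pow_succ]
  field_simp

variable [CompleteSpace C]

theorem mu_add (h : Psi p ψ) (hp : ‖(p : C)‖ < 1) (hf : In f) (hg : In g) (m : ℕ) (c : ℚ_[p]) :
    mu p ψ (f + g) m c = mu p ψ f m c + mu p ψ g m c := by
  simp only [mu, ev_add' (psi_sub_one h hp _) hf hg, mul_add, sum_add_distrib]

theorem ev_C_mul {a : C} (ha : ‖a‖ < 1) (l : C) (hf : In f) :
    ev a (PowerSeries.C l * f) = l * ev a f := by
  rw [ev_mul le_rfl (isRestricted_C _ l) (hf.res (norm_nonneg _) ha), ev_C]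

theorem mu_cmp (h : Psi p ψ) (hp : ‖(p : C)‖ < 1) (hφ : In φ) (h0 : ‖constantCoeff φ‖ < 1)
    (hu : Unit u) {l : C} (hl : (1 + X) * d⁄dX C φ = PowerSeries.C l * (1 + φ))
    (σ : ℚ_[p] → ℚ_[p]) (hσ : ∀ x, ev (ψ x - 1) φ = ψ (σ x) - 1) (m : ℕ) (c : ℚ_[p]) :
    mu p ψ (dl (cmp φ u)) m c = l * (((p : C) ^ m)⁻¹ * ∑ j ∈ range (p ^ m),
      ψ (-c * (j / (p : ℚ_[p]) ^ m)) * ev (ψ (σ (j / (p : ℚ_[p]) ^ m)) - 1) (dl u)) := by
  rw [dl_cmp hφ h0 hu hl]
  simp only [mu, ev_C_mul (psi_sub_one h hp _) l (hφ.cmp (in_dl hu)),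
    ev_cmp' (psi_sub_one h hp _) hφ h0 (in_dl hu), hσ, mul_sum]
  exact sum_congr rfl fun j _ => by ring

theorem mu_tor (h : Psi p ψ) (hp : ‖(p : C)‖ < 1) (hφ : In φ) (h0 : ‖constantCoeff φ‖ < 1)
    (hu : Unit u) {l : C} (hl : (1 + X) * d⁄dX C φ = PowerSeries.C l * (1 + φ))
    {t lam : ℚ_[p]} (hlam : ‖lam‖ = 1) (hσ : ∀ x, ev (ψ x - 1) φ = ψ (t + lam * x) - 1) (m : ℕ)
    (ht : ‖t * (p : ℚ_[p]) ^ m‖ ≤ 1) {c : ℚ_[p]} (hc : ‖c‖ ≤ 1) :
    mu p ψ (dl (cmp φ u)) m (lam * c) = l * ψ (c * t) * mu p ψ (dl u) m c := by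
  rw [mu_cmp h hp hφ h0 hu hl _ hσ, mu, ← sum_aff (per_ev h (dl u) hc) m ht hlam]
  simp only [mul_sum]
  refine sum_congr rfl fun j _ => ?_
  have e : ψ (-(lam * c) * (j / (p : ℚ_[p]) ^ m)) =
      ψ (c * t) * ψ (-c * (t + lam * (j / (p : ℚ_[p]) ^ m))) := by
    rw [← h.add]
    congr 1
    ring
  rw [e]
  ring

theorem frob_in : In ((1 + X) ^ p - 1 : C⟦X⟧) := (in_y.pow p).sub in_one

theorem frob_dl : (1 + X) * d⁄dX C ((1 + X) ^ p - 1 : C⟦X⟧) =
    PowerSeries.C (p : C) * (1 + ((1 + X) ^ p - 1)) := by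
  obtain ⟨q, hq⟩ : ∃ q, p = q + 1 := ⟨p - 1, (Nat.succ_pred_eq_of_pos (Fact.out : p.Prime).pos).symm⟩
  rw [map_sub, derivative_pow, derivative_one, map_add, derivative_one, derivative_X, map_natCast]
  conv_rhs => rw [add_sub_cancel, hq, pow_succ, ← hq]
  rw [show p - 1 = q by omega]
  ring

theorem mu_frob (h : Psi p ψ) (hp : ‖(p : C)‖ < 1) (hu : Unit u) (m : ℕ) {c : ℚ_[p]}
    (hc : ‖c‖ ≤ 1) : mu p ψ (dl (cmp ((1 + X) ^ p - 1) u)) (m + 1) c =
      if ‖c / p‖ ≤ 1 then (p : C) * mu p ψ (dl u) m (c / p) else 0 := by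
  have hq : (p : ℚ_[p]) ≠ 0 := qp_ne
  have hp' : (p : C) ≠ 0 := p_ne
  rw [mu_cmp h hp frob_in (by simp) hu frob_dl (fun x => p * x) (fun x => by
    rw [ev_sub' (psi_sub_one h hp x) (in_y.pow p) in_one, ev_pow' (psi_sub_one h hp x) in_y,
      ev_y (psi_sub_one h hp x), ev_one, h.nat, add_sub_cancel]), pow_succ' p m, sum_mul_range,
    sum_comm]
  have e1 : ∀ s : ℕ, ∑ t ∈ range p,
      ψ (-c * (((t * p ^ m + s : ℕ) : ℚ_[p]) / (p : ℚ_[p]) ^ (m + 1))) *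
        ev (ψ (p * (((t * p ^ m + s : ℕ) : ℚ_[p]) / (p : ℚ_[p]) ^ (m + 1))) - 1) (dl u) =
      (if ‖c / p‖ ≤ 1 then (p : C) else 0) * (ψ (-(c / p) * (s / (p : ℚ_[p]) ^ m)) *
        ev (ψ (s / (p : ℚ_[p]) ^ m) - 1) (dl u)) := by
    intro s
    rw [← norm_neg (c / p), ← geo h, sum_mul]
    · refine sum_congr rfl fun t _ => ?_
      rw [← mul_assoc, ← h.add, psi_congr h (x := p * _) (y := s / (p : ℚ_[p]) ^ m)]
      · congr 2
        push_cast
        field_simp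
        ring
      · have e : p * (((t * p ^ m + s : ℕ) : ℚ_[p]) / (p : ℚ_[p]) ^ (m + 1)) -
            s / (p : ℚ_[p]) ^ m = t := by
          push_cast
          field_simp
          ring
        rw [e]
        exact nrm_nat t
    · rw [mul_neg, norm_neg, mul_div_cancel₀ _ hq]
      exact hc
  simp only [e1]
  rw [← mul_sum]
  split_ifs
  · rw [mu, pow_succ]
    field_simp
  · simp

end amice

section mem

variable [CharZero C] [CompleteSpace C] {ψ : ℚ_[p] → C} {u : C⟦X⟧}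

theorem in_dl_lin {r : C} (hr : 1 ≤ ‖r‖) : In ((X - PowerSeries.C r : C⟦X⟧)⁻¹) := by
  refine in_inv (by simpa using hr) fun n hn => ?_
  rw [map_sub, coeff_C, if_neg hn.ne', sub_zero]
  exact in_X n

theorem dl_lin (r : C) : dl (X - PowerSeries.C r : C⟦X⟧) = (1 + X) * (X - PowerSeries.C r)⁻¹ := by
  simp [dl]

theorem ev_lin {r a : C} (hr : 1 ≤ ‖r‖) (ha : ‖a‖ < 1) :
    ev a (dl (X - PowerSeries.C r : C⟦X⟧)) * (a - r) = 1 + a := by
  have hr0 : constantCoeff (X - PowerSeries.C r : C⟦X⟧) ≠ 0 := by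
    have : r ≠ 0 := norm_pos_iff.1 (one_pos.trans_le hr)
    simpa using this
  have h1 : IsRestricted ‖a‖ (X - PowerSeries.C r : C⟦X⟧) := res_sub (res_X _) (isRestricted_C _ r)
  have h2 := ev_mul le_rfl ((in_dl_lin hr).res (norm_nonneg _) ha) h1
  rw [PowerSeries.inv_mul_cancel _ hr0, ev_one, ev_sub le_rfl (res_X _) (isRestricted_C _ r), ev_X,
    ev_C] at h2
  rw [dl_lin, ev_mul' ha in_y (in_dl_lin hr), ev_y ha, mul_assoc, ← h2, mul_one]

theorem mu_lin (h : Psi p ψ) (hp : ‖(p : C)‖ < 1) {r : C} (hr : 1 ≤ ‖r‖) (m : ℕ) {c : ℚ_[p]}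
    (hc : ‖c‖ ≤ 1) {t : ℕ} (ht : t < p ^ m) (hct : ‖(c + t) / (p : ℚ_[p]) ^ m‖ ≤ 1)
    (hb : 1 - (1 + r) ^ p ^ m ≠ 0) :
    mu p ψ (dl (X - PowerSeries.C r)) m c = (1 + r) ^ t / (1 - (1 + r) ^ p ^ m) := by
  have hq : (p : ℚ_[p]) ^ m ≠ 0 := pow_ne_zero _ qp_ne
  have hp' : (p : C) ^ m ≠ 0 := pow_ne_zero _ p_ne
  have e1 : ∀ j : ℕ, ψ (-c * (j / (p : ℚ_[p]) ^ m)) *
      ev (ψ (j / (p : ℚ_[p]) ^ m) - 1) (dl (X - PowerSeries.C r)) =
      (∑ s ∈ range (p ^ m), (1 + r) ^ s * ψ (j * -((c + s) / (p : ℚ_[p]) ^ m))) /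
        (1 - (1 + r) ^ p ^ m) := by
    intro j
    set x : ℚ_[p] := j / (p : ℚ_[p]) ^ m with hx
    have h1 := ev_lin hr (psi_sub_one h hp x)
    have h2 := psi_neg h x
    have h3 : ψ (-x) ^ p ^ m = 1 := by
      rw [← h.nat, h.ker, hx, Nat.cast_pow, mul_neg, mul_div_cancel₀ _ hq, norm_neg]
      exact nrm_nat j
    have h4 := mul_neg_geom_sum ((1 + r) * ψ (-x)) (p ^ m)
    rw [mul_pow, h3, mul_one] at h4
    have e2 : ∀ s : ℕ, (1 + r) ^ s * ψ (j * -((c + s) / (p : ℚ_[p]) ^ m)) =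
        ψ (-c * x) * ((1 + r) * ψ (-x)) ^ s := fun s => by
      rw [mul_pow, ← h.nat, mul_left_comm, ← h.add]
      congr 2
      rw [hx]
      ring
    simp only [e2]
    rw [← mul_sum, eq_div_iff hb, ← h4]
    linear_combination (ψ (-c * x) * (∑ s ∈ range (p ^ m), ((1 + r) * ψ (-x)) ^ s) * ψ (-x)) * h1 +
      (ψ (-c * x) * (∑ s ∈ range (p ^ m), ((1 + r) * ψ (-x)) ^ s) *
        (1 - ev (ψ x - 1) (dl (X - PowerSeries.C r)))) * h2
  rw [mu]
  simp only [e1]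
  rw [← sum_div, sum_comm]
  have e3 : ∀ s : ℕ, ∑ j ∈ range (p ^ m), (1 + r) ^ s * ψ (j * -((c + s) / (p : ℚ_[p]) ^ m)) =
      (1 + r) ^ s * if ‖(c + s) / (p : ℚ_[p]) ^ m‖ ≤ 1 then (p : C) ^ m else 0 := fun s => by
    rw [← mul_sum, geo h, norm_neg, Nat.cast_pow]
    rw [Nat.cast_pow, mul_neg, mul_div_cancel₀ _ hq, norm_neg]
    exact nrm_add hc (nrm_nat s)
  simp only [e3]
  rw [sum_eq_single_of_mem t (mem_range.2 ht), if_pos hct]
  · field_simp
  · intro s hs hst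
    rw [if_neg, mul_zero]
    intro h5
    have h6 := nrm_sub h5 hct
    have e4 : (c + s) / (p : ℚ_[p]) ^ m - (c + t) / (p : ℚ_[p]) ^ m =
        (((s : ℤ) - t : ℤ) : ℚ_[p]) / (p : ℚ_[p]) ^ m := by
      push_cast
      ring
    rw [e4, nrm_dvd] at h6
    have h7 : ((p ^ m : ℕ) : ℤ) ∣ (s : ℤ) - t := by exact_mod_cast h6
    have h8 := Int.eq_zero_of_abs_lt_dvd h7 (by
      have := mem_range.1 hs
      rw [abs_lt]
      constructor <;> omega)
    omega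

theorem lin_mem (hp : ‖(p : C)‖ < 1) {b : C} (hb : 1 ≤ ‖1 - b‖) {k t : ℕ} (ht : t ≤ p ^ k) :
    (∀ m, 1 - b ^ p ^ m ≠ 0) ∧
      (fun i => b ^ (p ^ i * t) / (1 - b ^ p ^ (i + k))) ∈ Gh p C := by
  have key : ∀ x : C, ‖x‖ ≤ 1 → 1 ≤ ‖1 - x‖ → ∀ s : ℕ,
      (fun i => x ^ (p ^ i * s) / (1 - x ^ p ^ (i + k))) ∈ Gh p C := by
    intro x hx h1 s
    have h2 : (1 - fun i => (x ^ p ^ k) ^ p ^ i) ∈ Gh p C :=
      sub_mem (one_mem _) (teich_mem (by rw [norm_pow]; exact pow_le_one₀ (norm_nonneg _) hx))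
    have h3 := mul_mem (teich_mem (p := p) (a := x ^ s)
      (by rw [norm_pow]; exact pow_le_one₀ (norm_nonneg _) hx))
      (inv_mem hp h2 (by simpa using norm_one_sub_pow hp hx h1 k))
    convert h3 using 1
    funext i
    simp only [Pi.mul_apply, Pi.sub_apply, Pi.one_apply, ← pow_mul, ← pow_add, div_eq_mul_inv,
      mul_comm s, add_comm k]
  rcases le_or_gt ‖b‖ 1 with h | h
  · refine ⟨fun m => norm_ne_zero_iff.1 ?_, key b h hb t⟩
    rw [norm_one_sub_pow hp h hb]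
    exact one_ne_zero
  · have hb0 : b ≠ 0 := norm_pos_iff.1 (one_pos.trans h)
    have hi : ‖b⁻¹‖ < 1 := by rw [norm_inv]; exact inv_lt_one_of_one_lt₀ h
    have hne : ∀ m, 1 - b ^ p ^ m ≠ 0 := fun m h0 => by
      have h1 := congrArg Norm.norm (sub_eq_zero.1 h0)
      rw [norm_one, norm_pow] at h1
      exact (one_lt_pow₀ h (pow_ne_zero m (Fact.out : p.Prime).ne_zero)).ne h1
    have h1 : 1 ≤ ‖1 - b⁻¹‖ := by
      have h2 : ‖(1 : C)‖ ≠ ‖-b⁻¹‖ := by rw [norm_one, norm_neg]; exact hi.ne'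
      rw [sub_eq_add_neg, IsUltrametricDist.norm_add_eq_max_of_norm_ne_norm h2, norm_one]
      exact le_max_left _ _
    refine ⟨hne, ?_⟩
    convert neg_mem (key b⁻¹ hi.le h1 (p ^ k - t)) using 1
    funext i
    obtain ⟨s, hs⟩ := Nat.exists_eq_add_of_le ht
    have e : b ^ p ^ (i + k) = b ^ (p ^ i * t) * b ^ (p ^ i * s) := by
      rw [← pow_add, ← mul_add, ← hs, pow_add]
    have h3 := hne (i + k)
    have h4 : b ^ p ^ (i + k) - 1 ≠ 0 := fun h5 => h3 (by rw [← neg_sub, h5, neg_zero])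
    have h5 : b ^ p ^ (i + k) ≠ 0 := pow_ne_zero _ hb0
    rw [Pi.neg_apply, show p ^ k - t = s by omega, inv_pow, inv_pow,
      show 1 - (b ^ p ^ (i + k))⁻¹ = (b ^ p ^ (i + k) - 1) / b ^ p ^ (i + k) by field_simp]
    rw [e] at h3 h4 ⊢
    field_simp
    ring

theorem root_ge (hu : Unit u) {P : Polynomial C} (hP : (P : C⟦X⟧) = u) {r : C}
    (hr : P.eval r = 0) : 1 ≤ ‖r‖ := by
  by_contra h
  have h1 : ‖r‖ < 1 := not_le.1 h
  have h2 : Bnd ‖r‖ ‖r‖ (u - PowerSeries.C (coeff 0 u)) := by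
    intro n
    rw [map_sub, coeff_C]
    split_ifs with hn
    · simp [hn]
    · obtain ⟨n, rfl⟩ := Nat.exists_eq_succ_of_ne_zero hn
      rw [sub_zero, pow_succ, ← mul_assoc]
      exact mul_le_of_le_one_left (norm_nonneg _)
        (mul_le_one₀ (hu.1 _) (by positivity) (pow_le_one₀ (norm_nonneg _) h1.le))
  have h3 := h2.ev le_rfl
  rw [ev_sub' h1 (un_in hu) (in_C hu.2.le), ev_C, ← hP, ev_poly, hr, zero_sub, norm_neg, hP,
    hu.2] at h3
  exact h h3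

theorem mu_mem [IsAlgClosed C] (h : Psi p ψ) (hp : ‖(p : C)‖ < 1) (hu : Unit u) (k : ℕ)
    {a : ℚ_[p]} (ha : ‖a‖ ≤ 1) :
    (fun i => mu p ψ (dl u) (i + k) ((p : ℚ_[p]) ^ i * a)) ∈ Gh p C := by
  have hq : (p : ℚ_[p]) ≠ 0 := qp_ne
  obtain ⟨t, ht, hat⟩ := ex_appr (a := -a) (by rwa [norm_neg]) k
  have pol : ∀ P : Polynomial C, Unit (P : C⟦X⟧) →
      (fun i => mu p ψ (dl (P : C⟦X⟧)) (i + k) ((p : ℚ_[p]) ^ i * a)) ∈ Gh p C := by
    intro P hP
    have hP0 : P ≠ 0 := fun h0 => un_ne hP (by simp [h0])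
    let Q : Polynomial C → Prop := fun R => constantCoeff (R : C⟦X⟧) ≠ 0 ∧ In (dl (R : C⟦X⟧)) ∧
      (fun i => mu p ψ (dl (R : C⟦X⟧)) (i + k) ((p : ℚ_[p]) ^ i * a)) ∈ Gh p C
    have hC : ∀ c : C, c ≠ 0 → Q (Polynomial.C c) := fun c hc => by
      refine ⟨by simpa using hc, ?_, ?_⟩ <;> rw [Polynomial.coe_C, dl_C]
      · exact in_zero
      · simp only [mu_zero]
        exact zero_mem _
    have hmul : ∀ R S, Q R → Q S → Q (R * S) := fun R S hR hS => by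
      refine ⟨by rw [Polynomial.coe_mul, map_mul]; exact mul_ne_zero hR.1 hS.1, ?_, ?_⟩ <;>
        rw [Polynomial.coe_mul, dl_mul hR.1 hS.1]
      · exact hR.2.1.add hS.2.1
      · simp only [mu_add h hp hR.2.1 hS.2.1]
        exact add_mem hR.2.2 hS.2.2
    have hQ : Q P := by
      rw [(IsAlgClosed.splits P).eq_prod_roots]
      refine hmul _ _ (hC _ (Polynomial.leadingCoeff_ne_zero.2 hP0))
        (Multiset.prod_induction Q _ hmul (by simpa using hC 1 one_ne_zero) fun R hR => ?_)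
      obtain ⟨r, hr, rfl⟩ := Multiset.mem_map.1 hR
      have h1 : 1 ≤ ‖r‖ := root_ge hP rfl ((Polynomial.mem_roots hP0).1 hr)
      have e : ((Polynomial.X - Polynomial.C r : Polynomial C) : C⟦X⟧) = X - PowerSeries.C r := by
        simp
      obtain ⟨h2, h3⟩ := lin_mem hp (b := 1 + r) (by simpa using h1) ht.le
      refine ⟨?_, ?_, ?_⟩ <;> rw [e]
      · simpa using norm_pos_iff.1 (one_pos.trans_le h1)
      · rw [dl_lin]
        exact in_y.mul (in_dl_lin h1)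
      · convert h3 using 2 with i
        refine mu_lin h hp h1 _ (nrm_mul (nrm_ppow i) ha) ?_ ?_ (h2 _)
        · rw [pow_add]
          exact Nat.mul_lt_mul_of_pos_left ht (pow_pos (Fact.out : p.Prime).pos i)
        · have e2 : ((p : ℚ_[p]) ^ i * a + (p ^ i * t : ℕ)) / (p : ℚ_[p]) ^ (i + k) =
              -((-a - t) / (p : ℚ_[p]) ^ k) := by
            push_cast
            field_simp
            ring
          rw [e2, norm_neg]
          exact hat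
    exact hQ.2.2
  refine Gh_lim (l := atTop) (c := fun N : ℕ => fun i =>
    mu p ψ (dl ((trunc (N + 1) u : Polynomial C) : C⟦X⟧)) (i + k) ((p : ℚ_[p]) ^ i * a))
    (Eventually.of_forall fun N => pol _ ⟨(un_in hu).trunc _, ?_⟩) fun i => ?_
  · rw [Polynomial.coeff_coe, coeff_trunc, if_pos (Nat.succ_pos N)]
    exact hu.2
  · exact (tendsto_finset_sum _ fun j _ =>
      (tendsto_dl (psi_sub_one h hp _) hu).const_mul _).const_mul _

end mem

section gal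

variable [CharZero C] {ψ : ℚ_[p] → C} {u : C⟦X⟧}

theorem ev_gal (s : Iso C) (a : C) (f : C⟦X⟧) :
    ev (s.1 a) (PowerSeries.map (s.1 : C →+* C) f) = s.1 (ev a f) := by
  have hs : Isometry s.1 := AddMonoidHomClass.isometry_of_norm s.1 s.2
  have hs' : Isometry s.1.symm := AddMonoidHomClass.isometry_of_norm s.1.symm (s⁻¹).2
  rw [ev, ev, Function.LeftInverse.map_tsum (g := s.1) _ hs.continuous hs'.continuous
    s.1.symm_apply_apply]
  simp

theorem map_inv' (s : C →+* C) (u : C⟦X⟧) : (PowerSeries.map s u)⁻¹ = PowerSeries.map s u⁻¹ := by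
  by_cases h : constantCoeff u = 0
  · rw [PowerSeries.inv_eq_zero.2 h, map_zero, PowerSeries.inv_eq_zero,
      ← coeff_zero_eq_constantCoeff_apply, coeff_map, coeff_zero_eq_constantCoeff_apply, h, map_zero]
  · refine ((PowerSeries.eq_inv_iff_mul_eq_one ?_).2 ?_).symm
    · rw [← coeff_zero_eq_constantCoeff_apply, coeff_map, coeff_zero_eq_constantCoeff_apply]
      exact (map_ne_zero s).2 h
    · rw [← map_mul, PowerSeries.inv_mul_cancel u h, map_one]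

theorem map_deriv (s : C →+* C) (u : C⟦X⟧) :
    d⁄dX C (PowerSeries.map s u) = PowerSeries.map s (d⁄dX C u) := by
  ext n
  simp [coeff_derivative]

theorem dl_map (s : C →+* C) (u : C⟦X⟧) : dl (PowerSeries.map s u) = PowerSeries.map s (dl u) := by
  simp [dl, map_inv', map_deriv]

theorem mu_gal (h : Psi p ψ) (s : Iso C) {c : ℚ_[p]} (hc : ‖c‖ = 1)
    (hs : ∀ b, s.1 (ψ b) = ψ (c * b)) (f : C⟦X⟧) (m : ℕ) {a : ℚ_[p]} (ha : ‖a‖ ≤ 1) :
    mu p ψ (PowerSeries.map (s.1 : C →+* C) f) m a = s.1 (mu p ψ f m a) := by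
  rw [mu, mu, ← sum_aff (per_ev h _ ha) m (t := 0) (by simp) hc]
  simp only [map_mul, map_inv₀, map_pow, map_natCast, map_sum, ← ev_gal, map_sub, map_one, hs,
    zero_add, mul_left_comm c]

end gal

end Fs

open Fs

variable (p : ℕ) [Fact p.Prime] (C : Type) [NontriviallyNormedField C] [IsUltrametricDist C]
  [CharZero C]

theorem fst : FST p C := by
  intro _ _ ψ h hp
  have hq : (p : ℚ_[p]) ≠ 0 := qp_ne
  refine ⟨fun n k a u _ ha hu => ⟨n, _, mu_mem h hp hu k ha.le, rfl⟩, fun n k a u v hu hv => ?_,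
    fun n k a c => ?_, fun n k a hk ha => ?_, fun n k a u hk ha hu => ?_,
    fun n k a u i => lev_succ p n _ i, fun n k a x u i ha hx hu => ?_, fun n k a a' u ha => ?_,
    fun n k a u _ => ?_, fun s c hc hs n k a u i ha _ => ?_,
    fun lam φ n k a u ha hlam hu hφ h0 hσ l hl => ?_⟩
  · rw [st, st, st, ← map_add, dl_mul (un_ne hu) (un_ne hv)]
    simp only [mu_add h hp (in_dl hu) (in_dl hv)]
    rfl
  · simp only [st, dl_C, mu_zero]
    exact map_zero _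
  · have e : dl (1 + X : C⟦X⟧) = 1 := by
      rw [dl, map_add, derivative_one, derivative_X, zero_add, mul_one]
      exact PowerSeries.mul_inv_cancel _ (by simp)
    have e2 : ∀ i : ℕ, mu p ψ 1 (i + k) ((p : ℚ_[p]) ^ i * a) = 0 := fun i => by
      have e3 : ∀ j : ℕ, -((p : ℚ_[p]) ^ i * a) * (j / (p : ℚ_[p]) ^ (i + k)) =
          j * -(a / (p : ℚ_[p]) ^ k) := fun j => by
        field_simp
        ring
      simp only [mu, ev_one, mul_one, e3]
      rw [geo h, norm_neg, if_neg (nrm_unit ha hk), mul_zero]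
      have e4 : ((p ^ (i + k) : ℕ) : ℚ_[p]) * -(a / (p : ℚ_[p]) ^ k) = -((p : ℚ_[p]) ^ i * a) := by
        push_cast
        field_simp
        ring
      rw [e4, norm_neg]
      exact nrm_mul (nrm_ppow i) ha.le
    simp only [st, e, e2]
    exact map_zero _
  · rw [st, st, ← lev_Vg p n]
    congr 1
    funext i
    obtain ⟨k, rfl⟩ := Nat.exists_eq_succ_of_ne_zero hk.ne'
    rw [Nat.succ_eq_add_one, ← add_assoc, mu_frob h hp hu _ (nrm_mul (nrm_ppow i) ha.le)]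
    cases i with
    | zero =>
      rw [if_neg (by simpa using nrm_unit ha one_pos)]
      rfl
    | succ i =>
      have e : (p : ℚ_[p]) ^ (i + 1) * a / p = (p : ℚ_[p]) ^ i * a := by
        field_simp
        ring
      rw [e, if_pos (nrm_mul (nrm_ppow i) ha.le), add_right_comm]
      rfl
  · have h1 : In (PowerSeries.C (ψ x) * (1 + X) - 1 : C⟦X⟧) :=
      ((in_C (h.norm x).le).mul in_y).sub in_one
    have key : ∀ j : ℕ, mu p ψ (dl (An4.cmp (PowerSeries.C (ψ x) * (1 + X) - 1) u)) (j + k)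
        ((p : ℚ_[p]) ^ j * a) =
        ψ (x * a * (p : ℚ_[p]) ^ j) * mu p ψ (dl u) (j + k) ((p : ℚ_[p]) ^ j * a) := fun j => by
      have := mu_tor h hp h1 (by simpa using psi_sub_one h hp x) hu (l := 1) (by simp; ring)
        (t := x) norm_one (fun y => by
          rw [ev_sub' (psi_sub_one h hp y) ((in_C (h.norm x).le).mul in_y) in_one,
            ev_C_mul (psi_sub_one h hp y) _ in_y, ev_y (psi_sub_one h hp y), ev_one, one_mul,
            h.add, add_sub_cancel]) (j + k)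
        (by rw [pow_add, mul_left_comm]; exact nrm_mul (nrm_ppow j) hx)
        (nrm_mul (nrm_ppow j) ha)
      rw [one_mul, one_mul] at this
      rw [this]
      congr 2
      ring
    simp only [st, key, lev_apply]
    split_ifs with hi
    · rw [mul_div_assoc, ← zpow_natCast (p : ℚ_[p]), Int.toNat_of_nonneg hi]
    · rw [mul_zero]
  · rw [st, st]
    congr 1
    funext i
    refine mu_cong h _ _ ?_
    have e : ((p : ℚ_[p]) ^ i * a - (p : ℚ_[p]) ^ i * a') / (p : ℚ_[p]) ^ (i + k) =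
        (a - a') / (p : ℚ_[p]) ^ k := by
      field_simp
      ring
    rw [e, norm_div]
    exact div_le_one_of_le₀ ha (norm_nonneg _)
  · simp only [st]
    rw [← map_sum]
    congr 1
    funext i
    rw [Finset.sum_apply, mu_ref h]
    refine sum_congr rfl fun j _ => ?_
    congr 1
    ring
  · simp only [st, lev_apply, dl_map, mu_gal h s hc hs _ _ (nrm_mul (nrm_ppow _) ha)]
    split_ifs <;> simp
  · funext i
    have key : ∀ j : ℕ, mu p ψ (dl (An4.cmp φ u)) (j + k) ((p : ℚ_[p]) ^ j * (lam * a)) =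
        l * mu p ψ (dl u) (j + k) ((p : ℚ_[p]) ^ j * a) := fun j => by
      have := mu_tor h hp hφ (by simp [h0]) hu hl (t := 0) hlam (by simpa using hσ) (j + k)
        (by simp) (nrm_mul (nrm_ppow j) ha)
      rw [mul_zero, h.zero, mul_one] at this
      rw [mul_left_comm, this]
    simp only [st, key, lev_apply, Pi.smul_apply, smul_eq_mul]
    split_ifs
    · rw [mul_div_assoc]
    · rw [mul_zero]

end Vale.Agent.P022K.WB
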