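import Vale.Agent.P022K.WB.YInjs
import Vale.Agent.P022K.WB.YFst
import Vale.Agent.P022K.FI.Fcs

/-!
# P022K, block WB: slices of factorised functions on the disc
-/

set_option autoImplicit false
set_option linter.unusedSectionVars false

open PowerSeries Finset Filter Topology
open scoped LaurentSeries

noncomputable section

namespace Vale.Agent.P022K.WB.Slc

open Vale.Agent.P022K.FI

variable {p : ℕ} [Fact p.Prime] {C : Type} [NontriviallyNormedField C] [IsUltrametricDist C]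
  [CharZero C] [CompleteSpace C] [IsAlgClosed C]
  {x y : C⸨X⸩} {u v Φ : C⟦X⟧} {c : C} {D : C →₀ ℤ} {e : ℕ}

/-- `x` has a factorisation -/
def Fc (x : C⸨X⸩) : Prop := ∃ c D, Fac x c D

/-- `u` is the unit part of `x` -/
def Up (x : C⸨X⸩) (u : C⟦X⟧) : Prop := Un u ∧ ∃ (c : C) (D : C →₀ ℤ), c ≠ 0 ∧
  (∀ a ∈ D.support, ‖a‖ < 1) ∧ x = algebraMap C C⸨X⸩ c * am C u * pr D

theorem Up.fc (h : Up x u) : Fc x := by
  obtain ⟨hu, c, D, h1, h2, h3⟩ := h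
  exact ⟨c, D, fac_iff.2 ⟨h1, h2, u, hu, h3⟩⟩

theorem up_of (h : Fac x c D) : ∃ u, Up x u ∧ x = algebraMap C C⸨X⸩ c * am C u * pr D := by
  obtain ⟨h1, h2, u, hu, h3⟩ := fac_iff.1 h
  exact ⟨u, ⟨hu, c, D, h1, h2, h3⟩, h3⟩

theorem Fc.up (h : Fc x) : ∃ u, Up x u := by
  obtain ⟨c, D, h⟩ := h
  exact (up_of h).imp fun _ h => h.1

theorem Fc.mul (h : Fc x) (h' : Fc y) : Fc (x * y) := by
  obtain ⟨c, D, h⟩ := h
  obtain ⟨c', D', h'⟩ := h'
  exact ⟨_, _, h.mul h'⟩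

theorem Fc.pow (h : Fc x) (n : ℕ) : Fc (x ^ n) := by
  obtain ⟨c, D, h⟩ := h
  exact ⟨_, _, h.pow n⟩

theorem Fc.inv (h : Fc x) : Fc x⁻¹ := by
  obtain ⟨c, D, h⟩ := h
  exact ⟨_, _, h.inv⟩

theorem Fc.ne (h : Fc x) : x ≠ 0 := by
  obtain ⟨c, D, h⟩ := h
  exact h.ne

theorem Up.mul (h : Up x u) (h' : Up y v) : Up (x * y) (u * v) := by
  classical
  obtain ⟨hu, c, D, h1, h2, rfl⟩ := h
  obtain ⟨hv, c', D', h1', h2', rfl⟩ := h'
  refine ⟨hu.mul hv, c * c', D + D', mul_ne_zero h1 h1', fun a ha => ?_, ?_⟩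
  · exact (mem_union.1 (Finsupp.support_add ha)).elim (h2 a) (h2' a)
  · rw [pr_add, map_mul, map_mul]
    ring

theorem up_pr (hc : c ≠ 0) (h : ∀ a ∈ D.support, ‖a‖ < 1) :
    Up (algebraMap C C⸨X⸩ c * pr D) 1 := ⟨un_one, c, D, hc, h, by rw [map_one, mul_one]⟩

theorem up_one : Up (1 : C⸨X⸩) 1 := by
  simpa [pr_zero] using up_pr (C := C) (D := 0) one_ne_zero (by simp)

theorem up_unit (hc : c ≠ 0) (hu : Un u) : Up (algebraMap C C⸨X⸩ c * am C u) u :=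
  ⟨hu, c, 0, hc, by simp, by rw [pr_zero, mul_one]⟩

theorem Up.zpow (h : Up x 1) (n : ℤ) : Up (x ^ n) 1 := by
  obtain ⟨-, c, D, h1, h2, rfl⟩ := h
  have e : pr D ^ n = pr (n • D) := by
    obtain ⟨n, rfl | rfl⟩ := Int.eq_nat_or_neg n
    · rw [natCast_zsmul, pr_nsmul, zpow_natCast]
    · rw [neg_smul, natCast_zsmul, ← zero_sub (n • D), pr_sub, pr_zero, pr_nsmul, zpow_neg,
        zpow_natCast, one_div]
  rw [map_one, mul_one, mul_zpow, ← map_zpow₀, e]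
  exact up_pr (zpow_ne_zero _ h1) fun a ha => h2 a (Finsupp.support_smul ha)

theorem up_prod {ι : Type} (s : Finset ι) (f : ι → C⸨X⸩) (h : ∀ i ∈ s, Up (f i) 1) :
    Up (∏ i ∈ s, f i) 1 :=
  prod_induction f (fun z => Up z 1) (fun _ _ a b => by simpa using a.mul b) up_one h

theorem Up.two (h : Up x u) (h' : Up x v) : ∃ k : C, ‖k‖ = 1 ∧ v = PowerSeries.C k * u := by
  obtain ⟨hu, c, D, h1, h2, h3⟩ := h
  obtain ⟨hv, c', D', h1', h2', h3'⟩ := h'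
  obtain ⟨a, rfl⟩ := (fac_iff.2 ⟨h1, h2, u, hu, h3⟩).unique (fac_iff.2 ⟨h1', h2', v, hv, h3'⟩)
  refine ⟨c / c', by rw [norm_div, a, div_self (norm_ne_zero_iff.2 h1')], am_inj ?_⟩
  have e := mul_right_cancel₀ (pr_ne D) (h3.symm.trans h3')
  have e0 : algebraMap C C⸨X⸩ c' ≠ 0 := (map_ne_zero _).2 h1'
  rw [map_mul, am_C, map_div₀, div_mul_eq_mul_div, e, mul_div_cancel_left₀ _ e0]

/-- composition in a factorisation -/
theorem cm_eq (h : Dg Φ e) (hc : c ≠ 0) (hD : ∀ a ∈ D.support, ‖a‖ < 1) (hu : Un u)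
    (hy : Cm Φ (algebraMap C C⸨X⸩ c * am C u * pr D) y) : y = algebraMap C C⸨X⸩ c *
      am C (cmp Φ u) * D.prod fun a n => am C (Φ - PowerSeries.C a) ^ n := by
  obtain ⟨r, a1, -, H⟩ := h.mp' h.cc
  have a2 := IntermediateField.algebraMap_mem (MM C r) c
  have a3 := hu.1.cv H.hr a1
  rw [(cm_iff H a1 (fac_iff.2 ⟨hc, hD, u, hu, rfl⟩).ex_ig).1 hy,
    H.map_mul (mul_mem a2 a3.mem) (pr_mem r D), H.map_mul a2 a3.mem, H.map_const, H.am a3]
  congr 1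
  clear hy hD
  induction D using Finsupp.induction_linear with
  | zero => rw [pr_zero, H.map_one, Finsupp.prod_zero_index]
  | add D E h1 h2 =>
    rw [pr_add, H.map_mul (pr_mem r _) (pr_mem r _), h1, h2, Finsupp.prod_add_index'
      (fun _ => zpow_zero _) fun a _ _ => zpow_add₀ (am_ne (sub_ne_zero.2 (h.nc a))) _ _]
  | single a n =>
    have b1 := (cv_X r).sub (cv_C r a)
    rw [pr_single, H.map_zpow b1.mem, H.am b1, FI.cmp_sub H.hr H.hr H.cv H.le (cv_X r) (cv_C r a),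
      cmp_X, cmp_C, Finsupp.prod_single_index (zpow_zero _)]

theorem Up.cm (h : Dg Φ e) (hΦ : ∀ a, ‖a‖ < 1 → Up (am C (Φ - PowerSeries.C a)) 1) (hx : Up x u)
    (hy : Cm Φ x y) : Up y (cmp Φ u) := by
  obtain ⟨hu, c, D, h1, h2, rfl⟩ := hx
  rw [cm_eq h h1 h2 hu hy]
  have := (up_unit h1 (h.un_cmp hu)).mul (up_prod _ _ fun a ha => (hΦ a (h2 a ha)).zpow (D a))
  rwa [mul_one] at this

theorem Fc.cm (h : Dg Φ e) (hx : Fc x) (hy : Cm Φ x y) : Fc y := by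
  obtain ⟨c, D, hx⟩ := hx
  obtain ⟨D', h1, -⟩ := h.cm_fac hx hy
  exact ⟨_, _, h1⟩

theorem dg_of (h : Sm (Φ - X ^ e)) (he : 0 < e) : Dg Φ e := by
  have k : ∀ n, coeff n Φ = coeff n (Φ - X ^ e) + if n = e then 1 else 0 := fun n => by
    rw [map_sub, coeff_X_pow, sub_add_cancel]
  refine ⟨fun n => ?_, he, fun n hn => ?_, ?_⟩
  · rw [k]
    refine (IsUltrametricDist.norm_add_le_max _ _).trans (max_le (h n).le ?_)
    split_ifs <;> simp
  · rw [k, if_neg hn.ne, add_zero]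
    exact h n
  · rw [k, if_pos rfl, IsUltrametricDist.norm_add_eq_max_of_norm_ne_norm (by
      simpa using (h e).ne), norm_one, max_eq_right (h e).le]

theorem dg_tr {z : C} (hz : ‖z - 1‖ < 1) : Dg (PowerSeries.C z * (1 + X) - 1 : C⟦X⟧) 1 := by
  refine dg_of (fun n => ?_) one_pos
  have e : (PowerSeries.C z * (1 + X) - 1 - X ^ 1 : C⟦X⟧) = PowerSeries.C (z - 1) * (1 + X) := by
    rw [map_sub, map_one]
    ring
  rw [e, coeff_C_mul, norm_mul]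
  exact mul_lt_one_of_nonneg_of_lt_one_left (norm_nonneg _) hz (Fs.in_y n)

theorem norm_of_near {z : C} (hz : ‖z - 1‖ < 1) : ‖z‖ = 1 := by
  rw [← sub_add_cancel z 1, IsUltrametricDist.norm_add_eq_max_of_norm_ne_norm (by
    simpa using hz.ne), norm_one, max_eq_right hz.le]

theorem up_tr {z a : C} (hz : ‖z - 1‖ < 1) (ha : ‖a‖ < 1) :
    Up (am C (PowerSeries.C z * (1 + X) - 1 - PowerSeries.C a)) 1 := by
  have z1 := norm_of_near hz
  have z0 : z ≠ 0 := norm_ne_zero_iff.1 (by rw [z1]; exact one_ne_zero)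
  have hb : ‖(a - (z - 1)) / z‖ < 1 := by
    rw [norm_div, z1, div_one, sub_eq_add_neg]
    exact (IsUltrametricDist.norm_add_le_max _ _).trans_lt (max_lt ha (by rwa [norm_neg]))
  have e : (PowerSeries.C z * (1 + X) - 1 - PowerSeries.C a : C⟦X⟧) =
      PowerSeries.C z * (X - PowerSeries.C ((a - (z - 1)) / z)) := by
    rw [mul_sub, ← map_mul, mul_div_cancel₀ _ z0, map_sub, map_sub, map_one]
    ring
  rw [e, map_mul, am_C, ← zpow_one (am C _), ← pr_single]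
  exact up_pr z0 fun b h => by rwa [mem_singleton.1 (Finsupp.support_single_subset h)]

theorem dg_frob (hp : ‖(p : C)‖ < 1) : Dg ((1 + X) ^ p - 1 : C⟦X⟧) p := by
  have hq := (Fact.out : p.Prime)
  refine dg_of ?_ hq.pos
  obtain ⟨r, hr⟩ := exists_add_pow_prime_eq hq (1 : ℤ⟦X⟧) X
  have e := congrArg (PowerSeries.map (Int.castRingHom C)) hr
  simp only [map_pow, map_add, map_one, map_X, map_mul, map_natCast] at e
  intro n
  rw [e, show (1 ^ p + X ^ p + (p : C⟦X⟧) * 1 * X * PowerSeries.map (Int.castRingHom C) r - 1 - X ^ p :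
    C⟦X⟧) = PowerSeries.C (p : C) * (X * PowerSeries.map (Int.castRingHom C) r) by
      rw [map_natCast]; ring, coeff_C_mul, norm_mul]
  refine mul_lt_one_of_nonneg_of_lt_one_left (norm_nonneg _) hp (Fs.In.mul Fs.in_X (fun m => ?_) n)
  rw [coeff_map]
  exact IsUltrametricDist.norm_intCast_le_one C _

theorem up_frob (hp : ‖(p : C)‖ < 1) {a : C} (ha : ‖a‖ < 1) :
    Up (am C ((1 + X) ^ p - 1 - PowerSeries.C a)) 1 := by
  have hq := (Fact.out : p.Prime)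
  set P : Polynomial C := (Polynomial.X + Polynomial.C 1) ^ p - Polynomial.C (1 + a) with hP
  have hm : P.Monic := ((Polynomial.monic_X_add_C 1).pow p).sub_of_left (by
    rw [Polynomial.degree_pow, Polynomial.degree_X_add_C, nsmul_eq_mul, mul_one]
    exact Polynomial.degree_C_le.trans_lt (by exact_mod_cast hq.pos))
  have e : ((1 + X) ^ p - 1 - PowerSeries.C a : C⟦X⟧) = P := by
    simp only [hP, Polynomial.coe_sub, Polynomial.coe_pow, Polynomial.coe_add, Polynomial.coe_X,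
      Polynomial.coe_C, map_add, map_one, Polynomial.coe_one]
    ring
  have e2 : (P : C⟦X⟧) = (P.roots.map fun a => X - PowerSeries.C a).prod := by
    conv_lhs => rw [(IsAlgClosed.splits P).eq_prod_roots_of_monic hm]
    rw [← Polynomial.coeToPowerSeries.ringHom_apply, map_multiset_prod, Multiset.map_map]
    congr 2
    funext b
    simp [Polynomial.coeToPowerSeries.ringHom_apply]
  rw [e, e2, ← pr_dv, ← one_mul (pr _), ← map_one (algebraMap C C⸨X⸩)]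
  refine up_pr one_ne_zero fun b hb => ?_
  have h1 := (Polynomial.mem_roots hm.ne_zero).1 (dv_ne (Finsupp.mem_support_iff.1 hb))
  have h2 : (b + 1) ^ p = 1 + a := by simpa [hP, sub_eq_zero] using h1
  have h3 : ‖b + 1‖ = 1 := by
    have := norm_of_near (z := 1 + a) (by simpa using ha)
    rw [← h2, norm_pow] at this
    exact (pow_eq_one_iff_of_nonneg (norm_nonneg _) hq.ne_zero).1 this
  by_contra h4
  have h5 := Fs.norm_one_sub_pow hp h3.le (by simpa using h4) 1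
  rw [pow_one, h2] at h5
  simp [ha.ne] at h5

/-! ## the slices -/

open Classical in
variable (p) in
/-- the slice of the unit part -/
def sl (ψ : ℚ_[p] → C) (n k : ℕ) (a : ℚ_[p]) (x : C⸨X⸩) : ℤ → C :=
  if h : ∃ u, Up x u then st p ψ n k a h.choose else 0

variable {ψ : ℚ_[p] → C} {n k : ℕ} {a : ℚ_[p]}

theorem sl_cong (S : ST p C ψ) {a' : ℚ_[p]} (h : ‖a - a'‖ ≤ ‖(p : ℚ_[p]) ^ k‖) (x : C⸨X⸩) :
    sl p ψ n k a x = sl p ψ n k a' x := by
  unfold sl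
  split_ifs
  · exact S.cong _ _ _ _ _ h
  · rfl

theorem sl_ref (S : ST p C ψ) (h : ‖a‖ ≤ 1) (x : C⸨X⸩) :
    sl p ψ n k a x = ∑ j ∈ range p, sl p ψ n (k + 1) (a + j * (p : ℚ_[p]) ^ k) x := by
  unfold sl
  split_ifs
  · exact S.ref _ _ _ _ h
  · simp

theorem sl_shift (S : ST p C ψ) (x : C⸨X⸩) (i : ℤ) :
    sl p ψ (n + 1) k a x i = sl p ψ n k a x (i + 1) := by
  unfold sl
  split_ifs
  · exact S.shift _ _ _ _ _
  · rfl

theorem Up.sl_eq (S : ST p C ψ) (h : Up x u) : sl p ψ n k a x = st p ψ n k a u := by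
  have h' : ∃ u, Up x u := ⟨u, h⟩
  obtain ⟨c, h1, h2⟩ := h.two h'.choose_spec
  rw [sl, dif_pos h', h2, S.mul _ _ _ _ _ (un_C h1) h.1, S.cst, zero_add]

theorem sl_mem (S : ST p C ψ) (hk : 0 < k) (ha : ‖a‖ = 1) (x : C⸨X⸩) :
    sl p ψ n k a x ∈ BW p C := by
  unfold sl
  split_ifs with h
  · exact S.mem _ _ _ _ hk ha h.choose_spec.1
  · exact zero_mem _

theorem sl_mul (S : ST p C ψ) (h : Fc x) (h' : Fc y) :
    sl p ψ n k a (x * y) = sl p ψ n k a x + sl p ψ n k a y := by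
  obtain ⟨u, h⟩ := h.up
  obtain ⟨v, h'⟩ := h'.up
  rw [(h.mul h').sl_eq S, h.sl_eq S, h'.sl_eq S, S.mul _ _ _ _ _ h.1 h'.1]

theorem sl_one (S : ST p C ψ) : sl p ψ n k a (1 : C⸨X⸩) = 0 := by
  rw [up_one.sl_eq S, ← map_one PowerSeries.C, S.cst]

theorem sl_pow (S : ST p C ψ) (h : Fc x) (N : ℕ) :
    sl p ψ n k a (x ^ N) = N • sl p ψ n k a x := by
  induction N with
  | zero => rw [pow_zero, sl_one S, zero_smul]
  | succ N ih => rw [pow_succ, sl_mul S (h.pow N) h, ih, succ_nsmul]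

/-- change of the level -/
theorem sl_lvl (S : ST p C ψ) (hp : ‖(p : C)‖ < 1) (hk : 0 < k) (ha : ‖a‖ = 1) (hx : Fc x)
    (hy : Cm ((1 + X) ^ p - 1) x y) : sl p ψ (n + 1) k a y = sl p ψ n k a x := by
  obtain ⟨u, h⟩ := hx.up
  rw [(h.cm (dg_frob hp) (fun _ => up_frob hp) hy).sl_eq S, h.sl_eq S]
  exact S.lvl _ _ _ _ hk ha h.1

/-- translations -/
theorem sl_tr (S : ST p C ψ) (hψ : Psi p ψ) (hp : ‖(p : C)‖ < 1) (ha : ‖a‖ ≤ 1) {t : ℚ_[p]}
    (ht : ‖t * (p : ℚ_[p]) ^ k‖ ≤ 1) (hx : Fc x)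
    (hy : Cm (PowerSeries.C (ψ t) * (1 + X) - 1) x y) (i : ℤ) :
    sl p ψ n k a y i = ψ (t * a * (p : ℚ_[p]) ^ (i + n)) * sl p ψ n k a x i := by
  obtain ⟨u, h⟩ := hx.up
  have hz := Fs.psi_sub_one hψ hp t
  rw [(h.cm (dg_tr hz) (fun _ => up_tr hz) hy).sl_eq S, h.sl_eq S]
  exact S.tr _ _ _ _ _ _ ha ht h.1

theorem ex_div {N : ℕ} (h : ∀ b, (N : ℤ) ∣ D b) :
    ∃ E : C →₀ ℤ, D = N • E ∧ E.support ⊆ D.support :=
  ⟨D.mapRange (· / N) (Int.zero_ediv _), Finsupp.ext fun b => by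
    rw [Finsupp.smul_apply, Finsupp.mapRange_apply, nsmul_eq_mul, Int.mul_ediv_cancel' (h b)],
    Finsupp.support_mapRange⟩

/-- the torus, modulo `N` -/
theorem sl_tor (S : ST p C ψ) (hk : 0 < k) (ha : ‖a‖ = 1) {lam : ℚ_[p]} (hl : ‖lam‖ = 1)
    (h : Dg Φ 1) (h0 : constantCoeff Φ = 0) (h1 : ∀ t, An4.ev (ψ t - 1) Φ = ψ (lam * t) - 1) {l : C}
    (h2 : (1 + X) * d⁄dX C Φ = PowerSeries.C l * (1 + Φ)) (hx : Fac x c D) {N : ℕ}
    (hN : ∀ b, (N : ℤ) ∣ D b) (hy : Cm Φ x y) :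
    ∃ m ∈ BW p C, sl p ψ n k (lam * a) y = l • sl p ψ n k a x + N • m := by
  obtain ⟨E, rfl, hE⟩ := ex_div hN
  obtain ⟨u, hu, rfl⟩ := up_of hx
  have z : Fc (E.prod fun b j => am C (Φ - PowerSeries.C b) ^ j) :=
    prod_induction _ Fc (fun _ _ => Fc.mul) up_one.fc fun b hb => by
      obtain ⟨F, f, -⟩ := (h.sub_C (hx.2.1 b (hE hb))).fac
      exact ⟨_, _, f.zpow _⟩
  have e : ((N • E).prod fun b j => am C (Φ - PowerSeries.C b) ^ j) =
      (E.prod fun b j => am C (Φ - PowerSeries.C b) ^ j) ^ N := by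
    rw [Finsupp.prod_of_support_subset _ Finsupp.support_smul _ (fun _ _ => zpow_zero _),
      Finsupp.prod, ← prod_pow]
    refine prod_congr rfl fun b _ => ?_
    rw [Finsupp.smul_apply, nsmul_eq_mul, mul_comm, zpow_mul, zpow_natCast]
  have w := up_unit hx.1 (h.un_cmp hu.1)
  refine ⟨_, sl_mem (n := n) S hk (show ‖lam * a‖ = 1 by rw [norm_mul, hl, ha, one_mul])
    (E.prod fun b j => am C (Φ - PowerSeries.C b) ^ j), ?_⟩
  rw [cm_eq h hx.1 hx.2.1 hu.1 hy, e, sl_mul S w.fc (z.pow N), sl_pow S z, w.sl_eq S, hu.sl_eq S,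
    ← S.tor lam Φ n k a u ha.le hl hu.1 h.ig h0 h1 l h2]
  rfl

theorem Up.map (s : Iso C) (M : C⸨X⸩ →+* C⸨X⸩)
    (hM : ∀ f, M (am C f) = am C (PowerSeries.map (s.1 : C →+* C) f)) (h : Up x u) :
    Up (M x) (PowerSeries.map (s.1 : C →+* C) u) := by
  obtain ⟨hu, c, D, h1, h2, rfl⟩ := h
  have hv : Un (PowerSeries.map (s.1 : C →+* C) u) :=
    ⟨fun n => (s.2 _).trans_le (hu.1 n), (s.2 _).trans hu.2⟩
  rw [map_mul, map_mul, ← am_C, hM, hM, map_C, am_C, pr, Finsupp.prod, map_prod]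
  rw [← mul_one (PowerSeries.map (s.1 : C →+* C) u)]
  conv => enter [1, 1, 2]; rw [mul_one]
  refine (up_unit ((map_ne_zero _).2 h1) hv).mul (up_prod _ _ fun b hb => ?_)
  rw [map_zpow₀, hM, map_sub, map_X, map_C, ← pr_single, ← one_mul (pr _),
    ← map_one (algebraMap C C⸨X⸩)]
  refine up_pr one_ne_zero fun d hd => ?_
  rw [mem_singleton.1 (Finsupp.support_single_subset hd)]
  exact (s.2 b).trans_lt (h2 b hb)

/-- isometries -/
theorem sl_gal (S : ST p C ψ) (s : Iso C) {d : ℚ_[p]} (hd : ‖d‖ = 1)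
    (hs : ∀ b, s.1 (ψ b) = ψ (d * b)) (M : C⸨X⸩ →+* C⸨X⸩)
    (hM : ∀ f, M (am C f) = am C (PowerSeries.map (s.1 : C →+* C) f)) (ha : ‖a‖ ≤ 1) (hx : Fc x)
    (i : ℤ) : sl p ψ n k a (M x) i = s.1 (sl p ψ n k a x i) := by
  obtain ⟨u, h⟩ := hx.up
  rw [(h.map s M hM).sl_eq S, h.sl_eq S, S.gal s d hd hs _ _ _ _ _ ha h.1]

/-- `x` is a `N`-th power up to a constant and a power of `1 + X` -/
def Et (N : ℕ) (x : C⸨X⸩) : Prop :=
  ∃ (c : C) (i : ℕ) (z : C⸨X⸩), c ≠ 0 ∧ Fc z ∧ x = algebraMap C C⸨X⸩ c * am C (1 + X) ^ i * z ^ N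

/-- **divisible slices** -/
theorem sl_inj (hψ : Psi p ψ) (hp : ‖(p : C)‖ < 1) (hx : Fac x c D) {m k0 : ℕ}
    (hN : ∀ b, ((p ^ m : ℕ) : ℤ) ∣ D b)
    (h : ∀ k a, k0 < k → ‖a‖ = 1 → ∃ l ∈ BW p C, sl p ψ n k a x = p ^ m • l) : Et (p ^ m) x := by
  have S := fst p C ψ hψ hp
  obtain ⟨E, rfl, hE⟩ := ex_div hN
  obtain ⟨u, hu, e⟩ := up_of hx
  obtain ⟨d, i, w, hw, h1⟩ := injs (fst p C) ψ hψ hp n m k0 u hu.1 fun k a hk ha => by
    rw [← hu.sl_eq S]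
    exact h k a hk ha
  have d0 : d ≠ 0 := by
    rintro rfl
    exact hu.1.ne (by rw [h1, map_zero, zero_mul, zero_mul])
  refine ⟨c * d, i, am C w * pr E, mul_ne_zero hx.1 d0,
    ⟨_, _, (Un.fac hw).mul (fac_pr fun b hb => hx.2.1 b (hE hb))⟩, ?_⟩
  rw [e, h1, pr_nsmul, map_mul, map_mul, map_mul, map_pow, map_pow, am_C, mul_pow]
  ring

/-! ## scalars and transport -/

theorem smul_mem {l : C} (hp : ‖(p : C)‖ < 1) (hl : ∀ N : ℕ, ∃ j : ℕ, ‖l - j‖ ≤ ‖(p : C)‖ ^ N)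
    {m : ℤ → C} (hm : m ∈ BW p C) : l • m ∈ BW p C := by
  obtain ⟨n, g, hg, rfl⟩ := hm
  choose j hj using hl
  have t : Tendsto (fun N => (j N : C)) atTop (𝓝 l) := by
    rw [tendsto_iff_norm_sub_tendsto_zero]
    refine squeeze_zero (fun _ => norm_nonneg _) (fun N => ?_)
      (tendsto_pow_atTop_nhds_zero_of_lt_one (norm_nonneg _) hp)
    rw [norm_sub_rev]
    exact hj N
  refine ⟨n, l • g, Fs.Gh_lim (l := atTop) (c := fun N => j N • g)
    (Eventually.of_forall fun N => nsmul_mem hg _) fun i => ?_, funext fun i => ?_⟩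
  · simpa using t.mul_const (g i)
  · by_cases h : 0 ≤ i + n <;> simp [lev_apply, h, mul_div_assoc]

omit [CompleteSpace C] [IsAlgClosed C] in
theorem map_mem {C' : Type} [NontriviallyNormedField C'] [IsUltrametricDist C'] [CharZero C']
    (f : C →+* C') (hf : ∀ z, ‖f z‖ = ‖z‖) {l : ℤ → C} (hl : l ∈ BW p C) :
    (fun i => f (l i)) ∈ BW p C' := by
  obtain ⟨n, c, hc, rfl⟩ := hl
  obtain ⟨a, ha, h⟩ := mem_Gh.1 hc
  refine ⟨n, fun i => f (c i), mem_Gh.2 ⟨fun j => f (a j), fun j => (hf _).trans_le (ha j),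
    fun i => ?_⟩, funext fun i => ?_⟩
  · simp [h i, ghs, map_sum]
  · by_cases h : 0 ≤ i + n <;> simp [lev_apply, h]

end Vale.Agent.P022K.WB.Slc
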