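import Vale.Agent.P022K.WB.NvF
import Vale.Agent.P022K.WB.Nrd
import Vale.Agent.P022K.WB.Nv3
import Vale.Agent.P022K.WB.Slc
import Vale.Agent.P022K.FI.X1W

/-!
# P022K, block WB, row ETN from expansions at the ordinary points
-/

set_option autoImplicit false
set_option linter.unusedSectionVars false
set_option linter.style.haveILetI false

open UpperHalfPlane PowerSeries
open scoped MatrixGroups LaurentSeries

noncomputable section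

namespace Vale.Agent.P022K.WB.Nv

open Vale.Agent.P022K.Sh Vale.Agent.P022.H218.L3 Vale.Agent.P019P P025H746 FI FI.Hk FI.X1
  Vale.Agent.P027M

namespace Etn

variable {C : Type} [NontriviallyNormedField C] [IsUltrametricDist C] {p i i' : ℕ} {c c' : C}
  {x x' z z' : C⸨X⸩}

theorem pw (h : Slc.Fc z) (hm : p ∣ i) (e : x = algebraMap C C⸨X⸩ c * am C (1 + X) ^ i * z ^ p) :
    ∃ ω c' D, Fac ω c' D ∧ x = algebraMap C C⸨X⸩ c * ω ^ p := by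
  obtain ⟨c₂, D₂, h⟩ := h
  obtain ⟨m, rfl⟩ := hm
  have h2 : Un (1 + X : C⟦X⟧) := ⟨ig_one.add ig_X, by simp⟩
  exact ⟨_, _, _, (h2.fac.pow m).mul h, by rw [e, mul_pow, ← pow_mul, mul_comm m p, mul_assoc]⟩

theorem ml {L : Type} [Field L] [Algebra C L] (ε : L →ₐ[C] C⸨X⸩) {a b : L}
    (e : ε a = algebraMap C C⸨X⸩ c * am C (1 + X) ^ i * z ^ p)
    (e' : ε b = algebraMap C C⸨X⸩ c' * am C (1 + X) ^ i' * z' ^ p) (j : ℕ) :
    ε (a * b ^ j) = algebraMap C C⸨X⸩ (c * c' ^ j) * am C (1 + X) ^ (i + i' * j) *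
      (z * z' ^ j) ^ p := by
  rw [map_mul, map_pow, e, e', map_mul, map_pow]
  ring

end Etn

variable {G0 G : Type} [Group G0] [Group G] {T : Tw G0 G}
  {O K : Type} [CommRing O] [IsDomain O] [IsDiscreteValuationRing O] [Field K] [Algebra O K]
  {w : T.Lc O K} {p : ℕ} [Fact p.Prime] {D : Emb w p} {U : Subgroup G}
  {v : NV (Cx D.ι) (LW T)} {x : G} {ε : LW T →ₐ[Cx D.ι] (Cx D.ι)⸨X⸩} {ζ : Cx D.ι}

variable (D U) in
/-- `ε` is an expansion of the functions of level `U1` at `x` with boundary norm `v` -/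
structure Xp (v : NV (Cx D.ι) (LW T)) (x : G) (ε : LW T →ₐ[Cx D.ι] (Cx D.ι)⸨X⸩) : Prop where
  fac : ∀ f : LW T, (f : Mer) ∈ KX T (U1 w U) x → f ≠ 0 → ∃ c Dv, Fac (ε f) c Dv ∧ v f = ‖c‖
  uni : ∃ t : LW T, (t : Mer) ∈ KX T (U1 w U) x ∧ ∃ c Dv, Fac (ε t) c Dv ∧ dgD Dv = 1

variable [∀ x, CFF ℂ (KX T U x)] (h : Ctx D U)

include h in
theorem lev_U1 : U1 w U ∈ T.Lev := lev_set h.ok h.lev le_rfl (Iw1_le.trans Iw0_le)

theorem Xp.nr (hz : PZ p ζ) (l : Xp D U v x ε) {φ : SR h.ok} (hφ : Inv (U1 w U) φ.1)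
    {c : Cx D.ι} {m : ℕ} {z : (Cx D.ι)⸨X⸩} (hc : c ≠ 0) (h1 : Slc.Fc z) (hm : p ∣ m)
    (e : ε (Ev x φ) = algebraMap _ _ c * am (Cx D.ι) (1 + X) ^ m * z ^ p) : NrP h ζ v x φ := by
  have hU := lev_U1 h
  haveI : CFF ℂ (KX T (U1 w U) x) := (T.cf _ (h.ok.fu _ hU x)).1
  let i : KX T (U1 w U) x →ₐ[Cx D.ι] LW T :=
    (IntermediateField.inclusion (KX_le h.ok hU x) : KX T (U1 w U) x →ₐ[ℂ] LW T)
  obtain ⟨t, t1, c₁, D₁, t2, t3⟩ := l.uni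
  obtain ⟨ω, c₂, D₂, h2, e⟩ := Etn.pw h1 hm e
  obtain ⟨y, hy⟩ := nrd (w := I.pullNV (i : KX T (U1 w U) x →+* LW T) (s := RingEquiv.refl _)
    i.commutes (fun _ => rfl) v) (f := ⟨φ.1 x, RU_mem (sr_mem φ hφ) x⟩) hz (Cx.sph _)
    (Cx.exists_norm_eq _) (ε.comp i)
    (fun y hy => (l.fac (i y) y.2 ((map_ne_zero i).2 hy)).imp fun _ a => a.imp fun _ a => a.1)
    (fun y c Dv a => by
      obtain ⟨c', Dv', a1, a2⟩ := l.fac (i y) y.2 fun e => a.ne (by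
        rw [AlgHom.comp_apply, e, map_zero])
      exact a2.trans (a1.norm_eq a)) (t := ⟨t, t1⟩) t2
    (by rw [t3]; exact_mod_cast hz.hp.not_dvd_one) h2 hc e
  obtain ⟨ψ, h3, h4⟩ := ex_SR (hT := h.ok) (x := x) hU y
  refine ⟨ψ, h3, le_of_eq_of_le (congrArg v ?_) hy⟩
  rw [map_mul, map_pow, show Ev x ψ = i y from Subtype.ext h4.symm]
  rfl

/-- a function whose root is moved by the unipotent elements is not etale -/
theorem not_nrP (hz : PZ p ζ) {τ : ℍ} (l : Loc D U v τ x) {y : SR h.ok}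
    (hy : Rt (w.ι (X1.nn K (1 : O))) y = algebraMap ℂ (SR h.ok) ζ * y) :
    ¬ NrP h ζ v x (y ^ p) := by
  rintro ⟨ψ, h1, h2⟩
  rw [← mul_pow, map_pow] at h2
  have h3 := near_le hz h2
  have h4 : v (Ev x (y * ψ)) = 1 := eq_one (h3.trans_lt hz.lt_one)
  have h0 : ζ - 1 ≠ 0 := norm_pos_iff.1 hz.pos
  obtain ⟨a, c1⟩ : ∃ a : SR h.ok, ∀ g, Ev g a = algebraMap (Cx D.ι) (LW T) (ζ - 1)⁻¹ :=
    ⟨algebraMap ℂ (SR h.ok) (ζ - 1 : Cx D.ι)⁻¹, fun _ => rfl⟩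
  have c2 : Ev (x * w.ι (X1.nn K (1 : O))) y = algebraMap (Cx D.ι) (LW T) ζ * Ev x y :=
    (congrArg (Ev x) hy).trans (map_mul _ _ _)
  have h5 := (unip h l (a * (y * ψ - 1)) (1 : O) (by
    rw [map_mul, map_mul, c1, v.ext', map_sub, map_one, norm_inv, inv_mul_le_one₀ hz.pos]
    exact h3)).lt
  rw [map_mul, map_mul, c1, c1, ← mul_sub, map_sub, map_sub, map_one, map_one,
    sub_sub_sub_cancel_right, map_mul (Ev (_ * _)), c2,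
    Ev_mul h1 _ (iota_mem' h.lev (nn_Iw1 1)), mul_assoc, ← map_mul (Ev x), ← sub_one_mul,
    ← mul_assoc, ← map_one (algebraMap (Cx D.ι) (LW T)), ← map_sub, ← map_mul,
    inv_mul_cancel₀ h0, map_one, one_mul, h4] at h5
  exact lt_irrefl _ h5

theorem etn_of (hz : PZ p ζ) {E : SR h.ok → Prop}
    (hE : ∀ τ x, Ord w D.e τ x → ∃ v ε, Vl D U v τ ∧ Xp D U v x ε ∧
      ∀ φ, Inv (U1 w U) φ.1 → E φ → Slc.Et p (ε (Ev x φ))) : ETN h ζ E := by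
  intro φ β y hφ hβ e1 e2 e3 e4 τ x o
  obtain ⟨v, ε, l, l', H⟩ := hE τ x o
  obtain ⟨c, i, z, a1, a2, a3⟩ := H φ hφ.1 e1
  obtain ⟨c', i', z', b1, b2, b3⟩ := H β hβ.1 e2
  have h1 : ¬ p ∣ i' := fun e => not_nrP h hz (l x o) e4 (e3 ▸ l'.nr h hz hβ.1 b1 b2 e b3)
  obtain ⟨j, hj⟩ : ∃ j : ℕ, p ∣ i + i' * j := by
    refine ⟨(-(i : ZMod p) / i').val, (ZMod.natCast_eq_zero_iff _ _).1 ?_⟩
    rw [Nat.cast_add, Nat.cast_mul, ZMod.natCast_zmod_val,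
      mul_div_cancel₀ _ (mt (ZMod.natCast_eq_zero_iff _ _).1 h1), add_neg_cancel]
  obtain ⟨_, _, a2⟩ := a2
  obtain ⟨_, _, b2⟩ := b2
  refine ⟨v, j, l, l'.nr h hz (inv_Rt.2 fun u hu => by
    rw [map_mul, map_pow, inv_Rt.1 hφ.1 u hu, inv_Rt.1 hβ.1 u hu])
    (mul_ne_zero a1 (pow_ne_zero j b1)) ⟨_, _, a2.mul (b2.pow j)⟩ hj ?_⟩
  rw [map_mul, map_pow]
  exact Etn.ml ε a3 b3 j

end Vale.Agent.P022K.WB.Nv
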