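import Vale.Agent.P022K.WB.Fg0
import Vale.Agent.P022K.WB.YSt
import Vale.Agent.P022K.WB.X2

/-!
# P022K, block WB: finite generation from `SURJ`
-/

set_option autoImplicit false

noncomputable section

namespace Vale.Agent.P022K.WB

open Matrix Noe

variable {p : ℕ} [Fact p.Prime] {C : Type} [NontriviallyNormedField C] [IsUltrametricDist C]
  [CharZero C] [CompleteSpace C] [IsAlgClosed C] {ψ : ℚ_[p] → C} {H : Type} [Group H]
  {act : H →* Iso C}

/-- the action on a quotient -/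
def quoA {A : Type} [AddCommGroup A] (α : H →* AddMonoid.End A) (B : AddSubgroup A)
    (hB : ∀ h, ∀ a ∈ B, α h a ∈ B) : H →* AddMonoid.End (A ⧸ B) where
  toFun h := QuotientAddGroup.map B B (α h) (hB h)
  map_one' := AddMonoidHom.ext fun a => by
    obtain ⟨a, rfl⟩ := QuotientAddGroup.mk_surjective a
    exact congrArg QuotientAddGroup.mk (by rw [map_one]; rfl)
  map_mul' h h' := AddMonoidHom.ext fun a => by
    obtain ⟨a, rfl⟩ := QuotientAddGroup.mk_surjective a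
    exact congrArg QuotientAddGroup.mk (by rw [map_mul]; rfl)

/-- `SURJ` with a common kernel -/
theorem SURJ.rel (hS : SURJ p C) (ok : Ok p ψ act) {A : Type} [AddCommGroup A] [Finite A]
    {α : H →* AddMonoid.End A} (ho : Opn act α) (hm : ∃ m : ℕ, ∀ a : A, p ^ m • a = 0)
    (U : AddSubgroup (A →+ Y p C)) (h1 : ∀ u ∈ U, Eqv act α u)
    (h2 : ∀ u ∈ U, ∀ b, (ok.psi.n b).comp u ∈ U)
    (h3 : ∀ u ∈ U, (Y.phi p C).toAddMonoidHom.comp u ∈ U)
    (h4 : ∀ u ∈ U, (Y.phi p C).symm.toAddMonoidHom.comp u ∈ U) {x : A →+ Y p C}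
    (hx : Eqv act α x) (h0 : ∀ a, (∀ u ∈ U, u a = 0) → x a = 0) (b : ℚ_[p]) :
    (ok.psi.n b).comp x - x ∈ U := by
  let B : AddSubgroup A := ⨅ u ∈ U, u.ker
  have mB : ∀ a, a ∈ B ↔ ∀ u ∈ U, u a = 0 := fun a => by simp [B]
  have hB : ∀ h, ∀ a ∈ B, α h a ∈ B := fun h a ha => (mB _).2 fun u hu => by
    rw [h1 u hu, (mB a).1 ha u hu, map_zero]
  let k : (A ⧸ B →+ Y p C) →+ (A →+ Y p C) := AddMonoidHom.compHom' (QuotientAddGroup.mk' B)
  have hq : ∀ u : A ⧸ B →+ Y p C, Eqv act α (k u) → Eqv act (quoA α B hB) u := fun u hu h a => by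
    obtain ⟨a, rfl⟩ := QuotientAddGroup.mk_surjective a
    exact hu h a
  exact hS ψ H (A ⧸ B) act (quoA α B hB) ok
    (by
      obtain ⟨s, s1, s2⟩ := ho
      refine ⟨s, s1, fun h hh => AddMonoidHom.ext fun a => ?_⟩
      obtain ⟨a, rfl⟩ := QuotientAddGroup.mk_surjective a
      exact congrArg QuotientAddGroup.mk (by rw [s2 h hh]; rfl))
    (hm.imp fun m hm a => by
      obtain ⟨a, rfl⟩ := QuotientAddGroup.mk_surjective a
      rw [← QuotientAddGroup.mk_nsmul, hm, QuotientAddGroup.mk_zero])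
    (U.comap k) (fun u hu => hq u (h1 _ hu)) (fun u hu b => h2 _ hu b) (fun u hu => h3 _ hu)
    (fun u hu => h4 _ hu)
    (fun a ha => by
      obtain ⟨a, rfl⟩ := QuotientAddGroup.mk_surjective a
      exact (QuotientAddGroup.eq_zero_iff a).2 ((mB a).2 fun u hu =>
        ha (QuotientAddGroup.lift B u fun c hc => (mB c).1 hc u hu) hu))
    (QuotientAddGroup.lift B x fun c hc => h0 c ((mB c).1 hc)) (hq _ hx) b

variable {R M : Type*} [CommRing R] [AddCommGroup M] [Module R M]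
  {ρ : Representation R (G2 p) M} {P : Submodule R M}

/-- a map to `Hom_H (A, Y)` that commutes with `n(b)` and `t` -/
structure Wm (ok : Ok p ψ act) (ρ : Representation R (G2 p) M) {A : Type} [AddCommGroup A]
    (α : H →* AddMonoid.End A) (ι : M →+ A →+ Y p C) : Prop where
  opn : Opn act α
  tor : ∃ m : ℕ, ∀ a : A, p ^ m • a = 0
  eqv : ∀ v, Eqv act α (ι v)
  n : ∀ b v a, ι (ρ (nn b) v) a = ok.psi.n b (ι v a)
  t : ∀ v a, ι (ρ (tt p) v) a = Y.phi p C (ι v a)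

section one

variable {ok : Ok p ψ act} {A : Type} [AddCommGroup A] {α : H →* AddMonoid.End A}
  {ι : M →+ A →+ Y p C}

omit [CompleteSpace C] [IsAlgClosed C] in
theorem Wm.t' (h : Wm ok ρ α ι) (v : M) (a : A) :
    ι (ρ (tt p)⁻¹ v) a = (Y.phi p C).symm (ι v a) := by
  rw [AddEquiv.eq_symm_apply, ← h.t, rho_inv']

/-- the image of a stable submodule is large -/
theorem Wm.surj [Finite A] (hS : SURJ p C) (h : Wm ok ρ α ι) {Q : Submodule R M} (hQ : Gs ρ Q)
    {x : A →+ Y p C} (hx : Eqv act α x) (h0 : ∀ a, (∀ u ∈ Q, ι u a = 0) → x a = 0) (b : ℚ_[p]) :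
    ∃ u ∈ Q, ι u = (ok.psi.n b).comp x - x := by
  refine hS.rel ok h.opn h.tor (Q.toAddSubgroup.map ι) ?_ ?_ ?_ ?_ hx
    (fun a ha => h0 a fun u hu => ha _ ⟨u, hu, rfl⟩) b
  · rintro _ ⟨u, -, rfl⟩
    exact h.eqv u
  · rintro _ ⟨u, hu, rfl⟩ b
    exact ⟨_, hQ (nn b) u hu, AddMonoidHom.ext (h.n b u)⟩
  · rintro _ ⟨u, hu, rfl⟩
    exact ⟨_, hQ (tt p) u hu, AddMonoidHom.ext (h.t u)⟩
  · rintro _ ⟨u, hu, rfl⟩
    exact ⟨_, hQ (tt p)⁻¹ u hu, AddMonoidHom.ext (h.t' u)⟩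

/-- **FG** for one injective map -/
theorem Wm.fg [Finite A] (hS : SURJ p C) (h : Wm ok ρ α ι) (hP : Adm ρ P)
    (hz : ∀ a, ∀ v ∈ P, ρ (dd a a) v = v) (inj : ∀ v ∈ P, ι v = 0 → v = 0) : Fg ρ P := by
  obtain ⟨m, hm⟩ := h.tor
  refine fg0 hP (m := m) (fun v hv => inj _ (nsmul_mem hv _) (AddMonoidHom.ext fun a => ?_)) hz
    (fun v a => ι v a) fun Q hQ gQ v hv h0 b => ?_
  · rw [map_nsmul, AddMonoidHom.nsmul_apply, ← map_nsmul, hm, map_zero, AddMonoidHom.zero_apply]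
  · obtain ⟨u, hu, e⟩ := h.surj hS gQ (h.eqv v) h0 b
    have := inj (ρ (nn b) v - v - u) (sub_mem (sub_mem (hP.gs _ _ hv) hv) (hQ hu)) (by
      rw [map_sub, map_sub, e, sub_eq_zero]
      congr 1
      exact AddMonoidHom.ext (h.n b v))
    rwa [sub_eq_zero.1 this]

/-- no finite set is swallowed by the shift -/
theorem nf_hom (hF : PHI p C) (ok : Ok p ψ act) (hm : ∃ m : ℕ, ∀ a : A, p ^ m • a = 0)
    (E : Set (A →+ Y p C)) (hE : E.Finite)
    (h : E ⊆ (fun x => (Y.phi p C).toAddMonoidHom.comp x) '' E) : E ⊆ {0} := fun x hx => by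
  obtain ⟨k, hk, e⟩ := periodic_of_finite hE h hx
  obtain ⟨m, hm⟩ := hm
  have : ∀ (j : ℕ) (x : A →+ Y p C) (a : A),
      ((fun x => (Y.phi p C).toAddMonoidHom.comp x)^[j] x) a = (Y.phi p C)^[j] (x a) := fun j => by
    induction j with
    | zero => exact fun _ _ => rfl
    | succ j ih => exact fun x a => ih _ a
  refine AddMonoidHom.ext fun a => hF ψ ok.psi ok.np _ k ⟨m, ?_⟩ hk ?_
  · rw [← map_nsmul, hm, map_zero]
  · rw [← this, e]

/-- the hypotheses of lemma K -/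
theorem Wm.wk (hF : PHI p C) (h : Wm ok ρ α ι) (hz : ∀ a v, ρ (dd a a) v = v)
    (hT : ∀ a : ℚ_[p]ˣ, ‖(a : ℚ_[p])‖ = 1 → ∀ v, ι v = 0 → ι (ρ (dd a 1) v) = 0) :
    Wk ρ ι fun x => (Y.phi p C).toAddMonoidHom.comp x where
  bs := fun b hb v hv => by
    have h1 : ∀ g, (∀ u a, ι u a = 0 → ι (ρ g u) a = 0) → ∀ u ∈ ι.ker, ρ g u ∈ ι.ker :=
      fun g hg u hu => AddMonoidHom.ext fun a => hg u a (DFunLike.congr_fun hu a)
    obtain ⟨b, a, d, rfl⟩ := BB_eq hb
    obtain ⟨n, u, hu, e⟩ := unit_eq (a / d)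
    have e' : dd a d = tt p ^ n * dd u 1 * dd d d := by
      rw [tt, dd_zpow, ← dd_mul, ← dd_mul, ← e]
      simp
    rw [e', rho_mul, rho_mul, rho_mul, hz]
    exact h1 _ (fun u a e => by rw [h.n, e, map_zero]) _
      (zpow_stab (h1 _ fun u a e => by rw [h.t, e, map_zero])
        (h1 _ fun u a e => by rw [h.t', e, map_zero]) n _ (hT u hu v hv))
  ps := fun v => AddMonoidHom.ext fun a => by
    rw [rho_mul, zz, ← dd_inv, hz]
    exact h.t v a
  nf := nf_hom hF ok h.tor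

end one

/-- **FG** for a family of maps without common kernel -/
theorem fg_fam (hS : SURJ p C) (ok : Ok p ψ act) {I : Type} {A : I → Type}
    [∀ i, AddCommGroup (A i)] [∀ i, Finite (A i)] {α : ∀ i, H →* AddMonoid.End (A i)}
    {ι : ∀ i, M →+ A i →+ Y p C} (h : ∀ i, Wm ok ρ (α i) (ι i)) (hP : Adm ρ P)
    (hz : ∀ a, ∀ v ∈ P, ρ (dd a a) v = v)
    (hK : ∀ i, ∀ g ∈ Kn p 2, ∀ v ∈ P, ι i v = 0 → ι i (ρ g v) = 0)
    (inj : ∀ v ∈ P, (∀ i, ι i v = 0) → v = 0) : Fg ρ P := by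
  classical
  obtain ⟨J, hJ⟩ := hP.adK.fin_inf (fun i => (ι i).ker)
    fun i g hg v hv => ⟨hP.gs g v hv.1, hK i g hg v hv.1 hv.2⟩
  let α' : H →* AddMonoid.End (∀ i : J, A i) :=
    { toFun := fun h => AddMonoidHom.pi fun i => (α i h).comp (Pi.evalAddMonoidHom _ i)
      map_one' := AddMonoidHom.ext fun a => funext fun i => by
        show α i 1 (a i) = a i
        rw [map_one]
        rfl
      map_mul' := fun h h' => AddMonoidHom.ext fun a => funext fun i => by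
        show α i (h * h') (a i) = α i h (α i h' (a i))
        rw [map_mul]
        rfl }
  let ι' : M →+ (∀ i : J, A i) →+ Y p C :=
    ∑ i : J, (AddMonoidHom.compHom' (Pi.evalAddMonoidHom (fun i : J => A i) i)).comp (ι i)
  have e : ∀ v a, ι' v a = ∑ i : J, ι i v (a i) := fun v a => by
    simp only [ι', AddMonoidHom.finsetSum_apply]
    rfl
  refine Wm.fg (ok := ok) (α := α') (ι := ι') hS ⟨?_, ?_, fun v g a => ?_, fun b v a => ?_,
    fun v a => ?_⟩ hP hz fun v hv h0 => inj v hv (hJ v hv fun i hi => AddMonoidHom.ext fun a => ?_)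
  · choose s s1 s2 using fun i : J => (h i).opn
    refine ⟨Finset.univ.biUnion s, fun a ha => ?_, fun g hg => AddMonoidHom.ext fun a =>
      funext fun i => ?_⟩
    · obtain ⟨i, -, hi⟩ := Finset.mem_biUnion.1 ha
      exact s1 i a hi
    · show α i g (a i) = a i
      rw [s2 i g fun c hc => hg c (Finset.mem_biUnion.2 ⟨i, Finset.mem_univ _, hc⟩)]
      rfl
  · choose m hm using fun i : J => (h i).tor
    refine ⟨∑ i, m i, fun a => funext fun i => ?_⟩
    obtain ⟨c, hc⟩ := Nat.exists_eq_add_of_le'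
      (Finset.single_le_sum (f := m) (fun _ _ => Nat.zero_le _) (Finset.mem_univ i))
    rw [Pi.smul_apply, hc, pow_add, mul_smul, hm, smul_zero, Pi.zero_apply]
  · rw [e, e, map_sum]
    exact Finset.sum_congr rfl fun i _ => (h i).eqv v g (a i)
  · rw [e, e, map_sum]
    exact Finset.sum_congr rfl fun i _ => (h i).n b v (a i)
  · rw [e, e, map_sum]
    exact Finset.sum_congr rfl fun i _ => (h i).t v (a i)
  · have := e v (Pi.single ⟨i, hi⟩ a)
    rw [h0, Finset.sum_eq_single ⟨i, hi⟩ (fun j _ hj => by rw [Pi.single_eq_of_ne hj, map_zero])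
      (by simp), Pi.single_eq_same] at this
    exact this.symm

section gal

variable {N : Type} [AddCommGroup N] {Γ : Type*} [Group Γ] (g : Γ →* AddMonoid.End N)

/-- the span of the operators of a group -/
def Sp : AddSubgroup (AddMonoid.End N) := AddSubgroup.closure (Set.range g)

theorem Sp_mul (s : Γ) {a : AddMonoid.End N} (ha : a ∈ Sp g) : g s * a ∈ Sp g :=
  (AddSubgroup.closure_le ((Sp g).comap (AddMonoidHom.mulLeft (g s)))).2 (by
    rintro _ ⟨t, rfl⟩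
    exact AddSubgroup.subset_closure ⟨s * t, map_mul g s t⟩) ha

/-- left multiplication on the span -/
def SpA : Γ →* AddMonoid.End (Sp g) where
  toFun s := ((AddMonoidHom.mulLeft (g s)).comp (Sp g).subtype).codRestrict _
    fun a => Sp_mul g s a.2
  map_one' := AddMonoidHom.ext fun a => Subtype.ext (by
    show g 1 * a = a
    rw [map_one, one_mul])
  map_mul' s t := AddMonoidHom.ext fun a => Subtype.ext (by
    show g (s * t) * a = g s * (g t * a)
    rw [map_mul, mul_assoc])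

/-- the map to `Hom (Sp g, Y)` attached to a functional -/
def SpW {Y : Type*} [AddCommGroup Y] (W : N →+ Y) : N →+ Sp g →+ Y where
  toFun v :=
    { toFun := fun a => W (a.1 v)
      map_zero' := map_zero W
      map_add' := fun a b => map_add W (a.1 v) (b.1 v) }
  map_zero' := AddMonoidHom.ext fun a => by simp
  map_add' v w := AddMonoidHom.ext fun a => (congrArg W (map_add a.1 v w)).trans (map_add W _ _)

variable {g}

theorem Sp_ind {a : AddMonoid.End N} (ha : a ∈ Sp g) {Z : Type*} [AddCommGroup Z]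
    (f : AddMonoid.End N →+ Z) (h : ∀ s, f (g s) = 0) : f a = 0 :=
  (AddSubgroup.closure_le f.ker).2 (by
    rintro _ ⟨t, rfl⟩
    exact h t) ha

theorem Sp_com {a : AddMonoid.End N} (ha : a ∈ Sp g) {f : AddMonoid.End N}
    (h : ∀ s, f * g s = g s * f) : f * a = a * f :=
  sub_eq_zero.1 (Sp_ind ha (AddMonoidHom.mulLeft f - AddMonoidHom.mulRight f) fun s =>
    sub_eq_zero.2 (h s))

theorem SpW_eq_zero {Y : Type*} [AddCommGroup Y] {W : N →+ Y} {v : N} :
    SpW g W v = 0 ↔ ∀ s, W (g s v) = 0 :=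
  ⟨fun h s => DFunLike.congr_fun h ⟨g s, AddSubgroup.subset_closure ⟨s, rfl⟩⟩,
    fun h => AddMonoidHom.ext fun a => Sp_ind a.2 (W.comp (AddMonoidHom.eval v)) h⟩

theorem Sp_finite (h : (Set.range g).Finite) {n : ℕ} (hn : 0 < n) (hm : ∀ v : N, n • v = 0) :
    Finite (Sp g) := by
  have : Finite (Set.range g) := h
  have : AddGroup.FG (Sp g) := AddGroup.closure_finite_fg _
  exact AddCommGroup.finite_of_fg_isAddTorsion _ fun a =>
    isOfFinAddOrder_iff_nsmul_eq_zero.2 ⟨n, hn, Subtype.ext (AddMonoidHom.ext fun v => hm _)⟩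

/-- a functional with the equivariance properties -/
structure Wf (ok : Ok p ψ act) (ρ : G2 p → N → N) (g : H → N → N) (P : Set N) (W : N →+ Y p C) :
    Prop where
  n : ∀ b, ∀ v ∈ P, W (ρ (nn b) v) = ok.psi.n b (W v)
  t : ∀ v ∈ P, W (ρ (tt p) v) = Y.phi p C (W v)
  h : ∀ h, ∀ v ∈ P, W (g h v) = Y.gal (act h) (W v)

omit [CompleteSpace C] [IsAlgClosed C] in
theorem Wf.wm {ok : Ok p ψ act} [Module R N] {σ : Representation R (G2 p) N} (j : H →* Γ)
    {W : N →+ Y p C} (h : Wf ok (fun x => σ x) (fun h => g (j h)) Set.univ W)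
    (com : ∀ x s v, σ x (g s v) = g s (σ x v)) (hm : ∃ m : ℕ, ∀ v : N, p ^ m • v = 0)
    (opn : Opn act (g.comp j)) : Wm ok σ ((SpA g).comp j) (SpW g W) := by
  have e : ∀ x (a : Sp g) v, a.1 (σ x v) = σ x (a.1 v) := fun x a v =>
    (DFunLike.congr_fun (Sp_com a.2 (f := (σ x).toAddMonoidHom) fun s =>
      AddMonoidHom.ext (com x s)) v).symm
  refine ⟨opn.imp fun s hs => ⟨hs.1, fun h hh => AddMonoidHom.ext fun a => Subtype.ext ?_⟩,
    hm.imp fun m hm a => Subtype.ext (AddMonoidHom.ext fun v => hm _),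
    fun v s a => h.h s _ trivial, fun b v a => ?_, fun v a => ?_⟩
  · show (g.comp j) h * a = a
    rw [hs.2 h hh, one_mul]
  · exact (congrArg W (e _ a v)).trans (h.n b _ trivial)
  · exact (congrArg W (e _ a v)).trans (h.t _ trivial)

/-- **FG**: an admissible module with a finite commuting action of `Γ` which is separated by
equivariant functionals is finitely generated -/
theorem fgW (hS : SURJ p C) (hF : PHI p C) (ok : Ok p ψ act) [Module R N]
    {σ : Representation R (G2 p) N} {P : Submodule R N} (γ : Representation R Γ N) (j : H →* Γ)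
    (hP : Adm σ P) (hm : ∃ m : ℕ, ∀ v ∈ P, p ^ m • v = 0) (hz : ∀ a, ∀ v ∈ P, σ (dd a a) v = v)
    (gs : ∀ s, ∀ v ∈ P, γ s v ∈ P) (com : ∀ x s, ∀ v ∈ P, σ x (γ s v) = γ s (σ x v))
    (fin : ∃ S : Set Γ, S.Finite ∧ ∀ s, ∃ t ∈ S, ∀ v ∈ P, γ s v = γ t v)
    (opn : ∃ s : Finset C, (∀ a ∈ s, Alg a) ∧
      ∀ h, (∀ a ∈ s, (act h).1 a = a) → ∀ v ∈ P, γ (j h) v = v)
    {I : Type} (W : I → N →+ Y p C) (hW : ∀ i, Wf ok (fun x => σ x) (fun h => γ (j h)) P (W i))
    (hT : ∀ i (a : ℚ_[p]ˣ), ‖(a : ℚ_[p])‖ = 1 → ∀ v ∈ P, (∀ s, W i (γ s v) = 0) →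
      W i (σ (dd a 1) v) = 0)
    (inj : ∀ v ∈ P, (∀ i s, W i (γ s v) = 0) → v = 0) : Fg σ P := by
  let g : Γ →* AddMonoid.End P :=
    { toFun := fun s => ((γ s).restrict (gs s)).toAddMonoidHom
      map_one' := AddMonoidHom.ext fun v => Subtype.ext (by
        show γ 1 v = v
        rw [map_one]
        rfl)
      map_mul' := fun s t => AddMonoidHom.ext fun v => Subtype.ext (by
        show γ (s * t) v = γ s (γ t v)
        rw [map_mul]
        rfl) }
  have hm' : ∃ m : ℕ, ∀ v : P, p ^ m • v = 0 := hm.imp fun m hm v => Subtype.ext (hm v v.2)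
  have : Finite (Sp g) := by
    obtain ⟨S, h1, h2⟩ := fin
    obtain ⟨m, hm⟩ := hm'
    refine Sp_finite ((h1.image g).subset ?_) (pow_pos (Fact.out : p.Prime).pos m) hm
    rintro _ ⟨s, rfl⟩
    obtain ⟨t, ht, e⟩ := h2 s
    exact ⟨t, ht, AddMonoidHom.ext fun v => Subtype.ext (e v v.2).symm⟩
  have hz' : ∀ a v, subZ hP.gs (dd a a) v = v := fun a v => Subtype.ext (hz a v v.2)
  have h : ∀ i, Wm ok (subZ hP.gs) ((SpA g).comp j)
      (SpW g ((W i).comp P.subtype.toAddMonoidHom)) := fun i =>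
    Wf.wm j ⟨fun b v _ => (hW i).n b v v.2, fun v _ => (hW i).t v v.2,
      fun h v _ => (hW i).h h v v.2⟩ (fun x s v => Subtype.ext (com x s v v.2)) hm'
      (opn.imp fun s hs => ⟨hs.1, fun h hh => AddMonoidHom.ext fun v =>
        Subtype.ext (hs.2 h hh v v.2)⟩)
  refine Fg.of_subZ hP.gs (fg_fam hS ok h hP.subZ (fun a v _ => hz' a v) (fun i x _ v _ h0 => ?_)
    fun v _ h0 => Subtype.ext (inj v v.2 fun i => SpW_eq_zero.1 (h0 i)))
  refine ((h i).wk hF hz' fun a ha v hv => SpW_eq_zero.2 fun s => ?_).strong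
    (fun c v hv => by rw [map_zsmul, hv, smul_zero]) hP.subZ trivial h0 x
  show W i (γ s (σ (dd a 1) v)) = 0
  rw [← com _ _ _ v.2]
  refine hT i a ha _ (gs s v v.2) fun t => ?_
  rw [← Module.End.mul_apply, ← map_mul]
  exact SpW_eq_zero.1 hv (t * s)

/-- **GK** for such a module -/
theorem gkW (hS : SURJ p C) (hF : PHI p C) (ok : Ok p ψ act) [Module R N]
    {σ : Representation R (G2 p) N} {P : Submodule R N} (γ : Representation R Γ N) (j : H →* Γ)
    (hP : Adm σ P) (hm : ∃ m : ℕ, ∀ v ∈ P, p ^ m • v = 0) (hz : ∀ a, ∀ v ∈ P, σ (dd a a) v = v)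
    (gs : ∀ s, ∀ v ∈ P, γ s v ∈ P) (com : ∀ x s, ∀ v ∈ P, σ x (γ s v) = γ s (σ x v))
    (fin : ∃ S : Set Γ, S.Finite ∧ ∀ s, ∃ t ∈ S, ∀ v ∈ P, γ s v = γ t v)
    (opn : ∃ s : Finset C, (∀ a ∈ s, Alg a) ∧
      ∀ h, (∀ a ∈ s, (act h).1 a = a) → ∀ v ∈ P, γ (j h) v = v)
    {I : Type} (W : I → N →+ Y p C) (hW : ∀ i, Wf ok (fun x => σ x) (fun h => γ (j h)) P (W i))
    (hT : ∀ i (a : ℚ_[p]ˣ), ‖(a : ℚ_[p])‖ = 1 → ∀ v ∈ P, (∀ s, W i (γ s v) = 0) →
      W i (σ (dd a 1) v) = 0)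
    (inj : ∀ v ∈ P, (∀ i s, W i (γ s v) = 0) → v = 0) {c : ℕ} (hc : 2 ≤ c) {x : G2 p}
    (hx : Ell c x) : {z | z ∈ P ∧ σ x z = z}.Finite :=
  gk hP (fgW hS hF ok γ j hP hm hz gs com fin opn W hW hT inj) hc hx

end gal

end Vale.Agent.P022K.WB

end
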