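import Vale.Agent.P022K.WB.Gk

/-!
# P022K, block WB: modules on which the unipotent group acts trivially, finite generation
-/

set_option autoImplicit false

noncomputable section

namespace Vale.Agent.P022K.WB

open Matrix Noe

variable {p : ℕ} [Fact p.Prime] {R M : Type*} [CommRing R] [AddCommGroup M] [Module R M]
  {ρ : Representation R (G2 p) M} {P : Submodule R M}

theorem norm_two : (p : ℝ)⁻¹ ≤ ‖(2 : ℚ_[p])‖ := by
  by_cases h : p = 2
  · subst h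
    exact (Padic.norm_p (p := 2)).ge
  · have h2 := (Fact.out : p.Prime).two_le
    have := norm_nat_eq (p := p) (k := 2) two_pos (by omega)
    rw [Nat.cast_ofNat] at this
    rw [this]
    exact pinv_lt.le

theorem exists_sq {u : ℚ_[p]} (h : ‖u - 1‖ ≤ rad p 3) : ∃ l : ℚ_[p], l ^ 2 = u := by
  have h1 : ‖u‖ ≤ 1 := (norm_of_near (h.trans_lt (rad_lt_one three_pos))).le
  obtain ⟨w, rfl⟩ : ∃ w : ℤ_[p], (w : ℚ_[p]) = u := ⟨⟨u, h1⟩, rfl⟩
  obtain ⟨z, hz, -⟩ := hensels_lemma (p := p) (R := ℤ_[p])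
    (F := Polynomial.X ^ 2 - Polynomial.C w) (a := 1) (by
      have e1 : ‖1 - w‖ = ‖(w : ℚ_[p]) - 1‖ := by
        rw [norm_sub_rev]
        rfl
      have e2 : ‖(2 : ℤ_[p])‖ = ‖(2 : ℚ_[p])‖ := rfl
      have e3 : rad p 3 < (p : ℝ)⁻¹ ^ 2 := pow_lt_pow_right_of_lt_one₀ pinv_pos pinv_lt (by norm_num)
      simp only [map_sub, map_pow, Polynomial.aeval_X, Polynomial.aeval_C, one_pow,
        Polynomial.derivative_X_pow, Polynomial.derivative_C, map_mul, sub_zero, mul_one,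
        Algebra.algebraMap_self, RingHom.id_apply, Nat.cast_ofNat]
      rw [e1, e2]
      exact (h.trans_lt e3).trans_le (pow_le_pow_left₀ pinv_pos.le norm_two 2))
  simp only [map_sub, map_pow, Polynomial.aeval_X, Polynomial.aeval_C, Algebra.algebraMap_self,
    RingHom.id_apply, sub_eq_zero] at hz
  exact ⟨z, congrArg Subtype.val hz⟩

/-- the elements acting trivially on `P` -/
def Tri (ρ : Representation R (G2 p) M) (P : Submodule R M) : Subgroup (G2 p) where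
  carrier := {g | ∀ v ∈ P, ρ g v = v}
  one_mem' v _ := by simp
  mul_mem' ha hb v hv := by rw [rho_mul, hb v hv, ha v hv]
  inv_mem' {g} ha v hv := by
    conv_lhs => rw [← ha v hv, rho_inv]

theorem Tri_conj (hP : Gs ρ P) {g : G2 p} (h : g ∈ Tri ρ P) (x : G2 p) :
    x * g * x⁻¹ ∈ Tri ρ P := fun v hv => by
  rw [rho_mul, rho_mul, h _ (hP _ _ hv), rho_inv']

theorem nl_Tri (hP : Gs ρ P) (hn : ∀ b, nn b ∈ Tri ρ P) (c : ℚ_[p]) : nl c ∈ Tri ρ P := by
  have := Tri_conj hP (hn c) (ww p)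
  rwa [ww_nn, mul_inv_cancel_right] at this

theorem dd_Tri (hP : Gs ρ P) (hn : ∀ b, nn b ∈ Tri ρ P) (l : ℚ_[p]ˣ) : dd l l⁻¹ ∈ Tri ρ P := by
  have h : ∀ l : ℚ_[p]ˣ, ww p * dd l (-l⁻¹) ∈ Tri ρ P := fun l => by
    have := mul_mem (mul_mem (inv_mem (hn ((l⁻¹ : ℚ_[p]ˣ) : ℚ_[p]))) (nl_Tri hP hn l))
      (inv_mem (hn ((l⁻¹ : ℚ_[p]ˣ) : ℚ_[p])))
    rw [nl_eq] at this
    convert this using 1
    group
  have := mul_mem (inv_mem (h 1)) (h l)
  rwa [_root_.mul_inv_rev, mul_assoc, inv_mul_cancel_left, ← dd_inv, ← dd_mul, inv_one, one_mul,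
    inv_neg, inv_one, neg_mul_neg, one_mul] at this

theorem K3_Tri (hP : Gs ρ P) (hn : ∀ b, nn b ∈ Tri ρ P) (hz : ∀ a, dd a a ∈ Tri ρ P) :
    Kn p 3 ≤ Tri ρ P := fun g hg => by
  have h1 : ‖g 0 0 * g 1 1 - g 0 1 * g 1 0 - 1‖ ≤ rad p 3 := by
    have e := (mem_Kn.1 hg).1
    have e' := Kn_en hg
    rw [show g 0 0 * g 1 1 - g 0 1 * g 1 0 - 1 =
      (g 0 0 - 1) * g 1 1 + (g 1 1 - 1) - g 0 1 * g 1 0 by ring]
    exact nsub (nadd (nmul2 (by simpa using e 0 0) (e' 1 1)) (by simpa using e 1 1))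
      (nmul2 (by simpa using e 0 1) (e' 1 0))
  obtain ⟨l, hl⟩ := exists_sq h1
  obtain ⟨b, hb, -, c, -, -, rfl⟩ := I1_fac (Kn_le_I1 three_pos hg)
  obtain ⟨b, a, d, rfl⟩ := BB_eq hb
  have h2 : l ^ 2 = a * d := by
    rw [hl]
    simp
    ring
  have h0 : l ≠ 0 := fun e => by
    rw [e, zero_pow two_ne_zero] at h2
    exact (a * d).ne_zero h2.symm
  refine mul_mem (mul_mem (hn b) ?_) (nl_Tri hP hn c)
  have := mul_mem (hz (Units.mk0 l h0)) (dd_Tri hP hn (a / Units.mk0 l h0))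
  rw [← dd_mul] at this
  convert this using 2
  · simp
  · ext
    have := a.ne_zero
    simp only [inv_div, Units.val_mul, Units.val_mk0, Units.val_div_eq_div_val]
    field_simp
    linear_combination -h2

/-- an admissible module on which the unipotent group and the centre act trivially is finite -/
theorem fin_of_triv (hP : Adm ρ P) {m : ℕ} (hm : ∀ v ∈ P, p ^ m • v = 0)
    (hn : ∀ b, ∀ v ∈ P, ρ (nn b) v = v) (hz : ∀ a, ∀ v ∈ P, ρ (dd a a) v = v) :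
    (P : Set M).Finite :=
  (hP.adK.finK 3 (pow_pos (Fact.out : p.Prime).pos m)).subset fun v hv =>
    ⟨hv, hm v hv, fun _ hg => K3_Tri hP.gs hn hz hg v hv⟩

/-- finite generation modulo a finitely generated submodule -/
theorem fg_of_n (hP : Adm ρ P) {m : ℕ} (hm : ∀ v ∈ P, p ^ m • v = 0)
    (hz : ∀ a, ∀ v ∈ P, ρ (dd a a) v = v) {T : Set M} (h1 : T.Finite) (h2 : T ⊆ P)
    (hn : ∀ b, ∀ v ∈ P, ρ (nn b) v - v ∈ Gen ρ T) : Fg ρ P := by
  have hQ : Gs ρ (Gen ρ T) := Gen_gs T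
  have := fin_of_triv (hP.map (Gen ρ T).mkQ fun g v _ => quo_mk hQ g v) (m := m)
    (by
      rintro _ ⟨v, hv, rfl⟩
      rw [← map_nsmul, hm v hv, map_zero])
    (by
      rintro b _ ⟨v, hv, rfl⟩
      rw [← quo_mk]
      exact (Submodule.Quotient.eq _).2 (hn b v hv))
    (by
      rintro a _ ⟨v, hv, rfl⟩
      rw [← quo_mk, hz a v hv])
  have h3 : ∀ y ∈ P.map (Gen ρ T).mkQ, ∃ v ∈ P, (Gen ρ T).mkQ v = y := fun y hy => hy
  choose! f f1 f2 using h3
  refine ⟨T ∪ f '' (P.map (Gen ρ T).mkQ), h1.union (this.image f), Set.union_subset h2 ?_,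
    fun v hv => ?_⟩
  · rintro _ ⟨y, hy, rfl⟩
    exact f1 y hy
  · have hy : (Gen ρ T).mkQ v ∈ P.map (Gen ρ T).mkQ := ⟨v, hv, rfl⟩
    rw [← sub_add_cancel v (f ((Gen ρ T).mkQ v))]
    exact add_mem (Gen_le (Gen_gs _) (fun a ha => mem_Gen (Or.inl ha))
      ((Submodule.Quotient.eq _).1 (f2 _ hy).symm)) (mem_Gen (Or.inr ⟨_, hy, rfl⟩))

/-- **FG**, abstract form -/
theorem fg0 {A Y : Type*} [Finite A] [Zero Y] (hP : Adm ρ P) {m : ℕ}
    (hm : ∀ v ∈ P, p ^ m • v = 0) (hz : ∀ a, ∀ v ∈ P, ρ (dd a a) v = v) (ι : M → A → Y)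
    (hS : ∀ Q ≤ P, Gs ρ Q → ∀ v ∈ P, (∀ a, (∀ u ∈ Q, ι u a = 0) → ι v a = 0) →
      ∀ b, ρ (nn b) v - v ∈ Q) : Fg ρ P := by
  have h : ∀ a : {a // ∃ v ∈ P, ι v a ≠ 0}, ∃ v ∈ P, ι v a ≠ 0 := fun a => a.2
  choose f f1 f2 using h
  have h2 : Set.range f ⊆ P := by
    rintro _ ⟨a, rfl⟩
    exact f1 a
  refine fg_of_n hP hm hz (Set.finite_range f) h2 fun b v hv =>
    hS _ (Gen_le hP.gs h2) (Gen_gs _) v hv (fun a ha => ?_) b
  by_contra e
  exact f2 ⟨a, v, hv, e⟩ (ha _ (mem_Gen ⟨_, rfl⟩))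

/-- a stable submodule as a representation over the integers -/
def subZ (hP : Gs ρ P) : Representation ℤ (G2 p) P where
  toFun g := (((ρ g).restrict (hP g)).toAddMonoidHom).toIntLinearMap
  map_one' := LinearMap.ext fun v => Subtype.ext (by simp)
  map_mul' g h := LinearMap.ext fun v => Subtype.ext (rho_mul g h v.1)

theorem subZ_val (hP : Gs ρ P) (g : G2 p) (v : P) : (subZ hP g v : M) = ρ g v := rfl

theorem Adm.subZ (hP : Adm ρ P) : Adm (subZ hP.gs) ⊤ :=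
  ⟨fun _ _ _ => trivial,
    fun v _ => (hP.sm v v.2).imp fun _ hn g hg => Subtype.ext (hn g hg),
    fun v _ => (hP.tor v v.2).imp fun _ hn => Subtype.ext hn,
    (hP.fin.preimage Subtype.val_injective.injOn).subset fun v hv =>
      ⟨v.2, congrArg Subtype.val hv.2.1, fun g hg => congrArg Subtype.val (hv.2.2 g hg)⟩⟩

theorem Fg.of_subZ (hP : Gs ρ P) (h : Fg (subZ hP) ⊤) : Fg ρ P := by
  obtain ⟨T, h1, -, h3⟩ := h
  refine ⟨Subtype.val '' T, h1.image _, ?_, fun v hv => ?_⟩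
  · rintro _ ⟨v, -, rfl⟩
    exact v.2
  · have : ∀ w ∈ Gen (subZ hP) T, w.1 ∈ Gen ρ (Subtype.val '' T) := fun w hw => by
      induction hw using Submodule.span_induction with
      | mem y hy =>
        obtain ⟨g, a, ha, rfl⟩ := hy
        exact Gen_gs _ g _ (mem_Gen ⟨a, ha, rfl⟩)
      | zero => exact zero_mem _
      | add a b _ _ ha hb => exact add_mem ha hb
      | smul s a _ ha => exact zsmul_mem ha s
    exact this ⟨v, hv⟩ (h3 trivial)

/-- finitely many members of a family of stable subgroups have the same intersection -/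
theorem AdK.fin_inf {A : AddSubgroup M} (h : AdK ρ A) {I : Type*} (B : I → AddSubgroup M)
    (hB : ∀ i, Hs ρ (Kn p 2) (A ⊓ B i)) :
    ∃ J : Finset I, ∀ v ∈ A, (∀ i ∈ J, v ∈ B i) → ∀ i, v ∈ B i := by
  classical
  obtain ⟨_, ⟨J, rfl⟩, hJ⟩ := h.min (Set.range fun J : Finset I => A ⊓ ⨅ i ∈ J, B i)
    (Set.range_nonempty _) (by rintro _ ⟨J, rfl⟩; exact inf_le_left) (by
      rintro _ ⟨J, rfl⟩ g hg v hv
      simp only [AddSubgroup.mem_inf, AddSubgroup.mem_iInf] at hv ⊢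
      exact ⟨h.st g hg v hv.1, fun i hi => (hB i g hg v ⟨hv.1, hv.2 i hi⟩).2⟩)
  refine ⟨J, fun v hv h1 i => ?_⟩
  have := hJ _ ⟨insert i J, rfl⟩ (inf_le_inf_left _ (biInf_mono fun j hj =>
    Finset.mem_insert_of_mem hj))
  have h2 : v ∈ A ⊓ ⨅ i ∈ J, B i := by
    simp only [AddSubgroup.mem_inf, AddSubgroup.mem_iInf]
    exact ⟨hv, h1⟩
  beta_reduce at this
  rw [← this] at h2
  simp only [AddSubgroup.mem_inf, AddSubgroup.mem_iInf] at h2
  exact h2.2 i (Finset.mem_insert_self i J)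

end Vale.Agent.P022K.WB

end
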