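import Vale.Agent.P022K.WB.YDefs

/-!
# The tilt of the valuation ring
-/

set_option linter.unusedSectionVars false

namespace Vale.Agent.P022K.WB

open Ideal Filter Topology

variable (p : ℕ) [Fact p.Prime] (C : Type) [NontriviallyNormedField C] [IsUltrametricDist C]
  [CharZero C] [hp : Fact (‖(p : C)‖ < 1)]

omit hp in
theorem np_pos : 0 < ‖(p : C)‖ := norm_pos_iff.2 (Nat.cast_ne_zero.2 (Fact.out : p.Prime).ne_zero)

theorem np_lt : ‖(p : C)‖ < 1 := hp.out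

variable {C} in
theorem eq_zero_of_le_pow {x : C} (h : ∀ n : ℕ, ‖x‖ ≤ ‖(p : C)‖ ^ n) : x = 0 :=
  norm_le_zero_iff.1 (ge_of_tendsto' (tendsto_pow_atTop_nhds_zero_of_lt_one (norm_nonneg _)
    (np_lt p C)) h)

variable {p C} in
omit hp in
theorem pow_dvd_iff {x : Oc C} {n : ℕ} : (p : Oc C) ^ n ∣ x ↔ ‖(x : C)‖ ≤ ‖(p : C)‖ ^ n := by
  have h0 := np_pos p C
  constructor
  · rintro ⟨y, rfl⟩
    push_cast
    rw [norm_mul, norm_pow]
    exact mul_le_of_le_one_right (by positivity) y.2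
  · intro h
    have h1 : (p : C) ^ n ≠ 0 := pow_ne_zero _ (norm_pos_iff.1 h0)
    refine ⟨⟨x / (p : C) ^ n, ?_⟩, Subtype.ext ?_⟩
    · rw [mem_Oc, norm_div, norm_pow, div_le_one (by positivity)]; exact h
    · push_cast; field_simp

variable {p C} in
omit hp in
theorem dvd_iff {x : Oc C} : (p : Oc C) ∣ x ↔ ‖(x : C)‖ ≤ ‖(p : C)‖ := by
  simpa using pow_dvd_iff (p := p) (x := x) (n := 1)

instance notUnit : Fact (¬ IsUnit (p : Oc C)) := ⟨fun h => by
  have := dvd_iff.1 (h.dvd (a := (1 : Oc C)))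
  simp only [OneMemClass.coe_one, norm_one] at this
  exact absurd (np_lt p C) (not_lt.2 this)⟩

variable {p C} in
omit hp in
theorem smod_iff {x y : Oc C} {n : ℕ} :
    x ≡ y [SMOD ((span {(p : Oc C)}) ^ n • ⊤ : Submodule (Oc C) (Oc C))] ↔
      ‖(x : C) - y‖ ≤ ‖(p : C)‖ ^ n := by
  rw [SModEq.sub_mem, smul_eq_mul, mul_top, span_singleton_pow, mem_span_singleton, pow_dvd_iff]
  rfl

variable {p C} in
omit hp in
theorem mk_eq_iff {x y : Oc C} : (Ideal.Quotient.mk (span {(p : Oc C)}) x =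
    Ideal.Quotient.mk (span {(p : Oc C)}) y) ↔ ‖(x : C) - y‖ ≤ ‖(p : C)‖ := by
  rw [Ideal.Quotient.eq, mem_span_singleton, dvd_iff]; rfl

variable {p C} in
omit hp in
theorem pow_close {a b : C} (ha : ‖a‖ ≤ 1) (hb : ‖b‖ ≤ 1) (h : ‖a - b‖ ≤ ‖(p : C)‖) (k : ℕ) :
    ‖a ^ p ^ k - b ^ p ^ k‖ ≤ ‖(p : C)‖ ^ (k + 1) := by
  have h1 : (p : Oc C) ∣ (⟨a, ha⟩ : Oc C) - ⟨b, hb⟩ := dvd_iff.2 h
  exact pow_dvd_iff.1 (dvd_sub_pow_of_dvd_sub h1 k)

theorem closed_Oc : IsClosed ((Oc C : Subring C) : Set C) :=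
  isClosed_le continuous_norm continuous_const

variable [CompleteSpace C]

instance adicComplete : IsAdicComplete (span {(p : Oc C)}) (Oc C) where
  haus' := fun x h => Subtype.ext (eq_zero_of_le_pow p fun n => by simpa using smod_iff.1 (h n))
  prec' := fun f h => by
    have hc : CauchySeq fun n => (f n : C) := by
      refine cauchySeq_of_le_tendsto_0' (fun n => ‖(p : C)‖ ^ n) (fun n m hnm => ?_)
        (tendsto_pow_atTop_nhds_zero_of_lt_one (norm_nonneg _) (np_lt p C))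
      rw [dist_eq_norm]; exact smod_iff.1 (h hnm)
    obtain ⟨L, hL⟩ := cauchySeq_tendsto_of_complete hc
    refine ⟨⟨L, (closed_Oc C).mem_of_tendsto hL (Eventually.of_forall fun n => (f n).2)⟩,
      fun n => smod_iff.2 ?_⟩
    exact le_of_tendsto (hL.const_sub _).norm
      (eventually_atTop.2 ⟨n, fun m hm => smod_iff.1 (h hm)⟩)

/-- the tilt of the valuation ring -/
abbrev Ot : Type := PreTilt (Oc C) p

variable {p C}

/-- the untilt map -/
noncomputable def sh0 : Ot p C →* C := (Oc C).subtype.toMonoidHom.comp PreTilt.untilt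

theorem sh0_def (x : Ot p C) : sh0 x = ((PreTilt.untilt x : Oc C) : C) := rfl

theorem sh0_le (x : Ot p C) : ‖sh0 x‖ ≤ 1 := (PreTilt.untilt x).2

/-- the `p ^ n`-th root -/
noncomputable def rt0 (n : ℕ) : Ot p C →+* Ot p C :=
  (iterateFrobeniusEquiv (Ot p C) p n).symm

theorem rt0_pow (n : ℕ) (x : Ot p C) : rt0 n x ^ p ^ n = x :=
  (iterateFrobeniusEquiv (Ot p C) p n).apply_symm_apply x

theorem pow_inj0 (n : ℕ) {x y : Ot p C} (h : x ^ p ^ n = y ^ p ^ n) : x = y :=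
  (iterateFrobeniusEquiv (Ot p C) p n).injective h

theorem rt0_zero (x : Ot p C) : rt0 0 x = x := by simpa using rt0_pow 0 x

theorem rt0_add (n k : ℕ) (x : Ot p C) : rt0 (n + k) x ^ p ^ k = rt0 n x :=
  pow_inj0 n (by rw [← pow_mul, ← pow_add, add_comm k n, rt0_pow, rt0_pow])

theorem coeff_pow_pow (x : Ot p C) (n k : ℕ) :
    PreTilt.coeff (n + k) x ^ p ^ k = PreTilt.coeff n x := by
  induction k with
  | zero => simp
  | succ k ih => rw [pow_succ', pow_mul, ← add_assoc, PreTilt.coeff_pow_p, ih]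

theorem ext0 {x y : Ot p C} (h : ∀ n, PreTilt.coeff n x = PreTilt.coeff n y) : x = y :=
  Perfection.ext h

theorem coeff_rt0 (n m : ℕ) (x : Ot p C) :
    PreTilt.coeff m (rt0 n x) = PreTilt.coeff (m + n) x := by
  conv_rhs => rw [← rt0_pow n x, map_pow, coeff_pow_pow]

theorem sh0_rt0 (n : ℕ) (x : Ot p C) : sh0 (rt0 n x) ^ p ^ n = sh0 x := by
  rw [← map_pow, rt0_pow]

theorem coeff_eq_iff (n : ℕ) (x : Ot p C) (a : Oc C) :
    PreTilt.coeff n x = Ideal.Quotient.mk (span {(p : Oc C)}) a ↔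
      ‖sh0 (rt0 n x) - a‖ ≤ ‖(p : C)‖ := by
  rw [sh0_def, ← mk_eq_iff, PreTilt.mk_untilt_eq_coeff_zero, coeff_rt0, zero_add]

theorem sh0_add (x y : Ot p C) : ‖sh0 (x + y) - (sh0 x + sh0 y)‖ ≤ ‖(p : C)‖ := by
  have := (coeff_eq_iff 0 (x + y) (PreTilt.untilt x + PreTilt.untilt y)).1 (by
    rw [map_add, map_add, PreTilt.mk_untilt_eq_coeff_zero, PreTilt.mk_untilt_eq_coeff_zero])
  rwa [rt0_zero] at this

theorem sh0_add_lim (x y : Ot p C) (n : ℕ) :
    ‖sh0 (x + y) - (sh0 (rt0 n x) + sh0 (rt0 n y)) ^ p ^ n‖ ≤ ‖(p : C)‖ ^ (n + 1) := by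
  rw [← sh0_rt0 n (x + y), map_add]
  exact pow_close (sh0_le _) (add_mem (mem_Oc.2 (sh0_le _)) (mem_Oc.2 (sh0_le _)))
    (sh0_add _ _) n

theorem sh0_ultra (x y : Ot p C) : ‖sh0 (x + y)‖ ≤ max ‖sh0 x‖ ‖sh0 y‖ := by
  have key : ∀ n : ℕ, ‖sh0 (x + y)‖ ≤ max (‖(p : C)‖ ^ (n + 1)) (max ‖sh0 x‖ ‖sh0 y‖) := by
    intro n
    have h1 : ‖(sh0 (rt0 n x) + sh0 (rt0 n y)) ^ p ^ n‖ ≤ max ‖sh0 x‖ ‖sh0 y‖ := by
      rw [← sh0_rt0 n x, ← sh0_rt0 n y, norm_pow, norm_pow, norm_pow]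
      rcases le_max_iff.1 (IsUltrametricDist.norm_add_le_max (sh0 (rt0 n x)) (sh0 (rt0 n y)))
        with h | h
      · exact le_max_of_le_left (pow_le_pow_left₀ (norm_nonneg _) h _)
      · exact le_max_of_le_right (pow_le_pow_left₀ (norm_nonneg _) h _)
    have h2 := IsUltrametricDist.norm_add_le_max
      (sh0 (x + y) - (sh0 (rt0 n x) + sh0 (rt0 n y)) ^ p ^ n)
      ((sh0 (rt0 n x) + sh0 (rt0 n y)) ^ p ^ n)
    rw [sub_add_cancel] at h2
    exact h2.trans (max_le_max (sh0_add_lim x y n) h1)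
  have h0 : Tendsto (fun n : ℕ => max (‖(p : C)‖ ^ (n + 1)) (max ‖sh0 x‖ ‖sh0 y‖)) atTop
      (𝓝 (max 0 (max ‖sh0 x‖ ‖sh0 y‖))) :=
    (((tendsto_pow_atTop_nhds_zero_of_lt_one (norm_nonneg _) (np_lt p C)).comp
      (tendsto_add_atTop_nat 1))).max tendsto_const_nhds
  have := ge_of_tendsto' h0 key
  rwa [max_eq_right (le_max_of_le_left (norm_nonneg _))] at this

theorem coeff_eq_zero_iff (n : ℕ) (x : Ot p C) :
    PreTilt.coeff n x = 0 ↔ ‖sh0 x‖ ≤ ‖(p : C)‖ ^ p ^ n := by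
  have := coeff_eq_iff n x 0
  rw [map_zero] at this
  rw [this, ← sh0_rt0 n x, norm_pow, ZeroMemClass.coe_zero, sub_zero,
    pow_le_pow_iff_left₀ (norm_nonneg _) (norm_nonneg _)
      (pow_ne_zero _ (Fact.out : p.Prime).ne_zero)]

theorem sh0_zero : sh0 (0 : Ot p C) = 0 :=
  eq_zero_of_le_pow p fun n => ((coeff_eq_zero_iff n 0).1 (map_zero _)).trans
    (pow_le_pow_of_le_one (norm_nonneg _) (np_lt p C).le
      (Nat.lt_pow_self (Fact.out : p.Prime).one_lt).le)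

theorem sh0_eq_zero {x : Ot p C} : sh0 x = 0 ↔ x = 0 :=
  ⟨fun h => ext0 fun n => by
    rw [map_zero, coeff_eq_zero_iff, h, norm_zero]; positivity, fun h => h ▸ sh0_zero⟩

instance : IsDomain (Ot p C) := by
  have : NoZeroDivisors (Ot p C) := ⟨fun {a b} h => by
    rw [← sh0_eq_zero, map_mul, mul_eq_zero, sh0_eq_zero, sh0_eq_zero] at h; exact h⟩
  have : Nontrivial (Ot p C) := ⟨0, 1, fun h => by
    have := congrArg sh0 h
    rw [sh0_zero, map_one] at this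
    exact zero_ne_one this⟩
  exact NoZeroDivisors.to_isDomain _

theorem ext_sh0 {x y : Ot p C} (h : ∀ n, sh0 (rt0 n x) = sh0 (rt0 n y)) : x = y :=
  ext0 fun n => by
    have h1 := coeff_rt0 n 0 y
    rw [zero_add] at h1
    rw [← h1, ← PreTilt.mk_untilt_eq_coeff_zero, coeff_eq_iff, h, sh0_def, sub_self, norm_zero]
    exact norm_nonneg _

/-- the element of the tilt given by a compatible system -/
noncomputable def ofT (e : Tt p C) : Ot p C :=
  ⟨fun n => Ideal.Quotient.mk (span {(p : Oc C)}) ⟨e.1 (-n), (e.2 _).1⟩, fun n => by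
    rw [← map_pow]
    congr 1
    apply Subtype.ext
    show e.1 (-((n + 1 : ℕ) : ℤ)) ^ p = e.1 (-n)
    rw [(e.2 _).2]
    exact congrArg e.1 (by push_cast; ring)⟩

theorem coeff_ofT (e : Tt p C) (n : ℕ) : PreTilt.coeff n (ofT e) =
    Ideal.Quotient.mk (span {(p : Oc C)}) ⟨e.1 (-n), (e.2 _).1⟩ := rfl

theorem sh0_ofT (e : Tt p C) (n : ℕ) : sh0 (rt0 n (ofT e)) = e.1 (-n) := by
  refine sub_eq_zero.1 (eq_zero_of_le_pow p fun k => ?_)
  have h1 := pow_close (sh0_le _) (e.2 _).1 ((coeff_eq_iff (n + k) _ _).1 (coeff_ofT e (n + k))) k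
  rw [← map_pow, rt0_add, Tt_pow e.2] at h1
  have h2 : -((n + k : ℕ) : ℤ) + k = -n := by push_cast; ring
  rw [h2] at h1
  exact h1.trans (pow_le_pow_of_le_one (norm_nonneg _) (np_lt p C).le (Nat.le_succ k))

theorem sh0_ofT0 (e : Tt p C) : sh0 (ofT e) = e.1 0 := by
  have := sh0_ofT e 0
  rwa [rt0_zero] at this

theorem ofT_mul (e e' : Tt p C) : ofT (e * e') = ofT e * ofT e' :=
  ext_sh0 fun n => by rw [map_mul, map_mul, sh0_ofT, sh0_ofT, sh0_ofT]; rfl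

theorem ofT_one : ofT (1 : Tt p C) = 1 :=
  ext_sh0 fun n => by rw [map_one, map_one, sh0_ofT]; rfl

/-- a one sided system extends to a two sided one -/
theorem exists_of_seq (a : ℕ → C) (h1 : ∀ n, ‖a n‖ ≤ 1) (h2 : ∀ n, a (n + 1) ^ p = a n) :
    ∃ x : Ot p C, ∀ n, sh0 (rt0 n x) = a n := by
  let e : ℤ → C := fun i => if i ≤ 0 then a (-i).toNat else a 0 ^ p ^ i.toNat
  have he : e ∈ Tt p C := by
    intro i
    refine ⟨?_, ?_⟩
    · by_cases h : i ≤ 0
      · simp only [e, if_pos h]; exact h1 _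
      · simp only [e, if_neg h, norm_pow]; exact pow_le_one₀ (norm_nonneg _) (h1 0)
    · rcases lt_trichotomy i 0 with h | h | h
      · have h3 : (-i).toNat = (-(i + 1)).toNat + 1 := by omega
        simp only [e, if_pos h.le, if_pos (show i + 1 ≤ 0 by omega)]
        rw [h3, h2]
      · subst h; simp [e]
      · have h3 : (i + 1).toNat = i.toNat + 1 := by omega
        simp only [e, if_neg (not_le.2 h), if_neg (show ¬ i + 1 ≤ 0 by omega)]
        rw [h3, pow_succ, pow_mul]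
  refine ⟨ofT ⟨e, he⟩, fun n => ?_⟩
  rw [sh0_ofT]
  simp [e]

theorem dvd_of_le {x y : Ot p C} (h : ‖sh0 x‖ ≤ ‖sh0 y‖) : y ∣ x := by
  by_cases hy : y = 0
  · subst hy
    rw [sh0_zero, norm_zero, norm_le_zero_iff, sh0_eq_zero] at h
    rw [h]
  have hn : ∀ n, sh0 (rt0 n y) ≠ 0 := fun n h0 => hy (by
    rw [← sh0_eq_zero, ← sh0_rt0 n, h0, zero_pow (pow_ne_zero _ (Fact.out : p.Prime).ne_zero)])
  obtain ⟨z, hz⟩ := exists_of_seq (p := p) (fun n => sh0 (rt0 n x) / sh0 (rt0 n y)) (fun n => by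
    rw [norm_div, div_le_one (norm_pos_iff.2 (hn n)), ← pow_le_pow_iff_left₀ (norm_nonneg _)
      (norm_nonneg _) (pow_ne_zero n (Fact.out : p.Prime).ne_zero), ← norm_pow, ← norm_pow,
      sh0_rt0, sh0_rt0]
    exact h) (fun n => by
    have h1 := rt0_add n 1 x
    have h2 := rt0_add n 1 y
    rw [pow_one] at h1 h2
    rw [div_pow, ← map_pow sh0, ← map_pow sh0, h1, h2])
  refine ⟨z, ext_sh0 fun n => ?_⟩
  rw [map_mul, map_mul, hz, mul_div_cancel₀ _ (hn n)]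

theorem sh0_surj [IsAlgClosed C] {a : C} (ha : ‖a‖ ≤ 1) : ∃ x : Ot p C, sh0 x = a := by
  have hr : ∀ b : C, ∃ c : C, c ^ p = b := fun b =>
    IsAlgClosed.exists_pow_nat_eq b (Fact.out : p.Prime).pos
  choose r hr using hr
  obtain ⟨x, hx⟩ := exists_of_seq (p := p) (fun n => r^[n] a) (fun n => by
    induction n with
    | zero => exact ha
    | succ n ih =>
      rw [Function.iterate_succ_apply', ← pow_le_one_iff_of_nonneg (norm_nonneg _)
        (Fact.out : p.Prime).ne_zero, ← norm_pow, hr]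
      exact ih) (fun n => by rw [Function.iterate_succ_apply', hr])
  exact ⟨x, by simpa [rt0_zero] using hx 0⟩

/-- Galois action on the valuation ring -/
def galO (s : Iso C) : Oc C →+* Oc C :=
  ((s.1 : C →+* C).comp (Oc C).subtype).codRestrict _ fun x => (s.2 x).trans_le x.2

theorem galO_coe (s : Iso C) (x : Oc C) : (galO s x : C) = s.1 x := rfl

/-- Galois action on the tilt -/
noncomputable def gal0 (s : Iso C) : Ot p C →+* Ot p C :=
  Perfection.map p (Ideal.quotientMap (span {(p : Oc C)}) (galO s) (by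
    rw [span_le, Set.singleton_subset_iff, SetLike.mem_coe, Ideal.mem_comap, map_natCast]
    exact mem_span_singleton_self _))

theorem coeff_gal0 (s : Iso C) (x : Ot p C) (n : ℕ) (a : Oc C)
    (h : PreTilt.coeff n x = Ideal.Quotient.mk _ a) :
    PreTilt.coeff n (gal0 s x) = Ideal.Quotient.mk _ (galO s a) := by
  refine (Perfection.coeff_map p _ x n).trans ?_
  rw [← PreTilt.coeff_def, h]
  exact Ideal.quotientMap_mk

theorem gal0_rt0 (s : Iso C) (n : ℕ) (x : Ot p C) : gal0 s (rt0 n x) = rt0 n (gal0 s x) :=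
  pow_inj0 n (by rw [← map_pow, rt0_pow, rt0_pow])

theorem sh0_gal0 (s : Iso C) (x : Ot p C) : sh0 (gal0 s x) = s.1 (sh0 x) := by
  refine sub_eq_zero.1 (eq_zero_of_le_pow p fun k => ?_)
  have h0 : PreTilt.coeff k x = Ideal.Quotient.mk _ (PreTilt.untilt (rt0 k x)) := by
    rw [PreTilt.mk_untilt_eq_coeff_zero, coeff_rt0, zero_add]
  have h1 := pow_close (sh0_le _) (galO s _).2
    ((coeff_eq_iff k _ _).1 (coeff_gal0 s x k _ h0)) k
  rw [sh0_rt0, galO_coe, ← map_pow, ← sh0_def, sh0_rt0] at h1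
  exact h1.trans (pow_le_pow_of_le_one (norm_nonneg _) (np_lt p C).le (Nat.le_succ k))

/-- completeness -/
theorem exists_lim0 (f : ℕ → Ot p C)
    (h : ∀ n : ℕ, ∃ N, ∀ a ≥ N, ∀ b ≥ N, ‖sh0 (f a - f b)‖ ≤ ‖(p : C)‖ ^ p ^ n) :
    ∃ x : Ot p C, ∀ n : ℕ, ∃ N, ∀ a ≥ N, ‖sh0 (f a - x)‖ ≤ ‖(p : C)‖ ^ p ^ n := by
  choose N hN using h
  have h1 : ∀ n, ∀ a ≥ N n, PreTilt.coeff n (f a) = PreTilt.coeff n (f (N n)) := fun n a ha => by
    rw [← sub_eq_zero, ← map_sub, coeff_eq_zero_iff]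
    exact hN n a ha _ le_rfl
  obtain ⟨x, hx⟩ : ∃ x : Ot p C, ∀ n, PreTilt.coeff n x = PreTilt.coeff n (f (N n)) := by
    refine ⟨⟨fun n => PreTilt.coeff n (f (N n)), fun n => ?_⟩, fun _ => rfl⟩
    show PreTilt.coeff (n + 1) (f (N (n + 1))) ^ p = PreTilt.coeff n (f (N n))
    rw [← h1 (n + 1) _ (le_max_left _ (N n)), ← h1 n _ (le_max_right (N (n + 1)) (N n)),
      PreTilt.coeff_pow_p]
  refine ⟨x, fun n => ⟨N n, fun a ha => ?_⟩⟩
  rw [← coeff_eq_zero_iff, map_sub, sub_eq_zero, h1 n a ha, hx]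

end Vale.Agent.P022K.WB
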