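import Vale.Agent.P022K.WB.Fl0

/-!
# The tilt `Fl p C` as a complete normed field
-/

set_option linter.unusedSectionVars false

namespace Vale.Agent.P022K.WB

open Ideal Filter Topology

variable (p : ℕ) [Fact p.Prime] (C : Type) [NontriviallyNormedField C] [IsUltrametricDist C]
  [CharZero C] [hp : Fact (‖(p : C)‖ < 1)] [CompleteSpace C]

theorem nsubm {E : Type*} [SeminormedAddCommGroup E] [IsUltrametricDist E] (x y : E) :
    ‖x - y‖ ≤ max ‖x‖ ‖y‖ := by
  have := IsUltrametricDist.norm_add_le_max x (-y)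
  rwa [norm_neg, ← sub_eq_add_neg] at this

theorem nadd_le {E : Type*} [SeminormedAddCommGroup E] [IsUltrametricDist E] {x y : E} {r : ℝ}
    (hx : ‖x‖ ≤ r) (hy : ‖y‖ ≤ r) : ‖x + y‖ ≤ r :=
  (IsUltrametricDist.norm_add_le_max x y).trans (max_le hx hy)

theorem nsub_le {E : Type*} [SeminormedAddCommGroup E] [IsUltrametricDist E] {x y : E} {r : ℝ}
    (hx : ‖x‖ ≤ r) (hy : ‖y‖ ≤ r) : ‖x - y‖ ≤ r := (nsubm x y).trans (max_le hx hy)

theorem ntri {E : Type*} [SeminormedAddCommGroup E] [IsUltrametricDist E] {x y z : E} {r : ℝ}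
    (h1 : ‖x - y‖ ≤ r) (h2 : ‖y - z‖ ≤ r) : ‖x - z‖ ≤ r := by
  have := nadd_le h1 h2
  rwa [sub_add_sub_cancel] at this

/-- the tilt -/
def Fl : Type := FractionRing (Ot p C)

namespace Fl

noncomputable instance field : Field (Fl p C) := inferInstanceAs (Field (FractionRing (Ot p C)))

noncomputable instance alg : Algebra (Ot p C) (Fl p C) :=
  inferInstanceAs (Algebra (Ot p C) (FractionRing (Ot p C)))

instance frac : IsFractionRing (Ot p C) (Fl p C) :=
  inferInstanceAs (IsFractionRing (Ot p C) (FractionRing (Ot p C)))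

instance charP : CharP (Fl p C) p :=
  charP_of_injective_algebraMap (IsFractionRing.injective (Ot p C) (Fl p C)) p

variable {p C}

/-- the inclusion of the ring of integers -/
noncomputable def io : Ot p C →+* Fl p C := algebraMap _ _

theorem io_inj : Function.Injective (io : Ot p C → Fl p C) := IsFractionRing.injective _ _

theorem exists_div (x : Fl p C) : ∃ a b : Ot p C, b ≠ 0 ∧ x = io a / io b := by
  obtain ⟨a, b, hb, h⟩ := IsFractionRing.div_surjective (A := Ot p C) x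
  exact ⟨a, b, nonZeroDivisors.ne_zero hb, h.symm⟩

theorem io_ne {b : Ot p C} (hb : b ≠ 0) : io b ≠ 0 := fun h => hb (io_inj (by rw [h, map_zero]))

instance perfect : PerfectRing (Fl p C) p := ⟨⟨(frobenius (Fl p C) p).injective, fun x => by
  obtain ⟨a, b, hb, rfl⟩ := exists_div x
  refine ⟨io (rt0 1 a) / io (rt0 1 b), ?_⟩
  have h1 := rt0_pow 1 a
  have h2 := rt0_pow 1 b
  rw [pow_one] at h1 h2
  show (io (rt0 1 a) / io (rt0 1 b)) ^ p = _
  rw [div_pow, ← map_pow io, ← map_pow io, h1, h2]⟩⟩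

/-- the untilt map as a monoid homomorphism -/
noncomputable def sh1 : Fl p C →* C :=
  (IsLocalization.toLocalizationMap (nonZeroDivisors (Ot p C)) (Fl p C)).lift (g := sh0)
    fun y => isUnit_iff_ne_zero.2 fun h => nonZeroDivisors.ne_zero y.2 (sh0_eq_zero.1 h)

theorem sh1_io (x : Ot p C) : sh1 (io x) = sh0 x :=
  Submonoid.LocalizationMap.lift_eq
    (IsLocalization.toLocalizationMap (nonZeroDivisors (Ot p C)) (Fl p C)) _ x

/-- the untilt map -/
noncomputable def sharp : Fl p C →*₀ C :=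
  { sh1 with
    map_zero' := by
      have := sh1_io (0 : Ot p C)
      rw [map_zero, sh0_zero] at this
      exact this }

theorem sharp_io (x : Ot p C) : sharp (io x) = sh0 x := sh1_io x

theorem ultra0 (x y : Fl p C) : ‖sharp (x + y)‖ ≤ max ‖sharp x‖ ‖sharp y‖ := by
  obtain ⟨a, b, hb, rfl⟩ := exists_div x
  obtain ⟨c, d, hd, rfl⟩ := exists_div y
  have h1 : io a / io b = io (a * d) / io (b * d) := by
    rw [map_mul, map_mul, mul_div_mul_right _ _ (io_ne hd)]
  have h2 : io c / io d = io (b * c) / io (b * d) := by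
    rw [map_mul, map_mul, mul_div_mul_left _ _ (io_ne hb)]
  rw [h1, h2, ← add_div, ← map_add]
  simp only [map_div₀, norm_div, sharp_io]
  rw [max_div_div_right (norm_nonneg _)]
  exact div_le_div_of_nonneg_right (sh0_ultra _ _) (norm_nonneg _)

variable (p C) in
/-- the absolute value -/
noncomputable def abv : AbsoluteValue (Fl p C) ℝ where
  toFun x := ‖sharp x‖
  map_mul' x y := by rw [map_mul, norm_mul]
  nonneg' x := norm_nonneg _
  eq_zero' x := by rw [norm_eq_zero, map_eq_zero]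
  add_le' x y := (ultra0 x y).trans (max_le_add_of_nonneg (norm_nonneg _) (norm_nonneg _))

variable [IsAlgClosed C]

theorem sharp_surj (a : C) : ∃ x : Fl p C, sharp x = a := by
  rcases le_total ‖a‖ 1 with h | h
  · obtain ⟨x, hx⟩ := sh0_surj (p := p) h
    exact ⟨io x, by rw [sharp_io, hx]⟩
  · obtain ⟨x, hx⟩ := sh0_surj (p := p) (a := a⁻¹) (by
      rw [norm_inv]; exact inv_le_one_of_one_le₀ h)
    exact ⟨(io x)⁻¹, by rw [map_inv₀, sharp_io, hx, inv_inv]⟩

noncomputable instance normed : NontriviallyNormedField (Fl p C) :=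
  { (abv p C).toNormedField with
    non_trivial := by
      obtain ⟨a, ha⟩ := NontriviallyNormedField.non_trivial (α := C)
      obtain ⟨x, hx⟩ := sharp_surj (p := p) a
      exact ⟨x, by rw [← hx] at ha; exact ha⟩ }

theorem norm_sharp (x : Fl p C) : ‖sharp x‖ = ‖x‖ := rfl

instance ultra : IsUltrametricDist (Fl p C) :=
  IsUltrametricDist.isUltrametricDist_of_isNonarchimedean_norm ultra0

theorem norm_io (x : Ot p C) : ‖io x‖ = ‖sh0 x‖ := by rw [← norm_sharp, sharp_io]

theorem norm_io_le (x : Ot p C) : ‖io x‖ ≤ 1 := (norm_io x).trans_le (sh0_le x)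

theorem exists_io {x : Fl p C} (h : ‖x‖ ≤ 1) : ∃ y, io y = x := by
  obtain ⟨a, b, hb, rfl⟩ := exists_div x
  rw [norm_div, div_le_one (norm_pos_iff.2 (io_ne hb)), norm_io, norm_io] at h
  obtain ⟨c, rfl⟩ := dvd_of_le h
  exact ⟨c, by rw [map_mul, mul_div_cancel_left₀ _ (io_ne hb)]⟩

/-- the `p ^ n`-th root -/
noncomputable def rt (n : ℕ) : Fl p C →+* Fl p C := (iterateFrobeniusEquiv (Fl p C) p n).symm

theorem rt_pow (n : ℕ) (x : Fl p C) : rt n x ^ p ^ n = x :=
  (iterateFrobeniusEquiv (Fl p C) p n).apply_symm_apply x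

theorem pow_inj (n : ℕ) {x y : Fl p C} (h : x ^ p ^ n = y ^ p ^ n) : x = y :=
  (iterateFrobeniusEquiv (Fl p C) p n).injective h

theorem rt_pow' (n : ℕ) (x : Fl p C) : rt n (x ^ p ^ n) = x := by rw [map_pow, rt_pow]

theorem rt_zero (x : Fl p C) : rt 0 x = x := by simpa using rt_pow 0 x

theorem rt_add (n k : ℕ) (x : Fl p C) : rt (n + k) x ^ p ^ k = rt n x :=
  pow_inj n (by rw [← pow_mul, ← pow_add, add_comm k n, rt_pow, rt_pow])

theorem rt_rt (n k : ℕ) (x : Fl p C) : rt k (rt n x) = rt (n + k) x := by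
  rw [← rt_add n k x, rt_pow']

theorem rt_io (n : ℕ) (x : Ot p C) : rt n (io x) = io (rt0 n x) :=
  pow_inj n (by rw [rt_pow, ← map_pow io, rt0_pow])

theorem norm_rt (n : ℕ) (x : Fl p C) : ‖rt n x‖ ^ p ^ n = ‖x‖ := by rw [← norm_pow, rt_pow]

theorem norm_rt_le {n : ℕ} {x : Fl p C} {r : ℝ} (hr : 0 ≤ r) : ‖rt n x‖ ≤ r ↔ ‖x‖ ≤ r ^ p ^ n := by
  rw [← norm_rt n x, pow_le_pow_iff_left₀ (norm_nonneg _) hr
    (pow_ne_zero _ (Fact.out : p.Prime).ne_zero)]

theorem norm_rt_le_one {n : ℕ} {x : Fl p C} (h : ‖x‖ ≤ 1) : ‖rt n x‖ ≤ 1 :=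
  (norm_rt_le zero_le_one).2 (by rwa [one_pow])

theorem sharp_rt (n : ℕ) (x : Fl p C) : sharp (rt n x) ^ p ^ n = sharp x := by
  rw [← map_pow, rt_pow]

theorem sharp_add {x y : Fl p C} (hx : ‖x‖ ≤ 1) (hy : ‖y‖ ≤ 1) :
    ‖sharp (x + y) - (sharp x + sharp y)‖ ≤ ‖(p : C)‖ := by
  obtain ⟨a, rfl⟩ := exists_io hx
  obtain ⟨b, rfl⟩ := exists_io hy
  rw [← map_add, sharp_io, sharp_io, sharp_io]
  exact sh0_add a b

theorem sharp_add_lim {x y : Fl p C} (hx : ‖x‖ ≤ 1) (hy : ‖y‖ ≤ 1) (n : ℕ) :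
    ‖sharp (x + y) - (sharp (rt n x) + sharp (rt n y)) ^ p ^ n‖ ≤ ‖(p : C)‖ ^ (n + 1) := by
  obtain ⟨a, rfl⟩ := exists_io hx
  obtain ⟨b, rfl⟩ := exists_io hy
  rw [← map_add, rt_io, rt_io, sharp_io, sharp_io, sharp_io]
  exact sh0_add_lim a b n

theorem sharp_sub {x y : Fl p C} (hx : ‖x‖ ≤ 1) (hy : ‖y‖ ≤ 1) :
    ‖sharp (x - y) - (sharp x - sharp y)‖ ≤ ‖(p : C)‖ := by
  have h := sharp_add (x := x - y) (y := y)
    ((nsubm x y).trans (max_le hx hy)) hy
  rw [sub_add_cancel, ← norm_neg] at h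
  refine le_of_eq_of_le (congrArg _ ?_) h
  ring

theorem sharp_close {x y : Fl p C} (hx : ‖x‖ ≤ 1) (hy : ‖y‖ ≤ 1) {δ : ℝ} (hδ : ‖(p : C)‖ ≤ δ) :
    ‖sharp x - sharp y‖ ≤ δ ↔ ‖x - y‖ ≤ δ := by
  have h := (sharp_sub hx hy).trans hδ
  rw [← norm_sharp (x - y)]
  constructor
  · intro h1
    have := IsUltrametricDist.norm_add_le_max (sharp (x - y) - (sharp x - sharp y))
      (sharp x - sharp y)
    rw [sub_add_cancel] at this
    exact this.trans (max_le h h1)
  · intro h1
    have := nsubm (sharp (x - y))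
      (sharp (x - y) - (sharp x - sharp y))
    rw [sub_sub_cancel] at this
    exact this.trans (max_le h1 h)

theorem ext_sharp {x y : Fl p C} (h : ∀ n, sharp (rt n x) = sharp (rt n y)) : x = y := by
  obtain ⟨a, b, hb, rfl⟩ := exists_div x
  obtain ⟨c, d, hd, rfl⟩ := exists_div y
  rw [div_eq_div_iff (io_ne hb) (io_ne hd), ← map_mul, ← map_mul]
  congr 1
  refine ext_sh0 fun n => ?_
  have h1 := h n
  have hb' : sharp (rt n (io b)) ≠ 0 := by rw [map_ne_zero, map_ne_zero]; exact io_ne hb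
  have hd' : sharp (rt n (io d)) ≠ 0 := by rw [map_ne_zero, map_ne_zero]; exact io_ne hd
  rw [map_div₀, map_div₀, map_div₀, map_div₀, div_eq_div_iff hb' hd'] at h1
  simpa only [rt_io, sharp_io, map_mul] using h1

theorem tends_pp : Tendsto (fun n : ℕ => ‖(p : C)‖ ^ p ^ n) atTop (𝓝 0) :=
  (tendsto_pow_atTop_nhds_zero_of_lt_one (norm_nonneg _) (np_lt p C)).comp
    (tendsto_pow_atTop_atTop_of_one_lt (Fact.out : p.Prime).one_lt)

instance complete : CompleteSpace (Fl p C) := by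
  refine Metric.complete_of_cauchySeq_tendsto fun f hf => ?_
  obtain ⟨N, hN⟩ := Metric.cauchySeq_iff'.1 hf 1 one_pos
  have h1 : ∀ n, ∃ y, io y = f (n + N) - f N := fun n => exists_io (by
    rw [← dist_eq_norm]; exact (hN _ (Nat.le_add_left _ _)).le)
  choose g hg using h1
  obtain ⟨x, hx⟩ := exists_lim0 g fun n => by
    obtain ⟨M, hM⟩ := Metric.cauchySeq_iff.1 hf _ (pow_pos (np_pos p C) (p ^ n))
    refine ⟨M, fun a ha b hb => ?_⟩
    rw [← norm_io, map_sub, hg, hg, sub_sub_sub_cancel_right, ← dist_eq_norm]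
    exact (hM _ (ha.trans (Nat.le_add_right _ _)) _ (hb.trans (Nat.le_add_right _ _))).le
  refine ⟨io x + f N, (tendsto_add_atTop_iff_nat N).1 (Metric.tendsto_atTop.2 fun ε hε => ?_)⟩
  obtain ⟨n, hn⟩ := ((tends_pp (p := p) (C := C)).eventually (gt_mem_nhds hε)).exists
  obtain ⟨M, hM⟩ := hx n
  refine ⟨M, fun a ha => ?_⟩
  have := hM a ha
  rw [← norm_io, map_sub, hg] at this
  rw [dist_eq_norm]
  refine lt_of_le_of_lt (le_of_eq_of_le ?_ this) hn
  congr 1; ring

theorem gal0_inj (s : Iso C) : Function.Injective (gal0 s : Ot p C → Ot p C) :=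
  (injective_iff_map_eq_zero _).2 fun x h => by
    rw [← sh0_eq_zero, sh0_gal0, map_eq_zero] at h
    exact sh0_eq_zero.1 h

/-- Galois action -/
noncomputable def galF (s : Iso C) : Fl p C →+* Fl p C :=
  IsFractionRing.lift (g := io.comp (gal0 s)) (io_inj.comp (gal0_inj s))

theorem galF_io (s : Iso C) (x : Ot p C) : galF s (io x) = io (gal0 s x) :=
  IsFractionRing.lift_algebraMap _ x

theorem sharp_galF (s : Iso C) (x : Fl p C) : sharp (galF s x) = s.1 (sharp x) := by
  obtain ⟨a, b, _, rfl⟩ := exists_div x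
  simp only [map_div₀, galF_io, sharp_io, sh0_gal0]

theorem hom_rt (f : Fl p C →+* Fl p C) (n : ℕ) (x : Fl p C) : f (rt n x) = rt n (f x) :=
  pow_inj n (by rw [← map_pow, rt_pow, rt_pow])

theorem galF_mul (s t : Iso C) (x : Fl p C) : galF (s * t) x = galF s (galF t x) :=
  ext_sharp fun n => by simp only [← hom_rt, sharp_galF]; rfl

theorem galF_one (x : Fl p C) : galF 1 x = x :=
  ext_sharp fun n => by simp only [← hom_rt, sharp_galF]; rfl

variable (p C) in
/-- Galois action by isometric automorphisms -/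
noncomputable def galI : Iso C →* Iso (Fl p C) where
  toFun s := ⟨RingEquiv.ofRingHom (galF s) (galF s⁻¹)
      (RingHom.ext fun x => by rw [RingHom.comp_apply, ← galF_mul, mul_inv_cancel, galF_one]; rfl)
      (RingHom.ext fun x => by rw [RingHom.comp_apply, ← galF_mul, inv_mul_cancel, galF_one]; rfl),
    fun x => by
      show ‖sharp (galF s x)‖ = _
      rw [sharp_galF, s.2, norm_sharp]⟩
  map_one' := Subtype.ext (RingEquiv.ext galF_one)
  map_mul' s t := Subtype.ext (RingEquiv.ext (galF_mul s t))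

theorem galI_apply (s : Iso C) (x : Fl p C) : (galI p C s).1 x = galF s x := rfl

theorem sharp_galI (s : Iso C) (x : Fl p C) : sharp ((galI p C s).1 x) = s.1 (sharp x) :=
  sharp_galF s x

theorem galI_rt (s : Iso C) (n : ℕ) (x : Fl p C) :
    (galI p C s).1 (rt n x) = rt n ((galI p C s).1 x) := hom_rt (galF s) n x

/-- the element given by a compatible system -/
noncomputable def eT (e : Tt p C) : Fl p C := io (ofT e)

theorem sharp_rt_eT (e : Tt p C) (n : ℕ) : sharp (rt n (eT e)) = e.1 (-n) := by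
  rw [eT, rt_io, sharp_io, sh0_ofT]

theorem sharp_eT (e : Tt p C) : sharp (eT e) = e.1 0 := by rw [eT, sharp_io, sh0_ofT0]

theorem eT_mul (e e' : Tt p C) : eT (e * e') = eT e * eT e' := by rw [eT, ofT_mul, map_mul]; rfl

theorem eT_one : eT (1 : Tt p C) = 1 := by rw [eT, ofT_one, map_one]

theorem norm_eT (e : Tt p C) : ‖eT e‖ ≤ 1 := norm_io_le _

end Fl

end Vale.Agent.P022K.WB
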