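import Vale.Agent.P022K.WB.Hon

/-!
# P022K, block WB: from slices to honest functionals
-/

set_option autoImplicit false

noncomputable section

namespace Vale.Agent.P022K.WB.Hon

open Finset

variable {p : ℕ} [Fact p.Prime]

section zs

variable {A : Type*} [AddCommGroup A]

open Classical in
/-- the action of `ℤ_p` on `p`-power torsion -/
def zs (c : ℤ_[p]) (v : A) : A :=
  if h : ∃ N : ℕ, p ^ N • v = 0 then c.appr (Nat.find h) • v else 0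

theorem zs_eq (c : ℤ_[p]) {v : A} {N : ℕ} (h : p ^ N • v = 0) : zs c v = c.appr N • v := by
  classical
  have h' : ∃ N : ℕ, p ^ N • v = 0 := ⟨N, h⟩
  obtain ⟨d, hd⟩ := c.dvd_appr_sub_appr _ _ (Nat.find_min' h' h)
  rw [zs, dif_pos h', ← Nat.sub_add_cancel (c.appr_mono (Nat.find_min' h' h)), hd, add_smul,
    mul_comm, mul_smul, Nat.find_spec h', smul_zero, zero_add]

theorem map_zs {A' : Type*} [AddCommGroup A'] (f : A →+ A') (c : ℤ_[p]) {v : A} {N : ℕ}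
    (h : p ^ N • v = 0) : f (zs c v) = zs c (f v) := by
  rw [zs_eq c h, zs_eq c (N := N) (by rw [← map_nsmul, h, map_zero]), map_nsmul]

theorem zs_alg {O : Type*} [CommRing O] [Algebra ℤ_[p] O] [Module O A] (c : ℤ_[p]) {v : A} {N : ℕ}
    (h : p ^ N • v = 0) : zs c v = algebraMap ℤ_[p] O c • v := by
  obtain ⟨d, hd⟩ := Ideal.mem_span_singleton'.1 (c.appr_spec N)
  rw [zs_eq c h]
  conv_rhs => rw [← sub_add_cancel c (c.appr N), ← hd]
  rw [map_add, map_mul, map_pow, map_natCast, map_natCast, add_smul, mul_smul, ← Nat.cast_pow,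
    Nat.cast_smul_eq_nsmul, Nat.cast_smul_eq_nsmul, h, smul_zero, zero_add]

theorem dvd_appr (c : ℤ_[p]) (N : ℕ) : (p : ℤ_[p]) ^ N ∣ c - c.appr N :=
  Ideal.mem_span_singleton.1 (c.appr_spec N)

theorem zs_nat {c : ℤ_[p]} {y : A} {N n : ℕ} (h : p ^ N • y = 0)
    (e : (p : ℤ_[p]) ^ N ∣ c - n) : zs c y = n • y := by
  have h1 : (p : ℤ_[p]) ^ N ∣ (((c.appr N : ℤ) - n : ℤ) : ℤ_[p]) := by
    have := dvd_sub e (dvd_appr c N)
    push_cast
    convert this using 1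
    ring
  obtain ⟨d, hd⟩ := (PadicInt.pow_p_dvd_int_iff N _).1 h1
  rw [zs_eq c h, ← sub_eq_zero, ← natCast_zsmul, ← natCast_zsmul y n, ← sub_smul, hd, mul_comm,
    mul_smul, ← Nat.cast_pow, natCast_zsmul, h, smul_zero]

theorem zs_congr {c c' : ℤ_[p]} {y : A} {N : ℕ} (h : p ^ N • y = 0)
    (e : (p : ℤ_[p]) ^ N ∣ c - c') : zs c y = zs c' y := by
  rw [zs_eq c' h]
  refine zs_nat h ?_
  have := dvd_add e (dvd_appr c' N)
  rwa [sub_add_sub_cancel] at this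

theorem zs_mul (c c' : ℤ_[p]) {y : A} {N : ℕ} (h : p ^ N • y = 0) :
    zs (c * c') y = zs c (zs c' y) := by
  have h1 : p ^ N • c'.appr N • y = 0 := by rw [smul_comm, h, smul_zero]
  rw [zs_eq c' h, zs_eq c h1, ← mul_smul]
  refine zs_nat h ?_
  have := dvd_add ((dvd_appr c N).mul_right c') ((dvd_appr c' N).mul_left (c.appr N))
  push_cast
  convert this using 1
  ring

theorem zs_one {y : A} {N : ℕ} (h : p ^ N • y = 0) : zs (1 : ℤ_[p]) y = y := by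
  rw [zs_nat (n := 1) h (by simp), one_smul]

theorem sum_mul_range (f : ℕ → A) (m k : ℕ) :
    ∑ n ∈ range (m * k), f n = ∑ n ∈ range m, ∑ j ∈ range k, f (n + j * m) := by
  induction k with
  | zero => simp
  | succ k ih =>
    rw [Nat.mul_succ, sum_range_add, ih, ← sum_add_distrib]
    refine sum_congr rfl fun n _ => ?_
    rw [sum_range_succ, add_comm n, mul_comm k]

theorem sum_reidx (G : ℤ_[p] → A) (k : ℕ) (hG : ∀ a a', (p : ℤ_[p]) ^ k ∣ a - a' → G a = G a')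
    (c : ℤ_[p]ˣ) : ∑ n ∈ range (p ^ k), G (n * c) = ∑ n ∈ range (p ^ k), G n := by
  have : NeZero (p ^ k) := ⟨pow_ne_zero _ (Fact.out : p.Prime).ne_zero⟩
  have h1 : ∀ F : ℕ → A, ∑ n ∈ range (p ^ k), F n = ∑ x : ZMod (p ^ k), F x.val := fun F =>
    (sum_bij (fun x _ => x.val) (fun x _ => mem_range.2 x.val_lt)
      (fun x _ y _ e => ZMod.val_injective _ e)
      (fun n hn => ⟨n, mem_univ _, ZMod.val_cast_of_lt (mem_range.1 hn)⟩) fun _ _ => rfl).symm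
  rw [h1 fun n => G (n * c), h1 fun n => G n, ← Equiv.sum_comp
    (Units.mulRight (Units.map (PadicInt.toZModPow k : ℤ_[p] →+* _).toMonoidHom c))
    fun x : ZMod (p ^ k) => G x.val]
  refine sum_congr rfl fun x _ => hG _ _ ?_
  rw [← Ideal.mem_span_singleton, ← PadicInt.ker_toZModPow, RingHom.mem_ker]
  simp

end zs

open Classical in
/-- the unit attached to an element -/
def un (a : ℤ_[p]) : ℤ_[p]ˣ := if h : IsUnit a then h.unit else 1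

theorem un_val {a : ℤ_[p]} (h : IsUnit a) : (un a : ℤ_[p]) = a := by
  rw [un, dif_pos h, h.unit_spec]

theorem un_coe (u : ℤ_[p]ˣ) : un (u : ℤ_[p]) = u := Units.ext (un_val u.isUnit)

theorem unit_of {k : ℕ} (hk : 0 < k) {a : ℤ_[p]} {u : ℤ_[p]ˣ} (h : (p : ℤ_[p]) ^ k ∣ a - u) :
    IsUnit a := by
  by_contra e
  have h1 : a ∈ IsLocalRing.maximalIdeal ℤ_[p] := e
  have h2 : a - u ∈ IsLocalRing.maximalIdeal ℤ_[p] := by
    rw [PadicInt.maximalIdeal_eq_span_p, Ideal.mem_span_singleton]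
    exact (dvd_pow_self _ hk.ne').trans h
  have := sub_mem h1 h2
  rw [sub_sub_cancel] at this
  exact this u.isUnit

/-- `diag (u, 1)` -/
def Du : ℤ_[p]ˣ →* G2 p where
  toFun u := dd (uq u) 1
  map_one' := by rw [map_one, dd_one]
  map_mul' a b := by rw [map_mul, ← dd_mul, mul_one]

theorem Du_def (u : ℤ_[p]ˣ) : dd (uq u) 1 = Du u := rfl

theorem uq_val (u : ℤ_[p]ˣ) : ((uq u : ℚ_[p]ˣ) : ℚ_[p]) = ((u : ℤ_[p]) : ℚ_[p]) := rfl

theorem norm_u (u : ℤ_[p]ˣ) : ‖((u : ℤ_[p]) : ℚ_[p])‖ = 1 := PadicInt.isUnit_iff.1 u.isUnit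

theorem norm_of_dvd {k : ℕ} {a : ℤ_[p]} (h : (p : ℤ_[p]) ^ k ∣ a) :
    ‖(a : ℚ_[p])‖ ≤ ‖(p : ℚ_[p]) ^ k‖ := by
  obtain ⟨d, rfl⟩ := h
  push_cast
  rw [norm_mul]
  exact mul_le_of_le_one_right (norm_nonneg _) d.2

theorem Du_Kn {k : ℕ} {u : ℤ_[p]ˣ} (h : (p : ℤ_[p]) ^ k ∣ u - 1) : Du u ∈ Kn p k := by
  have h0 : 0 ≤ rad p k := (pow_pos pinv_pos k).le
  have h1 := norm_of_dvd h
  rw [norm_pow, Padic.norm_p] at h1
  refine ⟨fun i j => ?_, fun i j => ?_⟩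
  · rw [← Du_def]
    fin_cases i <;> fin_cases j <;> simp [h0]
    simpa [uq_val, rad] using h1
  · rw [← map_inv, ← Du_def]
    have := (norm_u u⁻¹).le
    fin_cases i <;> fin_cases j <;> simp
    simpa [← uq_val] using this

theorem Du_nn (u : ℤ_[p]ˣ) (b : ℚ_[p]) : Du u * nn b = nn (((u : ℤ_[p]) : ℚ_[p]) * b) * Du u := by
  rw [← Du_def, dd_nn]
  simp [uq_val]

theorem inv_dvd {k : ℕ} {u u' : ℤ_[p]ˣ} (h : (p : ℤ_[p]) ^ k ∣ u - u') :
    (p : ℤ_[p]) ^ k ∣ (u⁻¹ : ℤ_[p]ˣ) - (u'⁻¹ : ℤ_[p]ˣ) := by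
  have := h.mul_left (-((u⁻¹ : ℤ_[p]ˣ) * (u'⁻¹ : ℤ_[p]ˣ) : ℤ_[p]))
  convert this using 1
  have a := u.inv_mul
  have b := u'.inv_mul
  linear_combination (-((u⁻¹ : ℤ_[p]ˣ) : ℤ_[p])) * b + ((u'⁻¹ : ℤ_[p]ˣ) : ℤ_[p]) * a

theorem frob_abs {A : Type} [CommRing A] [IsDomain A] [CharP A p] (u : A →+* A) {q : ℕ}
    (hq : 0 < q) (y : A) (hy : y ^ p ^ q = y) : ∃ i : ℕ, u y = y ^ p ^ i := by
  classical
  have hP := (Fact.out : p.Prime)
  let K : Subring A := (iterateFrobenius A p q).eqLocus (RingHom.id A)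
  have mK : ∀ x, x ∈ K ↔ x ^ p ^ q = x := fun x => Iff.rfl
  have fK : Finite K := by
    have h1 : (Polynomial.X ^ p ^ q - Polynomial.X : Polynomial A) ≠ 0 := fun e => by
      have := congrArg (fun f => Polynomial.coeff f 1) e
      simp [Polynomial.coeff_X_pow, (Nat.one_lt_pow hq.ne' hP.one_lt).ne] at this
    refine ((Polynomial.X ^ p ^ q - Polynomial.X : Polynomial A).roots.toFinset.finite_toSet.subset
      fun x hx => ?_).to_subtype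
    simp [h1, (mK x).1 hx]
  let _ : Field K := Finite.isField_of_domain K |>.toField
  let _ : Algebra (ZMod p) K := ZMod.algebra K p
  let _ := Fintype.ofFinite K
  let v : K →+* K := u.restrict _ _ fun x hx => by rw [mK, ← map_pow, (mK x).1 hx]
  obtain ⟨i, hi⟩ := (FiniteField.bijective_frobeniusAlgHom_pow (ZMod p) K).2
    { v with commutes' := fun c => DFunLike.congr_fun (RingHom.ext_zmod (v.comp (algebraMap _ _))
      (algebraMap (ZMod p) K)) c }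
  have := DFunLike.congr_fun hi ⟨y, hy⟩
  simp only [AlgHom.coe_pow, FiniteField.coe_frobeniusAlgHom, pow_iterate, ZMod.card] at this
  exact ⟨i.val, (congrArg Subtype.val this).symm⟩

variable {C : Type} [NontriviallyNormedField C] [IsUltrametricDist C] [CharZero C]

omit [CharZero C] in
/-- every isometry acts on the roots of unity of order prime to `p` as a power of Frobenius -/
theorem exists_frob [IsAlgClosed C] [CharZero C] (hp : ‖(p : C)‖ < 1) (s : Iso C) {q : ℕ}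
    (hq : 0 < q) : ∃ i : ℕ, ∀ x : C, x ^ (p ^ q - 1) = 1 → s.1 x = x ^ p ^ i := by
  have hP := (Fact.out : p.Prime)
  have : NeZero (p ^ q - 1) := ⟨(N_pos hq).ne'⟩
  obtain ⟨z, hz⟩ := HasEnoughRootsOfUnity.exists_primitiveRoot C (p ^ q - 1)
  let I : Ideal (Oc C) :=
    { carrier := {x | ‖(x : C)‖ < 1}
      add_mem' := fun {a b} ha hb =>
        (IsUltrametricDist.norm_add_le_max (a : C) b).trans_lt (max_lt ha hb)
      zero_mem' := by simp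
      smul_mem' := fun c x hx => by
        show ‖(c : C) * x‖ < 1
        rw [norm_mul]
        exact mul_lt_one_of_nonneg_of_lt_one_right c.2 (norm_nonneg _) hx }
  have hI : I.IsPrime := ⟨fun e => by
    have : (1 : Oc C) ∈ I := e ▸ trivial
    exact lt_irrefl (1 : ℝ) (by simpa using show ‖((1 : Oc C) : C)‖ < 1 from this),
    fun {a b} h => by
      by_contra e
      rw [not_or] at e
      have h1 : ‖(a : C)‖ = 1 := le_antisymm a.2 (not_lt.1 e.1)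
      have h2 : ‖(b : C)‖ = 1 := le_antisymm b.2 (not_lt.1 e.2)
      have h3 : ‖(a : C) * b‖ < 1 := h
      rw [norm_mul, h1, h2, mul_one] at h3
      exact lt_irrefl _ h3⟩
  let A := Oc C ⧸ I
  have hA : CharP A p := (CharP.charP_iff_prime_eq_zero hP).2 (by
    rw [← map_natCast (Ideal.Quotient.mk I), Ideal.Quotient.eq_zero_iff_mem]
    show ‖((p : Oc C) : C)‖ < 1
    simpa using hp)
  let t : Oc C →+* Oc C := (s.1 : C →+* C).restrict _ _ fun x hx => (s.2 x).trans_le hx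
  let u : A →+* A := Ideal.quotientMap I t fun x hx => (s.2 x).trans_lt hx
  have nz : ‖z‖ = 1 := norm_root hq hz.pow_eq_one
  obtain ⟨i, h1⟩ := frob_abs (p := p) u hq (Ideal.Quotient.mk I ⟨z, nz.le⟩) (by
    rw [← map_pow]
    exact congrArg _ (Subtype.ext (pw_q hz.pow_eq_one)))
  have h2 : ‖z ^ p ^ i - s.1 z‖ < 1 := by
    have h3 : Ideal.Quotient.mk I (⟨z, nz.le⟩ ^ p ^ i) = Ideal.Quotient.mk I (t ⟨z, nz.le⟩) :=
      h1.symm
    exact Ideal.Quotient.eq.1 h3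
  have h4 : s.1 z = z ^ p ^ i := by
    by_contra e
    have r1 : s.1 z ^ (p ^ q - 1) = 1 := by rw [← map_pow, hz.pow_eq_one, map_one]
    have r2 : (z ^ p ^ i) ^ (p ^ q - 1) = 1 := by
      rw [← pow_mul, mul_comm, pow_mul, hz.pow_eq_one, one_pow]
    have r3 := geom_sum₂_mul (z ^ p ^ i) (s.1 z) (p ^ q)
    rw [pw_q r1, pw_q r2] at r3
    have r4 := mul_right_cancel₀ (sub_ne_zero.2 (Ne.symm e)) (r3.trans (one_mul _).symm)
    have r5 : ∀ a b : Oc C, Ideal.Quotient.mk I a = Ideal.Quotient.mk I b →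
        Ideal.Quotient.mk I (∑ j ∈ range (p ^ q), a ^ j * b ^ (p ^ q - 1 - j)) = 0 := by
      intro a b h
      simp only [map_sum, map_mul, map_pow, h]
      rw [geom_sum₂_self, Nat.cast_pow, CharP.cast_eq_zero A p, zero_pow hq.ne', zero_mul]
    have r6 := r5 ⟨_, (norm_root hq r2).le⟩ ⟨_, (norm_root hq r1).le⟩ (Ideal.Quotient.eq.2 h2)
    rw [Ideal.Quotient.eq_zero_iff_mem] at r6
    have r7 : ‖((∑ j ∈ range (p ^ q), (⟨_, (norm_root hq r2).le⟩ : Oc C) ^ j *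
      (⟨_, (norm_root hq r1).le⟩ : Oc C) ^ (p ^ q - 1 - j) : Oc C) : C)‖ < 1 := r6
    push_cast at r7
    rw [r4, norm_one] at r7
    exact lt_irrefl _ r7
  refine ⟨i, fun x hx => ?_⟩
  obtain ⟨k, -, rfl⟩ := hz.eq_pow_of_pow_eq_one hx
  rw [map_pow, h4, ← pow_mul, ← pow_mul, mul_comm]

variable {ψ : ℚ_[p] → C} {Γ : Type} [Group Γ] {act : Γ →* Iso C} {χ : Γ →* ℤ_[p]ˣ}
  {R M : Type*} [CommRing R] [AddCommGroup M] [Module R M]

/-- **slices** at one basin -/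
structure Sc (ok : Og ψ act χ) (ρ : Representation R (G2 p) M) (γ : Γ → M → M) (P : Submodule R M)
    (w : ℕ → ℚ_[p] → M →+ Y p C) : Prop where
  ref : ∀ k a, 0 < k → ‖a‖ = 1 → ∀ v ∈ P,
    w k a v = ∑ j ∈ range p, w (k + 1) (a + j * (p : ℚ_[p]) ^ k) v
  cong : ∀ k a a', ‖a - a'‖ ≤ ‖(p : ℚ_[p]) ^ k‖ → ∀ v ∈ P, w k a v = w k a' v
  n : ∀ (r : ℝ), ∀ v ∈ P, ∃ k0, ∀ k, k0 ≤ k → ∀ a b, ‖a‖ = 1 → ‖b‖ ≤ r →
    w k a (ρ (nn b) v) = ok.psi.n (a * b) (w k a v)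
  gal : ∀ k : ℕ, ∃ q, 0 < q ∧ ∀ s (i : ℕ),
    (∀ x : C, x ^ (p ^ q - 1) = 1 → (act s).1 x = x ^ p ^ i) → ∃ c : ℤ_[p]ˣ,
      (p : ℤ_[p]) ^ k ∣ c - 1 ∧ ∀ k' a, 0 < k' → ‖a‖ = 1 → ∀ v ∈ P, Y.gal (act s) (w k' a v) =
        zs (c : ℤ_[p]) ((Y.phi p C)^[i] (w k' (a / ((c : ℤ_[p]) : ℚ_[p]))
          (ρ ((tt p)⁻¹ ^ i * dd (uq (χ s * c)) 1) (γ s v))))

variable (ρ : Representation R (G2 p) M) (w : ℕ → ℚ_[p] → M →+ Y p C) (k0 : ℕ) (a0 : ℤ_[p]ˣ)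

open Classical in
/-- the integrand -/
def Gi (k : ℕ) (v : M) (a : ℤ_[p]) : Y p C :=
  if (p : ℤ_[p]) ^ k0 ∣ a - a0 then zs (((un a)⁻¹ : ℤ_[p]ˣ) : ℤ_[p]) (w k a (ρ (Du (un a)⁻¹) v))
  else 0

/-- the Riemann sums -/
def Si (k : ℕ) (v : M) : Y p C := ∑ n ∈ range (p ^ k), Gi ρ w k0 a0 k v n

/-- levels of a vector -/
structure Gd (k : ℕ) (v : M) : Prop where
  tor : p ^ k • v = 0
  fx : v ∈ Fx ρ (Kn p k)

variable {ρ w k0 a0} {ok : Og ψ act χ} {γ : Γ → M → M} {P : Submodule R M}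

theorem Gd.mono {k k' : ℕ} {v : M} (h : Gd ρ k v) (e : k ≤ k') : Gd ρ k' v :=
  ⟨by rw [← Nat.sub_add_cancel e, pow_add, mul_smul, h.tor, smul_zero], Fx_anti (Kn_anti e) h.fx⟩

theorem Gd.ex {v : M} (h : Sm ρ v) (t : ∃ k : ℕ, p ^ k • v = 0) (k1 : ℕ) :
    ∃ k, k1 ≤ k ∧ Gd ρ k v := by
  obtain ⟨a, ha⟩ := h
  obtain ⟨b, hb⟩ := t
  exact ⟨k1 + (a + b), by omega, by
    rw [← add_assoc, pow_add, mul_smul, hb, smul_zero], Fx_anti (Kn_anti (by omega)) ha⟩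

theorem tor_w {k : ℕ} {v : M} (h : p ^ k • v = 0) (f : M →+ Y p C) (g : G2 p) :
    p ^ k • f (ρ g v) = 0 := by rw [← map_nsmul, ← map_nsmul, h, map_zero, map_zero]

theorem Gd.du {k : ℕ} {v : M} (h : Gd ρ k v) {u u' : ℤ_[p]ˣ} (e : (p : ℤ_[p]) ^ k ∣ u - u') :
    ρ (Du u) v = ρ (Du u') v := by
  rw [← mul_inv_cancel_left u' u, map_mul, rho_mul, h.fx _ (Du_Kn ?_)]
  have := e.mul_left ((u'⁻¹ : ℤ_[p]ˣ) : ℤ_[p])
  rwa [mul_sub, u'.inv_mul] at this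

theorem Sc.lev (H : Sc ok ρ γ P w) (hP : Gs ρ P) (h0 : 0 < k0) {k : ℕ} (hk : k0 ≤ k) {v : M}
    (hv : v ∈ P) (h : Gd ρ k v) (a a' : ℤ_[p]) (e : (p : ℤ_[p]) ^ k ∣ a - a') :
    Gi ρ w k0 a0 k v a = Gi ρ w k0 a0 k v a' := by
  have e0 := (pow_dvd_pow _ hk).trans e
  by_cases c : (p : ℤ_[p]) ^ k0 ∣ a - a0
  · have c' : (p : ℤ_[p]) ^ k0 ∣ a' - a0 := by
      have := dvd_sub c e0
      rwa [sub_sub_sub_cancel_left] at this
    have e1 : (p : ℤ_[p]) ^ k ∣ un a - un a' := by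
      rwa [un_val (unit_of h0 c), un_val (unit_of h0 c')]
    rw [Gi, Gi, if_pos c, if_pos c', h.du (inv_dvd e1),
      H.cong k a a' (by exact_mod_cast norm_of_dvd e) _ (hP _ _ hv)]
    exact zs_congr (tor_w h.tor _ _) (inv_dvd e1)
  · rw [Gi, Gi, if_neg c, if_neg fun c' => c ?_]
    have := dvd_add e0 c'
    rwa [sub_add_sub_cancel] at this

theorem map_zs' {A B : Type*} [AddCommGroup A] [AddCommGroup B] (c : ℤ_[p]) {ι : Type*}
    (s : Finset ι) (f : ι → A) {N : ℕ} (h : ∀ i, p ^ N • f i = 0) :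
    zs c (∑ i ∈ s, f i) = ∑ i ∈ s, zs c (f i) := by
  rw [zs_eq c (N := N) (by rw [smul_sum]; exact sum_eq_zero fun i _ => h i), smul_sum]
  exact sum_congr rfl fun i _ => (zs_eq c (h i)).symm

theorem Sc.step (H : Sc ok ρ γ P w) (hP : Gs ρ P) (h0 : 0 < k0) {k : ℕ} (hk : k0 ≤ k) {v : M}
    (hv : v ∈ P) (h : Gd ρ k v) : Si ρ w k0 a0 (k + 1) v = Si ρ w k0 a0 k v := by
  rw [Si, pow_succ, sum_mul_range]
  refine sum_congr rfl fun n _ => ?_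
  have e : ∀ j : ℕ, (p : ℤ_[p]) ^ k ∣ ((n + j * p ^ k : ℕ) : ℤ_[p]) - n := fun j =>
    ⟨j, by push_cast; ring⟩
  by_cases c : (p : ℤ_[p]) ^ k0 ∣ (n : ℤ_[p]) - a0
  · have hu := unit_of h0 c
    rw [Gi, if_pos c, H.ref k _ (by omega) (PadicInt.isUnit_iff.1 hu) _ (hP _ _ hv),
      map_zs' (B := M) _ _ _ fun j => tor_w h.tor _ _]
    refine sum_congr rfl fun j _ => ?_
    have c' : (p : ℤ_[p]) ^ k0 ∣ ((n + j * p ^ k : ℕ) : ℤ_[p]) - a0 := by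
      have := dvd_add ((pow_dvd_pow _ hk).trans (e j)) c
      rwa [sub_add_sub_cancel] at this
    have e1 : (p : ℤ_[p]) ^ k ∣ un ((n + j * p ^ k : ℕ) : ℤ_[p]) - un (n : ℤ_[p]) := by
      rw [un_val (unit_of h0 c'), un_val hu]
      exact e j
    rw [Gi, if_pos c', h.du (inv_dvd e1), zs_congr (tor_w h.tor _ _) (inv_dvd e1)]
    push_cast
    rfl
  · rw [Gi, if_neg c]
    refine sum_eq_zero fun j _ => ?_
    rw [Gi, if_neg fun c' => c ?_]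
    have := dvd_sub c' ((pow_dvd_pow _ hk).trans (e j))
    rwa [sub_sub_sub_cancel_left] at this

theorem Sc.stab (H : Sc ok ρ γ P w) (hP : Gs ρ P) (h0 : 0 < k0) {k k' : ℕ} (hk : k0 ≤ k)
    (hk' : k0 ≤ k') {v : M} (hv : v ∈ P) (h : Gd ρ k v) (h' : Gd ρ k' v) :
    Si ρ w k0 a0 k v = Si ρ w k0 a0 k' v := by
  have : ∀ k, k0 ≤ k → Gd ρ k v → ∀ j, Si ρ w k0 a0 (k + j) v = Si ρ w k0 a0 k v := by
    intro k hk h j
    induction j with
    | zero => rfl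
    | succ j ih => rw [← add_assoc, H.step hP h0 (by omega) hv (h.mono (by omega)), ih]
  rw [← this k hk h k', ← this k' hk' h' k, add_comm]

theorem Si_add {k : ℕ} {v v' : M} (h : p ^ k • v = 0) (h' : p ^ k • v' = 0) :
    Si ρ w k0 a0 k (v + v') = Si ρ w k0 a0 k v + Si ρ w k0 a0 k v' := by
  rw [Si, Si, Si, ← sum_add_distrib]
  refine sum_congr rfl fun n _ => ?_
  unfold Gi
  split_ifs
  · rw [zs_eq _ (tor_w h _ _), zs_eq _ (tor_w h' _ _), zs_eq _ (N := k)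
      (tor_w (by rw [smul_add, h, h', add_zero]) _ _), map_add, map_add, smul_add]
  · simp

theorem ex_ext {A B : Type*} [AddCommGroup A] [AddCommGroup B] (f : A →+ B)
    (hf : Function.Injective f) (g : A →+ Y p C) : ∃ h : B →+ Y p C, ∀ a, h (f a) = g a := by
  let _ : DivisibleBy (Y p C) ℤ := divisibleByOfSMulRightSurj _ _ fun {n} hn y => by
    obtain ⟨l, rfl⟩ := Y.mk_surj y
    refine ⟨Y.mk p C fun i => l i / n, ?_⟩
    show n • _ = _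
    rw [← map_zsmul]
    congr 1; funext i
    have : (n : C) ≠ 0 := Int.cast_ne_zero.2 hn
    simp only [Pi.smul_apply, zsmul_eq_mul]
    field_simp
  obtain ⟨h, e⟩ := (Module.Baer.of_divisible (Y p C)).extension_property_addMonoidHom f hf g
  exact ⟨h, fun a => DFunLike.congr_fun e a⟩

theorem Sc.exW (H : Sc ok ρ γ P w) (hP : Gs ρ P) (sm : ∀ v ∈ P, Sm ρ v)
    (tor : ∀ v ∈ P, ∃ k : ℕ, p ^ k • v = 0) (h0 : 0 < k0) (a0 : ℤ_[p]ˣ) :
    ∃ W : M →+ Y p C, ∀ v ∈ P, ∀ k, k0 ≤ k → Gd ρ k v → W v = Si ρ w k0 a0 k v := by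
  choose κ h1 h2 using fun v : P => Gd.ex (sm v v.2) (tor v v.2) k0
  obtain ⟨W, hW⟩ := ex_ext P.subtype.toAddMonoidHom Subtype.val_injective
    (AddMonoidHom.mk' (fun v : P => Si ρ w k0 a0 (κ v) v) fun v v' => by
      set k := κ v + κ v' + κ (v + v')
      have a := (h2 v).mono (show κ v ≤ k by omega)
      have b := (h2 v').mono (show κ v' ≤ k by omega)
      have c : k0 ≤ k := by have := h1 v; omega
      rw [H.stab hP h0 (h1 _) c v.2 (h2 v) a, H.stab hP h0 (h1 _) c v'.2 (h2 v') b,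
        H.stab hP h0 (h1 _) c (v + v').2 (h2 _) ((h2 _).mono (by omega))]
      exact Si_add a.tor b.tor)
  exact ⟨W, fun v hv k hk h => (hW ⟨v, hv⟩).trans (H.stab hP h0 (h1 _) hk hv (h2 ⟨v, hv⟩) h)⟩

theorem tor_it {k : ℕ} {y : Y p C} (h : p ^ k • y = 0) (i : ℕ) : p ^ k • (Y.phi p C)^[i] y = 0 := by
  rw [ph_nat, ← map_nsmul, h, map_zero]

/-- the integrated functionals are periodic -/
theorem Sc.pg [IsAlgClosed C] (H : Sc ok ρ γ P w) (hP : Gs ρ P) (sm : ∀ v ∈ P, Sm ρ v)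
    (tor : ∀ v ∈ P, ∃ k : ℕ, p ^ k • v = 0) (hγ : ∀ s, ∀ v ∈ P, γ s v ∈ P)
    (com : ∀ s u, ∀ v ∈ P, γ s (ρ (Du u) v) = ρ (Du u) (γ s v)) (γ1 : ∀ v ∈ P, γ 1 v = v)
    (h0 : 0 < k0) {W : M →+ Y p C}
    (hW : ∀ v ∈ P, ∀ k, k0 ≤ k → Gd ρ k v → W v = Si ρ w k0 a0 k v) :
    ∃ q, 0 < q ∧ Pg ok ρ γ P q W := by
  obtain ⟨q, hq, hg⟩ := H.gal k0
  have key : ∀ s (i : ℕ), (∀ x : C, x ^ (p ^ q - 1) = 1 → (act s).1 x = x ^ p ^ i) → ∀ v ∈ P,
      Y.gal (act s) (W v) =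
        (Y.phi p C)^[i] (W (ρ ((tt p)⁻¹ ^ i * dd (uq (χ s)) 1) (γ s v))) := by
    intro s i hs v hv
    obtain ⟨c, c1, c2⟩ := hg s i hs
    set v' := ρ ((tt p)⁻¹ ^ i * dd (uq (χ s)) 1) (γ s v) with hv'
    have m' : v' ∈ P := hP _ _ (hγ s v hv)
    obtain ⟨k1, k2, k3⟩ := Gd.ex (sm v hv) (tor v hv) k0
    obtain ⟨k, k4, k5⟩ := Gd.ex (sm v' m') (tor v' m') k1
    have k6 := k3.mono k4
    have k7 := k2.trans k4
    rw [hW v hv k k7 k6, hW v' m' k k7 k5, ph_nat, Si, Si,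
      ← sum_reidx _ k (H.lev hP h0 k7 m' k5) c⁻¹, map_sum, map_sum]
    refine sum_congr rfl fun n _ => ?_
    have d1 : (p : ℤ_[p]) ^ k0 ∣ (n : ℤ_[p]) * (c⁻¹ : ℤ_[p]ˣ) - n := by
      have := (inv_dvd (u' := 1) c1).mul_left (n : ℤ_[p])
      rwa [inv_one, Units.val_one, mul_sub, mul_one] at this
    by_cases e : (p : ℤ_[p]) ^ k0 ∣ (n : ℤ_[p]) - a0
    · have e' : (p : ℤ_[p]) ^ k0 ∣ (n : ℤ_[p]) * (c⁻¹ : ℤ_[p]ˣ) - a0 := by
        have := dvd_add d1 e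
        rwa [sub_add_sub_cancel] at this
      have hu := unit_of h0 e
      have u1 : un ((n : ℤ_[p]) * ((c⁻¹ : ℤ_[p]ˣ) : ℤ_[p])) = un (n : ℤ_[p]) * c⁻¹ :=
        Units.ext (by rw [un_val (unit_of h0 e'), Units.val_mul, un_val hu])
      have u2 : ρ ((tt p)⁻¹ ^ i * dd (uq (χ s * c)) 1) (γ s (ρ (Du (un (n : ℤ_[p]))⁻¹) v)) =
          ρ (Du (un (n : ℤ_[p]) * c⁻¹)⁻¹) v' := by
        have hc : ∀ u, Commute ((tt p)⁻¹ ^ i) (Du u) := fun u =>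
          ((tt_dd _ _).inv_left).pow_left i
        have : (tt p)⁻¹ ^ i * Du (χ s * c) * Du (un (n : ℤ_[p]))⁻¹ =
            Du (un (n : ℤ_[p]) * c⁻¹)⁻¹ * ((tt p)⁻¹ ^ i * Du (χ s)) := by
          rw [← mul_assoc, ← (hc _).eq, mul_assoc, mul_assoc, ← map_mul, ← map_mul, mul_inv_rev,
            inv_inv, mul_assoc (χ s), mul_comm (χ s)]
        rw [com s _ v hv, hv', ← rho_mul, ← rho_mul, Du_def, Du_def, this]
      have u3 : ((n : ℤ_[p]) : ℚ_[p]) / ((c : ℤ_[p]) : ℚ_[p]) =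
          (((n : ℤ_[p]) * (c⁻¹ : ℤ_[p]ˣ) : ℤ_[p]) : ℚ_[p]) := by
        rw [PadicInt.coe_mul, ← uq_val, ← uq_val, map_inv, Units.val_inv_eq_inv_val, div_eq_mul_inv]
      rw [Gi, Gi, if_pos e, if_pos e', map_zs _ _ (tor_w k6.tor _ _),
        c2 k _ (by omega) (PadicInt.isUnit_iff.1 hu) _ (hP _ _ hv), u1, u2, u3,
        map_zs _ _ (tor_w k5.tor _ _), ← ph_nat, ← zs_mul _ _ (tor_it (tor_w k5.tor _ _) i),
        mul_inv_rev, inv_inv, Units.val_mul, mul_comm (c : ℤ_[p])]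
    · rw [Gi, Gi, if_neg e, if_neg fun e' => e ?_, map_zero, map_zero]
      have := dvd_sub e' d1
      rwa [sub_sub_sub_cancel_left] at this
  refine ⟨q, hq, fun b v hv => ?_, fun v hv => ?_, fun s => ?_⟩
  · have fin := (sm v hv).orbit
    have : ∀ z ∈ {z | ∃ g ∈ Kn p 0, ρ g v = z}, ∃ k1, ∀ k, k1 ≤ k → ∀ a b', ‖a‖ = 1 → ‖b'‖ ≤ ‖b‖ →
        w k a (ρ (nn b') z) = ok.psi.n (a * b') (w k a z) := by
      rintro _ ⟨g, -, rfl⟩
      exact H.n _ _ (hP _ _ hv)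
    choose! κ hκ using this
    obtain ⟨K, hK⟩ := (fin.image κ).bddAbove
    have m' := hP (nn b) v hv
    obtain ⟨k1, k2, k3⟩ := Gd.ex (sm v hv) (tor v hv) (k0 + K)
    obtain ⟨k, k4, k5⟩ := Gd.ex (sm _ m') (tor _ m') k1
    have k6 := k3.mono k4
    rw [hW v hv k (by omega) k6, hW _ m' k (by omega) k5, Si, Si, map_sum]
    refine sum_congr rfl fun n _ => ?_
    unfold Gi
    split_ifs with e
    · have hu := unit_of h0 e
      have m1 : ρ (Du (un (n : ℤ_[p]))⁻¹) v ∈ {z | ∃ g ∈ Kn p 0, ρ g v = z} :=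
        ⟨_, Du_Kn (by simp), rfl⟩
      rw [map_zs _ _ (tor_w k6.tor _ _), ← rho_mul, Du_nn, rho_mul,
        hκ _ m1 k ((hK ⟨_, m1, rfl⟩).trans (by omega)) _ _ (PadicInt.isUnit_iff.1 hu)
          (by rw [norm_mul, norm_u, one_mul]), ← mul_assoc, ← PadicInt.coe_mul]
      conv_lhs => enter [2, 1, 2, 1, 1, 1]; rw [← un_val hu]
      rw [Units.mul_inv, PadicInt.coe_one, one_mul]
    · rw [map_zero]
  · have := key 1 q (fun x hx => by rw [map_one, pw_q hx]; rfl) _ (hP (tt p ^ q) v hv)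
    rwa [map_one, Y.gal_one, map_one, map_one, dd_one, mul_one, γ1 _ (hP _ _ hv), inv_pow,
      rho_inv] at this
  · obtain ⟨i, hi⟩ := exists_frob ok.np (act s) hq
    exact ⟨i, hi, key s i hi⟩

/-- **from slices to honest functionals** -/
theorem Sc.inj [IsAlgClosed C] (H : Sc ok ρ γ P w) (hP : Gs ρ P) (sm : ∀ v ∈ P, Sm ρ v)
    (tor : ∀ v ∈ P, ∃ k : ℕ, p ^ k • v = 0) (hγ : ∀ s, ∀ v ∈ P, γ s v ∈ P)
    (com : ∀ s g, ∀ v ∈ P, γ s (ρ g v) = ρ g (γ s v)) (γ1 : ∀ v ∈ P, γ 1 v = v) {v : M}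
    (hv : v ∈ P) (h : ∀ W, Wg ok ρ γ P W → ∀ u, W (ρ (dd (uq u) 1) v) = 0) :
    ∃ k1, ∀ k, k1 ≤ k → ∀ a, ‖a‖ = 1 → w k a v = 0 := by
  obtain ⟨k1, k2, k3⟩ := Gd.ex (sm v hv) (tor v hv) 1
  refine ⟨k1, fun k hk a ha => ?_⟩
  obtain ⟨u, hu⟩ : ∃ u : ℤ_[p]ˣ, ((u : ℤ_[p]) : ℚ_[p]) = a := ⟨PadicInt.mkUnits ha, rfl⟩
  have h0 : 0 < k := by omega
  obtain ⟨W, hW⟩ := H.exW hP sm tor h0 u
  obtain ⟨q, hq, hg⟩ := H.pg hP sm tor hγ (fun s u => com s _) γ1 h0 hW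
  have k4 := k3.mono hk
  have m' := hP (Du u) v hv
  have k5 : Gd ρ k (ρ (Du u) v) := ⟨by rw [← map_nsmul, k4.tor, map_zero],
    Fx_conj (fun g hg => Kn_conj (Du_Kn (by simp)) hg) k4.fx⟩
  have h1 : W (ρ (Du u) v) = 0 := hon_inj (ρ := ρ) hq (tor _ m') fun ζ hζ =>
    h _ (hg.wg hq hζ hP hγ fun s i => com s _) u
  have d : (p : ℤ_[p]) ^ k ∣ (((u : ℤ_[p]).appr k : ℕ) : ℤ_[p]) - u :=
    dvd_sub_comm.1 (dvd_appr _ k)
  rw [hW _ m' k le_rfl k5, Si, sum_eq_single ((u : ℤ_[p]).appr k), H.lev hP h0 le_rfl m' k5 _ _ d,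
    Gi, if_pos (by simp), un_coe, map_inv, rho_inv, hu] at h1
  · have t : p ^ k • w k a v = 0 := by rw [← map_nsmul, k4.tor, map_zero]
    rw [← zs_one t, ← u.mul_inv, zs_mul _ _ t, h1, zs_eq _ (N := 0) (smul_zero _), smul_zero]
  · intro n hn e
    rw [Gi, if_neg fun c => e ?_]
    have h2 : (p : ℤ_[p]) ^ k ∣ (((n : ℤ) - (u : ℤ_[p]).appr k : ℤ) : ℤ_[p]) := by
      have := dvd_sub c d
      rw [sub_sub_sub_cancel_right] at this
      exact_mod_cast this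
    have h3 := (PadicInt.pow_p_dvd_int_iff k _).1 h2
    have h4 : ((u : ℤ_[p]).appr k) ≡ n [MOD p ^ k] := by
      rw [Nat.modEq_iff_dvd]
      exact_mod_cast h3
    exact (h4.eq_of_lt_of_lt (PadicInt.appr_lt _ _) (mem_range.1 hn)).symm
  · intro e
    exact absurd (mem_range.2 (PadicInt.appr_lt _ _)) e

end Vale.Agent.P022K.WB.Hon
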