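import Vale.Agent.P022K.WB.Lo
import Vale.Agent.P022K.WB.Itg

/-!
# P022K, block WB: Frobenius elements of `Iso (CS p)`
-/

set_option autoImplicit false

open NumberField Filter Topology

noncomputable section

namespace Vale.Agent.P022K.WB.Hon

open Vale.Agent.P022 Vale.Agent.P022K.FI Vale.Agent.P022K.CH
open Vale.Agent.P022D.W (dec)

variable {p : ℕ} [Fact p.Prime]

section gen

variable {C : Type} [NontriviallyNormedField C] [IsUltrametricDist C]

theorem nlt_add {a b : C} (ha : ‖a‖ < 1) (hb : ‖b‖ < 1) : ‖a + b‖ < 1 :=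
  (IsUltrametricDist.norm_add_le_max a b).trans_lt (max_lt ha hb)

theorem nlt_trans {a b c : C} (h : ‖a - b‖ < 1) (h' : ‖b - c‖ < 1) : ‖a - c‖ < 1 := by
  simpa using nlt_add h h'

theorem nlt_pow {a b : C} (ha : ‖a‖ ≤ 1) (hb : ‖b‖ ≤ 1) (h : ‖a - b‖ < 1) (n : ℕ) :
    ‖a ^ n - b ^ n‖ < 1 := by
  induction n with
  | zero => simp
  | succ n ih =>
    rw [show a ^ (n + 1) - b ^ (n + 1) = a * (a ^ n - b ^ n) + b ^ n * (a - b) by ring]
    refine nlt_add ?_ ?_ <;> rw [norm_mul]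
    · exact mul_lt_one_of_nonneg_of_lt_one_right ha (norm_nonneg _) ih
    · exact mul_lt_one_of_nonneg_of_lt_one_right (by
        rw [norm_pow]; exact pow_le_one₀ (norm_nonneg _) hb) (norm_nonneg _) h

/-- roots of unity of order prime to `p` are separated -/
theorem root_sep (hp : ‖(p : C)‖ < 1) {q : ℕ} (hq : 0 < q) {x y : C} (hx : x ^ (p ^ q - 1) = 1)
    (hy : y ^ (p ^ q - 1) = 1) (h : ‖x - y‖ < 1) : x = y := by
  have ny := norm_root hq hy
  have y0 : y ≠ 0 := norm_pos_iff.1 (ny ▸ one_pos)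
  by_contra e
  have u1 : x / y ≠ 1 := fun h => e (by rwa [div_eq_one_iff_eq y0] at h)
  have u2 : ‖x / y - 1‖ < 1 := by rwa [div_sub_one y0, norm_div, ny, div_one]
  have u3 : ‖x / y‖ ≤ 1 := by rw [norm_div, ny, norm_root hq hx, div_one]
  have u4 := geom_sum_eq u1 (p ^ q - 1)
  rw [div_pow, hx, hy, div_one, sub_self, zero_div] at u4
  have u5 : ∀ n : ℕ, ‖∑ j ∈ Finset.range n, (x / y) ^ j - n‖ < 1 := fun n => by
    induction n with
    | zero => simp
    | succ n ih =>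
      have := nlt_add ih (nlt_pow u3 norm_one.le u2 n)
      rw [Finset.sum_range_succ]
      convert this using 2
      push_cast
      ring
  have u6 := u5 (p ^ q - 1)
  have u7 : ‖(p : C) ^ q‖ < 1 := by
    rw [norm_pow]
    exact pow_lt_one₀ (norm_nonneg _) hp hq.ne'
  rw [u4, Nat.cast_sub (Nat.one_le_pow _ _ (Fact.out : p.Prime).pos)] at u6
  have := nlt_add u6 u7
  simp at this

omit [IsUltrametricDist C] in
theorem root_up {n k : ℕ} (hn : 0 < n) {x : C} (hx : x ^ (p ^ n - 1) = 1) :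
    x ^ (p ^ (n * k) - 1) = 1 := by
  have x0 : x ≠ 0 := norm_pos_iff.1 (norm_root hn hx ▸ one_pos)
  have h := pw_add hx 0 k
  rw [zero_add, pow_zero, pow_one, ← Nat.sub_add_cancel
    (Nat.one_le_pow (n * k) _ (Fact.out : p.Prime).pos), pow_succ] at h
  exact mul_right_cancel₀ x0 (h.trans (one_mul x).symm)

omit [IsUltrametricDist C] in
theorem exp_mod {q : ℕ} (hq : 0 < q) {z : C} (hz : IsPrimitiveRoot z (p ^ q - 1)) {a b : ℕ}
    (h : z ^ p ^ a = z ^ p ^ b) : a ≡ b [MOD q] := by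
  have hp := (Fact.out : p.Prime)
  rw [pw_mod hz.pow_eq_one (Nat.mod_modEq a q).symm,
    pw_mod hz.pow_eq_one (Nat.mod_modEq b q).symm] at h
  have ha := Nat.mod_lt a hq
  have hb := Nat.mod_lt b hq
  by_cases e : q = 1
  · subst e
    exact Nat.modEq_one
  have lt : ∀ c < q, p ^ c < p ^ q - 1 := fun c hc => by
    have h1 : p ^ c ≤ p ^ (q - 1) := Nat.pow_le_pow_right hp.pos (by omega)
    have h2 : p ^ q = p ^ (q - 1) * p := by rw [← pow_succ]; congr 1; omega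
    have h3 : 2 ≤ p ^ (q - 1) := hp.two_le.trans (Nat.le_self_pow (by omega) p)
    have h4 := Nat.mul_le_mul_left (p ^ (q - 1)) hp.two_le
    omega
  exact Nat.pow_right_injective hp.two_le (hz.pow_inj (lt _ ha) (lt _ hb) h)

end gen

/-- every unit is congruent to a root of unity of order prime to `p` -/
theorem near_root {x : CS p} (hx : ‖x‖ = 1) :
    ∃ n, 0 < n ∧ ∃ ζ : CS p, ζ ^ (p ^ n - 1) = 1 ∧ ‖x - ζ‖ < 1 := by
  have hp := (Fact.out : p.Prime)
  obtain ⟨n, hn, h⟩ := CS.tor p x hx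
  obtain ⟨a, m, h1, rfl⟩ := Nat.exists_eq_pow_mul_and_not_dvd hn.ne' p hp.ne_one
  have m0 : 0 < m := Nat.pos_of_mul_pos_left hn
  have h2 : ∀ (a : ℕ) (y : CS p), ‖y‖ ≤ 1 → ‖y ^ p ^ a - 1‖ < 1 → ‖y - 1‖ < 1 := by
    intro a
    induction a with
    | zero => simp
    | succ a ih =>
      intro y hy h
      rw [pow_succ', pow_mul] at h
      have h3 := ih _ (by rw [norm_pow]; exact pow_le_one₀ (norm_nonneg _) hy) h
      have hy1 : ‖y - 1‖ ≤ 1 := (Oc (CS p)).sub_mem (show y ∈ Oc (CS p) from hy) (one_mem _)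
      obtain ⟨r, hr⟩ := exists_add_pow_prime_eq hp (⟨y, hy⟩ - 1 : Oc (CS p)) 1
      have h4 : y ^ p - 1 - p * (y - 1) * r = (y - 1) ^ p := by
        have := congrArg Subtype.val hr
        push_cast at this
        simp only [sub_add_cancel] at this
        rw [this]; ring
      have h5 : ‖(p : CS p) * (y - 1) * r‖ < 1 := by
        rw [norm_mul, norm_mul]
        exact mul_lt_one_of_nonneg_of_lt_one_left (by positivity)
          (mul_lt_one_of_nonneg_of_lt_one_left (norm_nonneg _) (CS.norm_p_lt p) hy1) r.2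
      have h6 := nlt_add h3 (show ‖-((p : CS p) * (y - 1) * r)‖ < 1 by rwa [norm_neg])
      rw [← sub_eq_add_neg, h4, norm_pow] at h6
      exact (pow_lt_one_iff_of_nonneg (norm_nonneg _) hp.ne_zero).1 h6
  have h3 := h2 a (x ^ m) (by simp [hx]) (by rwa [← pow_mul, mul_comm])
  have : NeZero m := ⟨m0.ne'⟩
  obtain ⟨z, hz⟩ := HasEnoughRootsOfUnity.exists_primitiveRoot (CS p) m
  have h4 := congrArg (Polynomial.eval x) (Polynomial.X_pow_sub_one_eq_prod m0 hz)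
  simp only [Polynomial.eval_sub, Polynomial.eval_pow, Polynomial.eval_X, Polynomial.eval_one,
    Polynomial.eval_prod, Polynomial.eval_C] at h4
  rw [h4, norm_prod] at h3
  obtain ⟨ζ, h5, h6⟩ : ∃ ζ ∈ Polynomial.nthRootsFinset m (1 : CS p), ‖x - ζ‖ < 1 := by
    by_contra e
    push Not at e
    exact absurd h3 (not_lt.2 (Finset.one_le_prod e))
  have h7 := (Nat.ModEq.pow_totient ((Nat.Prime.coprime_iff_not_dvd hp).2 h1)).symm
  obtain ⟨d, hd⟩ := (Nat.modEq_iff_dvd' (Nat.one_le_pow _ _ hp.pos)).1 h7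
  exact ⟨_, Nat.totient_pos.2 m0, ζ, by
    rw [hd, pow_mul, (Polynomial.mem_nthRootsFinset m0 1).1 h5, one_pow], h6⟩

/-- the action on the residue field is read on the roots of unity -/
theorem res_of_roots (σ : Iso (CS p)) (k : ℕ) (hk : 0 < k)
    (h : ∀ n, 0 < n → ∀ ζ : CS p, ζ ^ (p ^ n - 1) = 1 → σ.1 ζ = ζ ^ k) {x : CS p}
    (hx : ‖x‖ ≤ 1) : ‖σ.1 x - x ^ k‖ < 1 := by
  rcases hx.lt_or_eq with h1 | h1
  · have := nlt_pow hx (by simp) (show ‖x - 0‖ < 1 by simpa using h1) k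
    rw [zero_pow hk.ne', norm_sub_rev] at this
    exact nlt_trans (by rwa [sub_zero, σ.2]) this
  · obtain ⟨n, hn, ζ, h2, h3⟩ := near_root h1
    refine nlt_trans (b := ζ ^ k) (by rwa [← h n hn ζ h2, ← map_sub, σ.2]) ?_
    rw [norm_sub_rev]
    exact nlt_pow hx (norm_root hn h2).le h3 k

theorem ex_root (e : Qb →+* CS p) {N : ℕ} (hN : 0 < N) {ζ : CS p} (h : ζ ^ N = 1) :
    ∃ a : Qb, e a = ζ ∧ a ^ N = 1 := by
  have : NeZero N := ⟨hN.ne'⟩
  obtain ⟨z, hz⟩ := HasEnoughRootsOfUnity.exists_primitiveRoot Qb N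
  obtain ⟨i, -, hi⟩ := (hz.map_of_injective e.injective).eq_pow_of_pow_eq_one h
  exact ⟨z ^ i, by rw [map_pow, hi], by rw [← pow_mul, mul_comm, pow_mul, hz.pow_eq_one, one_pow]⟩

/-- Frobenius elements -/
def Fr (F : Iso (CS p)) : Prop := ∀ x : CS p, ‖x‖ ≤ 1 → ‖F.1 x - x ^ p‖ < 1

/-- inertia -/
def In (s : Iso (CS p)) : Prop := ∀ x : CS p, ‖x‖ ≤ 1 → ‖s.1 x - x‖ < 1

theorem Fr.root {F : Iso (CS p)} (h : Fr F) {n : ℕ} (hn : 0 < n) {ζ : CS p}
    (hζ : ζ ^ (p ^ n - 1) = 1) (j : ℕ) : (F ^ j).1 ζ = ζ ^ p ^ j := by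
  have h1 : F.1 ζ = ζ ^ p := root_sep (CS.norm_p_lt p) hn (by rw [← map_pow, hζ, map_one])
    (by rw [← pow_mul, mul_comm, pow_mul, hζ, one_pow]) (h ζ (norm_root hn hζ).le)
  induction j with
  | zero => simp
  | succ j ih =>
    rw [pow_succ', show (F * F ^ j).1 ζ = F.1 ((F ^ j).1 ζ) from rfl, ih, map_pow, h1, ← pow_mul,
      pow_succ']

variable (p) in
theorem exists_fr : ∃ F : Iso (CS p), Fr F := by
  obtain ⟨e, P, h⟩ := exists_ab0 p
  obtain ⟨φ, hφ⟩ := P022D.W.exists_phi h.ov.1 h.ov.2.1 h.ov.2.2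
  obtain ⟨F, rfl⟩ := h.onto (s := φ) (H916.mem_of_frob h.ov.2.1 h.ov.1.ne_zero hφ)
  refine ⟨F, fun x hx => res_of_roots F p (Fact.out : p.Prime).pos (fun n hn ζ hζ => ?_) hx⟩
  obtain ⟨a, rfl, ha⟩ := ex_root e (N_pos hn) hζ
  have hi : IsIntegral ℤ a := IsIntegral.of_pow (N_pos hn) (ha ▸ isIntegral_one)
  refine root_sep (CS.norm_p_lt p) hn (by rw [← map_pow, hζ, map_one])
    (by rw [← pow_mul, mul_comm, pow_mul, hζ, one_pow]) ?_
  have := (h _).1 (hφ ⟨a, hi⟩)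
  rw [← rs_spec, ← map_pow, ← map_sub]
  exact this

theorem ev_eq {U : Filter ℕ} {f : ℕ → GQ} {t : GQ} (h : Tendsto f U (𝓝 t)) (a : Qb) :
    ∀ᶠ m in U, f m a = t a := by
  have h1 : Tendsto (fun m => t⁻¹ * f m) U (𝓝 1) := by
    simpa using (tendsto_const_nhds (x := t⁻¹)).mul h
  filter_upwards [h1.eventually ((stabilizer_isOpen_of_isIntegral (K := ℚ) a).mem_nhds
    (one_mem _))] with m hm
  have h2 : t⁻¹ (f m a) = a := hm
  conv_rhs => rw [← h2, ← AlgEquiv.mul_apply, mul_inv_cancel]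
  rfl

/-- **FRB** -/
theorem Fr.dec {F : Iso (CS p)} (hF : Fr F) (s : Iso (CS p)) {q i : ℕ} (hq : 0 < q)
    (hs : ∀ x : CS p, x ^ (p ^ q - 1) = 1 → s.1 x = x ^ p ^ i) :
    ∃ s1 sI : Iso (CS p), s = F ^ i * s1 ^ q * sI ∧ In sI := by
  obtain ⟨e, P, h⟩ := exists_ab0 p
  have : NeZero (p ^ q - 1) := ⟨(N_pos hq).ne'⟩
  obtain ⟨z, hz⟩ := HasEnoughRootsOfUnity.exists_primitiveRoot (CS p) (p ^ q - 1)
  have h1 : ∀ m : ℕ, ∃ j : ℕ, ∀ x : CS p, x ^ (p ^ (q * m.factorial) - 1) = 1 →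
      s.1 x = x ^ p ^ (i + j * q) := fun m => by
    have n0 : 0 < q * m.factorial := Nat.mul_pos hq m.factorial_pos
    obtain ⟨k, hk⟩ := exists_frob (CS.norm_p_lt p) s n0
    have h2 : i ≡ k + q * m.factorial * i [MOD q] := by
      have := exp_mod hq hz ((hs z hz.pow_eq_one).symm.trans (hk z (root_up hq hz.pow_eq_one)))
      rw [mul_assoc]
      exact this.trans (by simp [Nat.ModEq])
    obtain ⟨j, hj⟩ := (Nat.modEq_iff_dvd' ((Nat.le_mul_of_pos_left i n0).trans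
      (Nat.le_add_left _ _))).1 h2
    refine ⟨j, fun x hx => ?_⟩
    have h3 := Nat.le_mul_of_pos_left i n0
    rw [hk x hx, ← pw_add hx k i]
    congr 2
    rw [mul_comm j]
    omega
  choose j hj using h1
  obtain ⟨t, -, ht⟩ := isCompact_univ.ultrafilter_le_nhds
    ((Ultrafilter.of (atTop : Filter ℕ)).map fun m => rs e (F ^ j m)) (by simp)
  have ht' : Tendsto (fun m => rs e (F ^ j m)) (Ultrafilter.of (atTop : Filter ℕ)) (𝓝 t) := ht
  obtain ⟨s1, rfl⟩ := h.onto (s := t) fun x => by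
    obtain ⟨m, hm⟩ := (ev_eq ht' x).exists
    rw [← h.mem (F ^ j m) x]
    exact iff_of_eq (congrArg (· ∈ P) (Subtype.ext hm.symm))
  refine ⟨s1, (F ^ i * s1 ^ q)⁻¹ * s, (mul_inv_cancel_left _ _).symm, fun x hx => ?_⟩
  have := res_of_roots ((F ^ i * s1 ^ q)⁻¹ * s) 1 one_pos (fun n hn ζ hζ => ?_) hx
  · rwa [pow_one] at this
  obtain ⟨a, rfl, -⟩ := ex_root e (N_pos hn) hζ
  obtain ⟨m, h2, h3⟩ := ((ev_eq (ht'.pow q) a).and
    (Ultrafilter.of_le _ (eventually_ge_atTop n))).exists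
  obtain ⟨d, hd⟩ := Nat.dvd_factorial hn h3
  have h4 := hj m (e a) (by rw [hd, mul_left_comm]; exact root_up hn hζ)
  have h5 : (F ^ i * s1 ^ q).1 (e a) = s.1 (e a) := by
    rw [h4, ← hF.root hn hζ, pow_add, pow_mul]
    show (F ^ i).1 ((s1 ^ q).1 (e a)) = (F ^ i).1 (((F ^ j m) ^ q).1 (e a))
    rw [← rs_spec e (s1 ^ q), ← rs_spec e ((F ^ j m) ^ q), map_pow (rs e), map_pow (rs e), h2]
  rw [pow_one]
  show (F ^ i * s1 ^ q).1.symm (s.1 (e a)) = e a
  rw [← h5, RingEquiv.symm_apply_apply]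

end Vale.Agent.P022K.WB.Hon
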