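import Vale.Agent.P022K.WB.GkA

/-!
# P022K, block WB: finitely generated admissible representations have finite invariants under an
elliptic element; several places
-/

set_option autoImplicit false
set_option linter.all false

noncomputable section

namespace Vale.Agent.P022K.WB

open Matrix Noe

theorem card_ker_le {M X : Type*} [AddCommGroup M] [AddCommGroup X] [Finite X] (B : AddSubgroup M)
    (hB : (B : Set M).Finite) (f : M →+ M) (hf : ∀ z ∈ B, f z ∈ B) (Φ : X →+ M)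
    (hΦ : ∀ x, Φ x ∈ B) (h : B ≤ Φ.range ⊔ B.map f) :
    {z | z ∈ B ∧ f z = 0}.ncard ≤ Nat.card X := by
  haveI : Finite B := hB
  let f' : B →+ B := (f.comp B.subtype).codRestrict B fun z => hf z z.2
  have h1 : Nat.card f'.ker = f'.range.index := by
    have a1 := f'.ker.card_mul_index
    have a2 := f'.range.card_mul_index
    rw [AddSubgroup.index_ker, ← a2, mul_comm] at a1
    exact Nat.eq_of_mul_eq_mul_left Nat.card_pos a1
  have h2 : f'.range.index ≤ Nat.card X := by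
    refine Nat.card_le_card_of_surjective (fun x => ((⟨Φ x, hΦ x⟩ : B) : B ⧸ f'.range)) fun q => ?_
    induction q using QuotientAddGroup.induction_on with
    | H z =>
      obtain ⟨_, ⟨x, rfl⟩, _, ⟨u, hu, rfl⟩, e⟩ := AddSubgroup.mem_sup.1 (h z.2)
      refine ⟨x, QuotientAddGroup.eq.2 ⟨⟨u, hu⟩, Subtype.ext ?_⟩⟩
      change f u = -Φ x + z.1
      rw [← e, neg_add_cancel_left]
  have h3 : {z | z ∈ B ∧ f z = 0} = Subtype.val '' (f'.ker : Set B) := by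
    ext z
    exact ⟨fun hz => ⟨⟨z, hz.1⟩, Subtype.ext hz.2, rfl⟩,
      fun ⟨u, hu, e⟩ => e ▸ ⟨u.2, congrArg Subtype.val hu⟩⟩
  rw [h3, Set.ncard_image_of_injective _ Subtype.val_injective]
  exact (h1.trans_le h2)

theorem finite_of_mono {M : Type*} (T : ℕ → Set M) (hT : Monotone T) (hf : ∀ m, (T m).Finite)
    (C : ℕ) (h : ∀ m, (T m).ncard ≤ C) : (⋃ m, T m).Finite := by
  by_contra hi
  obtain ⟨s, hs, hc⟩ := Set.Infinite.exists_subset_card_eq hi (C + 1)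
  obtain ⟨m, hm⟩ := hT.directed_le.exists_mem_subset_of_finset_subset_biUnion hs
  have := Set.ncard_le_ncard hm (hf m)
  rw [Set.ncard_coe_finset, hc] at this
  exact absurd (this.trans (h m)) (by omega)

variable {p : ℕ} [Fact p.Prime] {R M : Type*} [CommRing R] [AddCommGroup M] [Module R M]
  {ρ : Representation R (G2 p) M}

theorem rho_closure {T : Set M} {B : AddSubgroup M} {g : G2 p} (h : ∀ y ∈ T, ρ g y ∈ B) {y : M}
    (hy : y ∈ AddSubgroup.closure T) : ρ g y ∈ B :=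
  (AddSubgroup.closure_le (B.comap (ρ g).toAddMonoidHom)).2 h hy

/-- the socle layer -/
def So1 (ρ : Representation R (G2 p) M) (P : Submodule R M) : Submodule R M :=
  tp p P ⊓ Fx ρ (I1 p)

theorem mem_So1 {P : Submodule R M} {v : M} :
    v ∈ So1 ρ P ↔ v ∈ P ∧ p • v = 0 ∧ v ∈ Fx ρ (I1 p) := by
  rw [So1, Submodule.mem_inf, mem_tp, and_assoc]

/-- `1` or `w` -/
def kw (p : ℕ) [Fact p.Prime] : Bool → G2 p
  | false => 1
  | true => ww p

/-- the edges at depth `m` below `∞` -/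
def NN (ρ : Representation R (G2 p) M) (P : Submodule R M) (m : ℕ) : AddSubgroup M :=
  AddSubgroup.closure {y | ∃ x : ℚ_[p], ‖x‖ ≤ 1 ∧ ∃ a ∈ So1 ρ P, y = ρ (nn x * tt p ^ m) a}

/-- the edges at depth `m` -/
def NW (ρ : Representation R (G2 p) M) (P : Submodule R M) (m : ℕ) : AddSubgroup M :=
  AddSubgroup.closure {y | ∃ (k : Bool) (x : ℚ_[p]), ‖x‖ ≤ 1 ∧ ∃ a ∈ So1 ρ P,
    y = ρ (kw p k * (nn x * tt p ^ m)) a}

variable {P : Submodule R M}

theorem tt_pow_nn (m : ℕ) (b : ℚ_[p]) :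
    tt p ^ m * nn b = nn ((p : ℚ_[p]) ^ m * b) * tt p ^ m := by
  rw [tt_pow, dd_nn]
  simp

theorem So1_NN1 (hP : Gs ρ P) {a : M} (ha : a ∈ So1 ρ P) : a ∈ NN ρ P 1 := by
  refine soc_mem hP.tp _ (fun b hb y hy => rho_closure ?_ hy) (fun v h1 h2 => ?_) ha.1 ha.2
  · rintro _ ⟨x, hx, a, ha, rfl⟩
    exact AddSubgroup.subset_closure ⟨b + x, nadd hb hx, a, ha, by
      rw [← rho_mul, nn_add, mul_assoc]⟩
  · exact AddSubgroup.subset_closure ⟨0, by simp, v, ⟨h1, h2⟩, by simp⟩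

theorem deep (hP : Gs ρ P) {B : AddSubgroup M} (g : G2 p) (m : ℕ)
    (h : ∀ x : ℚ_[p], ‖x‖ ≤ 1 → ∀ a ∈ So1 ρ P, ρ (g * (nn x * tt p ^ (m + 1))) a ∈ B)
    {x : ℚ_[p]} (hx : ‖x‖ ≤ 1) {a : M} (ha : a ∈ So1 ρ P) : ρ (g * (nn x * tt p ^ m)) a ∈ B := by
  refine rho_closure ?_ (So1_NN1 hP ha)
  rintro _ ⟨y, hy, a, ha, rfl⟩
  have := h (x + (p : ℚ_[p]) ^ m * y)
    (nadd hx (nmul2 ((norm_pow_p m).le.trans (rad_le_one m)) hy)) a ha
  rw [← rho_mul]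
  convert this using 2
  rw [nn_add, pow_one, pow_succ]
  simp only [mul_assoc]
  rw [← mul_assoc (tt p ^ m), tt_pow_nn, mul_assoc]

theorem So1_NN (hP : Gs ρ P) (m : ℕ) {a : M} (ha : a ∈ So1 ρ P) : a ∈ NN ρ P m := by
  induction m with
  | zero => exact AddSubgroup.subset_closure ⟨0, by simp, a, ha, by simp⟩
  | succ m ih =>
    refine (AddSubgroup.closure_le _).2 ?_ ih
    rintro _ ⟨x, hx, a, ha, rfl⟩
    have := deep hP (B := NN ρ P (m + 1)) 1 m (fun x hx a ha =>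
      AddSubgroup.subset_closure ⟨x, hx, a, ha, by rw [one_mul]⟩) hx ha
    rwa [one_mul] at this

theorem NW_mono (hP : Gs ρ P) : Monotone (NW ρ P) := monotone_nat_of_le_succ fun m =>
  (AddSubgroup.closure_le _).2 (by
    rintro _ ⟨k, x, hx, a, ha, rfl⟩
    exact deep hP (B := NW ρ P (m + 1)) _ m
      (fun x hx a ha => AddSubgroup.subset_closure ⟨k, x, hx, a, ha, rfl⟩) hx ha)

theorem So1_dd (hP : Gs ρ P) {u v : ℚ_[p]ˣ} (hu : ‖(u : ℚ_[p])‖ = 1) (hv : ‖(v : ℚ_[p])‖ = 1) {a : M}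
    (ha : a ∈ So1 ρ P) : ρ (dd u v) a ∈ So1 ρ P := ⟨hP.tp _ _ ha.1, dd_Fx hu hv ha.2⟩

theorem So1_cen (hP : Gs ρ P) (u : ℚ_[p]ˣ) {a : M} (ha : a ∈ So1 ρ P) : ρ (dd u u) a ∈ So1 ρ P :=
  ⟨hP.tp _ _ ha.1, cen_Fx u ha.2⟩

theorem So1_PP (hP : Gs ρ P) {a : M} (ha : a ∈ So1 ρ P) : ρ (PP p) a ∈ So1 ρ P :=
  ⟨hP.tp _ _ ha.1, PP_Fx ha.2⟩

theorem cell (hP : Gs ρ P) (b : ℚ_[p]) (m : ℕ) {a : M} (ha : a ∈ So1 ρ P) :
    ρ (nn b * tt p ^ m) a ∈ ⨆ m, NW ρ P m := by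
  by_cases hb : ‖b‖ ≤ 1
  · exact AddSubgroup.mem_iSup_of_mem m (AddSubgroup.subset_closure ⟨false, b, hb, a, ha, by
      rw [kw, one_mul]⟩)
  · push Not at hb
    have h0 : b ≠ 0 := norm_pos_iff.1 (one_pos.trans hb)
    have hb' : ‖b⁻¹‖ < 1 := by rw [norm_inv]; exact inv_lt_one_of_one_lt₀ hb
    have hm : ‖(p : ℚ_[p]) ^ m‖ ≤ 1 := (norm_pow_p m).le.trans (rad_le_one m)
    obtain ⟨i, u, hu, e⟩ := unit_eq (-(pu p ^ m) * (Units.mk0 b h0)⁻¹ * (Units.mk0 b h0)⁻¹)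
    have e' : -(p : ℚ_[p]) ^ m * b⁻¹ * b⁻¹ = (p : ℚ_[p]) ^ i * u := by
      simpa using congrArg Units.val e
    obtain ⟨j, rfl⟩ : ∃ j : ℕ, i = j := by
      refine ⟨i.toNat, (Int.toNat_of_nonneg ?_).symm⟩
      have h1 : ‖(p : ℚ_[p]) ^ i * u‖ ≤ 1 := by
        rw [← e']
        exact nmul2 (nmul2 (by rwa [norm_neg]) hb'.le) hb'.le
      rw [norm_mul, hu, mul_one, Padic.norm_p_zpow,
        zpow_le_one_iff_right₀ (Nat.one_lt_cast.2 (Fact.out : p.Prime).one_lt)] at h1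
      omega
    rw [zpow_natCast] at e'
    have e2 : nn b * tt p ^ m = ww p * (nn b⁻¹ * tt p ^ j) * (dd u 1 *
        (dd (Units.mk0 b h0) (Units.mk0 b h0) * nl ((p : ℚ_[p]) ^ m * b⁻¹))) := by
      rw [tt_pow, tt_pow]
      refine G2_ext ?_
      ext i j
      fin_cases i <;> fin_cases j <;> simp [Matrix.mul_apply, Fin.sum_univ_two, ← mul_assoc, ← e'] <;>
        field_simp <;> ring
    rw [e2, rho_mul, rho_mul (dd u 1), rho_mul (dd _ _), ha.2 _ (nl_I1 (nmul1' hm hb'))]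
    exact AddSubgroup.mem_iSup_of_mem j (AddSubgroup.subset_closure ⟨true, b⁻¹, hb'.le, _,
      So1_dd hP hu (by simp) (So1_cen hP _ ha), rfl⟩)

theorem gen_NW (hP : Gs ρ P) (g : G2 p) {a : M} (ha : a ∈ So1 ρ P) : ρ g a ∈ ⨆ m, NW ρ P m := by
  have hB : ∀ b ∈ BB p, ∀ a ∈ So1 ρ P, ρ b a ∈ ⨆ m, NW ρ P m := fun b hb a ha => by
    obtain ⟨b, i, j, u, v, hu, hv, rfl⟩ := BB_eq' hb
    rw [rho_mul, rho_mul, zz, dd_zpow]
    have h1 := So1_cen hP (pu p ^ j) (So1_dd hP hu hv ha)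
    obtain ⟨k, rfl | rfl⟩ := Int.eq_nat_or_neg i
    · rw [zpow_natCast]
      exact cell hP b k h1
    · refine rho_closure ?_ (So1_NN hP k h1)
      rintro _ ⟨x, -, a, ha, rfl⟩
      have := cell hP (b + ((p : ℚ_[p]) ^ k)⁻¹ * x) 0 ha
      rw [← rho_mul]
      convert this using 3
      rw [_root_.zpow_neg, zpow_natCast, pow_zero, mul_one, nn_add, mul_assoc, mul_right_inj,
        inv_mul_eq_iff_eq_mul, tt_pow_nn, mul_inv_cancel_left₀ (pow_ne_zero _ (p_ne p))]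
  obtain ⟨b, hb, ⟨c, hc, rfl⟩ | ⟨c, hc, rfl⟩⟩ := iwasawa g
  · rw [rho_mul, ha.2 _ (nl_I1 hc)]
    exact hB b hb a ha
  · rw [rho_mul, ha.2 _ (nn_I1 hc), ww_eq, ← mul_assoc, rho_mul, rho_mul (PP p), zz, ← dd_inv]
    exact hB _ (mul_mem hb tt_BB) _ (So1_PP hP (So1_cen hP _ ha))

theorem move {δ : G2 p} (h : δ ∈ I1 p) {x x' : ℚ_[p]} (hx : ‖x‖ ≤ 1) (hx' : ‖x'‖ ≤ 1) {m : ℕ}
    (e : ‖Dv (δ : M22 p) x x'‖ ≤ rad p m) (k : G2 p) {a : M} (ha : a ∈ Fx ρ (I1 p)) :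
    ρ (k * δ * k⁻¹) (ρ (k * (nn x * tt p ^ m)) a) = ρ (k * (nn x' * tt p ^ m)) a := by
  conv_rhs => rw [← ha _ (conj_I1 h hx hx' e)]
  rw [← rho_mul, ← rho_mul]
  congr 2
  group

theorem kw_conj {c : ℕ} {γ : G2 p} (h : Ell c γ) (k : Bool) :
    El1 c ((kw p k)⁻¹ * γ * kw p k) := by
  cases k
  · simpa [kw] using h.1
  · simpa [kw, ww_inv] using h.2

theorem NW_fin (hP : Adm ρ P) (m : ℕ) : (NW ρ P m : Set M).Finite := by
  have hS : (So1 ρ P : Set M).Finite := hP.fin.subset fun v hv => mem_So1.1 hv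
  refine closure_fin (n := p) (((Set.toFinite Set.univ).prod hS).image
    (fun t : (Bool × Fin (p ^ m)) × M =>
      ρ (kw p t.1.1 * (nn ((t.1.2 : ℕ) : ℚ_[p]) * tt p ^ m)) t.2) |>.subset ?_)
    (Fact.out : p.Prime).pos ?_
  · rintro _ ⟨k, x, hx, a, ha, rfl⟩
    obtain ⟨y, hy⟩ := exists_nat_near hx m
    refine ⟨⟨⟨k, y⟩, a⟩, ⟨trivial, ha⟩, ?_⟩
    have := move (ρ := ρ) (one_mem _) hx (norm_nat y) (m := m) (by simpa [Dv_one] using hy)
      (kw p k) ha.2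
    simpa using this.symm
  · rintro _ ⟨k, x, hx, a, ha, rfl⟩
    rw [← map_nsmul, (mem_So1.1 ha).2.1, map_zero]

theorem NW_st {c : ℕ} (hc : 0 < c) {γ : G2 p} (h : Ell c γ) (m : ℕ) {z : M} (hz : z ∈ NW ρ P m) :
    ρ γ z ∈ NW ρ P m := by
  refine rho_closure ?_ hz
  rintro _ ⟨k, x, hx, a, ha, rfl⟩
  set δ := (kw p k)⁻¹ * γ * kw p k with hδ
  have h1 : δ ∈ I1 p := Kn_le_I1 hc (kw_conj h k).1
  have h2 : ‖δ 1 0 * x + δ 1 1‖ = 1 := norm_of_near (by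
    rw [add_sub_assoc]
    exact nadd' (nmul2' h1.2.2.1 hx) h1.2.2.2)
  have h3 : δ 1 0 * x + δ 1 1 ≠ 0 := norm_pos_iff.1 (h2 ▸ one_pos)
  have h4 : ‖(δ 0 0 * x + δ 0 1) / (δ 1 0 * x + δ 1 1)‖ ≤ 1 := by
    rw [norm_div, h2, div_one]
    exact nadd (nmul2 (I1_en h1 0 0) hx) h1.2.1
  have := move (ρ := ρ) h1 hx h4 (m := m) (by
    rw [Dv, div_mul_cancel₀ _ h3, sub_self, norm_zero]
    exact (rad_pos m).le) (kw p k) ha.2
  rw [show kw p k * δ * (kw p k)⁻¹ = γ by rw [hδ]; group] at this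
  rw [this]
  exact AddSubgroup.subset_closure ⟨k, _, h4, a, ha, rfl⟩

theorem NW_card (hP : Adm ρ P) {c : ℕ} (hc : 2 ≤ c) {γ : G2 p} (h : Ell c γ) (m : ℕ) :
    {z | z ∈ NW ρ P m ∧ ρ γ z = z}.ncard ≤ Nat.card (Bool × Fin (p ^ c) → So1 ρ P) := by
  classical
  haveI : Finite (So1 ρ P) := hP.fin.subset fun v hv => mem_So1.1 hv
  let f : M →+ M := (ρ γ).toAddMonoidHom - AddMonoidHom.id M
  let e : Bool × Fin (p ^ c) → So1 ρ P →+ M := fun t =>
    (ρ (kw p t.1 * (nn ((t.2 : ℕ) : ℚ_[p]) * tt p ^ m))).toAddMonoidHom.comp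
      (So1 ρ P).subtype.toAddMonoidHom
  let Φ : (Bool × Fin (p ^ c) → So1 ρ P) →+ M := ∑ t, (e t).comp (Pi.evalAddMonoidHom _ t)
  have he : ∀ t a, e t a ∈ NW ρ P m := fun t a =>
    AddSubgroup.subset_closure ⟨t.1, _, norm_nat _, a.1, a.2, rfl⟩
  have hpow : ∀ (i : ℕ), ∀ z ∈ NW ρ P m, ρ (γ ^ i) z ∈ NW ρ P m ∧
      ρ (γ ^ i) z - z ∈ (NW ρ P m).map f := fun i z hz => by
    induction i with
    | zero => simp [hz]
    | succ i ih =>
      rw [pow_succ', rho_mul]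
      refine ⟨NW_st (by omega) h m ih.1, ?_⟩
      have := add_mem (AddSubgroup.mem_map_of_mem f ih.1) ih.2
      rwa [show f (ρ (γ ^ i) z) = ρ γ (ρ (γ ^ i) z) - ρ (γ ^ i) z from rfl,
        sub_add_sub_cancel] at this
  have := card_ker_le (NW ρ P m) (NW_fin hP m) f
    (fun z hz => sub_mem (NW_st (by omega) h m hz) hz) Φ
    (fun x => by
      simp only [Φ, AddMonoidHom.finsetSum_apply]
      exact sum_mem fun t _ => he t _)
    ((AddSubgroup.closure_le _).2 (by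
      rintro _ ⟨k, x, hx, a, ha, rfl⟩
      obtain ⟨y, hy⟩ := exists_nat_near hx c
      obtain ⟨i, hi⟩ := (kw_conj h k).trans hc (norm_nat y) hx (by rwa [norm_sub_rev]) m
      have h1 := move (ρ := ρ) (pow_mem (Kn_le_I1 (by omega) (kw_conj h k).1) i) (norm_nat y) hx
        (hi.trans (rad_le (Nat.le_add_left m c))) (kw p k) ha.2
      rw [show kw p k * ((kw p k)⁻¹ * γ * kw p k) ^ i * (kw p k)⁻¹ = γ ^ i by
        rw [← conj_pow]; congr 1; group] at h1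
      rw [← h1, ← add_sub_cancel (e (k, y) ⟨a, ha⟩) (ρ (γ ^ i) _), add_sub_assoc', add_sub_assoc]
      refine AddSubgroup.add_mem_sup ⟨Pi.single (k, y) ⟨a, ha⟩, ?_⟩ (hpow i _ (he (k, y) ⟨a, ha⟩)).2
      simp only [Φ, AddMonoidHom.finsetSum_apply, AddMonoidHom.comp_apply, Pi.evalAddMonoidHom_apply]
      rw [Finset.sum_eq_single (k, y) (fun t _ ht => by rw [Pi.single_eq_of_ne ht, map_zero])
        (by simp), Pi.single_eq_same]))
  simp only [f, AddMonoidHom.sub_apply, sub_eq_zero] at this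
  exact this

/-- the submodule generated by a set under the group -/
def Gen (ρ : Representation R (G2 p) M) (T : Set M) : Submodule R M :=
  Submodule.span R {y | ∃ g, ∃ a ∈ T, y = ρ g a}

theorem Gen_gs (T : Set M) : Gs ρ (Gen ρ T) := fun g v hv =>
  (Submodule.span_le (p := (Gen ρ T).comap (ρ g))).2 (by
    rintro _ ⟨h, a, ha, rfl⟩
    exact Submodule.subset_span ⟨g * h, a, ha, (rho_mul _ _ _).symm⟩) hv

theorem mem_Gen {T : Set M} {a : M} (ha : a ∈ T) : a ∈ Gen ρ T :=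
  Submodule.subset_span ⟨1, a, ha, by simp⟩

theorem Gen_le {T : Set M} (hP : Gs ρ P) (h : T ⊆ P) : Gen ρ T ≤ P := Submodule.span_le.2 (by
  rintro _ ⟨g, a, ha, rfl⟩
  exact hP g a (h ha))

theorem Gen_So1 (hP : Gs ρ P) {z : M} (hz : z ∈ Gen ρ (So1 ρ P)) : z ∈ ⨆ m, NW ρ P m := by
  suffices h : ∀ r : R, r • z ∈ ⨆ m, NW ρ P m by simpa using h 1
  induction hz using Submodule.span_induction with
  | mem y hy =>
    obtain ⟨g, a, ha, rfl⟩ := hy
    intro r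
    rw [← map_smul]
    exact gen_NW hP g (Submodule.smul_mem _ r ha)
  | zero => simp
  | add a b _ _ ha hb => exact fun r => by rw [smul_add]; exact add_mem (ha r) (hb r)
  | smul s a _ ha => exact fun r => by rw [smul_smul]; exact ha _

/-- **GK for the socle layer** -/
theorem gk0 (hP : Adm ρ P) {c : ℕ} (hc : 2 ≤ c) {γ : G2 p} (h : Ell c γ) :
    {z | z ∈ Gen ρ (So1 ρ P) ∧ ρ γ z = z}.Finite := by
  refine (finite_of_mono (fun m => {z | z ∈ NW ρ P m ∧ ρ γ z = z})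
    (fun m n hmn z hz => ⟨NW_mono hP.gs hmn hz.1, hz.2⟩)
    (fun m => (NW_fin hP m).subset fun z hz => hz.1) _ (NW_card hP hc h)).subset fun z hz => ?_
  obtain ⟨m, hm⟩ := (AddSubgroup.mem_iSup_of_directed (NW_mono hP.gs).directed_le).1
    (Gen_So1 hP.gs hz.1)
  exact Set.mem_iUnion.2 ⟨m, hm, hz.2⟩

/-- invariants in an extension -/
theorem fin_ext {M' : Type*} [AddCommGroup M'] (f : M →+ M') (A : AddSubgroup M)
    (h1 : {z | z ∈ A ∧ f z = 0}.Finite) (h2 : (f '' A).Finite) : (A : Set M).Finite := by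
  refine Set.Finite.of_finite_fibers f h2 ?_
  rintro _ ⟨v0, hv0, rfl⟩
  refine (h1.image fun w => w + v0).subset ?_
  rintro v ⟨hv, e⟩
  exact ⟨v - v0, ⟨sub_mem hv hv0, by rw [map_sub, show f v = f v0 from e, sub_self]⟩, by simp⟩

/-- the fixed vectors of one element -/
def Fe (ρ : Representation R (G2 p) M) (P : Submodule R M) (γ : G2 p) : AddSubgroup M :=
  P.toAddSubgroup ⊓ ((ρ γ).toAddMonoidHom - AddMonoidHom.id M).ker

theorem mem_Fe {γ : G2 p} {z : M} : z ∈ Fe ρ P γ ↔ z ∈ P ∧ ρ γ z = z :=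
  and_congr Iff.rfl sub_eq_zero

/-- devissage along a stable submodule -/
theorem gk_ext {Q : Submodule R M} (hQ : Gs ρ Q) {γ : G2 p} (h1 : {z | z ∈ Q ∧ ρ γ z = z}.Finite)
    (h2 : {z | z ∈ P.map Q.mkQ ∧ quo ρ hQ γ z = z}.Finite) : {z | z ∈ P ∧ ρ γ z = z}.Finite := by
  refine (fin_ext Q.mkQ.toAddMonoidHom (Fe ρ P γ) (h1.subset fun z hz =>
    ⟨(Submodule.Quotient.mk_eq_zero Q).1 hz.2, (mem_Fe.1 hz.1).2⟩) (h2.subset ?_)).subset
    fun z hz => mem_Fe.2 hz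
  rintro _ ⟨z, hz, rfl⟩
  exact ⟨⟨z, (mem_Fe.1 hz).1, rfl⟩, (quo_mk hQ γ z).symm.trans (congrArg _ (mem_Fe.1 hz).2)⟩

/-- the socle filtration of the pro-`p` Iwahori subgroup -/
def Lv (ρ : Representation R (G2 p) M) : ℕ → M → Prop
  | 0, z => z = 0
  | l + 1, z => Lv ρ l (p • z) ∧ ∀ g ∈ I1 p, Lv ρ l (ρ g z - z)

theorem Adm.lv (hP : Adm ρ P) {z : M} (hz : z ∈ P) : ∃ l, Lv ρ l z := by
  have hs : Hs ρ (I1 p) P.toAddSubgroup := fun g _ => hP.gs g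
  letI := repAct hs
  obtain ⟨l, hl⟩ := (pro_of le_rfl 0).exh (smo_of hs 0 hP.sm hP.tor) ⟨z, hz⟩
  suffices h : ∀ l (w : P.toAddSubgroup), w ∈ FF p (I1 p) P.toAddSubgroup l → Lv ρ l w.1 from
    ⟨l, h l _ hl⟩
  intro l
  induction l with
  | zero => exact fun w hw => congrArg Subtype.val (show w = 0 from hw)
  | succ l ih => exact fun w hw => ⟨ih _ hw.1, fun g hg => ih _ (hw.2 ⟨g, hg⟩)⟩

theorem Lv.mono : ∀ {l : ℕ} {z : M}, Lv ρ l z → Lv ρ (l + 1) z := by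
  intro l
  induction l with
  | zero =>
    rintro z rfl
    exact ⟨smul_zero _, fun g _ => by simp [Lv]⟩
  | succ l ih => exact fun h => ⟨ih h.1, fun g hg => ih (h.2 g hg)⟩

theorem Lv.le {l l' : ℕ} {z : M} (e : l ≤ l') (h : Lv ρ l z) : Lv ρ l' z := by
  induction l', e using Nat.le_induction with
  | base => exact h
  | succ _ _ ih => exact ih.mono

theorem Lv.quo (hP : Gs ρ P) : ∀ {l : ℕ} {z : M}, z ∈ P → Lv ρ (l + 1) z →
    Lv (quo ρ (Gen_gs (So1 ρ P))) l ((Gen ρ (So1 ρ P)).mkQ z) := by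
  intro l
  induction l with
  | zero =>
    exact fun hz h => (Submodule.Quotient.mk_eq_zero _).2
      (mem_Gen (mem_So1.2 ⟨hz, h.1, fun g hg => sub_eq_zero.1 (h.2 g hg)⟩))
  | succ l ih =>
    intro z hz h
    refine ⟨by rw [← map_nsmul]; exact ih (nsmul_mem hz p) h.1, fun g hg => ?_⟩
    rw [← quo_mk, ← map_sub]
    exact ih (sub_mem (hP g z hz) hz) (h.2 g hg)

universe u in
theorem gk_lv {c : ℕ} (hc : 2 ≤ c) {γ : G2 p} (h : Ell c γ) (l : ℕ) :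
    ∀ (M : Type u) [AddCommGroup M] [Module R M] (ρ : Representation R (G2 p) M)
      (P : Submodule R M), Adm ρ P → P ≤ Gen ρ {z | z ∈ P ∧ Lv ρ l z} →
      {z | z ∈ P ∧ ρ γ z = z}.Finite := by
  induction l with
  | zero =>
    intro M _ _ ρ P _ hP
    refine (Set.finite_singleton 0).subset fun z hz => ?_
    exact Gen_le (P := ⊥) (fun g v hv => by simp [show v = 0 from hv]) (fun z hz => hz.2) (hP hz.1)
  | succ l ih =>
    intro M _ _ ρ P hA hP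
    have hQ : Gs ρ (Gen ρ (So1 ρ P)) := Gen_gs _
    have hA' : Adm (quo ρ hQ) (P.map (Gen ρ (So1 ρ P)).mkQ) :=
      hA.map _ fun g v _ => quo_mk hQ g v
    refine gk_ext hQ (gk0 hA hc h) (ih _ (quo ρ hQ) _ hA' ?_)
    refine Submodule.map_le_iff_le_comap.2 (hP.trans (Gen_le (fun g v hv => ?_) fun z hz => ?_))
    · rw [Submodule.mem_comap, quo_mk hQ]
      exact Gen_gs _ g _ hv
    · exact mem_Gen ⟨⟨z, hz.1, rfl⟩, Lv.quo hA.gs hz.1 hz.2⟩

/-- finitely generated over the group -/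
def Fg (ρ : Representation R (G2 p) M) (P : Submodule R M) : Prop :=
  ∃ T : Set M, T.Finite ∧ T ⊆ P ∧ P ≤ Gen ρ T

/-- **GK**: a finitely generated admissible module has finite invariants under an elliptic
element -/
theorem gk (hP : Adm ρ P) (hf : Fg ρ P) {c : ℕ} (hc : 2 ≤ c) {γ : G2 p} (h : Ell c γ) :
    {z | z ∈ P ∧ ρ γ z = z}.Finite := by
  obtain ⟨T, h1, h2, h3⟩ := hf
  have : ∀ z, z ∈ T → ∃ l, Lv ρ l z := fun z hz => hP.lv (h2 hz)
  choose! l hl using this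
  obtain ⟨L, hL⟩ := (h1.image l).bddAbove
  refine gk_lv hc h L M ρ P hP (h3.trans (Submodule.span_mono ?_))
  rintro _ ⟨g, a, ha, rfl⟩
  exact ⟨g, a, ⟨h2 ha, (hl a ha).le (hL ⟨a, ha, rfl⟩)⟩, rfl⟩

/-! ## several places -/

section multi

variable {ι : Type*} [DecidableEq ι] (σ : ι → Representation R (G2 p) M)

/-- the vectors fixed by the given subgroups away from one place -/
def Aw (P : Submodule R M) (v : ι) (H : ι → Subgroup (G2 p)) : Submodule R M :=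
  P ⊓ ⨅ w, ⨅ _ : w ≠ v, Fx (σ w) (H w)

variable {σ}

theorem mem_Aw {v : ι} {H : ι → Subgroup (G2 p)} {z : M} :
    z ∈ Aw σ P v H ↔ z ∈ P ∧ ∀ w, w ≠ v → z ∈ Fx (σ w) (H w) := by simp [Aw]

theorem Aw_gs (hc : ∀ v w, v ≠ w → ∀ g h z, σ v g (σ w h z) = σ w h (σ v g z)) {v : ι}
    (hP : Gs (σ v) P) (H : ι → Subgroup (G2 p)) : Gs (σ v) (Aw σ P v H) := fun g z hz =>
  mem_Aw.2 ⟨hP g z (mem_Aw.1 hz).1, fun w hw h hh => by
    rw [hc w v hw, (mem_Aw.1 hz).2 w hw h hh]⟩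

theorem mem_Fx_zpowers {γ : G2 p} {z : M} : z ∈ Fx ρ (Subgroup.zpowers γ) ↔ ρ γ z = z := by
  refine ⟨fun h => h γ (Subgroup.mem_zpowers γ), fun h => ?_⟩
  rintro _ ⟨n, rfl⟩
  induction n using Int.induction_on with
  | zero => simp
  | succ n ih => simp only at ih ⊢; rw [_root_.zpow_add_one, rho_mul, h, ih]
  | pred n ih =>
    simp only at ih ⊢
    have : ρ γ⁻¹ z = z := by conv_lhs => rw [← h, rho_inv]
    rw [_root_.zpow_sub_one, rho_mul, this, ih]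

/-- **GK at several places** -/
theorem gkd [Fintype ι] (hc : ∀ v w, v ≠ w → ∀ g h z, σ v g (σ w h z) = σ w h (σ v g z))
    (gs : ∀ v, Gs (σ v) P) (sm : ∀ v, ∀ z ∈ P, Sm (σ v) z) (tor : ∀ z ∈ P, p • z = 0) (n : ℕ)
    (hn : 0 < n) (fin : {z | z ∈ P ∧ ∀ v, z ∈ Fx (σ v) (Kn p n)}.Finite) (γ : ι → G2 p)
    (h1 : ∀ v H, Adm (σ v) (Aw σ P v H) → {z | z ∈ Aw σ P v H ∧ σ v (γ v) z = z}.Finite) :
    {z | z ∈ P ∧ ∀ v, σ v (γ v) z = z}.Finite := by
  have key : ∀ s : Finset ι, {z | z ∈ P ∧ ∀ v, z ∈ Fx (σ v)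
      (if v ∈ s then Subgroup.zpowers (γ v) else Kn p n)}.Finite := by
    intro s
    induction s using Finset.induction_on with
    | empty => simpa using fin
    | insert v s hv ih =>
      refine (h1 v (fun w => if w ∈ s then Subgroup.zpowers (γ w) else Kn p n)
        ⟨Aw_gs hc (gs v) _, fun z hz => sm v z (mem_Aw.1 hz).1,
          fun z hz => ⟨1, by rw [pow_one, tor z (mem_Aw.1 hz).1]⟩, ih.subset fun z hz =>
            ⟨(mem_Aw.1 hz.1).1, fun w => ?_⟩⟩).subset fun z hz => ⟨mem_Aw.2 ⟨hz.1, fun w hw => ?_⟩, ?_⟩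
      · by_cases hw : w = v
        · rw [hw, if_neg hv]
          exact Fx_anti (Kn_le_I1 hn) hz.2.2
        · exact (mem_Aw.1 hz.1).2 w hw
      · simpa [hw] using hz.2 w
      · have := hz.2 v
        rwa [if_pos (Finset.mem_insert_self _ _), mem_Fx_zpowers] at this
  refine (key Finset.univ).subset fun z hz => ⟨hz.1, fun v => ?_⟩
  rw [if_pos (Finset.mem_univ _), mem_Fx_zpowers]
  exact hz.2 v

end multi

end Vale.Agent.P022K.WB

end
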