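import Vale.Agent.P022K.WB.Sw2

/-!
# P022K, block WB: elliptic elements of `K(p^c)` and their orbits on `ℤ_p`
-/

set_option autoImplicit false
set_option linter.all false

noncomputable section

namespace Vale.Agent.P022K.WB

open Matrix Noe

variable {p : ℕ} [Fact p.Prime]

/-- the numerator of `X·x - x'` -/
def Dv (X : M22 p) (x x' : ℚ_[p]) : ℚ_[p] := X 0 0 * x + X 0 1 - x' * (X 1 0 * x + X 1 1)

theorem Dv_add (X Y : M22 p) (x x' : ℚ_[p]) : Dv (X + Y) x x' = Dv X x x' + Dv Y x x' := by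
  simp only [Dv, Matrix.add_apply]
  ring

theorem Dv_smul (c : ℚ_[p]) (X : M22 p) (x x' : ℚ_[p]) : Dv (c • X) x x' = c * Dv X x x' := by
  simp only [Dv, Matrix.smul_apply, smul_eq_mul]
  ring

theorem Dv_one (x x' : ℚ_[p]) : Dv 1 x x' = x - x' := by simp [Dv]

theorem Dv_le {r : ℝ} {X : M22 p} (h : En r X) {x x' : ℚ_[p]} (hx : ‖x‖ ≤ 1) (hx' : ‖x'‖ ≤ 1) :
    ‖Dv X x x'‖ ≤ r :=
  nsub (nadd (nmul2 (h _ _) hx) (h _ _)) (nmul1 hx' (nadd (nmul2 (h _ _) hx) (h _ _)))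

/-- moves every point of `ℤ_p` by exactly `p^c` -/
def El1 (c : ℕ) (γ : G2 p) : Prop :=
  γ ∈ Kn p c ∧ ∀ x : ℚ_[p], ‖x‖ ≤ 1 → ‖Dv ((γ : M22 p) - 1) x x‖ = rad p c

/-- elliptic elements of level `c` -/
def Ell (c : ℕ) (γ : G2 p) : Prop := El1 c γ ∧ El1 c (ww p * γ * ww p)

theorem norm_quad (a b c : ℤ) (h : ∀ y : ZMod p, (a : ZMod p) * y ^ 2 + b * y + c ≠ 0) {x : ℚ_[p]}
    (hx : ‖x‖ ≤ 1) : ‖(a : ℚ_[p]) * x ^ 2 + b * x + c‖ = 1 := by
  obtain ⟨y, hy⟩ := exists_digit hx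
  have hi : ∀ k : ℤ, ‖(k : ℚ_[p])‖ ≤ 1 := Padic.norm_int_le_one
  have h1 : ‖((a * y.val ^ 2 + b * y.val + c : ℤ) : ℚ_[p])‖ = 1 := by
    refine le_antisymm (hi _) (not_lt.1 fun e => h y ?_)
    have := (ZMod.intCast_zmod_eq_zero_iff_dvd _ p).2 (Padic.norm_intCast_lt_one_iff.1 e)
    simpa using this
  have h2 : ‖(x - y.val) * (a * (x + y.val) + b)‖ < 1 :=
    nmul2' hy (nadd (nmul1 (hi a) (nadd hx (norm_nat _))) (hi b))
  have := IsUltrametricDist.norm_add_eq_max_of_norm_ne_norm (h2.trans_eq h1.symm).ne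
  rw [h1, max_eq_right h2.le] at this
  rw [← this]
  congr 1
  push_cast
  ring

theorem exists_ell {c : ℕ} (hc : 0 < c) : ∃ γ : G2 p, Ell c γ := by
  obtain ⟨a, ha⟩ : ∃ a : ZMod p, ∀ y : ZMod p, y ^ 2 + y ≠ a := by
    by_contra h
    push Not at h
    have := Finite.injective_iff_surjective.2 (show Function.Surjective fun y : ZMod p => y ^ 2 + y
      from h) (a₁ := 0) (a₂ := -1) (by simp)
    simp at this
  obtain ⟨k, rfl⟩ : ∃ k : ℕ, (k : ZMod p) = a := ⟨a.val, ZMod.natCast_zmod_val a⟩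
  have hJ : En 1 (!![0, (k : ℚ_[p]); 1, 1] : M22 p) := fun i j => by
    fin_cases i <;> fin_cases j <;> simp [norm_nat]
  obtain ⟨γ, h1, e⟩ := exists_Kn hc (X := (p : ℚ_[p]) ^ c • !![0, (k : ℚ_[p]); 1, 1])
    (by simpa only [mul_one] using En.smul (norm_pow_p c).le hJ)
  refine ⟨γ, ⟨h1, fun x hx => ?_⟩, by simpa only [ww_inv] using Kn_conj ww_K0 h1, fun x hx => ?_⟩
  · rw [e, add_sub_cancel_left, Dv_smul, norm_mul, norm_pow_p]
    have := norm_quad (p := p) (-1) (-1) k (fun y hy => ha y (by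
      push_cast at hy
      linear_combination -hy)) hx
    rw [show Dv (!![0, (k : ℚ_[p]); 1, 1] : M22 p) x x =
      ((-1 : ℤ) : ℚ_[p]) * x ^ 2 + (-1 : ℤ) * x + (k : ℤ) by simp [Dv]; ring, this, mul_one]
  · have e2 : ((ww p * γ * ww p : G2 p) : M22 p) - 1 =
        (p : ℚ_[p]) ^ c • !![1, 1; (k : ℚ_[p]), 0] := by
      rw [Units.val_mul, Units.val_mul, e, Matrix.one_fin_two]
      ext i j
      fin_cases i <;> fin_cases j <;> simp [Matrix.mul_apply, Fin.sum_univ_two]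
    rw [e2, Dv_smul, norm_mul, norm_pow_p]
    have := norm_quad (p := p) (-k) 1 1 (fun y hy => by
      push_cast at hy
      have h0 : y ≠ 0 := fun e => by simp [e] at hy
      refine ha y⁻¹ ?_
      field_simp
      linear_combination hy) hx
    rw [show Dv (!![1, 1; (k : ℚ_[p]), 0] : M22 p) x x =
      ((-k : ℤ) : ℚ_[p]) * x ^ 2 + (1 : ℤ) * x + (1 : ℤ) by simp [Dv]; ring, this, mul_one]

theorem pow_pow_near {c : ℕ} (hc : 2 ≤ c) {γ : G2 p} (h : γ ∈ Kn p c) (m : ℕ) :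
    γ ^ p ^ m ∈ Kn p (c + m) ∧ En (rad p (c + m + 1))
      (((γ ^ p ^ m : G2 p) : M22 p) - 1 - (p : ℚ_[p]) ^ m • ((γ : M22 p) - 1)) := by
  induction m with
  | zero => exact ⟨by simpa using h, fun i j => by simp [(rad_pos _).le]⟩
  | succ m ih =>
    rw [pow_succ p, pow_mul]
    refine ⟨pow_Kn (m := c + m) (by omega) ih.1, ?_⟩
    have := (pow_near (m := c + m) (by omega) ih.1).add (en_p_smul ih.2)
    change En (rad p (c + m + 2)) _
    convert this using 1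
    rw [pow_succ', mul_smul]
    simp only [smul_sub]
    abel

theorem El1.trans {c : ℕ} (hc : 2 ≤ c) {γ : G2 p} (h : El1 c γ) {x x' : ℚ_[p]} (hx : ‖x‖ ≤ 1)
    (hx' : ‖x'‖ ≤ 1) (e : ‖x - x'‖ ≤ rad p c) (m : ℕ) :
    ∃ i : ℕ, ‖Dv ((γ ^ i : G2 p) : M22 p) x x'‖ ≤ rad p (c + m) := by
  induction m with
  | zero => exact ⟨0, by simpa [Dv_one] using e⟩
  | succ m ih =>
    obtain ⟨i, hi⟩ := ih
    obtain ⟨h1, h2⟩ := pow_pow_near hc h.1 m
    set D := Dv ((γ ^ i : G2 p) : M22 p) x x' with hD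
    set q := (p : ℚ_[p]) ^ m * Dv ((γ : M22 p) - 1) x x with hq
    have hq1 : ‖q‖ = rad p (c + m) := by rw [hq, norm_mul, norm_pow_p, h.2 x hx, ← rad_add, add_comm]
    have hq0 : q ≠ 0 := norm_pos_iff.1 (hq1 ▸ rad_pos _)
    obtain ⟨l, hl⟩ := exists_digit (b := -D / q) (by
      rwa [norm_div, norm_neg, hq1, div_le_one (rad_pos _)])
    have h3 : ‖D + l.val * q‖ ≤ rad p (c + m + 1) := by
      rw [show D + l.val * q = -((-D / q - l.val) * q) by field_simp; ring, norm_neg, rad, pow_succ']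
      exact nmul (norm_le_inv hl) hq1.le
    refine ⟨p ^ m * l.val + i, ?_⟩
    set δ := γ ^ p ^ m with hδ
    obtain ⟨Y, hY, e1⟩ := pow_expand (h1.1.mono (rad_le_one _)) l.val
    rw [add_sub_cancel] at e1
    have hg : γ ^ i ∈ Kn p c := pow_mem h.1 i
    have hr : ∀ {a b : ℕ}, c + m + 1 ≤ a + b → rad p a * rad p b ≤ rad p (c + m + 1) :=
      fun hab => by rw [← rad_add]; exact rad_le hab
    have e2 : ((γ ^ (p ^ m * l.val + i) : G2 p) : M22 p) = ((γ ^ i : G2 p) : M22 p) +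
        (l.val * (p : ℚ_[p]) ^ m) • ((γ : M22 p) - 1) +
        ((l.val : ℚ_[p]) • ((δ : M22 p) - 1 - (p : ℚ_[p]) ^ m • ((γ : M22 p) - 1)) +
          ((δ : M22 p) - 1) * ((δ : M22 p) - 1) * Y +
          (((δ ^ l.val : G2 p) : M22 p) - 1) * (((γ ^ i : G2 p) : M22 p) - 1)) := by
      rw [pow_add, pow_mul, ← hδ, Units.val_mul, Units.val_pow_eq_pow_val δ, e1, mul_smul]
      simp only [smul_sub, mul_sub, mul_one, add_mul, sub_mul, one_mul]
      abel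
    have h4 : ‖Dv ((l.val : ℚ_[p]) • ((δ : M22 p) - 1 - (p : ℚ_[p]) ^ m • ((γ : M22 p) - 1)) +
          ((δ : M22 p) - 1) * ((δ : M22 p) - 1) * Y +
          (((δ ^ l.val : G2 p) : M22 p) - 1) * (((γ ^ i : G2 p) : M22 p) - 1)) x x'‖ ≤
        rad p (c + m + 1) := by
      refine Dv_le (En.add (En.add ?_ ?_) ?_) hx hx'
      · simpa only [one_mul] using En.smul (norm_nat l.val) h2
      · refine ((h1.1.mul h1.1).mul hY).mono ?_
        rw [mul_one]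
        exact hr (by omega)
      · exact ((pow_mem h1 l.val).1.mul hg.1).mono (hr (by omega))
    have h5 : ‖(l.val * (p : ℚ_[p]) ^ m) *
        ((x - x') * (((γ : M22 p) - 1) 1 0 * x + ((γ : M22 p) - 1) 1 1))‖ ≤ rad p (c + m + 1) := by
      refine (nmul (nmul1 (norm_nat _) (norm_pow_p m).le)
        (nmul e (nadd (nmul2 (h.1.1 _ _) hx) (h.1.1 _ _)))).trans ?_
      rw [← rad_add]
      exact hr (by omega)
    rw [e2, Dv_add, Dv_add, Dv_smul, ← hD, ← add_assoc]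
    refine nadd ?_ h4
    convert nadd h3 h5 using 2
    rw [hq]
    simp only [Dv]
    ring

theorem tt_pow (m : ℕ) : tt p ^ m = dd (pu p ^ m) 1 := by
  induction m with
  | zero => simp
  | succ m ih => rw [pow_succ, ih, tt, ← dd_mul, one_mul, pow_succ]

theorem conj_I1 {g : G2 p} (h : g ∈ I1 p) {x x' : ℚ_[p]} (hx : ‖x‖ ≤ 1) (hx' : ‖x'‖ ≤ 1) {m : ℕ}
    (e : ‖Dv (g : M22 p) x x'‖ ≤ rad p m) :
    (nn x' * tt p ^ m)⁻¹ * g * (nn x * tt p ^ m) ∈ I1 p := by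
  have h2 : (p : ℚ_[p]) ^ m ≠ 0 := pow_ne_zero _ (p_ne p)
  have e1 : ((nn x' * tt p ^ m)⁻¹ * g * (nn x * tt p ^ m) : G2 p) =
      mk (g 0 0 - x' * g 1 0) (Dv (g : M22 p) x x' / p ^ m) (p ^ m * g 1 0) (g 1 0 * x + g 1 1) (by
        have := det_ne g
        convert this using 1
        simp only [Dv]
        field_simp
        ring) := by
    rw [mul_assoc, inv_mul_eq_iff_eq_mul, tt_pow]
    refine G2_ext ?_
    ext i j
    fin_cases i <;> fin_cases j <;> simp [Matrix.mul_apply, Fin.sum_univ_two, Dv] <;>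
      field_simp <;> ring
  obtain ⟨a1, a2, a3, a4⟩ := h
  rw [e1, mem_I1]
  simp only [mk_val, Matrix.of_apply, Matrix.cons_val', Matrix.cons_val_zero,
    Matrix.cons_val_one, Matrix.cons_val_fin_one]
  refine ⟨?_, ?_, nmul1' ((norm_pow_p m).le.trans (rad_le_one m)) a3, ?_⟩
  · convert nsub' a1 (nmul1' hx' a3) using 2
    ring
  · rwa [norm_div, norm_pow_p, div_le_one (rad_pos m)]
  · rw [add_sub_assoc]
    exact nadd' (nmul2' a3 hx) a4

theorem exists_nat_near {x : ℚ_[p]} (hx : ‖x‖ ≤ 1) (m : ℕ) :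
    ∃ y : Fin (p ^ m), ‖x - (y : ℕ)‖ ≤ rad p m := by
  obtain ⟨z, rfl⟩ : ∃ z : ℤ_[p], (z : ℚ_[p]) = x := ⟨⟨x, hx⟩, rfl⟩
  refine ⟨⟨_, PadicInt.appr_lt z m⟩, ?_⟩
  have := PadicInt.appr_spec m z
  rw [← PadicInt.norm_le_pow_iff_mem_span_pow, PadicInt.norm_def, PadicInt.coe_sub,
    PadicInt.coe_natCast, _root_.zpow_neg, zpow_natCast, ← inv_pow] at this
  exact this

end Vale.Agent.P022K.WB

end
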