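import Vale.Agent.P022K.WB.Frb

/-!
# P022K, block WB: the Galois law of slices from inertia, one Frobenius, and finiteness
-/

set_option autoImplicit false

noncomputable section

namespace Vale.Agent.P022K.WB.Hon

variable {p : ℕ} [Fact p.Prime] {C : Type} [NontriviallyNormedField C] [IsUltrametricDist C]
  [CharZero C] {ψ : ℚ_[p] → C} {Γ : Type} [Group Γ] (act : Γ →* Iso C) (χ : Γ →* ℤ_[p]ˣ)
  {R M : Type*} [CommRing R] [AddCommGroup M] [Module R M] (ρ : Representation R (G2 p) M)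
  (γ : Γ → M → M) (P : Submodule R M) (w : ℕ → ℚ_[p] → M →+ Y p C)

/-- the Galois law of the slices -/
def Law (s : Γ) (i : ℕ) (c : ℤ_[p]ˣ) : Prop :=
  ∀ k a, 0 < k → ‖a‖ = 1 → ∀ v ∈ P, Y.gal (act s) (w k a v) =
    zs (c : ℤ_[p]) ((Y.phi p C)^[i] (w k (a / ((c : ℤ_[p]) : ℚ_[p]))
      (ρ ((tt p)⁻¹ ^ i * dd (uq (χ s * c)) 1) (γ s v))))

/-- the slices at the conjugate point -/
def tw (s : Γ) (k : ℕ) (a : ℚ_[p]) (v : M) : Y p C :=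
  Y.gal (act s) (w k a (γ s⁻¹ (ρ (dd (uq (χ s)) 1)⁻¹ v)))

/-- two conjugate points differ by a diagonal unit -/
def Rel (s s' : Γ) (c : ℤ_[p]ˣ) : Prop :=
  ∀ k a, 0 < k → ‖a‖ = 1 → ∀ v ∈ P, tw act χ ρ γ w s k a v =
    zs (c : ℤ_[p]) (tw act χ ρ γ w s' k (a / ((c : ℤ_[p]) : ℚ_[p])) (ρ (dd (uq c) 1) v))

/-- the group acts on `P` -/
structure Ac : Prop where
  gs : Gs ρ P
  tor : ∀ v ∈ P, ∃ k : ℕ, p ^ k • v = 0
  mem : ∀ s, ∀ v ∈ P, γ s v ∈ P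
  com : ∀ s g, ∀ v ∈ P, γ s (ρ g v) = ρ g (γ s v)
  one : ∀ v ∈ P, γ 1 v = v
  mul : ∀ s t, ∀ v ∈ P, γ (s * t) v = γ s (γ t v)

variable {act χ ρ γ P w}

theorem tor_w' {v : M} (h : ∃ k : ℕ, p ^ k • v = 0) (f : M →+ Y p C) :
    ∃ k : ℕ, p ^ k • f v = 0 := h.imp fun _ h => by rw [← map_nsmul, h, map_zero]

theorem Law.mul (A : Ac ρ γ P) {s s' : Γ} {i i' : ℕ} {c c' : ℤ_[p]ˣ} (h : Law act χ ρ γ P w s i c)
    (h' : Law act χ ρ γ P w s' i' c') : Law act χ ρ γ P w (s * s') (i + i') (c * c') := by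
  intro k a hk ha v hv
  have m1 := A.gs ((tt p)⁻¹ ^ i' * dd (uq (χ s' * c')) 1) _ (A.mem s' v hv)
  have m2 := A.gs ((tt p)⁻¹ ^ i * dd (uq (χ s * c)) 1) _ (A.mem s _ m1)
  obtain ⟨N, t1⟩ := tor_w' (A.tor _ m1) (w k (a / ((c' : ℤ_[p]) : ℚ_[p])))
  obtain ⟨N', t2⟩ := tor_w' (A.tor _ m2) (w k (a / ((c' : ℤ_[p]) : ℚ_[p]) / ((c : ℤ_[p]) : ℚ_[p])))
  have e : (tt p)⁻¹ ^ i * Du (χ s * c) * ((tt p)⁻¹ ^ i' * Du (χ s' * c')) =
      (tt p)⁻¹ ^ (i + i') * Du (χ (s * s') * (c * c')) := by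
    have hc : Commute ((tt p)⁻¹ ^ i') (Du (χ s * c)) := ((tt_dd _ _).inv_left).pow_left i'
    rw [mul_assoc, ← mul_assoc (Du _), ← hc.eq, mul_assoc, ← map_mul, ← mul_assoc, ← pow_add,
      map_mul χ, mul_mul_mul_comm]
  rw [map_mul act, Y.gal_mul, h' k a hk ha v hv, map_zs _ _ (tor_it t1 i'), ph_nat, gal_ph,
    h k _ hk (by rw [norm_div, ha, norm_u, div_one]) _ m1, map_zs _ _ (tor_it t2 i), ← ph_nat,
    ← Function.iterate_add_apply, ← zs_mul _ _ (tor_it t2 _), A.com _ _ _ (A.mem s' v hv),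
    ← rho_mul, ← A.mul _ _ _ hv, Du_def, Du_def, Du_def, e, div_div, ← PadicInt.coe_mul,
    Units.val_mul c, mul_comm (c : ℤ_[p]), add_comm i']

theorem Law.one (A : Ac ρ γ P) : Law act χ ρ γ P w 1 0 1 := by
  intro k a _ _ v hv
  obtain ⟨N, t⟩ := tor_w' (A.tor v hv) (w k a)
  simp [Y.gal_one, A.one v hv, dd_one, zs_one t]

theorem Law.pow (A : Ac ρ γ P) {s : Γ} {i : ℕ} {c : ℤ_[p]ˣ} (h : Law act χ ρ γ P w s i c) (n : ℕ) :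
    Law act χ ρ γ P w (s ^ n) (i * n) (c ^ n) := by
  induction n with
  | zero => simpa using Law.one A
  | succ n ih => simpa only [pow_succ, Nat.mul_succ] using ih.mul A h

theorem Rel.law (A : Ac ρ γ P) {s s' : Γ} {c : ℤ_[p]ˣ} (h : Rel act χ ρ γ P w s s' c) :
    Law act χ ρ γ P w (s'⁻¹ * s) 0 c := by
  intro k a hk ha v hv
  have m1 := A.mem s v hv
  have m2 := A.gs (dd (uq (χ s)) 1) _ m1
  have h1 := h k a hk ha _ m2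
  have m3 := A.mem s'⁻¹ _ (A.gs (dd (uq (χ s')) 1)⁻¹ _ (A.gs (dd (uq c) 1) _ m2))
  obtain ⟨N, t⟩ := tor_w' (A.tor _ m3) (w k (a / ((c : ℤ_[p]) : ℚ_[p])))
  rw [tw, tw, rho_inv, ← A.mul _ _ _ hv, inv_mul_cancel, A.one v hv, ← map_zs _ _ t] at h1
  rw [map_mul act, Y.gal_mul, h1, ← Y.gal_mul, ← map_mul, inv_mul_cancel, map_one, Y.gal_one,
    ← rho_mul, ← rho_mul, A.com _ _ _ m1, ← A.mul _ _ _ hv, pow_zero, one_mul, Du_def, Du_def,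
    Du_def, Du_def, ← map_inv, ← map_mul, ← map_mul, map_mul χ, map_inv, mul_right_comm]
  rfl

theorem unit_pow (c : ℤ_[p]ˣ) (k : ℕ) :
    (p : ℤ_[p]) ^ k ∣ ((c ^ (p ^ k).totient : ℤ_[p]ˣ) : ℤ_[p]) - 1 := by
  rw [← Ideal.mem_span_singleton, ← PadicInt.ker_toZModPow, RingHom.mem_ker, map_sub, map_one,
    sub_eq_zero, Units.val_pow_eq_pow_val, map_pow]
  exact congrArg Units.val
    (ZMod.pow_totient (Units.map (PadicInt.toZModPow (p := p) k).toMonoidHom c))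

theorem Law.fin (A : Ac ρ γ P) {X : Type*} [Finite X] (col : Γ → X)
    (h : ∀ s s', col s = col s' → ∃ c, Law act χ ρ γ P w (s'⁻¹ * s) 0 c) (k : ℕ) :
    ∃ q, 0 < q ∧ ∀ s, ∃ c : ℤ_[p]ˣ, (p : ℤ_[p]) ^ k ∣ c - 1 ∧ Law act χ ρ γ P w (s ^ q) 0 c := by
  let _ := Fintype.ofFinite X
  refine ⟨(Fintype.card X).factorial * (p ^ k).totient, Nat.mul_pos (Nat.factorial_pos _)
    (Nat.totient_pos.2 (pow_pos (Fact.out : p.Prime).pos k)), fun s => ?_⟩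
  have key : ∀ a b : Fin (Fintype.card X + 1), a < b → col (s ^ b.val) = col (s ^ a.val) →
      ∃ c, Law act χ ρ γ P w (s ^ (Fintype.card X).factorial) 0 c := fun a b l e => by
    obtain ⟨c, hc⟩ := h _ _ e
    obtain ⟨d, hd⟩ := Nat.dvd_factorial (Nat.sub_pos_of_lt l)
      (show b.val - a.val ≤ Fintype.card X by omega)
    rw [← Nat.add_sub_of_le (show a.val ≤ b.val from l.le), pow_add, inv_mul_cancel_left] at hc
    exact ⟨c ^ d, by simpa only [hd, pow_mul, zero_mul] using hc.pow A d⟩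
  obtain ⟨a, b, ne, e⟩ := Fintype.exists_ne_map_eq_of_card_lt
    (fun a : Fin (Fintype.card X + 1) => col (s ^ a.val)) (by simp)
  obtain ⟨c, hc⟩ := (lt_or_gt_of_ne ne).elim (fun l => key a b l e.symm) fun l => key b a l e
  exact ⟨_, unit_pow c k, by simpa only [pow_mul, zero_mul] using hc.pow A _⟩

/-- **slices from inertia, Frobenius, finiteness** -/
theorem Sc.of_fin (ok : Og ψ act χ) (A : Ac ρ γ P)
    (ref : ∀ k a, 0 < k → ‖a‖ = 1 → ∀ v ∈ P,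
      w k a v = ∑ j ∈ Finset.range p, w (k + 1) (a + j * (p : ℚ_[p]) ^ k) v)
    (cong : ∀ k a a', ‖a - a'‖ ≤ ‖(p : ℚ_[p]) ^ k‖ → ∀ v ∈ P, w k a v = w k a' v)
    (n : ∀ (r : ℝ), ∀ v ∈ P, ∃ k0, ∀ k, k0 ≤ k → ∀ a b, ‖a‖ = 1 → ‖b‖ ≤ r →
      w k a (ρ (nn b) v) = ok.psi.n (a * b) (w k a v)) (F : Γ) (I : Γ → Prop)
    (dec : ∀ (s : Γ) (q i : ℕ), 0 < q → (∀ x : C, x ^ (p ^ q - 1) = 1 → (act s).1 x = x ^ p ^ i) →
      ∃ s1 sI, s = F ^ i * s1 ^ q * sI ∧ I sI)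
    (fro : Law act χ ρ γ P w F 1 1) (ine : ∀ s, I s → Law act χ ρ γ P w s 0 1)
    {X : Type*} [Finite X] (col : Γ → X)
    (fin : ∀ s s', col s = col s' → ∃ c, Law act χ ρ γ P w (s'⁻¹ * s) 0 c) : Sc ok ρ γ P w := by
  refine ⟨ref, cong, n, fun k => ?_⟩
  obtain ⟨q, hq, h⟩ := Law.fin A col fin k
  refine ⟨q, hq, fun s i hs => ?_⟩
  obtain ⟨s1, sI, rfl, hI⟩ := dec s q i hq hs
  obtain ⟨c, c1, c2⟩ := h s1
  have := ((fro.pow A i).mul A c2).mul A (ine sI hI)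
  simp only [one_mul, add_zero, one_pow, mul_one] at this
  exact ⟨c, c1, this⟩

/-- the case of the full group of isometries of `CS p` -/
theorem Sc.of_cs {ψ : ℚ_[p] → FI.CS p} {χ : Iso (FI.CS p) →* ℤ_[p]ˣ} {γ : Iso (FI.CS p) → M → M}
    {w : ℕ → ℚ_[p] → M →+ Y p (FI.CS p)} (ok : Og ψ (MonoidHom.id _) χ) (A : Ac ρ γ P)
    (ref : ∀ k a, 0 < k → ‖a‖ = 1 → ∀ v ∈ P,
      w k a v = ∑ j ∈ Finset.range p, w (k + 1) (a + j * (p : ℚ_[p]) ^ k) v)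
    (cong : ∀ k a a', ‖a - a'‖ ≤ ‖(p : ℚ_[p]) ^ k‖ → ∀ v ∈ P, w k a v = w k a' v)
    (n : ∀ (r : ℝ), ∀ v ∈ P, ∃ k0, ∀ k, k0 ≤ k → ∀ a b, ‖a‖ = 1 → ‖b‖ ≤ r →
      w k a (ρ (nn b) v) = ok.psi.n (a * b) (w k a v))
    (fro : ∀ s, Fr s → Law (MonoidHom.id _) χ ρ γ P w s 1 1)
    (ine : ∀ s, In s → Law (MonoidHom.id _) χ ρ γ P w s 0 1) {X : Type*} [Finite X]
    (col : Iso (FI.CS p) → X)
    (fin : ∀ s s', col s = col s' → ∃ c, Law (MonoidHom.id _) χ ρ γ P w (s'⁻¹ * s) 0 c) :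
    Sc ok ρ γ P w := by
  obtain ⟨F, hF⟩ := exists_fr p
  exact Sc.of_fin ok A ref cong n F In (fun s _ _ hq hs => hF.dec s hq hs) (fro F hF) ine col fin

end Vale.Agent.P022K.WB.Hon
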