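import Vale.Agent.P022K.WB.YSt

/-!
# Row `INJS`, part 0: estimates for the Amice measure `mu`
-/

open PowerSeries Finset

namespace Vale.Agent.P022K.WB.Ij

open Vale.Agent.P022K.FI Vale.Agent.P022K.FI.An4

variable {p : ℕ} [Fact p.Prime] {C : Type} [NontriviallyNormedField C] [IsUltrametricDist C]

section nat

theorem nn_le (n : ℕ) : ‖(n : C)‖ ≤ 1 := IsUltrametricDist.norm_natCast_le_one C n

theorem nn_dvd {m n : ℕ} (h : m ∣ n) : ‖(n : C)‖ ≤ ‖(m : C)‖ := by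
  obtain ⟨k, rfl⟩ := h
  rw [Nat.cast_mul, norm_mul]
  exact mul_le_of_le_one_right (norm_nonneg _) (nn_le k)

theorem nn_cop (hp : ‖(p : C)‖ < 1) {n : ℕ} (h : ¬ p ∣ n) : ‖(n : C)‖ = 1 := by
  refine le_antisymm (nn_le n) (not_lt.1 fun hn => ?_)
  have hc : IsCoprime (p : ℤ) (n : ℤ) :=
    Nat.isCoprime_iff_coprime.2 (((Fact.out : p.Prime).coprime_iff_not_dvd).2 h)
  obtain ⟨a, b, hab⟩ := hc
  have h1 : (a : C) * p + (b : C) * n = 1 := by exact_mod_cast congrArg (Int.cast : ℤ → C) hab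
  have ha := IsUltrametricDist.norm_intCast_le_one C a
  have hb := IsUltrametricDist.norm_intCast_le_one C b
  have h2 := IsUltrametricDist.norm_add_le_max ((a : C) * p) ((b : C) * n)
  rw [h1, norm_one, norm_mul, norm_mul] at h2
  have h3 : ‖(a : C)‖ * ‖(p : C)‖ < 1 :=
    (mul_le_of_le_one_left (norm_nonneg _) ha).trans_lt hp
  have h4 : ‖(b : C)‖ * ‖(n : C)‖ < 1 :=
    (mul_le_of_le_one_left (norm_nonneg _) hb).trans_lt hn
  exact absurd h2 (not_le.2 (max_lt h3 h4))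

theorem nn_ge (hp : ‖(p : C)‖ < 1) (j : ℕ) : ‖(p : C)‖ ^ j ≤ ‖((j + 1 : ℕ) : C)‖ := by
  obtain ⟨s, m, hm, h⟩ := Nat.exists_eq_pow_mul_and_not_dvd (n := j + 1) j.succ_ne_zero p
    (Fact.out : p.Prime).ne_one
  have h1 : s < p ^ s := Nat.lt_pow_self (Fact.out : p.Prime).one_lt
  have h2 : 0 < m := Nat.pos_of_ne_zero fun h0 => hm (h0 ▸ dvd_zero p)
  have h3 : p ^ s ≤ j + 1 := h ▸ Nat.le_mul_of_pos_right _ h2
  rw [h, Nat.cast_mul, Nat.cast_pow, norm_mul, norm_pow, nn_cop hp hm, mul_one]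
  exact pow_le_pow_of_le_one (norm_nonneg _) hp.le (by omega)

omit [IsUltrametricDist C] in
theorem np_pos [CharZero C] : 0 < ‖(p : C)‖ :=
  norm_pos_iff.2 (Nat.cast_ne_zero.2 (Fact.out : p.Prime).ne_zero)

end nat

section bnd

variable {B B' : ℝ} {f g : C⟦X⟧}

omit [IsUltrametricDist C] in
theorem bnd1 : Bnd 1 B f ↔ ∀ n, ‖coeff n f‖ ≤ B := by simp [Bnd]

theorem bmul (hf : Bnd 1 B f) (hg : Bnd 1 1 g) : Bnd 1 B (f * g) := by
  simpa using hf.mul zero_le_one hg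

theorem bmul' (hf : Bnd 1 1 f) (hg : Bnd 1 B g) : Bnd 1 B (f * g) := by
  simpa using hf.mul zero_le_one hg

theorem bpow (hf : Bnd 1 1 f) (n : ℕ) : Bnd 1 1 (f ^ n) := by
  simpa using hf.pow zero_le_one n

omit [IsUltrametricDist C] in
theorem b_X : Bnd 1 1 (X : C⟦X⟧) := bnd_X zero_le_one

theorem b_y : Bnd 1 1 (1 + X : C⟦X⟧) := (bnd_one 1).add zero_le_one b_X

omit [IsUltrametricDist C] in
theorem b_nat (n : ℕ) : Bnd 1 ‖(n : C)‖ (n : C⟦X⟧) := by
  simpa using bnd_C 1 (n : C)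

theorem b_nat1 (n : ℕ) : Bnd 1 1 (n : C⟦X⟧) := (b_nat n).mono (nn_le n)

theorem b_mon {c : C} (hc : ‖c‖ ≤ B) (n : ℕ) : Bnd 1 B (PowerSeries.C c * (1 + X) ^ n) :=
  bmul (bnd_C_le 1 hc) (bpow b_y n)

theorem b_der (hf : Bnd 1 B f) : Bnd 1 B (d⁄dX C f) := bnd1.2 fun n => by
  rw [coeff_derivative, norm_mul]
  have h := nn_le (C := C) (n + 1)
  rw [Nat.cast_succ] at h
  exact (mul_le_of_le_one_right (norm_nonneg _) h).trans (bnd1.1 hf _)

/-- `y d/dy` -/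
noncomputable def DD (f : C⟦X⟧) : C⟦X⟧ := (1 + X) * d⁄dX C f

theorem b_DD (hf : Bnd 1 B f) : Bnd 1 B (DD f) := bmul' b_y (b_der hf)

omit [IsUltrametricDist C] in
theorem DD_add (f g : C⟦X⟧) : DD (f + g) = DD f + DD g := by simp [DD, mul_add]

omit [IsUltrametricDist C] in
theorem DD_sub (f g : C⟦X⟧) : DD (f - g) = DD f - DD g := by simp [DD, mul_sub]

omit [IsUltrametricDist C] in
theorem DD_mul (f g : C⟦X⟧) : DD (f * g) = DD f * g + f * DD g := by
  simp only [DD, Derivation.leibniz, smul_eq_mul]; ring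

omit [IsUltrametricDist C] in
theorem DD_C (c : C) : DD (PowerSeries.C c) = 0 := by simp [DD, derivative_C]

omit [IsUltrametricDist C] in
theorem DD_nat (n : ℕ) : DD (n : C⟦X⟧) = 0 := by simpa using DD_C (n : C)

omit [IsUltrametricDist C] in
theorem DD_one : DD (1 : C⟦X⟧) = 0 := by simpa using DD_C (1 : C)

omit [IsUltrametricDist C] in
theorem DD_pow (f : C⟦X⟧) (n : ℕ) : DD (f ^ (n + 1)) = (n + 1 : ℕ) * f ^ n * DD f := by
  induction n with
  | zero => simp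
  | succ n ih => rw [pow_succ, DD_mul, ih]; push_cast; ring

omit [IsUltrametricDist C] in
theorem DD_y : DD (1 + X : C⟦X⟧) = 1 + X := by simp [DD]

omit [IsUltrametricDist C] in
theorem DD_ypow (n : ℕ) : DD ((1 + X : C⟦X⟧) ^ n) = (n : C⟦X⟧) * (1 + X : C⟦X⟧) ^ n := by
  cases n with
  | zero => simp [DD_one]
  | succ n => rw [DD_pow, DD_y]; ring

omit [IsUltrametricDist C] in
theorem b_tail (hf : Bnd 1 B f) : Bnd 1 B (PowerSeries.mk fun n => coeff (n + 1) f) :=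
  bnd1.2 fun n => by rw [coeff_mk]; exact bnd1.1 hf _

/-- an additive functional which is small on `c y ^ n` and on tails is small -/
theorem ext_le (L : C⟦X⟧ → C) {E : ℝ}
    (hadd : ∀ f g, Bnd 1 B f → Bnd 1 B g → L (f + g) = L f + L g)
    (hmon : ∀ (c : C) (n : ℕ), ‖c‖ ≤ B → ‖L (PowerSeries.C c * (1 + X) ^ n)‖ ≤ E)
    (htail : ∀ ε, 0 < ε → ∃ M : ℕ, ∀ t, Bnd 1 B t → ‖L (X ^ M * t)‖ ≤ ε)
    (hf : Bnd 1 B f) : ‖L f‖ ≤ E := by
  have hB := hf.nonneg
  have h1 : ∀ (k : ℕ) (c : C) (n : ℕ), ‖c‖ ≤ B →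
      ‖L (PowerSeries.C c * (1 + X) ^ n * X ^ k)‖ ≤ E := by
    intro k
    induction k with
    | zero => intro c n hc; simpa using hmon c n hc
    | succ k ih =>
      intro c n hc
      have hc' : ‖-c‖ ≤ B := by simpa using hc
      have e : PowerSeries.C c * (1 + X) ^ n * X ^ (k + 1) =
          PowerSeries.C c * (1 + X) ^ (n + 1) * X ^ k + PowerSeries.C (-c) * (1 + X) ^ n * X ^ k := by
        rw [map_neg]; ring
      rw [e, hadd _ _ (bmul (b_mon hc _) (bpow b_X _)) (bmul (b_mon hc' _) (bpow b_X _))]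
      exact (IsUltrametricDist.norm_add_le_max _ _).trans (max_le (ih _ _ hc) (ih _ _ hc'))
  have h2 : ∀ M : ℕ, ∃ g t, Bnd 1 B g ∧ Bnd 1 B t ∧ ‖L g‖ ≤ E ∧ f = g + X ^ M * t := by
    intro M
    induction M with
    | zero =>
      refine ⟨0, f, bnd_zero 1 hB, hf, ?_, by simp⟩
      simpa using hmon 0 0 (by simpa using hB)
    | succ M ih =>
      obtain ⟨g, t, hg, ht, hL, e⟩ := ih
      have h0 : ‖coeff 0 t‖ ≤ B := bnd1.1 ht 0
      have hm := bmul (b_mon h0 0) (bpow b_X M)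
      refine ⟨g + PowerSeries.C (coeff 0 t) * (1 + X) ^ 0 * X ^ M, _, hg.add zero_le_one hm,
        b_tail ht, ?_, ?_⟩
      · rw [hadd _ _ hg hm]
        exact (IsUltrametricDist.norm_add_le_max _ _).trans (max_le hL (h1 _ _ _ h0))
      · rw [e]
        conv_lhs => rw [eq_X_mul_shift_add_const t]
        rw [coeff_zero_eq_constantCoeff]
        ring
  refine le_of_forall_pos_le_add fun ε hε => ?_
  obtain ⟨M, hM⟩ := htail ε hε
  obtain ⟨g, t, hg, ht, hL, e⟩ := h2 M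
  have hE : 0 ≤ E := (norm_nonneg _).trans hL
  rw [e, hadd _ _ hg (bmul' (bpow b_X M) ht)]
  exact (IsUltrametricDist.norm_add_le_max _ _).trans
    (max_le (by linarith) (by have := hM t ht; linarith))

end bnd

section mu

variable {ψ : ℚ_[p] → C} {B B' : ℝ} {f g : C⟦X⟧}

theorem zeta_lt (h : Psi p ψ) (hp : ‖(p : C)‖ < 1) (b : ℚ_[p]) : ‖ψ b - 1‖ < 1 := by
  obtain ⟨k, hk⟩ := h.tors b
  have hz : ψ b - 1 ∈ Oc C := sub_mem (mem_Oc.2 (h.norm b).le) (one_mem _)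
  obtain ⟨r, hr⟩ := exists_add_pow_prime_pow_eq (Fact.out : p.Prime) (1 : Oc C) ⟨_, hz⟩ k
  have h1 := congrArg (fun x : Oc C => (x : C)) hr
  push_cast at h1
  rw [add_sub_cancel, hk, one_pow, mul_one] at h1
  have h2 : (ψ b - 1) ^ p ^ k = -(p * (ψ b - 1) * r) := by linear_combination -h1
  have h3 : ‖ψ b - 1‖ ^ p ^ k < 1 := by
    rw [← norm_pow, h2, norm_neg, norm_mul, norm_mul]
    have := mem_Oc.1 hz
    have := mem_Oc.1 r.2
    calc _ ≤ ‖(p : C)‖ * 1 * 1 := by gcongr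
      _ < 1 := by simpa using hp
  exact lt_of_pow_lt_pow_left₀ _ zero_le_one (by rwa [one_pow])

variable [CharZero C] [CompleteSpace C]

omit [CharZero C] in
theorem mu_add (h : Psi p ψ) (hp : ‖(p : C)‖ < 1) (hf : Bnd 1 B f) (hg : Bnd 1 B' g) (k : ℕ)
    (a : ℚ_[p]) : mu p ψ (f + g) k a = mu p ψ f k a + mu p ψ g k a := by
  simp only [mu]
  rw [← mul_add, ← sum_add_distrib]
  congr 1
  refine sum_congr rfl fun j _ => ?_
  have hz := zeta_lt h hp (j / (p : ℚ_[p]) ^ k)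
  rw [ev_add le_rfl (hf.res (norm_nonneg _) hz) (hg.res (norm_nonneg _) hz), mul_add]

omit [CompleteSpace C] [IsUltrametricDist C] in
theorem mu_mon (h : Psi p ψ) (c : C) (n k a : ℕ) :
    mu p ψ (PowerSeries.C c * (1 + X) ^ n) k a = if n ≡ a [MOD p ^ k] then c else 0 := by
  have hp0 : (p : ℚ_[p]) ≠ 0 := Nat.cast_ne_zero.2 (Fact.out : p.Prime).ne_zero
  have hq : ((p : C) ^ k) ≠ 0 := pow_ne_zero _ (Nat.cast_ne_zero.2 (Fact.out : p.Prime).ne_zero)
  have e : (PowerSeries.C c * (1 + X) ^ n : C⟦X⟧) =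
      ((Polynomial.C c * (1 + Polynomial.X) ^ n : Polynomial C) : C⟦X⟧) := by simp
  set ξ := ψ (((n : ℚ_[p]) - a) / (p : ℚ_[p]) ^ k) with hξ
  have h1 : ∀ j : ℕ, ψ (-(a : ℚ_[p]) * (j / (p : ℚ_[p]) ^ k)) *
      ev (ψ (j / (p : ℚ_[p]) ^ k) - 1) (PowerSeries.C c * (1 + X) ^ n) = c * ξ ^ j := by
    intro j
    rw [e, ev_poly]
    simp only [Polynomial.eval_mul, Polynomial.eval_C, Polynomial.eval_pow, Polynomial.eval_add,
      Polynomial.eval_one, Polynomial.eval_X, add_sub_cancel]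
    rw [← h.nat, hξ, ← h.nat, mul_left_comm, ← h.add]
    congr 2
    ring
  have h2 : ξ = 1 ↔ n ≡ a [MOD p ^ k] := by
    rw [hξ, h.ker, norm_div, div_le_one (norm_pos_iff.2 (pow_ne_zero _ hp0)), norm_pow,
      Padic.norm_p, inv_pow, ← zpow_natCast, ← zpow_neg, Nat.modEq_iff_dvd, ← dvd_neg, neg_sub]
    have := Padic.norm_int_le_pow_iff_dvd (p := p) ((n : ℤ) - a) k
    push_cast at this ⊢
    exact this
  have h3 : ξ ^ p ^ k = 1 := by
    rw [hξ, ← h.nat, h.ker, Nat.cast_pow, mul_div_cancel₀ _ (pow_ne_zero _ hp0)]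
    have := IsUltrametricDist.norm_intCast_le_one ℚ_[p] ((n : ℤ) - a)
    push_cast at this
    exact this
  simp only [mu, h1]
  rw [← mul_sum]
  split_ifs with h4
  · rw [h2.2 h4]
    simp only [one_pow, sum_const, card_range, nsmul_eq_mul, mul_one, Nat.cast_pow]
    field_simp
  · have h5 : ξ ≠ 1 := fun h5 => h4 (h2.1 h5)
    rw [geom_sum_eq h5, h3]
    simp

omit [CompleteSpace C] in
theorem mu_tail (h : Psi p ψ) (hp : ‖(p : C)‖ < 1) (k : ℕ) (B : ℝ) {ε : ℝ} (hε : 0 < ε) :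
    ∃ M : ℕ, ∀ (t : C⟦X⟧) (a : ℚ_[p]), Bnd 1 B t → ‖mu p ψ (X ^ M * t) k a‖ ≤ ε := by
  obtain ⟨δ, h0, h1, hδ⟩ : ∃ δ : ℝ, 0 ≤ δ ∧ δ < 1 ∧
      ∀ j ∈ range (p ^ k), ‖ψ (j / (p : ℚ_[p]) ^ k) - 1‖ ≤ δ := by
    obtain ⟨j, -, hj⟩ := exists_max_image (range (p ^ k))
      (fun j : ℕ => ‖ψ (j / (p : ℚ_[p]) ^ k) - 1‖)
      ⟨0, mem_range.2 (pow_pos (Fact.out : p.Prime).pos _)⟩
    exact ⟨_, norm_nonneg _, zeta_lt h hp _, hj⟩
  have hq : 0 < ‖(p : C)‖ ^ k := pow_pos np_pos _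
  obtain ⟨M, hM⟩ := exists_pow_lt_of_lt_one
    (show 0 < ε * ‖(p : C)‖ ^ k / (|B| + 1) by positivity) h1
  refine ⟨M, fun t a ht => ?_⟩
  rw [lt_div_iff₀ (by positivity)] at hM
  rw [mu, norm_mul, norm_inv, norm_pow, inv_mul_le_iff₀ hq]
  refine IsUltrametricDist.norm_sum_le_of_forall_le_of_nonneg (by positivity) fun j hj => ?_
  rw [norm_mul, h.norm, one_mul]
  have h2 : Bnd δ (δ ^ M * B) (X ^ M * t) :=
    ((bnd_X h0).pow h0 M).mul h0 (ht.anti h0 h1.le)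
  refine (h2.ev (hδ j hj)).trans ?_
  have h3 : δ ^ M * B ≤ δ ^ M * (|B| + 1) :=
    mul_le_mul_of_nonneg_left ((le_abs_self B).trans (by linarith)) (by positivity)
  linarith

/-- measures of bounded series are bounded -/
theorem mu_le (h : Psi p ψ) (hp : ‖(p : C)‖ < 1) (hf : Bnd 1 B f) (k a : ℕ) :
    ‖mu p ψ f k a‖ ≤ B := by
  refine ext_le (fun f => mu p ψ f k a) (fun f g hf hg => mu_add h hp hf hg k a)
    (fun c n hc => ?_) (fun ε hε => ?_) hf
  · rw [mu_mon h]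
    split_ifs
    · exact hc
    · simpa using hf.nonneg
  · obtain ⟨M, hM⟩ := mu_tail h hp k B hε
    exact ⟨M, fun t ht => hM t a ht⟩

/-- `y d/dy` is multiplication by `x` -/
theorem mu_DD (h : Psi p ψ) (hp : ‖(p : C)‖ < 1) (hf : Bnd 1 B f) (k a : ℕ) :
    ‖mu p ψ (DD f) k a - a * mu p ψ f k a‖ ≤ ‖(p : C)‖ ^ k * B := by
  refine ext_le (fun f => mu p ψ (DD f) k a - a * mu p ψ f k a) (fun f g hf hg => ?_)
    (fun c n hc => ?_) (fun ε hε => ?_) hf
  · rw [DD_add, mu_add h hp hf hg, mu_add h hp (b_DD hf) (b_DD hg)]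
    ring
  · have e : DD (PowerSeries.C c * (1 + X) ^ n) = PowerSeries.C (n * c) * (1 + X) ^ n := by
      rw [DD_mul, DD_C, DD_ypow, map_mul, map_natCast]; ring
    simp only [e, mu_mon h]
    split_ifs with h1
    · obtain ⟨z, hz⟩ := (Nat.modEq_iff_dvd.1 h1.symm)
      have h2 : (n : C) - a = (p : C) ^ k * z := by exact_mod_cast congrArg (Int.cast : ℤ → C) hz
      rw [← sub_mul, h2, norm_mul, norm_mul, norm_pow]
      have := IsUltrametricDist.norm_intCast_le_one C z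
      calc _ ≤ ‖(p : C)‖ ^ k * 1 * B := by gcongr
        _ = _ := by ring
    · have := hf.nonneg
      simp only [mul_zero, sub_zero, norm_zero]
      positivity
  · obtain ⟨M, hM⟩ := mu_tail h hp k B hε
    refine ⟨M + 1, fun t ht => ?_⟩
    have e : DD (X ^ (M + 1) * t) = X ^ M * (((M + 1 : ℕ) : C⟦X⟧) * (1 + X) * t + X * DD t) := by
      rw [DD_mul, DD_pow]
      simp only [DD, derivative_X]
      ring
    have h1 := hM _ a ((bmul' (bmul (b_nat1 (M + 1)) b_y) ht).add zero_le_one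
      (bmul' b_X (b_DD ht)))
    have h2 := hM _ a (bmul' b_X ht)
    rw [← e] at h1
    rw [← mul_assoc, ← pow_succ] at h2
    rw [sub_eq_add_neg]
    refine (IsUltrametricDist.norm_add_le_max _ _).trans (max_le h1 ?_)
    rw [norm_neg, norm_mul]
    exact (mul_le_of_le_one_left (norm_nonneg _) (nn_le a)).trans h2

omit [CompleteSpace C] in
theorem omega_le (hp : ‖(p : C)‖ < 1) (k N : ℕ) :
    BndT 1 (‖(p : C)‖ ^ k / ‖(p : C)‖ ^ N) (N + 1) ((1 + X : C⟦X⟧) ^ p ^ k - 1) := by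
  intro j hj
  have h0 : 0 < ‖(p : C)‖ := np_pos
  rw [one_pow, mul_one, map_sub, ← binomialSeries_nat (R := ℤ), binomialSeries_coeff,
    Ring.choose_natCast]
  cases j with
  | zero => simp; positivity
  | succ j =>
    obtain ⟨q, hq⟩ : ∃ q, p ^ k = q + 1 :=
      ⟨p ^ k - 1, by have := pow_pos (Fact.out : p.Prime).pos k; omega⟩
    have h1 := Nat.add_one_mul_choose_eq q j
    rw [← hq] at h1
    have h2 : ‖(((p ^ k).choose (j + 1) : ℕ) : C)‖ * ‖((j + 1 : ℕ) : C)‖ ≤ ‖(p : C)‖ ^ k := by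
      rw [← norm_mul, ← Nat.cast_mul, ← h1, ← norm_pow, ← Nat.cast_pow]
      exact nn_dvd (dvd_mul_right _ _)
    have h3 : ‖(p : C)‖ ^ N ≤ ‖((j + 1 : ℕ) : C)‖ :=
      (pow_le_pow_of_le_one h0.le hp.le (by omega)).trans (nn_ge hp j)
    rw [le_div_iff₀ (by positivity)]
    simp only [coeff_one, Nat.add_eq_zero_iff, one_ne_zero, and_false, if_false, sub_zero,
      zsmul_eq_mul, Int.cast_natCast, mul_one]
    exact le_trans (by gcongr) h2

/-- a bounded series with small measure is small -/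
theorem bnd_of_mu (h : Psi p ψ) (hp : ‖(p : C)‖ < 1) (hf : Bnd 1 B f) {r : ℝ} (k0 : ℕ)
    (hr : ∀ k a : ℕ, k0 < k → ‖mu p ψ f k a‖ ≤ r) : Bnd 1 r f := by
  have h0 : 0 < ‖(p : C)‖ := np_pos
  have hB := hf.nonneg
  have hr0 : 0 ≤ r := (norm_nonneg _).trans (hr (k0 + 1) 0 k0.lt_succ_self)
  refine bnd1.2 fun N => ?_
  have key : ∀ k : ℕ, ‖coeff N f - ∑ a ∈ range (p ^ k), mu p ψ f k a * coeff N ((1 + X : C⟦X⟧) ^ a)‖
      ≤ B * (‖(p : C)‖ ^ k / ‖(p : C)‖ ^ N) := by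
    intro k
    refine ext_le (fun f => coeff N f -
      ∑ a ∈ range (p ^ k), mu p ψ f k a * coeff N ((1 + X : C⟦X⟧) ^ a)) (fun f g hf hg => ?_)
      (fun c n hc => ?_) (fun ε hε => ?_) hf
    · simp only [mu_add h hp hf hg, add_mul, sum_add_distrib, map_add]
      ring
    · have hq : 0 < p ^ k := pow_pos (Fact.out : p.Prime).pos k
      simp only [mu_mon h]
      rw [sum_eq_single (n % p ^ k), if_pos (Nat.mod_modEq _ _).symm]
      · obtain ⟨G, hG⟩ : ∃ G, Bnd 1 1 G ∧ ((1 + X : C⟦X⟧) ^ p ^ k) ^ (n / p ^ k) - 1 =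
            ((1 + X : C⟦X⟧) ^ p ^ k - 1) * G :=
          ⟨_, Bnd.sum zero_le_one zero_le_one _ fun i _ => bpow (bpow b_y _) i,
            (mul_geom_sum _ _).symm⟩
        have e : PowerSeries.C c * (1 + X : C⟦X⟧) ^ n - PowerSeries.C c * (1 + X) ^ (n % p ^ k) =
            PowerSeries.C c * (1 + X) ^ (n % p ^ k) * G * ((1 + X : C⟦X⟧) ^ p ^ k - 1) := by
          conv_lhs => rw [← Nat.mod_add_div n (p ^ k), pow_add, pow_mul]
          rw [Nat.add_mul_mod_self_left, Nat.mod_mod]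
          linear_combination (PowerSeries.C c * (1 + X) ^ (n % p ^ k)) * hG.2
        have h1 := ((bmul (b_mon hc (n % p ^ k)) hG.1).t (N + 1)).mul zero_le_one hB
          (by positivity) (omega_le hp k N) N N.lt_succ_self
        rw [← e, one_pow, mul_one, map_sub] at h1
        simpa only [coeff_C_mul] using h1
      · intro b hb hne
        rw [if_neg, zero_mul]
        intro h1
        exact hne (by rw [h1, Nat.mod_eq_of_lt (mem_range.1 hb)])
      · intro h1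
        exact absurd (mem_range.2 (Nat.mod_lt _ hq)) h1
    · obtain ⟨M, hM⟩ := mu_tail h hp k B hε
      refine ⟨M + (N + 1), fun t ht => ?_⟩
      have h1 : coeff N (X ^ (M + (N + 1)) * t) = 0 := by
        rw [coeff_X_pow_mul', if_neg (by omega)]
      simp only [h1, zero_sub, norm_neg]
      refine IsUltrametricDist.norm_sum_le_of_forall_le_of_nonneg hε.le fun a _ => ?_
      rw [norm_mul, pow_add, mul_assoc]
      exact (mul_le_of_le_one_right (norm_nonneg _) (bnd1.1 (bpow b_y a) N)).trans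
        (hM _ _ (bmul' (bpow b_X _) ht))
  refine le_of_forall_pos_le_add fun ε hε => ?_
  obtain ⟨k, hk⟩ := exists_pow_lt_of_lt_one
    (show 0 < ε * ‖(p : C)‖ ^ N / (B + 1) by positivity) hp
  rw [lt_div_iff₀ (by positivity)] at hk
  have h1 : B * (‖(p : C)‖ ^ (k + k0 + 1) / ‖(p : C)‖ ^ N) ≤ ε := by
    rw [← mul_div_assoc, div_le_iff₀ (by positivity)]
    have h2 : ‖(p : C)‖ ^ (k + k0 + 1) ≤ ‖(p : C)‖ ^ k :=
      pow_le_pow_of_le_one h0.le hp.le (by omega)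
    have h3 : 0 < ‖(p : C)‖ ^ k := by positivity
    nlinarith
  have h2 : ‖∑ a ∈ range (p ^ (k + k0 + 1)),
      mu p ψ f (k + k0 + 1) a * coeff N ((1 + X : C⟦X⟧) ^ a)‖ ≤ r := by
    refine IsUltrametricDist.norm_sum_le_of_forall_le_of_nonneg hr0 fun a _ => ?_
    rw [norm_mul]
    exact (mul_le_of_le_one_right (norm_nonneg _) (bnd1.1 (bpow b_y a) N)).trans
      (hr _ _ (by omega))
  have h3 := norm_add_le (coeff N f - ∑ a ∈ range (p ^ (k + k0 + 1)),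
    mu p ψ f (k + k0 + 1) a * coeff N ((1 + X : C⟦X⟧) ^ a)) (∑ a ∈ range (p ^ (k + k0 + 1)),
    mu p ψ f (k + k0 + 1) a * coeff N ((1 + X : C⟦X⟧) ^ a))
  rw [sub_add_cancel] at h3
  have := key (k + k0 + 1)
  linarith

end mu

end Vale.Agent.P022K.WB.Ij
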