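import Vale.Agent.P022K.WB.Ij0

/-!
# Row `INJS`, part 1: ghost vectors, units, approximate roots
-/

open PowerSeries Finset

namespace Vale.Agent.P022K.WB.Ij

open Vale.Agent.P022K.FI Vale.Agent.P022K.FI.An4

variable {p : ℕ} [Fact p.Prime] {C : Type} [NontriviallyNormedField C] [IsUltrametricDist C]

section ghost

omit [IsUltrametricDist C] [Fact p.Prime] in
theorem ghs_succ (a : ℕ → C) (i : ℕ) :
    ghs p a (i + 1) = a 0 ^ p ^ (i + 1) + p * ghs p (fun j => a (j + 1)) i := by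
  rw [ghs, sum_range_succ', ghs, mul_sum, add_comm]
  simp only [pow_zero, one_mul, Nat.sub_zero, Nat.add_sub_add_right]
  congr 1
  exact sum_congr rfl fun j _ => by ring

variable [CharZero C]

theorem lev_down (n d : ℕ) : ∀ c ∈ Gh p C, (∀ i : ℤ, i + n < 0 → lev p (n + d) c i = 0) →
    ∃ c' ∈ Gh p C, lev p (n + d) c = lev p n c' := by
  induction d with
  | zero => exact fun c hc _ => ⟨c, hc, rfl⟩
  | succ d ih =>
    intro c hc h
    obtain ⟨a, ha, hca⟩ := mem_Gh.1 hc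
    have h0 := h (((0 : ℕ) : ℤ) - (n + (d + 1) : ℕ)) (by push_cast; omega)
    rw [lev_nat, pow_zero, div_one, hca, ghs_zero] at h0
    have h1 : c = Vg p (ghs p fun j => a (j + 1)) := by
      funext i
      cases i with
      | zero => rw [hca, ghs_zero, h0]; rfl
      | succ i =>
        rw [hca, ghs_succ, h0, zero_pow (pow_ne_zero _ (Fact.out : p.Prime).ne_zero), zero_add]
        rfl
    have h2 : lev p (n + (d + 1)) c = lev p (n + d) (ghs p fun j => a (j + 1)) := by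
      rw [h1, ← add_assoc, lev_Vg]
    rw [h2] at h ⊢
    exact ih _ (mem_Gh.2 ⟨_, fun j => ha (j + 1), fun _ => rfl⟩) h

theorem ext_gh {n : ℕ} {c : ℕ → C} {l : ℤ → C} (hl : l ∈ BW p C) (h : lev p n c = p • l) :
    ∃ a : ℕ → C, (∀ j, ‖a j‖ ≤ 1) ∧ ∀ i, c i = p * ghs p a i := by
  have hp : (p : C) ≠ 0 := Nat.cast_ne_zero.2 (Fact.out : p.Prime).ne_zero
  have h1 : ∃ c' ∈ Gh p C, l = lev p n c' := by
    obtain ⟨m, c', hc', rfl⟩ := hl
    rcases le_total m n with hm | hm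
    · obtain ⟨c'', h2, h3⟩ := lev_up hm hc'
      exact ⟨c'', h2, h3.symm⟩
    · obtain ⟨d, rfl⟩ := Nat.exists_eq_add_of_le hm
      refine lev_down n d c' hc' fun i hi => ?_
      have h2 := congrFun h i
      rw [lev_neg p n c hi, Pi.smul_apply, nsmul_eq_mul] at h2
      exact (mul_eq_zero.1 h2.symm).resolve_left hp
  obtain ⟨c', hc', rfl⟩ := h1
  obtain ⟨a, ha, hca⟩ := mem_Gh.1 hc'
  refine ⟨a, ha, fun i => ?_⟩
  have h2 := congrFun h ((i : ℤ) - n)
  rw [Pi.smul_apply, nsmul_eq_mul, lev_nat, lev_nat, hca] at h2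
  field_simp at h2
  exact h2

theorem gh_step (hp : ‖(p : C)‖ < 1) {a : ℕ → C} {s : ℝ} (hs : s ≤ 1) (ha : ∀ j, ‖a j‖ ≤ s)
    (hg : ∀ i, ‖ghs p a i‖ ≤ ‖(p : C)‖ ^ i * s) (j : ℕ) : ‖a j‖ ^ p ≤ ‖(p : C)‖ * s := by
  have h0 : 0 < ‖(p : C)‖ := np_pos
  have hs0 : 0 ≤ s := (norm_nonneg _).trans (ha 0)
  induction j using Nat.strong_induction_on with
  | _ j ih =>
    have e : (p : C) ^ j * a j ^ p = ghs p a (j + 1) + -((p : C) ^ (j + 1) * a (j + 1)) +
        -∑ l ∈ range j, (p : C) ^ l * a l ^ p ^ (j + 1 - l) := by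
      rw [ghs, sum_range_succ, sum_range_succ]
      simp
    have h1 : ‖(p : C) ^ j * a j ^ p‖ ≤ ‖(p : C)‖ ^ (j + 1) * s := by
      rw [e]
      refine (IsUltrametricDist.norm_add_le_max _ _).trans (max_le
        ((IsUltrametricDist.norm_add_le_max _ _).trans (max_le (hg _) ?_)) ?_)
      · rw [norm_neg, norm_mul, norm_pow]
        exact mul_le_mul_of_nonneg_left (ha _) (by positivity)
      · rw [norm_neg]
        refine IsUltrametricDist.norm_sum_le_of_forall_le_of_nonneg (by positivity) fun l hl => ?_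
        obtain ⟨t, rfl⟩ := Nat.exists_eq_add_of_lt (mem_range.1 hl)
        have e1 : l + t + 1 + 1 - l = t + 1 + 1 := by omega
        have h2 : t + 1 < p ^ (t + 1) := Nat.lt_pow_self (Fact.out : p.Prime).one_lt
        rw [e1, norm_mul, norm_pow, norm_pow, pow_succ' p, pow_mul]
        have h3 : (‖a l‖ ^ p) ^ p ^ (t + 1) ≤ ‖(p : C)‖ ^ (t + 2) * s := by
          calc _ ≤ (‖(p : C)‖ * s) ^ p ^ (t + 1) := by
                gcongr
                exact ih l (by omega)
            _ = ‖(p : C)‖ ^ p ^ (t + 1) * s ^ p ^ (t + 1) := mul_pow _ _ _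
            _ ≤ ‖(p : C)‖ ^ (t + 2) * s := by
                refine mul_le_mul (pow_le_pow_of_le_one h0.le hp.le h2) ?_ (by positivity)
                  (by positivity)
                exact pow_le_of_le_one hs0 hs (by omega)
        calc _ ≤ ‖(p : C)‖ ^ l * (‖(p : C)‖ ^ (t + 2) * s) := by gcongr
          _ = _ := by ring
    rw [norm_mul, norm_pow, norm_pow, pow_succ, mul_assoc] at h1
    exact le_of_mul_le_mul_left h1 (by positivity)

end ghost

section unit

variable {u v : C⟦X⟧} {B : ℝ}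

omit [IsUltrametricDist C] in
theorem ub (h : Unit u) : Bnd 1 1 u := bnd1.2 h.1

omit [IsUltrametricDist C] in
theorem u0 (h : Unit u) : ‖constantCoeff u‖ = 1 := by
  rw [← coeff_zero_eq_constantCoeff_apply]; exact h.2

omit [IsUltrametricDist C] in
theorem umk (h : Bnd 1 1 u) (h0 : ‖constantCoeff u‖ = 1) : Unit u :=
  ⟨bnd1.1 h, by rw [coeff_zero_eq_constantCoeff_apply]; exact h0⟩

omit [IsUltrametricDist C] in
theorem une (h : Unit u) : constantCoeff u ≠ 0 := fun h0 => by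
  have := u0 h
  rw [h0, norm_zero] at this
  exact zero_ne_one this

theorem umul (hu : Unit u) (hv : Unit v) : Unit (u * v) :=
  umk (bmul (ub hu) (ub hv)) (by rw [map_mul, norm_mul, u0 hu, u0 hv, mul_one])

theorem upow (hu : Unit u) (n : ℕ) : Unit (u ^ n) :=
  umk (bpow (ub hu) n) (by rw [map_pow, norm_pow, u0 hu, one_pow])

theorem uy : Unit (1 + X : C⟦X⟧) := umk b_y (by simp)

omit [IsUltrametricDist C] in
theorem uC {c : C} (hc : ‖c‖ = 1) : Unit (PowerSeries.C c) :=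
  umk (bnd_C_le 1 hc.le) (by simpa using hc)

theorem uinv (hu : Unit u) : Unit u⁻¹ := by
  have h0 := u0 hu
  refine umk (bnd1.2 fun n => ?_) (by rw [constantCoeff_inv, norm_inv, h0, inv_one])
  induction n using Nat.strong_induction_on with
  | _ n ih =>
    rw [coeff_inv]
    split_ifs with h
    · rw [norm_inv, h0, inv_one]
    · rw [norm_mul, norm_neg, norm_inv, h0, inv_one, one_mul]
      refine IsUltrametricDist.norm_sum_le_of_forall_le_of_nonneg zero_le_one fun x _ => ?_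
      split_ifs with h1
      · rw [norm_mul]
        exact mul_le_one₀ (hu.1 _) (norm_nonneg _) (ih _ h1)
      · simp

omit [IsUltrametricDist C] in
theorem uci (hu : Unit u) : u * u⁻¹ = 1 := PowerSeries.mul_inv_cancel u (une hu)

omit [IsUltrametricDist C] in
theorem dl_eq (u : C⟦X⟧) : dl u = DD u * u⁻¹ := rfl

omit [IsUltrametricDist C] in
theorem dl_mul_self (hu : Unit u) : dl u * u = DD u := by
  rw [dl_eq, mul_assoc, mul_comm u⁻¹, uci hu, mul_one]

theorem b_dl (hu : Unit u) : Bnd 1 1 (dl u) := bmul (b_DD (ub hu)) (ub (uinv hu))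

theorem b_der_of (h : Bnd 1 B (DD u)) : Bnd 1 B (d⁄dX C u) := by
  have := bmul' (ub (uinv (uy (C := C)))) h
  rwa [DD, ← mul_assoc, mul_comm _ (1 + X), uci uy, one_mul] at this

end unit

section root

/-- integral series -/
def SI (C : Type) [NontriviallyNormedField C] [IsUltrametricDist C] : Subring C⟦X⟧ where
  carrier := {f | Bnd 1 1 f}
  mul_mem' := fun ha hb => bmul ha hb
  one_mem' := bnd_one 1
  add_mem' := fun ha hb => Bnd.add zero_le_one ha hb
  zero_mem' := bnd_zero 1 zero_le_one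
  neg_mem' := fun ha => Bnd.neg ha

theorem add_pow_p {f g : C⟦X⟧} (hf : Bnd 1 1 f) (hg : Bnd 1 1 g) :
    ∃ r, Bnd 1 1 r ∧ (f + g) ^ p = f ^ p + g ^ p + (p : C⟦X⟧) * f * g * r := by
  obtain ⟨r, hr⟩ := exists_add_pow_prime_eq (Fact.out : p.Prime) (⟨f, hf⟩ : SI C) ⟨g, hg⟩
  refine ⟨r, r.2, ?_⟩
  have h1 := congrArg (fun x : SI C => (x : C⟦X⟧)) hr
  push_cast at h1
  exact h1

theorem frob (N : ℕ) : ∀ h : C⟦X⟧, Bnd 1 1 h →
    ‖coeff N (h ^ p) - (if p ∣ N then coeff (N / p) h ^ p else 0)‖ ≤ ‖(p : C)‖ := by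
  have hp := (Fact.out : p.Prime)
  induction N using Nat.strong_induction_on with
  | _ N ih =>
    intro h hh
    rcases Nat.eq_zero_or_pos N with rfl | hN
    · simp
    have ht := b_tail hh
    set t : C⟦X⟧ := PowerSeries.mk fun n => coeff (n + 1) h with htd
    have hc : Bnd 1 1 (PowerSeries.C (constantCoeff h)) :=
      bnd_C_le 1 (by simpa using bnd1.1 hh 0)
    obtain ⟨r, hr, e⟩ := add_pow_p (p := p) (bmul b_X ht) hc
    rw [← eq_X_mul_shift_add_const] at e
    have h1 := bnd1.1 (bmul (bmul (bmul (b_nat p) (bmul b_X ht)) hc) hr) N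
    rw [e, map_add, map_add, ← map_pow, coeff_C, if_neg hN.ne', add_zero, mul_pow,
      coeff_X_pow_mul', add_sub_right_comm]
    refine (IsUltrametricDist.norm_add_le_max _ _).trans (max_le ?_ h1)
    by_cases h2 : p ≤ N
    · rw [if_pos h2]
      have h3 := ih (N - p) (by have := hp.pos; omega) t ht
      by_cases h4 : p ∣ N
      · obtain ⟨m, rfl⟩ := h4
        obtain ⟨m, rfl⟩ : ∃ m', m = m' + 1 :=
          ⟨m - 1, by have : m ≠ 0 := by rintro rfl; simp at hN
                     omega⟩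
        have e1 : p * (m + 1) - p = p * m := by rw [mul_add, mul_one, Nat.add_sub_cancel]
        rw [e1, if_pos (dvd_mul_right _ _), Nat.mul_div_cancel_left _ hp.pos, htd, coeff_mk] at h3
        rw [e1, if_pos (dvd_mul_right _ _), Nat.mul_div_cancel_left _ hp.pos]
        exact h3
      · rw [if_neg fun h5 => h4 (by simpa [Nat.sub_add_cancel h2] using dvd_add h5 (dvd_refl p))]
          at h3
        rw [if_neg h4]
        exact h3
    · rw [if_neg h2, if_neg fun h5 => h2 (Nat.le_of_dvd hN h5)]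
      simp

theorem root [IsAlgClosed C] (hp : ‖(p : C)‖ < 1) {g : C⟦X⟧} {s : ℝ} (hs : ‖(p : C)‖ ≤ s)
    (hg : Bnd 1 1 g) (h0 : constantCoeff g = 0) (hd : Bnd 1 s (d⁄dX C g)) :
    ∃ h, Bnd 1 1 h ∧ constantCoeff h = 0 ∧ Bnd 1 s (g - h ^ p) := by
  have hq := (Fact.out : p.Prime)
  choose a ha using fun n : ℕ => IsAlgClosed.exists_pow_nat_eq (coeff (p * n) g) hq.pos
  have hb : Bnd 1 1 (PowerSeries.mk a) := bnd1.2 fun n => by
    rw [coeff_mk]
    refine le_of_pow_le_pow_left₀ hq.ne_zero zero_le_one ?_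
    rw [← norm_pow, ha, one_pow]
    exact bnd1.1 hg _
  refine ⟨_, hb, ?_, bnd1.2 fun N => ?_⟩
  · have := ha 0
    rw [mul_zero, coeff_zero_eq_constantCoeff_apply, h0] at this
    rw [← coeff_zero_eq_constantCoeff_apply, coeff_mk]
    exact pow_eq_zero_iff hq.ne_zero |>.1 this
  · have h1 := (frob (p := p) N _ hb).trans hs
    rw [map_sub]
    split_ifs at h1 with h2
    · rw [coeff_mk, ha, Nat.mul_div_cancel' h2] at h1
      rwa [norm_sub_rev]
    · obtain ⟨N, rfl⟩ : ∃ M, N = M + 1 :=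
        ⟨N - 1, by have : N ≠ 0 := by rintro rfl; exact h2 (dvd_zero p)
                   omega⟩
      have h3 := bnd1.1 hd N
      have h4 := nn_cop hp h2
      rw [Nat.cast_succ] at h4
      rw [coeff_derivative, norm_mul, h4, mul_one] at h3
      rw [sub_zero] at h1
      rw [sub_eq_add_neg]
      exact (IsUltrametricDist.norm_add_le_max _ _).trans (max_le h3 (by rwa [norm_neg]))

/-- one step of the approximation by `p`-th powers -/
theorem step [IsAlgClosed C] (hp : ‖(p : C)‖ < 1) {w : C⟦X⟧} {ρ : C} (hρ0 : ρ ≠ 0) (hρ : ‖ρ‖ ≤ 1)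
    (hw : Unit w) (h0 : constantCoeff w = 1) (h1 : Bnd 1 (‖ρ‖ ^ p) (w - 1))
    (hd : Bnd 1 (‖(p : C)‖ * ‖ρ‖) (d⁄dX C w)) :
    ∃ v w', Unit v ∧ Unit w' ∧ constantCoeff v = 1 ∧ constantCoeff w' = 1 ∧ w = v ^ p * w' ∧
      Bnd 1 (‖(p : C)‖ * ‖ρ‖) (w' - 1) := by
  have hq := (Fact.out : p.Prime)
  have hn : 0 < ‖ρ‖ := norm_pos_iff.2 hρ0
  have hc := bnd_C 1 (ρ ^ p)⁻¹
  rw [norm_inv, norm_pow] at hc
  have hg : Bnd 1 1 (PowerSeries.C (ρ ^ p)⁻¹ * (w - 1)) := by
    have := hc.mul zero_le_one h1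
    rwa [inv_mul_cancel₀ (by positivity)] at this
  have hg' : Bnd 1 ((‖ρ‖ ^ p)⁻¹ * (‖(p : C)‖ * ‖ρ‖))
      (d⁄dX C (PowerSeries.C (ρ ^ p)⁻¹ * (w - 1))) := by
    have := hc.mul zero_le_one hd
    simpa [Derivation.leibniz, derivative_C] using this
  have hs : ‖(p : C)‖ ≤ (‖ρ‖ ^ p)⁻¹ * (‖(p : C)‖ * ‖ρ‖) := by
    rw [le_inv_mul_iff₀ (by positivity), mul_comm]
    exact mul_le_mul_of_nonneg_left (pow_le_of_le_one hn.le hρ hq.ne_zero) (norm_nonneg _)
  obtain ⟨h, hh, hh0, hh1⟩ := root hp hs hg (by simp [h0]) hg'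
  have hρh : Bnd 1 ‖ρ‖ (PowerSeries.C ρ * h) := bmul (bnd_C 1 ρ) hh
  have hv0 : constantCoeff (1 + PowerSeries.C ρ * h) = 1 := by simp [hh0]
  have hv : Unit (1 + PowerSeries.C ρ * h) :=
    umk ((bnd_one 1).add zero_le_one (hρh.mono hρ)) (by rw [hv0, norm_one])
  obtain ⟨r, hr, e⟩ := add_pow_p (p := p) (bnd_one 1) (hρh.mono hρ)
  have hi := uinv (upow hv p)
  have hci := uci (upow hv p)
  refine ⟨_, w * ((1 + PowerSeries.C ρ * h) ^ p)⁻¹, hv, umul hw hi, hv0, ?_, ?_, ?_⟩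
  · rw [map_mul, constantCoeff_inv, map_pow, hv0, h0]
    simp
  · rw [mul_left_comm, hci, mul_one]
  · have h2 : Bnd 1 (‖(p : C)‖ * ‖ρ‖) (PowerSeries.C (ρ ^ p) *
        (PowerSeries.C (ρ ^ p)⁻¹ * (w - 1) - h ^ p)) := by
      have := (bnd_C 1 (ρ ^ p)).mul zero_le_one hh1
      rwa [norm_pow, mul_inv_cancel_left₀ (by positivity)] at this
    have h3 : Bnd 1 (‖(p : C)‖ * ‖ρ‖) ((p : C⟦X⟧) * (PowerSeries.C ρ * h) * r) :=
      bmul ((b_nat p).mul zero_le_one hρh) hr
    have h4 : PowerSeries.C (ρ ^ p) * PowerSeries.C (ρ ^ p)⁻¹ = (1 : C⟦X⟧) := by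
      rw [← map_mul, mul_inv_cancel₀ (pow_ne_zero _ hρ0), map_one]
    have h5 := bmul (h2.sub zero_le_one h3) (ub hi)
    convert h5 using 1
    rw [mul_pow, ← map_pow] at e
    linear_combination (-((1 + PowerSeries.C ρ * h) ^ p)⁻¹) * e + hci -
      ((w - 1) * ((1 + PowerSeries.C ρ * h) ^ p)⁻¹) * h4

theorem bndT_mul0 {r B B' : ℝ} {N : ℕ} {f g : C⟦X⟧} (hr : 0 ≤ r) (hB : 0 ≤ B) (hB' : 0 ≤ B')
    (hf : BndT r B N f) (hg : BndT r B' N g) (f0 : constantCoeff f = 0)
    (g0 : constantCoeff g = 0) : ‖coeff N (f * g)‖ * r ^ N ≤ B * B' := by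
  rw [coeff_mul]
  refine norm_sum_mul_le _ _ (by positivity) (by positivity) ?_
  rintro ⟨i, j⟩ hij
  have h := mem_antidiagonal.1 hij
  simp only at h ⊢
  rcases Nat.eq_zero_or_pos i with rfl | hi
  · simp only [coeff_zero_eq_constantCoeff, f0, zero_mul, norm_zero]
    positivity
  rcases Nat.eq_zero_or_pos j with rfl | hj
  · simp only [coeff_zero_eq_constantCoeff, g0, mul_zero, zero_mul, norm_zero]
    positivity
  rw [← h, norm_mul, pow_add, mul_mul_mul_comm]
  exact mul_le_mul (hf i (by omega)) (hg j (by omega)) (by positivity) hB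

/-- growth of the formal `p`-th root -/
theorem root_bd [CharZero C] {b r : ℝ} (hb0 : 0 < b) (hb1 : b ≤ 1) (hb : b ^ p = ‖(p : C)‖ * b)
    (hbr : b ≤ r) {W : C⟦X⟧} (h0 : constantCoeff W = 1) (hW : Bnd 1 (‖(p : C)‖ * r) (W ^ p - 1)) :
    Bnd (b / r) b (W - 1) := by
  have hq := (Fact.out : p.Prime)
  have hp0 : 0 < ‖(p : C)‖ := np_pos
  have hr : 0 < r := hb0.trans_le hbr
  have hθ : 0 ≤ b / r := by positivity
  have hθ1 : b / r ≤ 1 := (div_le_one hr).2 hbr
  obtain ⟨Z, rfl⟩ : ∃ Z, W = Z + 1 := ⟨W - 1, by ring⟩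
  have hZ : constantCoeff Z = 0 := by simpa using h0
  rw [add_sub_cancel_right]
  obtain ⟨q, hq2⟩ : ∃ q, p = q + 2 := ⟨p - 2, by have := hq.two_le; omega⟩
  have e : (p : C⟦X⟧) * Z = ((Z + 1) ^ p - 1) +
      -∑ m ∈ range (q + 1), ((p.choose (m + 2) : ℕ) : C⟦X⟧) * (Z * Z ^ (m + 1)) := by
    rw [add_pow, show p + 1 = q + 1 + 1 + 1 by omega, sum_range_succ', sum_range_succ']
    simp only [one_pow, mul_one, zero_add, pow_one, Nat.choose_one_right, pow_zero,
      Nat.choose_zero_right, Nat.cast_one]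
    have : ∀ m, Z ^ (m + 1 + 1) * ((p.choose (m + 1 + 1) : ℕ) : C⟦X⟧) =
      ((p.choose (m + 2) : ℕ) : C⟦X⟧) * (Z * Z ^ (m + 1)) := fun m => by ring
    simp only [this]
    ring
  refine bnd_iff.2 fun N => ?_
  induction N with
  | zero => exact fun n hn => absurd hn (Nat.not_lt_zero n)
  | succ N ih =>
    intro n hn
    rcases Nat.lt_succ_iff_lt_or_eq.1 hn with hn | rfl
    · exact ih n hn
    rcases Nat.eq_zero_or_pos n with rfl | hn0
    · simp [hZ, hb0.le]
    have h1 : ‖coeff n ((p : C⟦X⟧) * Z)‖ * (b / r) ^ n ≤ ‖(p : C)‖ * b := by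
      rw [e, map_add]
      refine norm_add_mul_le _ _ (by positivity) ?_ ?_
      · calc _ ≤ ‖(p : C)‖ * r * (b / r) := by
              refine mul_le_mul (bnd1.1 hW n) (pow_le_of_le_one hθ hθ1 hn0.ne') (by positivity)
                (by positivity)
          _ = _ := by field_simp
      · rw [map_neg, norm_neg, map_sum]
        refine norm_sum_mul_le _ _ (by positivity) (by positivity) fun m hm => ?_
        have h2 := bndT_mul0 hθ hb0.le (by positivity) ih (ih.pow hθ hb0.le (m + 1)) hZ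
          (by simp [hZ])
        rw [← map_natCast (PowerSeries.C (R := C)), coeff_C_mul, norm_mul, mul_assoc]
        refine (mul_le_mul_of_nonneg_left h2 (norm_nonneg _)).trans ?_
        rw [← pow_succ']
        rcases Nat.lt_succ_iff_lt_or_eq.1 (mem_range.1 hm) with hm | rfl
        · exact mul_le_mul (nn_dvd (hq.dvd_choose_self (by omega) (by omega)))
            (pow_le_of_le_one hb0.le hb1 (by omega)) (by positivity) hp0.le
        · rw [← hq2, Nat.choose_self, Nat.cast_one, norm_one, one_mul, hb]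
    rw [← map_natCast (PowerSeries.C (R := C)), coeff_C_mul, norm_mul, mul_assoc] at h1
    exact le_of_mul_le_mul_left h1 hp0

omit [IsUltrametricDist C] in
theorem exists_root [CharZero C] {f : C⟦X⟧} (h0 : constantCoeff f = 1) :
    ∃ W : C⟦X⟧, constantCoeff W = 1 ∧ W ^ p = f := by
  have hq := (Fact.out : p.Prime)
  have h1 : constantCoeff (f - 1) = 0 := by simp [h0]
  have hs : HasSubst (f - 1) := HasSubst.of_constantCoeff_zero' h1
  have h2 : ∀ n : ℕ, PowerSeries.binomialSeries C ((n : ℚ) * (p : ℚ)⁻¹) =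
      PowerSeries.binomialSeries C (p : ℚ)⁻¹ ^ n := by
    intro n
    induction n with
    | zero => simp
    | succ n ih => rw [Nat.cast_succ, add_mul, one_mul, binomialSeries_add, ih, pow_succ]
  have h3 := h2 p
  rw [mul_inv_cancel₀ (Nat.cast_ne_zero.2 hq.ne_zero), ← Nat.cast_one (R := ℚ),
    binomialSeries_nat, pow_one] at h3
  refine ⟨(PowerSeries.binomialSeries C (p : ℚ)⁻¹).subst (f - 1), ?_, ?_⟩
  · rw [← cmp_eq_subst h1, constantCoeff_cmp, h1, ev_zero, binomialSeries_constantCoeff]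
  · rw [← coe_substAlgHom hs, ← map_pow, ← h3, map_add, map_one, substAlgHom_X]
    ring

end root

end Vale.Agent.P022K.WB.Ij
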