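import Mathlib

/-!
# P022K, block WB: the descending chain condition for almost commuting nilpotent operators
-/

set_option autoImplicit false
set_option linter.all false

noncomputable section

namespace Vale.Agent.P022K.WB.Noe

open Finsupp

variable {M ι : Type*} [AddCommGroup M]

/-- a filtration defined by finitely many operators that commute up to higher order -/
structure Fil (b : ι → M →+ M) (F : ℕ → AddSubgroup M) : Prop where
  zero : ∀ z ∈ F 0, z = 0
  succ : ∀ l z, z ∈ F (l + 1) ↔ ∀ i, b i z ∈ F l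
  com : ∀ l i j z, z ∈ F (l + 3) → b i (b j z) - b j (b i z) ∈ F l
  exh : ∀ z, ∃ l, z ∈ F l
  fin : (F 1 : Set M).Finite

/-- words in the operators -/
def ap (b : ι → M →+ M) : List ι → M →+ M
  | [] => AddMonoidHom.id M
  | i :: l => (b i).comp (ap b l)

@[simp] theorem ap_nil (b : ι → M →+ M) (z : M) : ap b [] z = z := rfl
@[simp] theorem ap_cons (b : ι → M →+ M) (i : ι) (l : List ι) (z : M) :
    ap b (i :: l) z = b i (ap b l z) := rfl

theorem ap_concat (b : ι → M →+ M) (l : List ι) (i : ι) (z : M) :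
    ap b (l ++ [i]) z = ap b l (b i z) := by
  induction l with
  | nil => rfl
  | cons j l ih => simp [ih]

variable {b : ι → M →+ M} {F : ℕ → AddSubgroup M}

theorem Fil.mono (h : Fil b F) : ∀ n, F n ≤ F (n + 1) := by
  intro n
  induction n with
  | zero =>
    intro z hz
    rw [h.zero z hz]
    exact zero_mem _
  | succ n ih => exact fun z hz => (h.succ _ _).2 fun i => ih ((h.succ _ _).1 hz i)

theorem Fil.ap_mem (h : Fil b F) (l : List ι) : ∀ n z, z ∈ F (l.length + n) → ap b l z ∈ F n := by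
  induction l with
  | nil => intro n z hz; simpa using hz
  | cons i l ih =>
    intro n z hz
    rw [ap_cons]
    refine (h.succ _ _).1 (ih (n + 1) z ?_) i
    rwa [List.length_cons, add_assoc, add_comm 1 n] at hz

theorem Fil.ap_perm (h : Fil b F) {l l' : List ι} (e : l.Perm l') :
    ∀ n z, z ∈ F (l.length + n + 1) → ap b l z - ap b l' z ∈ F n := by
  induction e with
  | nil => intro n z _; simp
  | cons i _ ih =>
    intro n z hz
    rw [ap_cons, ap_cons, ← map_sub]
    refine (h.succ _ _).1 (ih (n + 1) z ?_) i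
    rw [List.length_cons] at hz
    convert hz using 2
    omega
  | swap i j l =>
    intro n z hz
    simp only [ap_cons]
    refine h.com n _ _ _ (h.ap_mem l _ z ?_)
    simp only [List.length_cons] at hz
    convert hz using 2
    omega
  | trans e₁ _ ih₁ ih₂ =>
    intro n z hz
    have := add_mem (ih₁ n z hz) (ih₂ n z (by rwa [← e₁.length_eq]))
    rwa [sub_add_sub_cancel] at this

/-- ordered monomials -/
def mo (b : ι → M →+ M) (a : ι →₀ ℕ) : M →+ M := ap b a.toMultiset.toList

theorem len_mo (a : ι →₀ ℕ) : a.toMultiset.toList.length = a.degree := by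
  rw [Multiset.length_toList, card_toMultiset]
  rfl

theorem mo_zero (b : ι → M →+ M) (z : M) : mo b 0 z = z := by simp [mo]

theorem Fil.mo_mem (h : Fil b F) (a : ι →₀ ℕ) {z : M} (hz : z ∈ F (a.degree + 1)) :
    mo b a z ∈ F 1 := h.ap_mem _ 1 z (by rwa [len_mo])

theorem Fil.mo_add (h : Fil b F) (a : ι →₀ ℕ) (i : ι) {z : M} (hz : z ∈ F (a.degree + 2)) :
    mo b (a + single i 1) z = mo b a (b i z) := by
  have e : (a + single i 1).toMultiset.toList.Perm (a.toMultiset.toList ++ [i]) := by
    rw [← Multiset.coe_eq_coe, Multiset.coe_toList, ← Multiset.coe_add, Multiset.coe_toList,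
      toMultiset_add, toMultiset_single]
    simp
  have := h.zero _ (h.ap_perm e 0 z (by
    rw [len_mo, map_add, degree_single]
    exact hz))
  rw [sub_eq_zero, ap_concat] at this
  exact this

theorem Fil.of_mo (h : Fil b F) : ∀ j z, z ∈ F (j + 1) →
    (∀ a : ι →₀ ℕ, a.degree = j → mo b a z = 0) → z ∈ F j := by
  intro j
  induction j with
  | zero =>
    intro z _ h0
    have := h0 0 (map_zero _)
    rw [mo_zero] at this
    rw [this]
    exact zero_mem _
  | succ j ih =>
    intro z hz h0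
    refine (h.succ _ _).2 fun i => ih _ ((h.succ _ _).1 hz i) fun a ha => ?_
    rw [← h.mo_add a i (by rwa [ha])]
    exact h0 _ (by rw [map_add, degree_single, ha])

/-- stable subgroups -/
def St (b : ι → M →+ M) (Q : AddSubgroup M) : Prop := ∀ i, ∀ z ∈ Q, b i z ∈ Q

variable [LinearOrder ι]

/-- leading coefficients -/
def Ld (b : ι → M →+ M) (F : ℕ → AddSubgroup M) (Q : AddSubgroup M) (a : ι →₀ ℕ) (x : M) : Prop :=
  ∃ z ∈ Q, z ∈ F (a.degree + 1) ∧ mo b a z = x ∧
    ∀ a' : ι →₀ ℕ, a'.degree = a.degree → toLex a < toLex a' → mo b a' z = 0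

theorem Ld.mono {Q Q' : AddSubgroup M} (e : Q ≤ Q') {a : ι →₀ ℕ} {x : M} (h : Ld b F Q a x) :
    Ld b F Q' a x := by
  obtain ⟨z, hz, h'⟩ := h
  exact ⟨z, e hz, h'⟩

theorem Fil.ld_one (h : Fil b F) {Q : AddSubgroup M} (hQ : St b Q) {a : ι →₀ ℕ} {i : ι} {x : M}
    (hx : Ld b F Q (a + single i 1) x) : Ld b F Q a x := by
  obtain ⟨z, hz, h1, h2, h3⟩ := hx
  rw [map_add, degree_single] at h1 h3
  refine ⟨b i z, hQ i z hz, (h.succ _ _).1 h1 i, by rw [← h.mo_add a i h1, h2], ?_⟩
  intro a' ha hlt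
  rw [← h.mo_add a' i (by rwa [ha])]
  refine h3 _ (by rw [map_add, degree_single, ha]) ?_
  rw [toLex_add, toLex_add]
  exact add_lt_add_left hlt _

theorem Fil.ld_add (h : Fil b F) {Q : AddSubgroup M} (hQ : St b Q) (c : ι →₀ ℕ) :
    ∀ {a : ι →₀ ℕ} {x : M}, Ld b F Q (a + c) x → Ld b F Q a x := by
  induction c using Finsupp.induction_linear with
  | zero => intro a x hx; simpa using hx
  | add c c' ih ih' =>
    intro a x hx
    rw [← add_assoc] at hx
    exact ih (ih' hx)
  | single i n =>
    induction n with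
    | zero => intro a x hx; simpa using hx
    | succ n ih =>
      intro a x hx
      rw [single_add, ← add_assoc] at hx
      exact ih (h.ld_one hQ hx)

variable [Finite ι]

theorem top (b : ι → M →+ M) (j : ℕ) (z : M) :
    (∀ a : ι →₀ ℕ, a.degree = j → mo b a z = 0) ∨ ∃ a : ι →₀ ℕ, a.degree = j ∧ mo b a z ≠ 0 ∧
      ∀ a' : ι →₀ ℕ, a'.degree = j → toLex a < toLex a' → mo b a' z = 0 := by
  by_cases h0 : ∀ a : ι →₀ ℕ, a.degree = j → mo b a z = 0
  · exact Or.inl h0
  · push Not at h0
    obtain ⟨a, ha, hm⟩ := Set.exists_max_image {a : ι →₀ ℕ | a.degree = j ∧ mo b a z ≠ 0} toLex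
      ((finite_of_degree_eq j).subset fun a ha => ha.1) h0
    refine Or.inr ⟨a, ha.1, ha.2, fun a' h1 h2 => ?_⟩
    by_contra h3
    exact absurd (hm a' ⟨h1, h3⟩) (not_le.2 h2)

theorem Fil.le_of_ld (h : Fil b F) {Q Q' : AddSubgroup M} (e : Q' ≤ Q)
    (hl : ∀ a x, Ld b F Q a x → Ld b F Q' a x) : Q ≤ Q' := by
  have key : ∀ j, ∀ z ∈ Q, z ∈ F j → z ∈ Q' := by
    intro j
    induction j with
    | zero =>
      intro z _ hz
      rw [h.zero z hz]
      exact zero_mem _
    | succ j ih =>
      have R : ∀ a : Lex (ι →₀ ℕ), ∀ z ∈ Q, z ∈ F (j + 1) → (ofLex a).degree = j →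
          (∀ a' : ι →₀ ℕ, a'.degree = j → a < toLex a' → mo b a' z = 0) → z ∈ Q' := by
        intro a
        induction a using WellFoundedLT.induction with
        | ind a iha =>
          intro z hz hF ha h0
          obtain ⟨z', hz', h1, h2, h3⟩ := hl (ofLex a) (mo b (ofLex a) z)
            ⟨z, hz, by rwa [ha], rfl, fun a' h1 h2 => h0 a' (by rw [h1, ha]) h2⟩
          rw [ha] at h1 h3
          have hw : z - z' ∈ Q := sub_mem hz (e hz')
          have hwF : z - z' ∈ F (j + 1) := sub_mem hF h1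
          have : z - z' ∈ Q' := by
            rcases top b j (z - z') with h4 | ⟨a2, h4, h5, h6⟩
            · exact ih _ hw (h.of_mo j _ hwF h4)
            · refine iha (toLex a2) ?_ _ hw hwF h4 h6
              by_contra h7
              apply h5
              rcases (not_lt.1 h7).lt_or_eq with h8 | h8
              · rw [map_sub, h0 a2 h4 h8, h3 a2 h4 h8, sub_zero]
              · rw [map_sub, ← show ofLex a = a2 from by rw [h8]; rfl, h2, sub_self]
          simpa using add_mem this hz'
      intro z hz hF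
      rcases top b j z with h4 | ⟨a2, h4, -, h6⟩
      · exact ih _ hz (h.of_mo j _ hF h4)
      · exact R (toLex a2) z hz hF h4 h6
  intro z hz
  obtain ⟨l, hl'⟩ := h.exh z
  exact key l z hz hl'

/-- **the descending chain condition** -/
theorem Fil.dcc (h : Fil b F) :
    WellFounded fun Q' Q : {Q : AddSubgroup M // St b Q} => Q'.1 < Q.1 := by
  rw [wellFounded_iff_isEmpty_descending_chain]
  refine ⟨fun ⟨Q, hQ⟩ => ?_⟩
  have h1 : ∀ n, ∃ a x, Ld b F (Q n).1 a x ∧ ¬Ld b F (Q (n + 1)).1 a x := by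
    intro n
    by_contra h2
    push Not at h2
    exact absurd (h.le_of_ld (hQ n).le h2) (not_le_of_gt (hQ n))
  choose a x h2 h3 using h1
  have h4 : ∀ n, x n ∈ (F 1 : Set M) := fun n => by
    obtain ⟨z, -, h5, h6, -⟩ := h2 n
    rw [← h6]
    exact h.mo_mem _ h5
  haveI : Finite (F 1 : Set M) := h.fin
  obtain ⟨m, n, hmn, h5, h6⟩ := WellQuasiOrdered.prod
    (Finite.wellQuasiOrdered (fun x y : (F 1 : Set M) => x = y))
    (wellQuasiOrdered_le (α := ι →₀ ℕ)) fun n => (⟨x n, h4 n⟩, a n)
  have h7 : Antitone fun n => (Q n).1 := antitone_nat_of_succ_le fun n => (hQ n).le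
  obtain ⟨c, hc⟩ := exists_add_of_le h6
  apply h3 m
  have h8 : x m = x n := congrArg Subtype.val h5
  have h9 := (h2 n).mono (h7 (Nat.succ_le_of_lt hmn))
  simp only at hc
  rw [hc, ← h8] at h9
  exact h.ld_add (Q (m + 1)).2 c h9

end Vale.Agent.P022K.WB.Noe

end
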