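import Vale.Agent.P022K.WB.Noe0

/-!
# P022K, block WB: admissible smooth modules of a uniform group are Artinian
-/

set_option autoImplicit false
set_option linter.all false

noncomputable section

namespace Vale.Agent.P022K.WB.Noe

variable {Γ : Type*} [Group Γ] {M : Type*} [AddCommGroup M] [DistribMulAction Γ M]

/-- stable subgroups -/
def Stb (Γ : Type*) [Group Γ] {M : Type*} [AddCommGroup M] [DistribMulAction Γ M]
    (B : AddSubgroup M) : Prop := ∀ x : Γ, ∀ z ∈ B, x • z ∈ B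

/-- the action on a stable subgroup -/
@[reducible] def subAct (B : AddSubgroup M) (h : Stb Γ B) : DistribMulAction Γ B where
  smul x z := ⟨x • z.1, h x z.1 z.2⟩
  one_smul z := Subtype.ext (one_smul Γ z.1)
  mul_smul x y z := Subtype.ext (mul_smul x y z.1)
  smul_zero x := Subtype.ext (smul_zero x)
  smul_add x z w := Subtype.ext (smul_add x z.1 w.1)

/-- the action on the quotient by a stable subgroup -/
@[reducible] def quoAct (B : AddSubgroup M) (h : Stb Γ B) : DistribMulAction Γ (M ⧸ B) where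
  smul x := QuotientAddGroup.map B B (DistribSMul.toAddMonoidHom M x) (fun z hz => h x z hz)
  one_smul z := by
    induction z using QuotientAddGroup.induction_on with
    | H z => exact congrArg _ (one_smul Γ z)
  mul_smul x y z := by
    induction z using QuotientAddGroup.induction_on with
    | H z => exact congrArg _ (mul_smul x y z)
  smul_zero x := map_zero (QuotientAddGroup.map B B (DistribSMul.toAddMonoidHom M x) _)
  smul_add x z w := map_add (QuotientAddGroup.map B B (DistribSMul.toAddMonoidHom M x) _) z w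

/-- a basis of normal subgroups with finite `p`-groups as quotients -/
structure Pro (p : ℕ) (U : ℕ → Subgroup Γ) : Prop where
  nor : ∀ n, (U n).Normal
  fin : ∀ n, (U n).FiniteIndex
  pg : ∀ n x, ∃ k, x ^ p ^ k ∈ U n

/-- finitely generated and powerful -/
structure Uni (p : ℕ) (U : ℕ → Subgroup Γ) : Prop extends Pro p U where
  gen : ∃ S : Finset Γ, ∀ n x, x ∈ Subgroup.closure (S : Set Γ) ⊔ U n
  com : ∀ n x y, x * y * (y * x)⁻¹ ∈ Subgroup.closure (Set.range fun z : Γ => z ^ p ^ 2) ⊔ U n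

/-- smooth `p`-primary modules -/
structure Smo (p : ℕ) (U : ℕ → Subgroup Γ) (M : Type*) [AddCommGroup M] [DistribMulAction Γ M] :
    Prop where
  sm : ∀ z : M, ∃ n, ∀ x ∈ U n, x • z = z
  tor : ∀ z : M, ∃ k, p ^ k • z = 0

variable {p : ℕ} {U : ℕ → Subgroup Γ}

theorem Smo.sub (h : Smo p U M) (B : AddSubgroup M) (hB : Stb Γ B) :
    letI := subAct B hB
    Smo p U B := by
  letI := subAct B hB
  refine ⟨fun z => ?_, fun z => ?_⟩
  · obtain ⟨n, hn⟩ := h.sm z.1
    exact ⟨n, fun x hx => Subtype.ext (hn x hx)⟩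
  · obtain ⟨k, hk⟩ := h.tor z.1
    exact ⟨k, Subtype.ext hk⟩

theorem Smo.quo (h : Smo p U M) (B : AddSubgroup M) (hB : Stb Γ B) :
    letI := quoAct B hB
    Smo p U (M ⧸ B) := by
  letI := quoAct B hB
  refine ⟨fun z => ?_, fun z => ?_⟩
  · induction z using QuotientAddGroup.induction_on with
    | H z =>
      obtain ⟨n, hn⟩ := h.sm z
      exact ⟨n, fun x hx => congrArg _ (hn x hx)⟩
  · induction z using QuotientAddGroup.induction_on with
    | H z =>
      obtain ⟨k, hk⟩ := h.tor z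
      exact ⟨k, by rw [← QuotientAddGroup.mk_nsmul, hk]; rfl⟩

/-- the subgroup generated by an orbit -/
def orb (Γ : Type*) [Group Γ] {M : Type*} [AddCommGroup M] [DistribMulAction Γ M] (z : M) :
    AddSubgroup M := AddSubgroup.closure (Set.range fun x : Γ => x • z)

theorem mem_orb (z : M) : z ∈ orb Γ z := AddSubgroup.subset_closure ⟨1, one_smul Γ z⟩

theorem stb_closure {T : Set M} (hT : ∀ x : Γ, ∀ z ∈ T, x • z ∈ AddSubgroup.closure T) :
    Stb Γ (AddSubgroup.closure T) := by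
  intro x z hz
  induction hz using AddSubgroup.closure_induction with
  | mem z hz => exact hT x z hz
  | zero => rw [smul_zero]; exact zero_mem _
  | add a b _ _ ha hb => rw [smul_add]; exact add_mem ha hb
  | neg a _ ha => rw [smul_neg]; exact neg_mem ha

theorem orb_stb (z : M) : Stb Γ (orb Γ z) := stb_closure (by
  rintro x _ ⟨y, rfl⟩
  exact AddSubgroup.subset_closure ⟨x * y, mul_smul x y z⟩)

theorem orb_le {B : AddSubgroup M} (hB : Stb Γ B) {z : M} (hz : z ∈ B) : orb Γ z ≤ B := by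
  rw [orb, AddSubgroup.closure_le]
  rintro _ ⟨x, rfl⟩
  exact hB x z hz

theorem closure_fin {T : Set M} (hT : T.Finite) {n : ℕ} (hn : 0 < n) (h : ∀ z ∈ T, n • z = 0) :
    (AddSubgroup.closure T : Set M).Finite := by
  haveI : Finite T := hT
  have : Finite (AddSubgroup.closure T) := by
    refine AddCommGroup.finite_of_fg_isAddTorsion _ fun z => ?_
    refine isOfFinAddOrder_iff_nsmul_eq_zero.2 ⟨n, hn, Subtype.ext ?_⟩
    have : AddSubgroup.closure T ≤ (nsmulAddMonoidHom n : M →+ M).ker := by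
      rw [AddSubgroup.closure_le]
      exact fun z hz => h z hz
    exact this z.2
  exact this

theorem range_fin {V : Subgroup Γ} (hV : V.FiniteIndex) {z : M} (hz : ∀ x ∈ V, x • z = z) :
    (Set.range fun x : Γ => x • z).Finite := by
  refine (Set.finite_range fun q : Γ ⧸ V => q.out • z).subset ?_
  rintro _ ⟨x, rfl⟩
  refine ⟨(x : Γ ⧸ V), ?_⟩
  obtain ⟨v, hv⟩ := QuotientGroup.mk_out_eq_mul V x
  simp only [hv, mul_smul, hz v v.2]

variable [Fact p.Prime]

theorem Pro.orb_fin (hU : Pro p U) (h : Smo p U M) (z : M) : (orb Γ z : Set M).Finite := by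
  obtain ⟨n, hn⟩ := h.sm z
  obtain ⟨k, hk⟩ := h.tor z
  refine closure_fin (range_fin (hU.fin n) hn) (pow_pos (Fact.out : p.Prime).pos k) ?_
  rintro _ ⟨x, rfl⟩
  rw [← smul_comm, hk, smul_zero]

theorem exists_p_tors {z : M} (hz : z ≠ 0) {k : ℕ} (hk : p ^ k • z = 0) :
    ∃ j, p ^ j • z ≠ 0 ∧ p • p ^ j • z = 0 := by
  induction k with
  | zero => simp at hk; exact absurd hk hz
  | succ k ih =>
    by_cases h : p ^ k • z = 0
    · exact ih h
    · exact ⟨k, h, by rw [← mul_nsmul', ← pow_succ', hk]⟩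

/-- **fixed points of pro-`p` groups** -/
theorem Pro.fix (hU : Pro p U) (h : Smo p U M) {z : M} (hz : z ≠ 0) :
    ∃ w ∈ orb Γ z, w ≠ 0 ∧ p • w = 0 ∧ ∀ x : Γ, x • w = w := by
  obtain ⟨k, hk⟩ := h.tor z
  obtain ⟨j, h1, h2⟩ := exists_p_tors hz hk
  set y := p ^ j • z with hy
  have hle : orb Γ y ≤ orb Γ z := orb_le (orb_stb z) (nsmul_mem (mem_orb z) _)
  letI := subAct (orb Γ y) (orb_stb y)
  haveI : Finite (orb Γ y) := hU.orb_fin h y
  obtain ⟨n, hn⟩ := h.sm y
  have hk1 : orb Γ y ≤ (nsmulAddMonoidHom p : M →+ M).ker := by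
    refine orb_le (fun x w hw => ?_) h2
    change p • x • w = 0
    rw [← smul_comm, show p • w = 0 from hw, smul_zero]
  have hP : IsPGroup p (MulAction.toPermHom Γ (orb Γ y)).range := by
    rintro ⟨_, x, rfl⟩
    obtain ⟨i, hi⟩ := hU.pg n x
    refine ⟨i, Subtype.ext ?_⟩
    rw [SubgroupClass.coe_pow, ← map_pow]
    ext w
    change x ^ p ^ i • w.1 = w.1
    have : orb Γ y ≤ (DistribSMul.toAddMonoidHom M (x ^ p ^ i) - AddMonoidHom.id M).ker := by
      rw [orb, AddSubgroup.closure_le]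
      rintro _ ⟨u, rfl⟩
      change x ^ p ^ i • u • y - u • y = 0
      have := hn _ ((hU.nor n).conj_mem _ hi u⁻¹)
      rw [inv_inv, mul_smul, mul_smul, inv_smul_eq_iff] at this
      rw [this, sub_self]
    exact sub_eq_zero.1 (this w.2)
  have hd : p ∣ Nat.card (orb Γ y) := by
    have : addOrderOf (⟨y, mem_orb y⟩ : orb Γ y) = p :=
      addOrderOf_eq_prime (Subtype.ext h2) fun e => h1 (congrArg Subtype.val e)
    exact this ▸ addOrderOf_dvd_natCard _
  obtain ⟨w, hw, hne⟩ := hP.exists_fixed_point_of_prime_dvd_card_of_fixed_point (orb Γ y) hd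
    (a := 0) (by
      rintro ⟨_, x, rfl⟩
      exact Subtype.ext (smul_zero x))
  refine ⟨w.1, hle w.2, fun e => hne (Subtype.ext e.symm), hk1 w.2, fun x => ?_⟩
  exact congrArg Subtype.val (hw ⟨_, x, rfl⟩)

/-- relative form -/
theorem Pro.fix_mod (hU : Pro p U) (h : Smo p U M) {B : AddSubgroup M} (hB : Stb Γ B) {z : M}
    (hz : z ∉ B) : ∃ w ∈ orb Γ z, w ∉ B ∧ p • w ∈ B ∧ ∀ x : Γ, x • w - w ∈ B := by
  letI := quoAct B hB
  obtain ⟨w, h1, h2, h3, h4⟩ := hU.fix (h.quo B hB) (z := (z : M ⧸ B))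
    (fun e => hz ((QuotientAddGroup.eq_zero_iff z).1 e))
  have : orb Γ (z : M ⧸ B) ≤ (orb Γ z).map (QuotientAddGroup.mk' B) := by
    refine orb_le ?_ ⟨z, mem_orb z, rfl⟩
    rintro x _ ⟨u, hu, rfl⟩
    exact ⟨x • u, orb_stb z x u hu, rfl⟩
  obtain ⟨u, hu, rfl⟩ := this h1
  refine ⟨u, hu, fun e => h2 ((QuotientAddGroup.eq_zero_iff u).2 e), ?_, fun x => ?_⟩
  · rw [← QuotientAddGroup.eq_zero_iff, QuotientAddGroup.mk_nsmul]
    exact h3
  · rw [← QuotientAddGroup.eq_zero_iff, QuotientAddGroup.mk_sub, sub_eq_zero]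
    exact h4 x

/-- the elements acting trivially on `z` modulo `B` -/
def trv {B : AddSubgroup M} (hB : Stb Γ B) (z : M) : Subgroup Γ where
  carrier := {x | x • z - z ∈ B}
  one_mem' := by simp
  mul_mem' {x y} hx hy := by
    have := add_mem (hB x _ hy) hx
    simpa [smul_sub, mul_smul] using this
  inv_mem' {x} hx := by
    have := neg_mem (hB x⁻¹ _ hx)
    simpa [smul_sub] using this

/-- the socle filtration -/
def FF (p : ℕ) (Γ : Type*) [Group Γ] (M : Type*) [AddCommGroup M] [DistribMulAction Γ M] :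
    ℕ → AddSubgroup M
  | 0 => ⊥
  | l + 1 =>
    { carrier := {z | p • z ∈ FF p Γ M l ∧ ∀ x : Γ, x • z - z ∈ FF p Γ M l}
      zero_mem' := ⟨by simp, fun x => by simp⟩
      add_mem' := fun {a b} ha hb => ⟨by rw [nsmul_add]; exact add_mem ha.1 hb.1, fun x => by
        rw [smul_add, add_sub_add_comm]
        exact add_mem (ha.2 x) (hb.2 x)⟩
      neg_mem' := fun {a} ha => ⟨by rw [smul_neg]; exact neg_mem ha.1, fun x => by
        have := neg_mem (ha.2 x)
        rwa [neg_sub', ← smul_neg] at this⟩ }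

omit [Fact p.Prime] in
theorem mem_FF {l : ℕ} {z : M} :
    z ∈ FF p Γ M (l + 1) ↔ p • z ∈ FF p Γ M l ∧ ∀ x : Γ, x • z - z ∈ FF p Γ M l := Iff.rfl

omit [Fact p.Prime] in
theorem FF_stb : ∀ l, Stb Γ (FF p Γ M l) := by
  intro l
  induction l with
  | zero =>
    intro x z hz
    rw [show z = 0 from hz, smul_zero]
    exact zero_mem _
  | succ l ih =>
    intro x z hz
    refine ⟨by rw [← smul_comm]; exact ih x _ hz.1, fun y => ?_⟩
    have := ih x _ (hz.2 (x⁻¹ * y * x))
    simpa [smul_sub, mul_smul] using this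

omit [Fact p.Prime] in
theorem pow_sub (x : Γ) (z : M) (n : ℕ) :
    x ^ n • z - z = ∑ k ∈ Finset.range n, (x ^ k • (x • z - z) - (x • z - z)) + n • (x • z - z) := by
  induction n with
  | zero => simp
  | succ n ih =>
    rw [Finset.sum_range_succ, succ_nsmul, add_add_add_comm, ← ih, pow_succ, mul_smul, smul_sub]
    abel

omit [Fact p.Prime] in
theorem FF_pow {l : ℕ} {x : Γ} {z : M} (h : x • z - z ∈ FF p Γ M (l + 1)) :
    x ^ p • z - z ∈ FF p Γ M l := by
  rw [pow_sub]
  exact add_mem (sum_mem fun k _ => h.2 _) h.1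

theorem Pro.exh (hU : Pro p U) (h : Smo p U M) (z : M) : ∃ l, z ∈ FF p Γ M l := by
  by_contra h0
  push Not at h0
  have hm : Monotone (FF p Γ M) := monotone_nat_of_le_succ fun n => by
    induction n with
    | zero => exact bot_le
    | succ n ih => exact fun z hz => ⟨ih hz.1, fun x => ih (hz.2 x)⟩
  have h1 : ∀ l, ∃ w ∈ orb Γ z, w ∉ FF p Γ M l ∧ w ∈ FF p Γ M (l + 1) := fun l => by
    obtain ⟨w, a1, a2, a3, a4⟩ := hU.fix_mod h (FF_stb l) (h0 l)
    exact ⟨w, a1, a2, a3, a4⟩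
  choose w a1 a2 a3 using h1
  obtain ⟨m, n, hmn, e⟩ := (hU.orb_fin h z).exists_lt_map_eq_of_forall_mem (f := w) a1
  exact a2 n (e ▸ hm (Nat.succ_le_of_lt hmn) (a3 m))

omit [Fact p.Prime] in
theorem FF_map {M' : Type*} [AddCommGroup M'] [DistribMulAction Γ M'] (f : M →+ M')
    (hf : ∀ (x : Γ) z, f (x • z) = x • f z) : ∀ l, ∀ z ∈ FF p Γ M l, f z ∈ FF p Γ M' l := by
  intro l
  induction l with
  | zero =>
    intro z hz
    rw [show z = 0 from hz, map_zero]
    exact zero_mem _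
  | succ l ih =>
    intro z hz
    exact ⟨by rw [← map_nsmul]; exact ih _ hz.1, fun x => by
      rw [← hf, ← map_sub]
      exact ih _ (hz.2 x)⟩

theorem Pro.fin_of (hU : Pro p U) (n : ℕ) (h1 : ∀ x ∈ U n, ∀ z : M, x • z = z)
    (h2 : ∀ z : M, p • z = 0) (hf : {z : M | ∀ x : Γ, x • z = z}.Finite) : Finite M := by
  haveI := hU.fin n
  have hF : ∀ l, (FF p Γ M l : Set M).Finite := by
    intro l
    induction l with
    | zero => exact Set.finite_singleton 0
    | succ l ih =>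
      let φ : M → Γ ⧸ U n → M := fun z q => q.out • z - z
      refine Set.Finite.of_finite_fibers φ ((Set.Finite.pi' fun _ : Γ ⧸ U n => ih).subset ?_) ?_
      · rintro _ ⟨z, hz, rfl⟩ q
        exact hz.2 _
      · rintro _ ⟨z0, -, rfl⟩
        refine (hf.image fun w => w + z0).subset ?_
        rintro z ⟨-, hz⟩
        refine ⟨z - z0, fun x => ?_, by simp⟩
        obtain ⟨v, hv⟩ := QuotientGroup.mk_out_eq_mul (U n) x
        have := congrFun hz (x : Γ ⧸ U n)
        simp only [φ, hv, mul_smul, h1 v v.2] at this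
        rw [smul_sub]
        exact sub_eq_sub_iff_sub_eq_sub.1 this
  obtain ⟨l, hl⟩ := hU.exh (M := M → M)
    ⟨fun z => ⟨n, fun x hx => funext fun w => h1 x hx _⟩,
      fun z => ⟨1, funext fun w => by rw [pow_one]; exact h2 _⟩⟩ id
  refine Set.finite_univ_iff.1 ((hF l).subset fun z _ => ?_)
  exact FF_map (Pi.evalAddMonoidHom (fun _ => M) z) (fun _ _ => rfl) l _ hl

/-- change of level -/
theorem Pro.lev (hU : Pro p U) (hf : {z : M | p • z = 0 ∧ ∀ x : Γ, x • z = z}.Finite) (n : ℕ) :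
    {z : M | p • z = 0 ∧ ∀ x ∈ U n, x • z = z}.Finite := by
  let A : AddSubgroup M :=
    { carrier := {z : M | p • z = 0 ∧ ∀ x ∈ U n, x • z = z}
      zero_mem' := ⟨by simp, fun x _ => by simp⟩
      add_mem' := fun {a b} ha hb => ⟨by rw [nsmul_add, ha.1, hb.1, add_zero], fun x hx => by
        rw [smul_add, ha.2 x hx, hb.2 x hx]⟩
      neg_mem' := fun {a} ha => ⟨by rw [smul_neg, ha.1, neg_zero], fun x hx => by
        rw [smul_neg, ha.2 x hx]⟩ }
  have hA : Stb Γ A := fun x z hz => ⟨by rw [← smul_comm, hz.1, smul_zero], fun y hy => by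
    have := hz.2 _ ((hU.nor n).conj_mem y hy x⁻¹)
    rwa [inv_inv, mul_smul, mul_smul, inv_smul_eq_iff] at this⟩
  letI := subAct A hA
  exact hU.fin_of (M := A) n (fun x hx z => Subtype.ext (z.2.2 x hx)) (fun z => Subtype.ext z.2.1)
    ((hf.preimage Subtype.val_injective.injOn).subset fun z hz =>
      ⟨z.2.1, fun x => congrArg Subtype.val (hz x)⟩)

/-- the operators -/
def op (p : ℕ) (M : Type*) [AddCommGroup M] [DistribMulAction Γ M] (S : Finset Γ) :
    Option S → M →+ M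
  | none => nsmulAddMonoidHom p
  | some x => DistribSMul.toAddMonoidHom M x.1 - AddMonoidHom.id M

theorem Uni.fil (hU : Uni p U) (h : Smo p U M)
    (hf : {z : M | p • z = 0 ∧ ∀ x : Γ, x • z = z}.Finite) :
    ∃ S : Finset Γ, Fil (op p M S) (FF p Γ M) := by
  obtain ⟨S, hS⟩ := hU.gen
  refine ⟨S, fun z hz => hz, fun l z => ⟨fun hz i => ?_, fun hz => ⟨hz none, fun x => ?_⟩⟩, ?_,
    hU.toPro.exh h, hf.subset fun z hz => ⟨hz.1, fun x => sub_eq_zero.1 (hz.2 x)⟩⟩
  · cases i with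
    | none => exact hz.1
    | some x => exact hz.2 x
  · obtain ⟨n, hn⟩ := h.sm z
    have : Subgroup.closure (S : Set Γ) ⊔ U n ≤ trv (FF_stb (p := p) l) z := by
      refine sup_le ((Subgroup.closure_le _).2 fun y hy => hz (some ⟨y, hy⟩)) fun y hy => ?_
      change y • z - z ∈ FF p Γ M l
      rw [hn y hy, sub_self]
      exact zero_mem _
    exact this (hS n x)
  · intro l i j z hz
    have c0 : ∀ x : Γ, p • (x • z - z) - (x • p • z - p • z) = 0 := fun x => by
      rw [smul_sub, smul_comm x p z, sub_self]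
    rcases i with _ | x <;> rcases j with _ | y
    · rw [sub_self]
      exact zero_mem _
    · change p • (y.1 • z - z) - (y.1 • p • z - p • z) ∈ _
      rw [c0]
      exact zero_mem _
    · change (x.1 • p • z - p • z) - p • (x.1 • z - z) ∈ _
      rw [← neg_sub, c0, neg_zero]
      exact zero_mem _
    · change (x.1 • (y.1 • z - z) - (y.1 • z - z)) - (y.1 • (x.1 • z - z) - (x.1 • z - z)) ∈ _
      set w := (y.1 * x.1) • z with hw
      have hwF : w ∈ FF p Γ M (l + 3) := FF_stb _ _ _ hz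
      obtain ⟨n, hn⟩ := h.sm w
      have : Subgroup.closure (Set.range fun z : Γ => z ^ p ^ 2) ⊔ U n ≤
          trv (FF_stb (p := p) l) w := by
        refine sup_le ((Subgroup.closure_le _).2 ?_) fun y hy => ?_
        · rintro _ ⟨u, rfl⟩
          change u ^ p ^ 2 • w - w ∈ FF p Γ M l
          rw [pow_two, pow_mul]
          exact FF_pow (FF_pow (hwF.2 u))
        · change y • w - w ∈ FF p Γ M l
          rw [hn y hy, sub_self]
          exact zero_mem _
      have h1 : (x.1 * y.1 * (y.1 * x.1)⁻¹) • w - w ∈ FF p Γ M l := this (hU.com n x y)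
      rw [hw, ← mul_smul, inv_mul_cancel_right, mul_smul, mul_smul] at h1
      convert h1 using 1
      simp only [smul_sub]
      abel

/-- **DCC**: an admissible smooth module is Artinian -/
theorem Uni.dcc (hU : Uni p U) (h : Smo p U M)
    (hf : {z : M | p • z = 0 ∧ ∀ x : Γ, x • z = z}.Finite) :
    WellFounded fun Q' Q : {Q : AddSubgroup M // Stb Γ Q} => Q'.1 < Q.1 := by
  classical
  obtain ⟨S, hS⟩ := hU.fil h hf
  letI : LinearOrder (Option S) := linearOrderOfSTO WellOrderingRel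
  let f : {Q : AddSubgroup M // Stb Γ Q} → {Q : AddSubgroup M // St (op p M S) Q} := fun Q =>
    ⟨Q.1, fun i z hz => by
      cases i with
      | none => exact nsmul_mem hz p
      | some x => exact sub_mem (Q.2 x z hz) hz⟩
  exact InvImage.wf f hS.dcc

/-- finite modulo a subgroup -/
def FinMod (A : Set M) (B : AddSubgroup M) : Prop :=
  ∃ T : Set M, T.Finite ∧ T ⊆ A ∧ ∀ z ∈ A, ∃ t ∈ T, z - t ∈ B

/-- **QUO**: quotients of admissible modules are admissible, at every level -/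
theorem Uni.quo (hU : Uni p U) (h : Smo p U M)
    (hf : {z : M | p • z = 0 ∧ ∀ x : Γ, x • z = z}.Finite) {B : AddSubgroup M} (hB : Stb Γ B)
    {V : Subgroup Γ} (hV : V.Normal) (hV' : V.FiniteIndex) {k : ℕ} (hk : 0 < k) :
    FinMod {z : M | k • z ∈ B ∧ ∀ x ∈ V, x • z - z ∈ B} B := by
  classical
  let Z : AddSubgroup M :=
    { carrier := {z : M | k • z ∈ B ∧ ∀ x ∈ V, x • z - z ∈ B}
      zero_mem' := ⟨by simp, fun x _ => by simp⟩
      add_mem' := fun {a b} ha hb => ⟨by rw [nsmul_add]; exact add_mem ha.1 hb.1, fun x hx => by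
        rw [smul_add, add_sub_add_comm]
        exact add_mem (ha.2 x hx) (hb.2 x hx)⟩
      neg_mem' := fun {a} ha => ⟨by rw [smul_neg]; exact neg_mem ha.1, fun x hx => by
        have := neg_mem (ha.2 x hx)
        rwa [neg_sub', ← smul_neg] at this⟩ }
  have hZ : Stb Γ Z := fun x z hz => ⟨by rw [← smul_comm]; exact hB x _ hz.1, fun y hy => by
    have := hB x _ (hz.2 _ (hV.conj_mem y hy x⁻¹))
    simpa [smul_sub, mul_smul] using this⟩
  have hBZ : B ≤ Z := fun z hz => ⟨nsmul_mem hz k, fun x _ => sub_mem (hB x z hz) hz⟩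
  obtain ⟨C, ⟨c1, c2, T, t1, t2, t3⟩, hmin⟩ := (hU.dcc h hf).has_min
    {C | B ≤ C.1 ∧ C.1 ≤ Z ∧ FinMod (Z : Set M) C.1}
    ⟨⟨Z, hZ⟩, hBZ, le_rfl, {0}, Set.finite_singleton _, by simpa using zero_mem Z,
      fun z hz => ⟨0, rfl, by simpa using hz⟩⟩
  suffices hC : C.1 ≤ B from ⟨T, t1, t2, fun z hz => (t3 z hz).imp fun t ht => ⟨ht.1, hC ht.2⟩⟩
  intro z0 hz0
  by_contra hz
  obtain ⟨c, hc⟩ := CharacterModule.exists_character_apply_ne_zero_of_ne_zero
    (a := (z0 : M ⧸ B)) fun e => hz ((QuotientAddGroup.eq_zero_iff z0).1 e)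
  let c' : M →+ AddCircle (1 : ℚ) := (show M ⧸ B →+ _ from c).comp (QuotientAddGroup.mk' B)
  have hc0 : ∀ z ∈ B, c' z = 0 := fun z hz => by
    change c (z : M ⧸ B) = 0
    rw [(QuotientAddGroup.eq_zero_iff z).2 hz, map_zero]
  let D : AddSubgroup M :=
    { carrier := {z | z ∈ C.1 ∧ ∀ x : Γ, c' (x • z) = 0}
      zero_mem' := ⟨zero_mem _, fun x => by simp⟩
      add_mem' := fun {a b} ha hb => ⟨add_mem ha.1 hb.1, fun x => by
        rw [smul_add, map_add, ha.2, hb.2, add_zero]⟩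
      neg_mem' := fun {a} ha => ⟨neg_mem ha.1, fun x => by rw [smul_neg, map_neg, ha.2, neg_zero]⟩ }
  have hD : Stb Γ D := fun x z hz => ⟨C.2 x z hz.1, fun y => by rw [← mul_smul]; exact hz.2 _⟩
  refine hmin ⟨D, hD⟩ ⟨fun z hz => ⟨c1 hz, fun x => hc0 _ (hB x z hz)⟩, fun z hz => c2 hz.1, ?_⟩
    (lt_of_le_of_ne (fun z hz => hz.1) fun e => hc ?_)
  · let φ : M → Γ ⧸ V → AddCircle (1 : ℚ) := fun z q => c' (q.out • z)
    have hφ : (φ '' (C.1 : Set M)).Finite := by
      refine (Set.Finite.pi' fun _ : Γ ⧸ V => AddCircle.finite_torsion (1 : ℚ) hk).subset ?_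
      rintro _ ⟨z, hz, rfl⟩ q
      change k • c' (q.out • z) = 0
      rw [← map_nsmul]
      exact hc0 _ (hZ _ _ (c2 hz)).1
    obtain ⟨T', a1, a2, a3⟩ := Set.exists_subset_image_finite_and.1
      (⟨φ '' (C.1 : Set M), le_rfl, hφ, rfl⟩ : ∃ u ⊆ φ '' (C.1 : Set M), u.Finite ∧ u = φ '' C.1)
    refine ⟨Set.image2 (· + ·) T T', t1.image2 _ a2, ?_, fun z hz => ?_⟩
    · rintro _ ⟨a, ha, b, hb, rfl⟩
      exact add_mem (t2 ha) (c2 (a1 hb))
    · obtain ⟨t, ht, h1⟩ := t3 z hz
      obtain ⟨t', ht', h2⟩ : φ (z - t) ∈ φ '' T' := a3 ▸ ⟨_, h1, rfl⟩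
      refine ⟨t + t', ⟨t, ht, t', ht', rfl⟩, ?_⟩
      rw [← sub_sub]
      have h3 : z - t - t' ∈ C.1 := sub_mem h1 (a1 ht')
      refine ⟨h3, fun x => ?_⟩
      obtain ⟨v, hv⟩ := QuotientGroup.mk_out_eq_mul V x
      have h4 : c' ((x : Γ ⧸ V).out • (z - t - t')) = 0 := by
        rw [smul_sub, map_sub, sub_eq_zero]
        exact (congrFun h2 _).symm
      have h5 := hc0 _ (hB x _ ((c2 h3).2 v v.2))
      rw [hv, mul_smul] at h4
      rw [smul_sub, map_sub, h4, zero_sub, neg_eq_zero] at h5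
      exact h5
  · have : z0 ∈ D := by rw [show D = C.1 from e]; exact hz0
    have := this.2 1
    rwa [one_smul] at this

end Vale.Agent.P022K.WB.Noe

end
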