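import Vale.Agent.P027M.I.All0

/-!
# P022K, block WB, row NV: covers with tame cyclic decomposition groups of nodal curves are nodal
-/

set_option linter.all false

noncomputable section

open IntermediateField Vale.Agent.P019P P025H746 P025H492 Module

namespace Vale.Agent.P022K.WB.Nv

open Vale.Agent.P027M.I Vale.Agent.P027M.I.DecP Vale.Agent.P027M.I.Cov

variable {C F L : Type} [NontriviallyNormedField C] [IsUltrametricDist C] [IsAlgClosed C]
  [Field F] [Algebra C F] [CFF C F] [Field L] [Algebra C L] [CFF C L] [Algebra F L]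
  [IsScalarTower C F L] [FiniteDimensional F L] [IsGalois F L] (T : F)
  [FiniteDimensional C⟮T⟯ F] [FiniteDimensional C⟮algebraMap F L T⟯ L]

theorem decF (hr : ∀ v : WW C (algebraMap F L T), ((Nat.card (DG F v.1) : ℕ) : kC C) ≠ 0)
    (hF : Full C T) : Full C (algebraMap F L T) ∧
      ∀ w : WW C T,
        ∑ᶠ v : {v : NV C L // NVExt w.1 v}, finrank (kap w.1) (kap v.1) = finrank F L ∧
        ∀ (v : NV C L) [NVExt w.1 v], IsGalois (kap w.1) (kap v) ∧
          finrank (kap w.1) (kap v) = Nat.card (DG F v) ∧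
          (∀ τ : kap v ≃ₐ[kap w.1] kap v, ∃ g : L ≃ₐ[F] L, (∀ y, v (g y) = v y) ∧
            ∀ y, v y ≤ 1 → τ (v.red y) = v.red (g y)) ∧
          (IsCyclic (DG F v) → IsCyclic (kap v ≃ₐ[kap w.1] kap v)) := by
  classical
  have hval : ∀ w : WW C T, ∀ x : F, ∃ c : C, ‖c‖ = w.1 x := fun w => exists_norm_eq w.2
  have hvL : ∀ (w : WW C T) (v : NV C L) [NVExt w.1 v] (x : L), ∃ c : C, ‖c‖ = v x :=
    fun w v _ => exists_norm_eq (T := algebraMap F L T) (NVExt.overG.2 w.2)
  have hfin : ∀ w : WW C T, Finite {v : NV C L // NVExt w.1 v} := fun w => finite_ext w.1 (hval w)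
  letI : ∀ w : WW C T, Fintype {v : NV C L // NVExt w.1 v} := fun w => Fintype.ofFinite _
  have inj : ∀ (w : WW C T) (v : NV C L) [NVExt w.1 v], Function.Injective (rho w.1 v) := by
    intro w v _
    rw [injective_iff_map_eq_one]
    intro g hg
    refine Subtype.ext (faith (hvL w v) g.2 (fun h => hr ⟨v, NVExt.overG.2 w.2⟩ ?_) fun y _ => by
      rw [← rho_red w.1 v g y, hg, AlgEquiv.one_apply])
    obtain ⟨t, ht⟩ := orderOf_dvd_natCard g
    change ((Nat.card (DG F v) : ℕ) : kC C) = 0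
    rw [ht, Nat.cast_mul, ← Subgroup.orderOf_coe, h, zero_mul]
  have le1 : ∀ (w : WW C T) (v : NV C L) [NVExt w.1 v],
      Nat.card (DG F v) ≤ Nat.card (kap v ≃ₐ[kap w.1] kap v) ∧
      Nat.card (kap v ≃ₐ[kap w.1] kap v) ≤ finrank (kap w.1) (kap v) := by
    intro w v _
    haveI := finite_resdeg w.1 (hval w) v
    exact ⟨Nat.card_le_card_of_injective _ (inj w v),
      by rw [Nat.card_eq_fintype_card]; exact AlgEquiv.card_le⟩
  have sm : ∀ w : WW C T,
      ∑ v : {v : NV C L // NVExt w.1 v}, finrank (kap w.1) (kap v.1) = finrank F L := fun w =>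
    le_antisymm (sum_resdeg_le w.1 (hval w) (fun v : {v : NV C L // NVExt w.1 v} => v.1)
      Subtype.val_injective) ((sum_card w.1 (hval w)).symm.trans_le
        (Finset.sum_le_sum fun v _ => (le1 w v.1).1.trans (le1 w v.1).2))
  have eq1 : ∀ (w : WW C T) (v : NV C L) [h : NVExt w.1 v],
      Nat.card (DG F v) = finrank (kap w.1) (kap v) := fun w v h =>
    (Finset.sum_eq_sum_iff_of_le fun (u : {v : NV C L // NVExt w.1 v}) _ =>
      (le1 w u.1).1.trans (le1 w u.1).2).1 ((sum_card w.1 (hval w)).trans (sm w).symm) ⟨v, h⟩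
      (Finset.mem_univ _)
  refine ⟨?_, fun w => ⟨by rw [finsum_eq_sum_of_fintype, sm w], fun v _ => ?_⟩⟩
  · let e : WW C (algebraMap F L T) ≃ (Σ w : WW C T, {v : NV C L // NVExt w.1 v}) :=
      { toFun := fun v => ⟨⟨v.1.comap F, v.2.comap⟩, ⟨v.1, inferInstance⟩⟩
        invFun := fun p => ⟨p.2.1, NVExt.overG.2 p.1.2⟩
        left_inv := fun v => rfl
        right_inv := by
          rintro ⟨⟨w, hw⟩, ⟨v, hv⟩⟩
          obtain rfl := nvExt_iff.1 hv
          rfl }
    unfold Full at hF ⊢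
    refine (Fintype.sum_equiv e _ (fun p => finrank (kC C)⟮p.2.1.red (algebraMap F L T)⟯
      (kap p.2.1)) (fun v => rfl)).trans ?_
    rw [Fintype.sum_sigma, finrank_up, ← hF, Finset.sum_mul]
    refine Finset.sum_congr rfl fun w _ => ?_
    rw [← sm w, Finset.mul_sum]
    exact Finset.sum_congr rfl fun v _ => (finrank_mul_resdeg w.2.apply_T.le).symm
  · haveI := finite_resdeg w.1 (hval w) v
    have e1 := eq1 w v
    have e2 : Nat.card (kap v ≃ₐ[kap w.1] kap v) = finrank (kap w.1) (kap v) :=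
      le_antisymm (le1 w v).2 (e1 ▸ (le1 w v).1)
    have sj := ((inj w v).bijective_of_nat_card_le (e2.trans e1.symm).le).2
    refine ⟨IsGalois.of_card_aut_eq_finrank _ _ e2, e1.symm, fun τ => ?_, fun hd => ?_⟩
    · obtain ⟨g, rfl⟩ := sj τ
      exact ⟨g.1, g.2, fun y _ => rho_red w.1 v g y⟩
    · exact isCyclic_of_surjective _ sj

/-- unramified Galois covers of nodal curves with cyclic decomposition groups of order prime to the
residue characteristic are nodal -/
theorem covF [CharZero C] (hF : Full C T) {S : Finset (Br C T)} (hS : Nodal C T S)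
    (hU : IsUnr C F L)
    (hr : ∀ v : WW C (algebraMap F L T), ((Nat.card (DG F v.1) : ℕ) : kC C) ≠ 0)
    (hcyc : ∀ v : WW C (algebraMap F L T), IsCyclic (DG F v.1)) :
    Full C (algebraMap F L T) ∧
      (∀ (v : WW C (algebraMap F L T)) (y : L), v.1 y ≤ 1 →
        (∀ g : L ≃ₐ[F] L, (∀ y, v.1 (g y) = v.1 y) → v.1 (g y - y) < 1) →
        ∃ y₀ : F, v.1 (y - algebraMap F L y₀) < 1) ∧
      ∃ S' : Finset (Br C (algebraMap F L T)), Nodal C (algebraMap F L T) S' ∧
        ∀ b', b' ∈ S' ↔ ∃ b ∈ S, Tw (algebraMap F L) b b' := by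
  classical
  obtain ⟨hL, hw⟩ := decF T hr hF
  obtain ⟨-, hb⟩ := trb C F L T
  have hpos : ∀ v : NV C L, 0 < Nat.card (DG F v) := fun v => Nat.card_pos
  refine ⟨hL, fun v y hy hg => ?_, ?_⟩
  · obtain ⟨hG, hd, hτ, -⟩ := (hw ⟨v.1.comap F, v.2.comap⟩).2 v.1
    have : FiniteDimensional (kap (v.1.comap F)) (kap v.1) :=
      FiniteDimensional.of_finrank_pos (hd ▸ hpos v.1)
    have h1 : v.1.red y ∈ (algebraMap (kap (v.1.comap F)) (kap v.1)).range := by
      refine (IsGalois.mem_range_algebraMap_iff_fixed _).2 fun τ => ?_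
      obtain ⟨g, hg1, hg2⟩ := hτ τ
      rw [hg2 y hy]
      exact (red_eq_iff (by rw [hg1]; exact hy) hy).2 (hg g hg1)
    obtain ⟨z, hz⟩ := h1
    obtain ⟨y₀, hy₀, rfl⟩ := NV.red_surj z
    refine ⟨y₀, (red_eq_iff hy hy₀).1 ?_⟩
    exact hz.symm.trans (red_algebraMap' (w := v.1.comap F) (v := v.1) hy₀).symm
  · let S' : Finset (Br C (algebraMap F L T)) := S.biUnion fun b => (hb b).1.toFinset
    have hS' : ∀ b', b' ∈ S' ↔ ∃ b ∈ S, Tw (algebraMap F L) b b' := by
      intro b'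
      simp only [S', Finset.mem_biUnion, Set.Finite.mem_toFinset, Set.mem_ofPred_eq]
    have hp : ∀ b' ∈ S', ∃ b'' ∈ S', b'' ≠ b' ∧ Glue b' b'' := by
      intro b' hb'
      obtain ⟨b, hbS, ht⟩ := (hS' b').1 hb'
      obtain ⟨b₂, hb₂, hne, hg⟩ := hS.2 b hbS
      obtain ⟨b'', ht', hg'⟩ := lift' C F L T b b₂ hg b' ht
      refine ⟨b'', (hS' _).2 ⟨b₂, hb₂, ht'⟩, ?_, hg'⟩
      rintro rfl
      exact hne (ht'.inj_left ht)
    refine ⟨S', ⟨le_antisymm (half' C L _ hL S' hp) ?_, hp⟩, hS'⟩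
    have hfin : Finite (Σ w : WW C T, {v : NV C L // NVExt w.1 v}) :=
      Finite.of_equiv _ (sg T L).symm
    have hfin' : ∀ w : WW C T, Finite {v : NV C L // NVExt w.1 v} := fun w =>
      Finite.of_injective _ (sigma_mk_injective (β := fun w : WW C T =>
        {v : NV C L // NVExt w.1 v}) (i := w))
    let _i : ∀ w : WW C T, Fintype {v : NV C L // NVExt w.1 v} := fun w => Fintype.ofFinite _
    have key : ∀ w : WW C T, (finrank F L : ℤ) * (2 * gen (kC C) (kap w.1) - 2 + (fib S w).ncard) ≤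
        ∑ v : {v : NV C L // NVExt w.1 v},
          ((2 * gen (kC C) (kap (sg T L ⟨w, v⟩).1) - 2 : ℤ) + (fib S' (sg T L ⟨w, v⟩)).ncard) := by
      intro w
      obtain ⟨hs, hv⟩ := hw w
      rw [finsum_eq_sum_of_fintype] at hs
      rw [← hs, Nat.cast_sum, Finset.sum_mul]
      refine Finset.sum_le_sum fun v _ => ?_
      obtain ⟨hG, hd, -, hc⟩ := hv v.1
      have : FiniteDimensional (kap w.1) (kap v.1) :=
        FiniteDimensional.of_finrank_pos (hd ▸ hpos v.1)
      have hn' : ((finrank (kap w.1) (kap v.1) : ℕ) : kC C) ≠ 0 := by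
        rw [hd]
        exact hr (sg T L ⟨w, v⟩)
      have := @pair C _ _ _ F _ _ T L _ _ _ _ _ _ rhc w (sg T L ⟨w, v⟩) v.2 this hG
        (hc (hcyc (sg T L ⟨w, v⟩))) hn' S S' hS'
      exact sub_le_iff_le_add.1 this
    have h1 := Finset.sum_le_sum fun w (_ : w ∈ (Finset.univ : Finset (WW C T))) => key w
    rw [← Fintype.sum_sigma (fun p : Σ w : WW C T, {v : NV C L // NVExt w.1 v} =>
      ((2 * gen (kC C) (kap (sg T L p).1) - 2 : ℤ) + (fib S' (sg T L p)).ncard)),
      Equiv.sum_comp (sg T L) (fun v => ((2 * gen (kC C) (kap v.1) - 2 : ℤ) + (fib S' v).ncard)),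
      ← Finset.mul_sum, Finset.sum_add_distrib, Finset.sum_add_distrib, ← Nat.cast_sum,
      ← Nat.cast_sum, ← card_fib, ← card_fib, hS.1] at h1
    have h2 := hU.genus
    have h3 : ∀ {ι : Type} [Fintype ι] (a : ι → ℤ), ∑ i, (2 * a i - 2) = 2 * ∑ i, (a i - 1) := by
      intro ι _ a
      rw [Finset.mul_sum]
      exact Finset.sum_congr rfl fun i _ => by ring
    rw [h3, h3] at h1
    unfold cd at h1 ⊢
    linarith

/-- the case of trivial decomposition groups -/
theorem covS [CharZero C] (hF : Full C T) {S : Finset (Br C T)} (hS : Nodal C T S)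
    (hU : IsUnr C F L)
    (hfree : ∀ (τ : L ≃ₐ[F] L) (v : WW C (algebraMap F L T)), (∀ y, v.1 (τ y) = v.1 y) → τ = 1) :
    Full C (algebraMap F L T) ∧
      (∀ (v : WW C (algebraMap F L T)) (y : L), v.1 y ≤ 1 →
        ∃ y₀ : F, v.1 (y - algebraMap F L y₀) < 1) ∧
      ∃ S' : Finset (Br C (algebraMap F L T)), Nodal C (algebraMap F L T) S' ∧
        ∀ b', b' ∈ S' ↔ ∃ b ∈ S, Tw (algebraMap F L) b b' := by
  have hb : ∀ v : WW C (algebraMap F L T), DG F v.1 = ⊥ := fun v =>
    (Subgroup.eq_bot_iff_forall _).2 fun τ hτ => hfree τ v hτ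
  obtain ⟨h1, h2, h3⟩ := covF T hF hS hU (fun v => by rw [hb]; simp)
    (fun v => by rw [hb]; infer_instance)
  exact ⟨h1, fun v y hv => h2 v y hv fun τ hτ => by rw [hfree τ v hτ]; simp, h3⟩

end Vale.Agent.P022K.WB.Nv
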