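import Vale.Agent.P022K.WB.NvK
import Vale.Agent.P022K.QT.Ccy0
import Vale.Agent.P022K.FI.X1M

/-!
# P022K, block WB, rows PRJ and BET: projection to the non Eisenstein part, the Kummer function of
the shift character of the Iwahori level
-/

set_option autoImplicit false
set_option linter.unusedSectionVars false

open scoped MatrixGroups

noncomputable section

namespace Vale.Agent.P022K.Sh

open Fre Cy Vale.Agent.P022 Vale.Agent.P022.H218.L3 IsLocalRing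

variable {G0 G : Type} [Group G0] [Group G] {T : Tw G0 G} {U U' : Subgroup G}

namespace Tw

theorem ex_bet (hT : T.Ok) (hU : U ∈ T.Lev) {n : ℕ} (hn : 0 < n) {b : G → ZMod n}
    (add : ∀ u ∈ U, ∀ u' ∈ U, b (u * u') = b u + b u') (hZ : ∀ z ∈ T.Z, b z = 0) :
    ∃ (s : G → ZMod n) (h : G → Mer), (∀ x, ∀ u ∈ U, s (x * u) = s x + b u) ∧
      T.Kum n U h fun γ x => s x - s ((T.j γ)⁻¹ * x) := by
  let s : G → ZMod n := fun x => b ((x : G ⧸ U).out⁻¹ * x)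
  have hs : ∀ x, ∀ u ∈ U, s (x * u) = s x + b u := fun x u hu => by
    have e : ((x * u : G) : G ⧸ U) = x := (QuotientGroup.eq.2 (by simpa using hu)).symm
    show b (_ * _) = b _ + _
    rw [e, ← mul_assoc, add _ (QuotientGroup.eq.1 (QuotientGroup.out_eq' _)) u hu]
  refine (ex_kum hT T.poi hU hn (z := fun γ x => s x - s ((T.j γ)⁻¹ * x)) (mem_Z1.2
    ⟨fun γ x u hu => ?_, fun γ δ x => ?_, fun γ hγ x => ?_⟩)).elim fun h k => ⟨s, h, hs, k⟩
  · beta_reduce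
    rw [← mul_assoc, hs _ u hu, hs _ u hu, add_sub_add_right_eq_sub]
  · rw [map_mul, mul_inv_rev, mul_assoc, sub_add_sub_cancel]
  · have hz := inv_mem ((hT.z0 γ).1 hγ)
    rw [← hT.com hz, hs _ _ (Z_le hU hz), hZ _ hz, add_zero, sub_self]

theorem Kum.powc {n : ℕ} (hn : 0 < n) {h : G → Mer} {z : G0 → G → ZMod n} (k : T.Kum n U h z)
    {j : G → ℕ} (hj : ∀ x y, T.Rel U x y → j x = j y) :
    T.Kum n U (fun x => h x ^ j x) fun γ x => j x • z γ x :=
  ⟨fun x => pow_ne_zero _ (k.1 x), fun x u hu => by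
    beta_reduce
    rw [k.2.1 x u hu, ← hj _ _ (rel_right x hu)], fun γ x => by
    show _ = eM n (j x • z γ x) * _
    rw [map_pow, k.eq, ← hj _ _ (rel_left γ x), mul_pow, eM_nsmul hn]⟩

section mat

open FI.X1 FI.Lv FI

variable {O K : Type} [CommRing O] [IsDomain O] [IsDiscreteValuationRing O] [Field K] [Algebra O K]

variable (O) in
/-- the shift of an element of the Iwahori group -/
def bq (g : GL (Fin 2) K) : O := Function.invFun (algebraMap O K) (g 0 1 / g 1 1)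

theorem Km_ex {g : GL (Fin 2) K} (h : g ∈ Km O K 1) : ∃ k : GL (Fin 2) O,
    (∀ i j, k i j - (1 : Matrix (Fin 2) (Fin 2) O) i j ∈ maximalIdeal O) ∧ gK K k = g := by
  obtain ⟨k, hk, rfl⟩ := h
  refine ⟨k, fun i j => ?_, rfl⟩
  rw [← pow_one (maximalIdeal O), ← Ideal.Quotient.eq]
  refine (congrArg (fun g : GL (Fin 2) (O ⧸ maximalIdeal O ^ 1) => g i j)
    (MonoidHom.mem_ker.1 hk)).trans ?_
  simp only [Units.val_one, Matrix.one_apply]
  split_ifs <;> simp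

theorem Km_le_Iw1 : Km O K 1 ≤ Iw1 O K := fun _ h => by
  obtain ⟨k, e, rfl⟩ := Km_ex h
  exact gK_Iw1 (by simpa using e 1 0) (by simpa using sub_mem (e 0 0) (e 1 1))

variable (w : T.Lc O K)
include w

theorem bq_eq {k : GL (Fin 2) O} {g : GL (Fin 2) K} (h : (gK K k)⁻¹ * g ∈ Zl K)
    (h1 : k 1 0 ∈ maximalIdeal O) : bq O g * k 1 1 = k 0 1 := by
  obtain ⟨c, e⟩ := mem_Zl.1 h
  obtain ⟨d, hd⟩ := (diag_unit h1).2
  have : g 0 1 / g 1 1 = algebraMap O K (k 0 1 * (d⁻¹ : Oˣ)) := by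
    have d0 : algebraMap O K (k 1 1) ≠ 0 := ((diag_unit h1).2.map (algebraMap O K)).ne_zero
    rw [← mul_inv_cancel_left (gK K k) g, e, mul_d2, mul_d2, mul_div_mul_right _ _ c.ne_zero]
    refine (div_eq_iff d0).2 ?_
    rw [← map_mul, ← hd, Units.inv_mul_cancel_right]
    rfl
  rw [bq, this, Function.leftInverse_invFun w.inj, ← hd, Units.inv_mul_cancel_right]

theorem bq_mul {g g' : GL (Fin 2) K} (h : g ∈ Iw1 O K ⊔ Zl K) (h' : g' ∈ Iw1 O K ⊔ Zl K) :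
    bq O (g * g') - (bq O g + bq O g') ∈ maximalIdeal O := by
  obtain ⟨_, m, z⟩ := Gn.mem_sup_zl.1 h
  obtain ⟨_, m', z'⟩ := Gn.mem_sup_zl.1 h'
  obtain ⟨k, h1, h2, rfl⟩ := Iw1_ex m
  obtain ⟨k', h1', -, rfl⟩ := Iw1_ex m'
  obtain ⟨k'', h3, -, e⟩ := Iw1_ex (mul_mem m m')
  obtain rfl : k'' = k * k' := Units.ext (Matrix.map_injective w.inj
    (congrArg Units.val (e.trans (map_mul _ _ _).symm)))
  have e1 := bq_eq w z h1
  have e2 := bq_eq w z' h1'
  have e3 := bq_eq w (g := g * g') (k := k * k') (by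
    have := mul_mem z z'
    rw [← mul_assoc, ← Gn.zl_comm z] at this
    simpa only [map_mul, mul_inv_rev, mul_assoc] using this) h3
  rw [← Ideal.mul_unit_mem_iff_mem _ (diag_unit h3).2, sub_mul, e3]
  convert sub_mem (Ideal.mul_mem_left _ (k' 0 1) h2)
    (Ideal.mul_mem_right ((bq O g + bq O g') * k' 0 1) _ h1) using 1
  simp only [Units.val_mul, Matrix.mul_apply, Fin.sum_univ_two]
  linear_combination (-k' 1 1) * e1 - k 1 1 * e2

theorem bq_Km {g : GL (Fin 2) K} (h : g ∈ Km O K 1 ⊔ Zl K) : bq O g ∈ maximalIdeal O := by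
  obtain ⟨_, m, z⟩ := Gn.mem_sup_zl.1 h
  obtain ⟨k, e, rfl⟩ := Km_ex m
  have h1 : k 1 0 ∈ maximalIdeal O := by simpa using e 1 0
  rw [← Ideal.mul_unit_mem_iff_mem _ (diag_unit h1).2, bq_eq w z h1]
  simpa using e 0 1

theorem bq_nn (c : O) : bq O (nn K c) = c := by
  simpa [nO] using bq_eq w (k := nO c) (g := nn K c) (by rw [nn_eq]; simp) (by simp [nO])

end mat

namespace Ax

variable {A : T.Ax} {p k : ℕ} {H : Type} [Group H] [TopologicalSpace H]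
  {th : H → (G → Mer) → G → Mer} {M : Type} [AddCommGroup M] {a : Representation ℤ G M}
  {g : Representation ℤ H M} {im : ∀ k U, T.Hn (p ^ k) U →+ M}

theorem split_ne {n : ℕ} [Finite (T.Hn n U)] (hA : A.Ok) {B : AddSubgroup (T.Hn n U)}
    (h : ∀ᶠ i in A.F, ∀ hi : U ∈ (A.w i).L0, ∀ b ∈ B, T.hN n (Lc.L0.cor _ hi) b ∈ B)
    {b : T.Hn n U} (hb : b ∈ B) : ∃ y ∈ B, y ∈ A.Ne n U ∧ b - y ∈ Ei A (ZMod n) (ZMod n) U := by
  obtain ⟨s, h0, h1⟩ := A.Ne_eq n U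
  have m := Filter.inter_mem h0 h
  obtain ⟨y, h2, h3⟩ := split (tc_comm hA) (s ∩ {i | ∀ hi : U ∈ (A.w i).L0, ∀ b ∈ B,
    T.hN n (Lc.L0.cor _ hi) b ∈ B}) (V₀ := B) (W := B ⊓ (A.Ne n U).toAddSubgroup)
    (fun i hi x hx => by
      have st : ∀ x ∈ B, tc A (ZMod n) (ZMod n) U i x ∈ B := fun x hx => by
        by_cases e : U ∈ (A.w i).L0
        · rw [tc_eq e]
          exact sub_mem (hi.2 e _ (hi.2 e _ hx)) (nsmul_mem hx _)
        · rw [tc_ne e]
          exact zero_mem _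
      obtain ⟨N, n0, n1, -⟩ := ex_N (tc A (ZMod n) (ZMod n) U i)
      refine ⟨st x hx, N, fun l => ⟨?_, (h1 _ m Set.inter_subset_left).le ?_⟩⟩
      · generalize N + l = l'
        induction l' with
        | zero => exact hx
        | succ l' ih => rw [pow_succ', Module.End.mul_apply]; exact st _ ih
      · rw [Ns_eq]
        exact (le_iSup₂_of_le i hi le_rfl : Fit (tc A (ZMod n) (ZMod n) U i) ≤ _)
          ((Fit_eq n0 n1).ge ⟨_, by rw [pow_add, Module.End.mul_apply]⟩)) hb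
  exact ⟨y, h2.1, h2.2, Filter.mem_of_superset m h3⟩

variable (K : A.Kk p th a g im) (hU : U ∈ T.Nl)
include K hU

theorem Kk.fin (k : ℕ) : Finite (T.Hn (p ^ k) U) :=
  have : NeZero p := ⟨K.hp.ne_zero⟩
  K.ok.finHn hU.1 (p ^ k)

theorem Kk.fv (b : T.Hn (p ^ k) U) : im k U b ∈ Fv a U := by
  obtain ⟨b', m, e⟩ := K.lk.prj U hU k b
  exact e ▸ ((K.lk.bij U hU k).mapsTo m).1

/-- the link kills the Eisenstein classes -/
theorem Kk.ei {x : T.Hn (p ^ k) U} (h : x ∈ Ei A (ZMod (p ^ k)) (ZMod (p ^ k)) U) :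
    im k U x = 0 := by
  have := K.fin hU k
  obtain ⟨b, m, e⟩ := K.lk.prj U hU k x
  obtain ⟨y, h1, h2, h3⟩ := split_ne K.ax (B := (im k U).ker) (.of_forall fun i hi c hc => by
    have e1 := K.lk.cor U hU U hU _ (Lc.L0.cor _ hi) k
    rw [AddMonoidHom.mem_ker, e1, show im k U c = im k U 0 from hc.trans (map_zero _).symm, ← e1,
      map_zero, map_zero]) (b := x - b) (by rw [AddMonoidHom.mem_ker, map_sub, e, sub_self])
  rw [(K.lk.bij U hU k).injOn h2 (zero_mem _) (h1.trans (map_zero _).symm), sub_zero] at h3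
  rw [← e, ne_ei K.ax m (by simpa using sub_mem h h3), map_zero]

/-- **PRJ** -/
theorem Kk.prj {B : AddSubgroup (T.Hn (p ^ k) U)}
    (h : ∀ᶠ i in A.F, ∀ hi : U ∈ (A.w i).L0, ∀ b ∈ B, T.hN (p ^ k) (Lc.L0.cor _ hi) b ∈ B)
    {b : T.Hn (p ^ k) U} (hb : b ∈ B) :
    ∃ b' ∈ B, b' ∈ A.Ne (p ^ k) U ∧ im k U b' = im k U b := by
  have := K.fin hU k
  obtain ⟨y, h1, h2, h3⟩ := split_ne K.ax h hb
  exact ⟨y, h1, h2, (sub_eq_zero.1 ((map_sub _ _ _).symm.trans (K.ei hU h3))).symm⟩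

/-- **PRJ** for functions -/
theorem Kk.prf {P : (G → Mer) → Prop}
    (pw : ∀ u ∈ T.RU U, (∀ x, u x ≠ 0) → P (u ^ p ^ k))
    (mul : ∀ φ ∈ T.RU U, ∀ ψ ∈ T.RU U, (∀ x, φ x ≠ 0) → (∀ x, ψ x ≠ 0) → P φ → P ψ → P (φ * ψ))
    (hec : ∀ᶠ i in A.F, U ∈ (A.w i).L0 → ∀ φ ∈ T.RU U, (∀ x, φ x ≠ 0) → P φ →
      P (Sh.hp ((A.w i).To U) U φ))
    {φ ψ : G → Mer} {v : M} (e : Ke (T := T) im U k ψ v) (hP : P ψ) (d : A.Kd im U k φ v) :
    P φ := by
  have n0 := K.pos k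
  obtain ⟨-, z, h, rfl, e, rfl⟩ := e
  let B₀ : AddSubmonoid (T.Hn (p ^ k) U) :=
    { carrier := {b | ∃ z h, Submodule.Quotient.mk z = b ∧ T.Kum (p ^ k) U h z.1 ∧ P (h ^ p ^ k)}
      zero_mem' := ⟨0, 1, rfl, kum_RU (one_mem _) fun _ => one_ne_zero,
        pw 1 (one_mem _) fun _ => one_ne_zero⟩
      add_mem' := by
        rintro _ _ ⟨z, h, rfl, e, q⟩ ⟨z', h', rfl, e', q'⟩
        exact ⟨z + z', h * h', rfl, e.mul n0 e', by
          rw [mul_pow]
          exact mul _ (e.pow_mem n0) _ (e'.pow_mem n0) e.pow_ne e'.pow_ne q q'⟩ }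
  let B : AddSubgroup (T.Hn (p ^ k) U) :=
    { B₀ with
      neg_mem' := fun {b} hb => by
        have : -b = (p ^ k - 1) • b := neg_eq_of_add_eq_zero_left (by
          rw [← succ_nsmul, Nat.sub_add_cancel n0, ← Nat.cast_smul_eq_nsmul (ZMod (p ^ k)),
            ZMod.natCast_self, zero_smul])
        exact this ▸ B₀.nsmul_mem hb _ }
  obtain ⟨_, ⟨z', h', rfl, e', q⟩, m, e1⟩ := K.prj hU (B := B) (hec.mono fun i st hi => by
    rintro _ ⟨z, h, rfl, e, q⟩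
    have c := Lc.L0.cor _ hi
    refine ⟨T.hZ _ c z, _, rfl, e.hp n0 c, ?_⟩
    have := st hi _ (e.pow_mem n0) e.pow_ne q
    rw [hp_eq c] at this ⊢
    rw [← Finset.prod_pow]
    exact this) (b := Submodule.Quotient.mk z) ⟨z, h, rfl, e, hP⟩
  obtain ⟨u, hu, rfl⟩ := d.uniq K ⟨hU, z', h', m, e1, e', rfl⟩
  have u0 : ∀ x, u x ≠ 0 := fun x e => d.ne x (by
    rw [Pi.mul_apply, Pi.pow_apply u, e, zero_pow n0.ne', mul_zero])
  exact mul _ (e'.pow_mem n0) _ (pow_mem hu _) e'.pow_ne (fun x => pow_ne_zero _ (u0 x)) q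
    (pw u hu u0)

/-- classes that die in a smaller level -/
theorem Kk.res (hU' : U' ∈ T.Nl) (le : U' ≤ U)
    {z : T.Z1 (Representation.trivial (ZMod (p ^ k)) G0 (ZMod (p ^ k))) U}
    (hz : z.1 ∈ T.B1 (Representation.trivial (ZMod (p ^ k)) G0 (ZMod (p ^ k))) U') :
    im k U (Submodule.Quotient.mk z) = 0 := by
  have c := cor_one (le.trans (cj_one U).ge)
  have e := (K.lk.cor U hU U' hU' _ c k (Submodule.Quotient.mk z)).trans (hv_one (K.fv hU _) 1)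
  rw [map_one, Module.End.one_apply] at e
  rw [← e, show T.hN (p ^ k) c (Submodule.Quotient.mk z) = Submodule.Quotient.mk 0 from
    mk_eq_mk.2 (by
      rwa [show (T.hZ _ c z).1 - (0 : T.Z1 _ U').1 = z.1 from funext fun γ => funext fun x =>
        (sub_zero _).trans ((congrFun (hk_one 1 (z.2.1 γ)) x).trans (congrArg _ (mul_one x)))])]
  exact map_zero _

open FI.X1 FI.Lv in
/-- **BET** -/
theorem Kk.bet (hT : T.Ok) {O L : Type} [CommRing O] [IsDomain O] [IsDiscreteValuationRing O]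
    [Field L] [Algebra O L] {w : T.Lc O L} (h1 : w.At (Iw1 O L) U) (t : O →+ ZMod (p ^ k))
    (ht : ∀ c ∈ maximalIdeal O, t c = 0) :
    ∃ y ∈ T.RU (w.set (Km O L 1) U), (∀ x, y x ≠ 0) ∧ y ^ p ^ k ∈ T.RU U ∧
      (∀ u ∈ U, ∀ x, y (x * u) = eM (p ^ k) (t (bq O (w.π u))) * y x) ∧
      (∀ c x, y (x * w.ι (nn L c)) = eM (p ^ k) (t c) * y x) ∧
      ∀ j : G → ℕ, (∀ x x', T.Rel U x x' → j x = j x') →
        Ke (T := T) im U k (fun x => (y ^ p ^ k) x ^ j x) 0 := by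
  have n0 := K.pos k
  obtain ⟨s, h, hs, e⟩ := ex_bet hT hU.1 n0 (b := fun u => t (bq O (w.π u)))
    (fun u hu u' hu' => by
      rw [← map_add, ← sub_eq_zero, ← map_sub, map_mul]
      exact ht _ (bq_mul w (h1.2 u hu) (h1.2 u' hu')))
    fun z hz => ht _ (bq_Km w (Subgroup.mem_sup_right (w.cen' z hz)))
  have le : w.set (Km O L 1) U ≤ U :=
    (set_mono hU.1 Km_le_Iw1).trans (set_le hU.1 hU.1 h1 le_rfl)
  have i : Inv (w.set (Km O L 1) U) s := fun x u hu => by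
    rw [hs x u (le hu), ht _ (bq_Km w ((mem_set hU.1).1 hu).2), add_zero]
  have r : ∀ u ∈ U, ∀ x, h (x * u) * eM (p ^ k) (s (x * u)) =
      eM (p ^ k) (t (bq O (w.π u))) * (h x * eM (p ^ k) (s x)) := fun u hu x => by
    rw [e.2.1 x u hu, hs x u hu, eM_add n0]
    ring
  have q : ∀ x, (h x * eM (p ^ k) (s x)) ^ p ^ k = h x ^ p ^ k := fun x => by
    rw [mul_pow, eM_pow n0, mul_one]
  refine ⟨fun x => h x * eM (p ^ k) (s x), mem_RU.2 ⟨fun x u hu => ?_, fun γ x => ?_⟩,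
    fun x => mul_ne_zero (e.1 x) (eM_ne _), ?_, r, fun c x => ?_, fun j hj => ?_⟩
  · beta_reduce
    rw [e.2.1 x u (le hu), i x u hu]
  · rw [map_mul, e.eq, act_eM, mul_right_comm, ← eM_add n0, sub_add_cancel, mul_comm]
  · convert e.pow_mem n0 using 1
    exact funext q
  · have := r _ (h1.1 _ (nn_Iw1 c)) x
    rwa [w.πι, bq_nn w] at this
  · have e' := e.powc n0 hj
    refine ⟨hU, ⟨_, e'.mem hT hU.1 n0⟩, _, K.res hU ⟨w.lev U hU.1 1, hU.2.mono le⟩ le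
      (mem_B1.2 ⟨fun x => -(j x • s x), fun x u hu => ?_, fun γ x => ?_⟩), e', funext fun x => ?_⟩
    · beta_reduce
      rw [i x u hu, ← hj _ _ (rel_right x (le hu))]
    · show j x • _ = -_ - -_
      rw [← hj _ _ (rel_left γ x), smul_sub]
      abel
    · rw [Pi.pow_apply, Pi.pow_apply, q, ← pow_mul, ← pow_mul, mul_comm]

end Ax

end Tw

end Vale.Agent.P022K.Sh
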