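import Vale.Agent.P022K.WB.Wk
import Vale.Agent.P022K.F0.Galh
import Vale.Agent.P022K.F0.Cf.Rows

/-!
# P022K, block WB, row NV: Kummer functions of arbitrary classes
-/

set_option autoImplicit false
set_option linter.all false

noncomputable section

namespace Vale.Agent.P022K.Sh.Tw.Ax

open Vale.Agent.P022 Vale.Agent.P022.H218.L3

variable {G0 G : Type} [Group G0] [Group G] {T : Tw G0 G} {U U' : Subgroup G} {A : T.Ax} {p : ℕ}
  {H : Type} [Group H] [TopologicalSpace H] {th : H → (G → Mer) → G → Mer}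
  {M : Type} [AddCommGroup M] {a : Representation ℤ G M} {g : Representation ℤ H M}
  {im : ∀ k U, T.Hn (p ^ k) U →+ M}

variable (im) in
/-- `φ` is a Kummer function of a class with image `v` -/
def Ke (U : Subgroup G) (k : ℕ) (φ : G → Mer) (v : M) : Prop :=
  U ∈ T.Nl ∧ ∃ (z : T.Z1 (Representation.trivial (ZMod (p ^ k)) G0 (ZMod (p ^ k))) U)
    (h : G → Mer), im k U (Submodule.Quotient.mk z) = v ∧ T.Kum (p ^ k) U h z.1 ∧ h ^ p ^ k = φ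

variable {k : ℕ} {φ ψ : G → Mer} {v v' : M}

theorem Kd.ke (d : A.Kd im U k φ v) : Ke im U k φ v :=
  d.2.elim fun z ⟨h, e⟩ => ⟨d.1, z, h, e.2⟩

theorem Ke.ne (d : Ke im U k φ v) (x : G) : φ x ≠ 0 := by
  obtain ⟨-, z, h, -, e, rfl⟩ := d
  exact e.pow_ne x

theorem Ke.root (d : Ke im U k φ v) : ∃ h : G → Mer, (∀ x, h x ≠ 0) ∧ φ = h ^ p ^ k := by
  obtain ⟨-, z, h, -, e, rfl⟩ := d
  exact ⟨h, e.1, rfl⟩

theorem Ke.one (hU : U ∈ T.Nl) (k : ℕ) : Ke im U k 1 0 :=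
  ⟨hU, 0, 1, map_zero _, kum_RU (one_mem _) fun _ => one_ne_zero, one_pow _⟩

variable (K : A.Kk p th a g im)
include K

theorem Ke.mem (d : Ke im U k φ v) : φ ∈ T.RU U := by
  obtain ⟨-, z, h, -, e, rfl⟩ := d
  exact e.pow_mem (K.pos k)

theorem Ke.fv (d : Ke im U k φ v) : v ∈ Fv a U ∧ p ^ k • v = 0 := by
  obtain ⟨hU, z, h, rfl, -⟩ := d
  obtain ⟨b, m, e⟩ := K.lk.prj U hU k (Submodule.Quotient.mk z)
  exact e ▸ (K.lk.bij U hU k).mapsTo m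

theorem Ke.cor (d : Ke im U k φ v) (hU' : U' ∈ T.Nl) {Q : Set G} (c : Cor U' Q U) :
    Ke im U' k (hp Q U φ) (hv a Q U v) := by
  obtain ⟨hU, z, h, rfl, e, rfl⟩ := d
  refine ⟨hU', T.hZ _ c z, hp Q U h, K.lk.cor U hU U' hU' _ c k (Submodule.Quotient.mk z),
    e.hp (K.pos k) c, ?_⟩
  rw [hp_eq c, hp_eq c, ← Finset.prod_pow]
  rfl

theorem Ke.rt' (d : Ke im U k φ v) (hU' : U' ∈ T.Nl) {x : G} (le : U' ≤ cj x U) :
    Ke im U' k (rt x φ) (a x v) := by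
  have f := (d.fv K).1
  obtain ⟨hU, z, h, rfl, e, rfl⟩ := d
  refine ⟨hU', T.hZ _ (cor_one le) z, rt x h,
    (K.lk.cor U hU U' hU' _ (cor_one le) k _).trans (hv_one f x), ?_, rfl⟩
  have := (e.rt x).mono le
  rwa [show (fun γ => rt x (z.1 γ)) = (T.hZ _ (cor_one le) z).1 from
    funext fun γ => (hk_one x (z.2.1 γ)).symm] at this

theorem Ke.mono (d : Ke im U k φ v) (hU' : U' ∈ T.Nl) (le : U' ≤ U) : Ke im U' k φ v := by
  have := d.rt' K hU' (x := 1) (le.trans (cj_one U).ge)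
  rwa [map_one, show Sh.rt 1 φ = φ from funext fun x => congrArg φ (mul_one x)] at this

theorem Ke.mul (d : Ke im U k φ v) (d' : Ke im U k ψ v') : Ke im U k (φ * ψ) (v + v') := by
  obtain ⟨hU, z, h, rfl, e, rfl⟩ := d
  obtain ⟨-, z', h', rfl, e', rfl⟩ := d'
  exact ⟨hU, z + z', h * h', by rw [Submodule.Quotient.mk_add, map_add],
    e.mul (K.pos k) e', mul_pow _ _ _⟩

theorem Ke.pow (d : Ke im U k φ v) (n : ℕ) : Ke im U k (φ ^ n) (n • v) := by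
  induction n with
  | zero => rw [pow_zero, zero_nsmul]; exact Ke.one d.1 k
  | succ n ih => rw [pow_succ, succ_nsmul]; exact ih.mul K d

theorem Ke.eq (d : Ke im U k φ v) (d' : Ke im U k ψ v') {u : G → Mer} (hu : u ∈ T.RU U)
    (e : φ = ψ * u ^ p ^ k) : v = v' := by
  obtain ⟨hU, z, h, rfl, e1, rfl⟩ := d
  obtain ⟨-, z', h', rfl, e2, rfl⟩ := d'
  exact congrArg _ (mk_eq_mk.2 ((e1.cob (K.pos k) e2).2 ⟨u, hu, e⟩))

/-- Kummer functions exist at all neat levels -/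
theorem Kk.kd (ok : T.Ok) (hU : U ∈ T.Nl) (hv : v ∈ Fv a U) (hk : p ^ k • v = 0) :
    ∃ φ, A.Kd im U k φ v := by
  obtain ⟨b, hb, rfl⟩ := (K.lk.bij U hU k).surjOn ⟨hv, hk⟩
  obtain ⟨z, rfl⟩ := Submodule.Quotient.mk_surjective _ b
  obtain ⟨h, e⟩ := ex_kum ok T.poi hU.1 (K.pos k) z.2
  exact ⟨_, hU, z, h, hb, rfl, e, rfl⟩

/-- the Galois action -/
theorem Ke.gal (ok : T.Ok) (d : Ke im U k φ v) {σ : ℂ ≃+* ℂ} {θ : (G → Mer) → G → Mer}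
    (s : T.Sl σ θ) {t : H}
    (ht : ∀ b b', T.Ga θ (p ^ k) U b b' → T.Ga (th t) (p ^ k) U b b') :
    Ke im U k (θ φ) (g t v) := by
  obtain ⟨hU, z, h, rfl, e, rfl⟩ := d
  have : NeZero (p ^ k) := ⟨(K.pos k).ne'⟩
  obtain ⟨b', r⟩ := ex_isGal s hU.1 (K.pos k) ok T.cf T.poi hU.2
    (Submodule.Quotient.mk z : T.Hn (p ^ k) U)
  have e1 := K.lk.gal U hU k t _ _ (ht _ _ r)
  obtain ⟨y, z', e0, rfl, r⟩ := r
  obtain ⟨u, u', l, l', r⟩ := r (AddMonoidHom.id _)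
  obtain ⟨ψ, hψ, e2⟩ := (e.cob (K.pos k) l).1 (mk_eq_mk.1 e0.symm)
  have ψ0 : ∀ x, ψ x ≠ 0 := fun x e3 => e.pow_ne x (by
    rw [e2, Pi.mul_apply, Pi.pow_apply ψ, e3, zero_pow (K.pos k).ne', mul_zero])
  refine ⟨hU, z', u' * θ ψ, e1, l'.mul_RU (K.pos k) (s.mem U hU.1 ψ hψ) (s.em.ne hU.1 hψ ψ0), ?_⟩
  rw [e2, s.mul U hU.1 _ (l.pow_mem (K.pos k)) _ (pow_mem hψ _), r, s.em.pow hU.1 hψ, mul_pow]

end Vale.Agent.P022K.Sh.Tw.Ax
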