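import Vale.Agent.P022K.WB.NvF
import Vale.Agent.P022K.WB.NvK
import Vale.Agent.P022K.WB.Nv5
import Vale.Agent.P022K.FI.X1W
import Vale.Agent.P022K.QT.Ccy0

/-!
# P022K, block WB, row NV: from the function level rows to the identities in the module
-/

set_option autoImplicit false
set_option linter.all false

open IsLocalRing
open scoped MatrixGroups

noncomputable section

namespace Vale.Agent.P022K.Sh.Tw.Ax

open Vale.Agent.P022 Vale.Agent.P022.H218.L3 Fre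

variable {G0 G : Type} [Group G0] [Group G] {T : Tw G0 G} {U U' : Subgroup G} {A : T.Ax} {p : ℕ}
  {H : Type} [Group H] [TopologicalSpace H] {th : H → (G → Mer) → G → Mer}
  {M : Type} [AddCommGroup M] {a : Representation ℤ G M} {g : Representation ℤ H M}
  {im : ∀ k U, T.Hn (p ^ k) U →+ M} {k : ℕ} {φ : G → Mer} {v : M} {Q : Set G}

theorem Ne_cor (hA : A.Ok) (hU : U ∈ T.Lev) (hU' : U' ∈ T.Lev) (c : Cor U' Q U) {n : ℕ}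
    {b : T.Hn n U} (hb : b ∈ A.Ne n U) : T.hN n c b ∈ A.Ne n U' := by
  refine (Submodule.mem_iInf _).2 fun s => (Submodule.mem_iInf _).2 fun hs => ?_
  have h1 := Ne_le (Filter.inter_mem hs (Cy.tc_hC (Λ := ZMod n) (B := ZMod n) hA hU hU' c)) hb
  change _ ∈ A.Ns n U' s
  rw [Cy.Ns_eq] at h1 ⊢
  refine Submodule.mem_comap.1 ((iSup₂_le fun i hi x hx => ?_ : _ ≤ Submodule.comap (T.hN n c) _) h1)
  refine (le_iSup₂_of_le i hi.1 le_rfl : Fit _ ≤ _) ((Submodule.mem_iInf _).2 fun m => ?_)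
  obtain ⟨y, rfl⟩ := (Submodule.mem_iInf _).1 hx m
  exact ⟨T.hN n c y, (pow_comm hi.2 m y).symm⟩

theorem Kd.one (hU : U ∈ T.Nl) (k : ℕ) : A.Kd im U k 1 0 :=
  ⟨hU, 0, 1, zero_mem _, map_zero _, kum_RU (one_mem _) fun _ => one_ne_zero, one_pow _⟩

variable (K : A.Kk p th a g im)
include K

theorem Kd.cor (d : A.Kd im U k φ v) (hU' : U' ∈ T.Nl) (c : Cor U' Q U) :
    A.Kd im U' k (hp Q U φ) (hv a Q U v) := by
  obtain ⟨hU, z, h, m, rfl, e, rfl⟩ := d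
  refine ⟨hU', T.hZ _ c z, hp Q U h, Ne_cor K.ax hU.1 hU'.1 c m,
    K.lk.cor U hU U' hU' _ c k (Submodule.Quotient.mk z), e.hp (K.pos k) c, ?_⟩
  rw [hp_eq c, hp_eq c, ← Finset.prod_pow]
  rfl

theorem Kd.gal (ok : T.Ok) (d : A.Kd im U k φ v) {σ : ℂ ≃+* ℂ} {θ : (G → Mer) → G → Mer}
    (s : T.Sl σ θ) {t : H}
    (ht : ∀ b b', T.Ga θ (p ^ k) U b b' → T.Ga (th t) (p ^ k) U b b') :
    A.Kd im U k (θ φ) (g t v) := by
  obtain ⟨hU, z, h, m, rfl, e, rfl⟩ := d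
  have : NeZero p := ⟨K.hp.ne_zero⟩
  have := K.ok.finHn hU.1 (p ^ k)
  have ex := ex_isGal (Λ := ZMod (p ^ k)) (B := ZMod (p ^ k)) s hU.1 (K.pos k) ok T.cf T.poi hU.2
  obtain ⟨b', r⟩ := ex (Submodule.Quotient.mk z)
  have e1 := K.lk.gal U hU k t _ _ (ht _ _ r)
  have m' := K.gc.ne hU (fun c _ => (ex c).imp fun _ => ht _ _) (ht _ _ r) m
  obtain ⟨y, z', e0, rfl, r⟩ := r
  obtain ⟨u, u', l, l', r⟩ := r (AddMonoidHom.id _)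
  obtain ⟨ψ, hψ, e2⟩ := (e.cob (K.pos k) l).1 (mk_eq_mk.1 e0.symm)
  have ψ0 : ∀ x, ψ x ≠ 0 := fun x e3 => e.pow_ne x (by
    rw [e2, Pi.mul_apply, Pi.pow_apply ψ, e3, zero_pow (K.pos k).ne', mul_zero])
  refine ⟨hU, z', u' * θ ψ, m', e1, l'.mul_RU (K.pos k) (s.mem U hU.1 ψ hψ) (s.em.ne hU.1 hψ ψ0),
    ?_⟩
  rw [e2, s.mul U hU.1 _ (l.pow_mem (K.pos k)) _ (pow_mem hψ _), r, s.em.pow hU.1 hψ, mul_pow]

end Vale.Agent.P022K.Sh.Tw.Ax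

namespace Vale.Agent.P022K.WB.Nv

open Vale.Agent.P022K.Sh Vale.Agent.P022.H218.L3 Vale.Agent.P019P P025H746 FI FI.Hk FI.X1

variable {p : ℕ} [hp : Fact p.Prime]

theorem qq_p : qq ℤ_[p] = p :=
  (Nat.card_congr PadicInt.residueField.toEquiv).trans (Nat.card_zmod p)

theorem nlt {b : ℤ_[p]} (h : b ∈ maximalIdeal ℤ_[p]) : ‖algebraMap ℤ_[p] ℚ_[p] b‖ < 1 :=
  PadicInt.mem_nonunits.1 h

theorem Iw1_sup : Iw1 ℤ_[p] ℚ_[p] ≤ I1 p ⊔ Zl ℚ_[p] := fun _ h => by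
  obtain ⟨k, h1, h2, rfl⟩ := Iw1_ex h
  obtain ⟨-, ⟨d, hd⟩⟩ := diag_unit h1
  let c : ℚ_[p]ˣ := Units.map (algebraMap ℤ_[p] ℚ_[p]).toMonoidHom d⁻¹
  have e : ∀ i j, (gK ℚ_[p] k * d2 c c) i j = algebraMap ℤ_[p] ℚ_[p] (k i j * (d⁻¹ : ℤ_[p]ˣ)) :=
    fun i j => by
      rw [map_mul (algebraMap ℤ_[p] ℚ_[p]), show algebraMap ℤ_[p] ℚ_[p] (d⁻¹ : ℤ_[p]ˣ) = c from rfl]
      fin_cases j <;> simp [d2_val, Matrix.mul_apply, Fin.sum_univ_two]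
  have e1 : k 1 1 * (d⁻¹ : ℤ_[p]ˣ) = 1 := by rw [← hd, Units.mul_inv]
  refine (Subgroup.mul_mem_cancel_right _ (Subgroup.mem_sup_right (mem_Zl.2 ⟨c, rfl⟩))).1
    (Subgroup.mem_sup_left (mem_I1.2 ⟨?_, ?_, ?_, ?_⟩)) <;> rw [e]
  · rw [← map_one (algebraMap ℤ_[p] ℚ_[p]), ← map_sub, ← e1, ← sub_mul]
    exact nlt (Ideal.mul_mem_right _ _ h2)
  · exact PadicInt.norm_le_one _
  · exact nlt (Ideal.mul_mem_right _ _ h1)
  · simp [e1]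

theorem Iw1_lt {g : GL (Fin 2) ℚ_[p]} (h : g ∈ Iw1 ℤ_[p] ℚ_[p] ⊔ Zl ℚ_[p]) : ‖g 1 0‖ < ‖g 1 1‖ := by
  obtain ⟨a, ha, h1⟩ := Gn.mem_sup_zl.1 (sup_le Iw1_sup le_sup_right h)
  obtain ⟨c, hc⟩ := mem_Zl.1 h1
  rw [inv_mul_eq_iff_eq_mul.1 hc]
  simpa [d2_val, Matrix.mul_apply, Fin.sum_univ_two, norm_of_near ha.2.2.2] using ha.2.2.1

theorem two_unit {b : ℤ_[2]} (h : IsUnit b) : b - 1 ∈ maximalIdeal ℤ_[2] := by
  rw [PadicInt.maximalIdeal_eq_span_p, Ideal.mem_span_singleton]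
  exact (two_dvd b).resolve_left fun e =>
    (PadicInt.irreducible_p (p := 2)).not_isUnit (isUnit_of_dvd_unit e h)

theorem Iw_two : Iw0 ℤ_[2] ℚ_[2] ≤ Iw1 ℤ_[2] ℚ_[2] := fun _ h => by
  obtain ⟨k, h1, rfl⟩ := Iw0_ex h
  exact gK_Iw1 h1 (by simpa using sub_mem (two_unit (diag_unit h1).1) (two_unit (diag_unit h1).2))

theorem dd_two (a d : ℤ_[2]ˣ) : dd (Units.map (algebraMap ℤ_[2] ℚ_[2]).toMonoidHom a)
    (Units.map (algebraMap ℤ_[2] ℚ_[2]).toMonoidHom d) ∈ I1 2 :=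
  mem_I1.2 ⟨by simpa using nlt (two_unit a.isUnit), by simp, by simp,
    by simpa using nlt (two_unit d.isUnit)⟩

theorem dO_neg : dO ℚ_[p] (-1 : ℤ_[p]ˣ) = dd (-1) 1 := G2_ext (by simp [dO_val])

variable {G0 G : Type} [Group G0] [Group G] {T : Tw G0 G} {w : T.Lc ℤ_[p] ℚ_[p]} {D : Emb w p}
  {U : Subgroup G}

theorem pi_eq (w : T.Lc ℤ_[p] ℚ_[p]) : ∃ u : ℤ_[p]ˣ, (w.ϖ : ℚ_[p]) = p * algebraMap ℤ_[p] ℚ_[p] u := by
  obtain ⟨q, h1, h2⟩ := w.irr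
  obtain ⟨u, rfl⟩ := IsDiscreteValuationRing.associated_of_irreducible _
    (PadicInt.irreducible_p (p := p)) h1
  exact ⟨u, by rw [← h2, map_mul, map_natCast]⟩

/-- the tame character of an automorphism which inverts `ζ` -/
theorem tc_neg {ζ : Cx D.ι} (hz : PZ p ζ) {σ : ℂ ≃+* ℂ} (e : σ ζ = (ζ ^ (p - 1) : Cx D.ι)) :
    Nv.Tc D σ (-1) := by
  obtain ⟨u, hu⟩ := pi_eq w
  refine ⟨(ζ - 1 : Cx D.ι), ?_, ?_⟩
  · rw [qq_p, hu, map_mul, map_mul, norm_mul, nrm_unit u.isUnit, mul_one, map_natCast]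
    exact hz.pow_eq
  · have e1 : ζ ^ (p - 1) * ζ = 1 := by rw [pow_sub_one_mul hp.out.ne_zero, hz.prim.pow_eq_one]
    have e2 : au D.ι σ (ζ - 1) = ζ ^ (p - 1) - 1 := by rw [map_sub, map_one]; exact congrArg (· - 1) e
    have e3 : ζ - 1 - -1 * au D.ι σ (ζ - 1) = ζ ^ (p - 1) * ((ζ - 1) * (ζ - 1)) := by
      rw [e2]
      linear_combination (2 - ζ) * e1
    rw [Units.val_neg, Units.val_one, map_neg, map_one, map_neg, map_one]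
    change ‖ζ - 1 - -1 * au D.ι σ (ζ - 1)‖ < ‖ζ - 1‖
    rw [e3, norm_mul, norm_mul, norm_pow, hz.norm_one, one_pow, one_mul]
    exact mul_lt_of_lt_one_left hz.pos hz.lt_one

variable [∀ x, CFF ℂ (KX T U x)] (h : Ctx D U) (ζ : Cx D.ι) (A : T.Ax)
  {H : Type} [Group H] [TopologicalSpace H] (th : H → (G → Mer) → G → Mer)
  {M : Type} [AddCommGroup M] {a : Representation ℤ G M} {g : Representation ℤ H M}
  (im : ∀ k U, T.Hn (p ^ k) U →+ M)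

variable (w U) in
/-- `θ` computes the action of `t` -/
def Gt (θ : (G → Mer) → G → Mer) (t : H) : Prop :=
  ∀ b b', T.Ga θ (p ^ 1) (U1 w U) b b' → T.Ga (th t) (p ^ 1) (U1 w U) b b'

/-- **the Galois data at a level** -/
structure Cl (χ : H → ℤ_[p]) (In Fr : Set H) : Prop where
  ine : ∀ t ∈ In, ∃ σ θ, ∃ s : T.Sl σ θ, Dec D.ι D.e 1 σ ∧ h.Ine (thU s h.lev) ∧ Gt w U th θ t ∧
    ((p : ℤ_[p]) ∣ χ t + 1 → σ ζ = (ζ ^ (p - 1) : Cx D.ι))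
  neg : ∃ t ∈ In, (p : ℤ_[p]) ∣ χ t + 1
  two : p = 2 → ∀ t, (p : ℤ_[p]) ∣ χ t + 1
  fro : ∃ t ∈ Fr, ∃ σ θ, ∃ s : T.Sl σ θ, Dec D.ι D.e (qq ℤ_[p]) σ ∧ h.Fro (thU s h.lev) ∧
    Gt w U th θ t

/-- **NRX**: the Kummer functions of the vectors in `Kw` are etale -/
def NRX (Kw : Set M) : Prop :=
  ∀ (φ : SR h.ok), ∀ z ∈ Kw, A.Kd im (U1 w U) 1 φ.1 z → NrA h ζ φ

variable {h ζ A th im} {φ φ' : SR h.ok}

theorem lev1N (h : Ctx D U) : U1 w U ∈ T.Nl :=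
  ⟨lev_set h.ok h.lev le_rfl (Iw1_le.trans Iw0_le), Lv.neat_le h.neat (lev_of h (Iw1_le.trans Iw0_le))⟩

theorem SpA.mu (hz : PZ p ζ) (s : SpA h ζ φ) (s' : SpA h ζ φ') : SpA h ζ (φ * φ') := by
  obtain ⟨ψ, a, b⟩ := s
  obtain ⟨ψ', a', b'⟩ := s'
  refine ⟨ψ * ψ', inv_mul a a', fun v x o => ?_⟩
  rw [mul_pow, mul_mul_mul_comm, map_mul]
  exact mul_sub_lt (b v x o) (b' v x o) (eq_one ((b' v x o).trans hz.lt_one')).le

theorem SpA.of_eq (s : SpA h ζ φ') {u : G → Mer} (hu : u ∈ T.RU (U1 w U)) (h0 : ∀ x, φ.1 x ≠ 0)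
    (e : φ.1 = φ'.1 * u ^ p ^ 1) : SpA h ζ φ := by
  obtain ⟨ψ, a, b⟩ := s
  refine ⟨ψ * pinv (mkS h.ok (lev1N h).1 ⟨u, hu⟩), inv_mul a (Tw.RU_inv hu).2, fun v x o => ?_⟩
  refine lt_of_eq_of_lt (congrArg (fun y => v (y - 1)) (Subtype.ext ?_)) (b v x o)
  have u0 : u x ≠ 0 := fun e0 => h0 x (by
    rw [e, Pi.mul_apply, Pi.pow_apply, e0, pow_one, zero_pow hp.out.ne_zero, mul_zero])
  change φ.1 x * (ψ.1 x * (u x)⁻¹) ^ p = φ'.1 x * ψ.1 x ^ p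
  rw [e, Pi.mul_apply, Pi.pow_apply, pow_one, mul_assoc, ← mul_pow, mul_comm (ψ.1 x),
    mul_inv_cancel_left₀ u0]

theorem rep_two {w : T.Lc ℤ_[2] ℚ_[2]} {D : Emb w 2} (h : Ctx D U) : Rep (U : Set G) (U1 w U) Finset.univ
    fun i : Fin 3 => w.ι (![ss ℤ_[2] ℚ_[2], X1.nn ℚ_[2] (1 : ℤ_[2]) * ss ℤ_[2] ℚ_[2], 1] i) := by
  have le := set_mono (w := w) h.lev Iw_two
  refine ⟨fun y hy u hu => U.mul_mem hy (lev_of h (Iw1_le.trans Iw0_le) hu), fun i _ => h.mx.1 _ ?_,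
    fun i _ k _ e => ?_, fun y hy => ?_⟩
  · fin_cases i
    exacts [ss_mem, mul_mem (Iw0_le (Iw1_le (nn_Iw1 1))) ss_mem, one_mem _]
  · have := Iw1_lt ((Lv.mem_set h.lev).1 e).2
    rw [← map_inv, ← map_mul, w.πι] at this
    fin_cases i <;> fin_cases k <;> first | rfl | exfalso
    all_goals
      norm_num [ss_inv, ss_val, X1.nn, ← un_neg, FI.un_val, d2_val, Matrix.mul_apply,
        Fin.sum_univ_two, Matrix.vecMul, dotProduct] at this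
  · rcases lev_bruhat h.lev ((set_eq h.lev h.mx).ge hy) with e | ⟨b, e⟩
    · exact ⟨2, Finset.mem_univ _, by simpa using le e⟩
    have key : ∀ b' : ℤ_[2], ((2 : ℕ) : ℤ_[2]) ∣ b - b' →
        (w.ι (X1.nn ℚ_[2] b' * ss ℤ_[2] ℚ_[2]))⁻¹ * y ∈ U1 w U := fun b' e' => by
      have : (X1.nn ℚ_[2] b' * ss ℤ_[2] ℚ_[2])⁻¹ * (X1.nn ℚ_[2] b * ss ℤ_[2] ℚ_[2]) ∈
          Iw0 ℤ_[2] ℚ_[2] := by
        rw [nn_eq, nn_eq, ss, ← map_mul, ← map_mul, ← map_inv, ← map_mul]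
        refine gK_Iw0 ?_
        rw [PadicInt.maximalIdeal_eq_span_p, Ideal.mem_span_singleton]
        convert e'.neg_right using 1
        simp [nO, sO, Matrix.mul_apply, Fin.sum_univ_two, Matrix.vecMul, dotProduct]
        ring
      simpa [mul_assoc] using le (mul_mem (iota_mem' h.lev this) e)
    rcases two_dvd b with e' | e'
    · exact ⟨0, Finset.mem_univ _, by simpa [X1.nn_zero] using key 0 (by simpa using e')⟩
    · exact ⟨1, Finset.mem_univ _, key 1 e'⟩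

variable (K : A.Kk p th a g im) {χ : H → ℤ_[p]} {In Fr : Set H} {Kw : Set M} {B : Subgroup G}

include K

theorem kp_fv (h : Ctx D U) (hB : U ⊓ w.π.ker ≤ B) {v : M} (hv : v ∈ Kp (a.comp w.ι) (Kw ∩ Fv a B)) :
    v ∈ Fv a (U1 w U) := fun u hu => by
  obtain ⟨h1, h2⟩ := (Lv.mem_set h.lev).1 hu
  obtain ⟨y, h3, h4⟩ := Gn.mem_sup_zl.1 (sup_le Iw1_sup le_sup_right h2)
  rw [← Lv.aw_mul w u, ← mul_inv_cancel_left y (w.π u), map_mul, map_mul, map_mul,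
    K.cc.z _ (w.cen _ h4), mul_one, Module.End.mul_apply, show a (w.ι y) v = v from hv.2.2 y h3]
  exact hv.1.2 _ (hB ⟨h1, Lv.pi_aw w u⟩)

omit K in
theorem le_cj (h : Ctx D U) {y : GL (Fin 2) ℚ_[p]}
    (e : ∀ v ∈ Iw1 ℤ_[p] ℚ_[p], y⁻¹ * v * y ∈ Iw1 ℤ_[p] ℚ_[p]) : U1 w U ≤ cj (w.ι y) (U1 w U) :=
  fun _ hk => mem_cj.2 (set_conj h.lev e hk)

theorem ex_kd {v : M} (h1 : v ∈ Fv a (U1 w U)) (h2 : p • v = 0) :
    ∃ φ : SR h.ok, A.Kd im (U1 w U) 1 φ.1 v := by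
  obtain ⟨φ, d⟩ := K.kd h.ok (lev1N h) h1 (k := 1) (by rwa [pow_one])
  exact ⟨mkS h.ok (lev1N h).1 ⟨φ, d.mem K⟩, d⟩

theorem kq_of {v : M} (d : A.Kd im (U1 w U) 1 φ.1 v) : Kq h φ :=
  ⟨(d.mem K).2, d.ke.root.imp fun _ e => ⟨e.1, by rw [e.2, pow_one]⟩⟩

theorem kd_PP {v : M} (d : A.Kd im (U1 w U) 1 φ.1 v) :
    A.Kd im (U1 w U) 1 (Rt (w.ι (X1.PP w)) φ).1 (a (w.ι (X1.PP w)) v) :=
  d.rt' K d.1 (le_cj h fun _ => PP_Iw1 w)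

theorem eq_of {v v' : M} (d : Tw.Ax.Ke im (U1 w U) 1 φ.1 v) (d' : Tw.Ax.Ke im (U1 w U) 1 φ'.1 v')
    (e : Eq1 h φ φ') : v = v' := by
  obtain ⟨ψ, h1, -, rfl⟩ := e
  exact d.eq K d' (sr_mem ψ h1) (by rw [pow_one]; rfl)

variable (hz : PZ p ζ) (gf : GEOF h ζ) (nrx : NRX h ζ A im Kw) (cl : Cl h ζ th χ In Fr)
  (st : ∀ v ∈ Kw, ∀ y, a (w.ι y) v ∈ Kw) (hB : U ⊓ w.π.ker ≤ B)

include hz gf nrx cl st hB

theorem cls_ine {t : H} (ht : t ∈ In) (h1 : (p : ℤ_[p]) ∣ χ t + 1) {v : M}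
    (hv : v ∈ Kp (a.comp w.ι) (Kw ∩ Fv a B)) : g t v = -a (w.ι (dd (-1) 1)) v := by
  obtain ⟨σ, θ, s, dec, i, gt, e⟩ := cl.ine t ht
  obtain ⟨φ, d⟩ := ex_kd (h := h) K (kp_fv K h hB hv) hv.2.1
  have e1 := eq_of (h := h) K (φ := Rt (w.ι (dO ℚ_[p] (-1))) (Th s φ)) (φ' := φ ^ (p - 1))
    ((d.ke.gal K h.ok s gt).rt' K d.1 (le_cj h fun _ => Iw1_norm (dO_Iw0 _))) (d.ke.pow K _)
    (gf.inf σ θ s (-1) (p - 1) dec i (tc_neg hz (e h1)) (by simp) (e h1) φ (kq_of (h := h) K d)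
      (nrx φ v hv.1.1 d) (nrx _ _ (st v hv.1.1 _) (kd_PP (h := h) K d)))
  have e2 : (p - 1) • v = -v := eq_neg_of_add_eq_zero_left (by
    rw [← succ_nsmul, Nat.sub_add_cancel hp.out.one_le, hv.2.1])
  rw [← map_neg, ← e2, ← e1, dO_neg, ← Module.End.mul_apply, ← map_mul, ← map_mul, ← dd_mul]
  simp

/-- **from the function level rows to the module** -/
theorem geo_cls : Geo (a.comp w.ι) g χ In Fr (Kw ∩ Fv a B) := by
  refine ⟨fun _ => cl.neg.imp fun t ht => ⟨-1, ht.2, fun v hv => ?_⟩, fun p2 t ht v hv => ?_,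
    fun p2 => ?_⟩
  · simpa using cls_ine K hz gf nrx cl st hB ht.1 ht.2 hv
  · rw [cls_ine K hz gf nrx cl st hB ht (cl.two p2 t) hv]
    subst p2
    rw [show a _ v = v from hv.2.2 _ (by simpa using dd_two (-1) 1)]
    exact neg_eq_of_add_eq_zero_left (by rw [← two_nsmul]; exact hv.2.1)
  subst p2
  obtain ⟨t, ht, σ, θ, s, dec, fr, gt⟩ := cl.fro
  obtain ⟨u, hu⟩ := pi_eq w
  have eP : ∀ v ∈ Fx (a.comp w.ι) (I1 2), a (w.ι (X1.PP w)) v = (a.comp w.ι) (PP 2) v := fun v hv => by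
    rw [← congrArg ((a.comp w.ι) (PP 2)) (hv _ (dd_two u (-1))), ← rho_mul]
    exact congrArg (fun y => a (w.ι y) v) (G2_ext (by simp [X1.PP_val, hu]))
  have eS : ∀ v ∈ Fx (a.comp w.ι) (I1 2),
      a (w.ι (ss ℤ_[2] ℚ_[2])) v = (a.comp w.ι) (ww 2) v := fun v hv => by
    rw [← congrArg ((a.comp w.ι) (ww 2)) (hv _ (dd_two (-1) 1)), ← rho_mul]
    exact congrArg (fun y => a (w.ι y) v) (G2_ext (by simp [ss_val]))
  let Z : AddSubgroup M :=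
    { carrier := {z | ∃ φ : SR h.ok, A.Kd im (U1 w U) 1 φ.1 z ∧ SpA h ζ φ}
      zero_mem' := ⟨1, Tw.Ax.Kd.one (lev1N h) 1, 1, fun _ _ _ => rfl, fun v x _ => by
        simpa using hz.pos'⟩
      add_mem' := fun ⟨φ, d, e⟩ ⟨φ', d', e'⟩ => ⟨φ * φ', d.mul K d', e.mu hz e'⟩
      neg_mem' := fun {z} ⟨φ, d, e⟩ => ⟨φ, by
        rwa [neg_eq_of_add_eq_zero_left ((two_nsmul z).symm.trans (d.fv K).2)], e⟩ }
  refine ⟨t⁻¹, Or.inr (by rwa [inv_inv]), Z, _, Or.inr (Or.inr (Or.inl rfl)), fun v hv => ?_,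
    fun v hv ⟨φ, d, e⟩ ⟨φ', d', e'⟩ => ?_⟩
  · have f := kp_fv K h hB hv
    obtain ⟨φ', d'⟩ := ex_kd (h := h) K (v := g t⁻¹ v) (fun y hy => by
      rw [← Module.End.mul_apply, (K.cc.com y _).eq, Module.End.mul_apply, f y hy])
      (by rw [← map_nsmul, hv.2.1, map_zero])
    have d : A.Kd im (U1 w U) 1 (Th s φ').1 v := g_inv' g t v ▸ d'.gal K h.ok s gt
    have r := rep_two h
    have d1 := d.cor K d.1 ⟨fun y hy _ hz => U.mul_mem (lev_of h (Iw1_le.trans Iw0_le) hy) hz,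
      r.right, r.fin⟩
    have e1 : Sh.hv a U (U1 w U) v = v + So (a.comp w.ι) v := by
      rw [Sh.hv, r.hk (f := fun x => a x v) fun x y hy => by
        beta_reduce; rw [map_mul, Module.End.mul_apply, f y hy], Fin.sum_univ_three, So_two,
        add_comm, ← eS v hv.2.2]
      simp [X1.nn_one, show FI.un (1 : ℚ_[2]) = WB.nn 1 from G2_ext rfl]
    have e2 : Sh.hp U (U1 w U) (Th s φ').1 = (Rt (w.ι (ss ℤ_[2] ℚ_[2])) (Th s φ') *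
        Rt (w.ι (X1.nn ℚ_[2] (1 : ℤ_[2]) * ss ℤ_[2] ℚ_[2])) (Th s φ') * Th s φ').1 := funext fun x => by
      rw [r.hp (d.mem K).2, Fin.prod_univ_three]
      simp only [Matrix.cons_val, map_one, mul_one]
      rfl
    rw [e1, e2] at d1
    have d2 := kd_PP (h := h) K d1
    rw [eP _ (add_mem hv.2.2 (So_Fx hv.2.2))] at d2
    refine sub_mem_comm_iff.1 ?_
    rw [sub_eq_neg_add, neg_eq_of_add_eq_zero_left ((two_nsmul _).symm.trans (d'.fv K).2)]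
    exact ⟨_, d'.mul K d2, gf.p3 rfl qq_p σ θ s dec fr _ φ' (d.mem K).2 (d'.mem K).2 rfl
      (nrx _ v hv.1.1 d) (nrx _ _ (st v hv.1.1 _) (kd_PP (h := h) K d))⟩
  · have d1 := kd_PP (h := h) K d
    rw [eP v hv.2.2] at d1
    obtain ⟨y, h1, h2⟩ := d1.uniq K d'
    have e1 := eq_of (h := h) K (φ := Th s (Th s φ)) ((d.ke.gal K h.ok s gt).gal K h.ok s gt) d.ke
      (gf.p4 rfl qq_p σ θ s dec fr φ (kq_of (h := h) K d) e (e'.of_eq h1 d1.ne h2))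
    conv_lhs => rw [← e1, g_inv, g_inv]

end Vale.Agent.P022K.WB.Nv
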