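import Vale.Agent.P022K.WB.NvHw

/-!
# P022K, block WB, row NV: covers with Artin-Schreier reductions of nodal curves are nodal and
unramified at the nodes
-/

set_option linter.all false

noncomputable section

open IntermediateField Vale.Agent.P019P P025H746 P025H492 Module

namespace Vale.Agent.P022K.WB.Nv

open Vale.Agent.P027M.I Vale.Agent.P027M.I.DecP Vale.Agent.P027M.I.Cov

variable {C F L : Type} [NontriviallyNormedField C] [IsUltrametricDist C] [IsAlgClosed C]
  [Field F] [Algebra C F] [CFF C F] [Field L] [Algebra C L] [CFF C L] [Algebra F L]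
  [IsScalarTower C F L] [FiniteDimensional F L] [IsGalois F L] (T : F)
  [FiniteDimensional C⟮T⟯ F] [FiniteDimensional C⟮algebraMap F L T⟯ L]

variable (C L) in
/-- the decomposition groups act faithfully on the residue fields -/
def Fth : Prop :=
  ∀ (v : WW C (algebraMap F L T)) (τ : L ≃ₐ[F] L), (∀ y, v.1 (τ y) = v.1 y) →
    (∀ y, v.1 y ≤ 1 → v.1 (τ y - y) < 1) → τ = 1

theorem decW (hr : Fth C L T) (hF : Full C T) : Full C (algebraMap F L T) ∧
      ∀ w : WW C T,
        ∑ᶠ v : {v : NV C L // NVExt w.1 v}, finrank (kap w.1) (kap v.1) = finrank F L ∧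
        ∀ (v : NV C L) [NVExt w.1 v], IsGalois (kap w.1) (kap v) ∧
          finrank (kap w.1) (kap v) = Nat.card (DG F v) ∧ Function.Bijective (rho w.1 v) := by
  classical
  have hval : ∀ w : WW C T, ∀ x : F, ∃ c : C, ‖c‖ = w.1 x := fun w => exists_norm_eq w.2
  have hfin : ∀ w : WW C T, Finite {v : NV C L // NVExt w.1 v} := fun w => finite_ext w.1 (hval w)
  letI : ∀ w : WW C T, Fintype {v : NV C L // NVExt w.1 v} := fun w => Fintype.ofFinite _
  have inj : ∀ (w : WW C T) (v : NV C L) [NVExt w.1 v], Function.Injective (rho w.1 v) := by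
    intro w v _
    rw [injective_iff_map_eq_one]
    intro g hg
    refine Subtype.ext (hr ⟨v, NVExt.overG.2 w.2⟩ g.1 g.2 fun y hy => ?_)
    refine (red_eq_iff (w := v) ((g.2 y).trans_le hy) hy).1 ?_
    rw [← rho_red w.1 v g y, hg, AlgEquiv.one_apply]
  have le1 : ∀ (w : WW C T) (v : NV C L) [NVExt w.1 v],
      Nat.card (DG F v) ≤ Nat.card (kap v ≃ₐ[kap w.1] kap v) ∧
      Nat.card (kap v ≃ₐ[kap w.1] kap v) ≤ finrank (kap w.1) (kap v) := by
    intro w v _
    haveI := finite_resdeg w.1 (hval w) v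
    exact ⟨Nat.card_le_card_of_injective _ (inj w v),
      by rw [Nat.card_eq_fintype_card]; exact AlgEquiv.card_le⟩
  have sm : ∀ w : WW C T,
      ∑ v : {v : NV C L // NVExt w.1 v}, finrank (kap w.1) (kap v.1) = finrank F L := fun w =>
    le_antisymm (sum_resdeg_le w.1 (hval w) (fun v : {v : NV C L // NVExt w.1 v} => v.1)
      Subtype.val_injective) ((sum_card w.1 (hval w)).symm.trans_le
        (Finset.sum_le_sum fun v _ => (le1 w v.1).1.trans (le1 w v.1).2))
  have eq1 : ∀ (w : WW C T) (v : NV C L) [h : NVExt w.1 v],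
      Nat.card (DG F v) = finrank (kap w.1) (kap v) := fun w v h =>
    (Finset.sum_eq_sum_iff_of_le fun (u : {v : NV C L // NVExt w.1 v}) _ =>
      (le1 w u.1).1.trans (le1 w u.1).2).1 ((sum_card w.1 (hval w)).trans (sm w).symm) ⟨v, h⟩
      (Finset.mem_univ _)
  refine ⟨?_, fun w => ⟨by rw [finsum_eq_sum_of_fintype, sm w], fun v _ => ?_⟩⟩
  · unfold Full at hF ⊢
    refine (Fintype.sum_equiv (sg T L).symm _ (fun p => finrank (kC C)⟮p.2.1.red (algebraMap F L T)⟯
      (kap p.2.1)) (fun v => rfl)).trans ?_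
    rw [Fintype.sum_sigma, finrank_up, ← hF, Finset.sum_mul]
    refine Finset.sum_congr rfl fun w _ => ?_
    rw [← sm w, Finset.mul_sum]
    exact Finset.sum_congr rfl fun v _ => (finrank_mul_resdeg w.2.apply_T.le).symm
  · haveI := finite_resdeg w.1 (hval w) v
    have e1 := eq1 w v
    have e2 : Nat.card (kap v ≃ₐ[kap w.1] kap v) = finrank (kap w.1) (kap v) :=
      le_antisymm (le1 w v).2 (e1 ▸ (le1 w v).1)
    exact ⟨IsGalois.of_card_aut_eq_finrank _ _ e2, e1.symm,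
      (inj w v).bijective_of_nat_card_le (e2.trans e1.symm).le⟩

/-- an extension of an automorphism which is trivial on the residue field acts on the residue field
above like an element of the decomposition group -/
theorem exists_tau (hr : Fth C L T) (hF : Full C T) {g : F → F} {G : L ≃+* L}
    (hG : ∀ x, G (algebraMap F L x) = algebraMap F L (g x))
    (ht : ∀ (w : WW C T) y, w.1 y ≤ 1 → w.1 (g y - y) < 1) (v : WW C (algebraMap F L T))
    (hv : ∀ y, v.1 (G y) = v.1 y) : ∃ τ : L ≃ₐ[F] L, (∀ y, v.1 (τ y) = v.1 y) ∧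
      ∀ y, v.1 y ≤ 1 → v.1 (G y - τ y) < 1 := by
  let w : WW C T := ⟨v.1.comap F, v.2.comap⟩
  haveI : NVExt w.1 v.1 := inferInstanceAs (NVExt (v.1.comap F) v.1)
  let a : kap v.1 →ₐ[kap w.1] kap v.1 :=
    { rm (G : L →+* L) hv with
      commutes' := fun a => by
        obtain ⟨x, hx, rfl⟩ := NV.red_surj a
        have h1 := ht w x hx
        have h2 : w.1 (g x) ≤ 1 := le_one_of_sub hx (by rwa [← NV.map_neg', neg_sub])
        rw [← red_algebraMap' hx]
        refine (rm_red (G : L →+* L) hv _).trans ?_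
        change v.1.red (G _) = _
        rw [hG, red_algebraMap' (w := w.1) h2, red_algebraMap' (w := w.1) hx,
          (red_eq_iff h2 hx).2 h1] }
  obtain ⟨τ, hτ⟩ := (((decW T hr hF).2 w).2 v.1).2.2.2 (AlgEquiv.ofBijective a
    ⟨(a : kap v.1 →+* kap v.1).injective,
      rm_surj (G : L →+* L) hv fun y _ => ⟨G.symm y, by simp⟩⟩)
  refine ⟨τ.1, τ.2, fun y hy => (red_eq_iff ((hv y).trans_le hy) ((τ.2 y).trans_le hy)).1 ?_⟩
  rw [← rho_red w.1 v.1 τ y, hτ]
  exact (rm_red (G : L →+* L) hv y).symm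

/-- the defect of the fibres over the nodes -/
def dfc (S : Finset (Br C T)) (w : WW C T) (v : NV C L) [NVExt w.1 v]
    [FiniteDimensional (kap w.1) (kap v)] [CFF (kC C) (kap v)] : ℤ :=
  ∑ x ∈ (fib_card S w).1.toFinset, ((finrank (kap w.1) (kap v) : ℤ) -
    Set.ncard {y : Plk (kC C) (kap v) | down (kap w.1) y = x})

theorem pairW {p : ℕ} (hp : p.Prime) (hk : (p : kC C) = 0) (w : WW C T)
    (v : WW C (algebraMap F L T)) [hx : NVExt w.1 v.1]
    [FiniteDimensional (kap w.1) (kap v.1)] [IsGalois (kap w.1) (kap v.1)]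
    (hn : finrank (kap w.1) (kap v.1) ∣ p) (S : Finset (Br C T))
    (S' : Finset (Br C (algebraMap F L T)))
    (hS' : ∀ b', b' ∈ S' ↔ ∃ b ∈ S, Tw (algebraMap F L) b b') :
    (finrank (kap w.1) (kap v.1) : ℤ) * (2 * gen (kC C) (kap w.1) - 2 + (fib S w).ncard) +
      dfc T S w v.1 ≤ 2 * gen (kC C) (kap v.1) - 2 + (fib S' v).ncard := by
  classical
  have h := rhw (F₀ := kap w.1) (F₁ := kap v.1) hp hk hn (fib_card S w).1.toFinset
  have h2 : ∑ x ∈ (fib_card S w).1.toFinset,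
      Set.ncard {y : Plk (kC C) (kap v.1) | down (kap w.1) y = x} ≤ (fib S' v).ncard := by
    refine sum_fib_le _ (fib_card S' v).1 _ _ fun x hx' y hy => ?_
    obtain ⟨hf, hb⟩ := (Set.Finite.mem_toFinset _).1 hx'
    subst hy
    have hT : v.1.red (algebraMap F L T) ∈ y.1 := by
      rw [red_algebraMap' (w := w.1) (Itg.self (C := C) (T := T) w)]
      exact hf
    refine ⟨hT, (hS' _).2 ⟨_, hb, hx.out, fun z hz => ?_⟩⟩
    change v.1.red (algebraMap F L z) ∈ y.1 ↔ _
    rw [red_algebraMap' (w := w.1) hz]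
    rfl
  have h3 : ((∑ x ∈ (fib_card S w).1.toFinset,
      Set.ncard {y : Plk (kC C) (kap v.1) | down (kap w.1) y = x} : ℕ) : ℤ) ≤
        (fib S' v).ncard := by exact_mod_cast h2
  unfold dfc
  rw [Finset.sum_sub_distrib, Finset.sum_const, ← Set.ncard_eq_toFinset_card _ (fib_card S w).1,
    ← Nat.cast_sum] at h ⊢
  simp only [nsmul_eq_mul] at h ⊢
  linarith

theorem dfc_term (w : WW C T) (v : NV C L) [NVExt w.1 v] [FiniteDimensional (kap w.1) (kap v)]
    [CFF (kC C) (kap v)] (x : Plk (kC C) (kap w.1)) :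
    0 ≤ (finrank (kap w.1) (kap v) : ℤ) -
      Set.ncard {y : Plk (kC C) (kap v) | down (kap w.1) y = x} := by
  have := card_fibre_le (L := kap v) x
  rw [← Set.ncard_eq_toFinset_card _ (over_finite (L := kap v) x)] at this
  omega

/-- unramified Galois covers of nodal curves with decomposition groups of order `1` or `p` acting
faithfully on the residue fields are nodal and split at the nodes -/
theorem covW [CharZero C] {p : ℕ} (hp : p.Prime) (hk : (p : kC C) = 0) (hF : Full C T)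
    {S : Finset (Br C T)} (hS : Nodal C T S) (hU : IsUnr C F L) (hr : Fth C L T)
    (hd : ∀ v : WW C (algebraMap F L T), Nat.card (DG F v.1) ∣ p) :
    Full C (algebraMap F L T) ∧
      ∃ S' : Finset (Br C (algebraMap F L T)), Nodal C (algebraMap F L T) S' ∧
        (∀ b', b' ∈ S' ↔ ∃ b ∈ S, Tw (algebraMap F L) b b') ∧
        ∀ b' ∈ S', ∀ τ : L ≃ₐ[F] L, Tw (τ : L →+* L) b' b' → τ = 1 := by
  classical
  obtain ⟨hL, hw⟩ := decW T hr hF
  obtain ⟨-, hb⟩ := trb C F L T
  have hpos : ∀ v : NV C L, 0 < Nat.card (DG F v) := fun v => Nat.card_pos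
  let S' : Finset (Br C (algebraMap F L T)) := S.biUnion fun b => (hb b).1.toFinset
  have hS' : ∀ b', b' ∈ S' ↔ ∃ b ∈ S, Tw (algebraMap F L) b b' := by
    intro b'
    simp only [S', Finset.mem_biUnion, Set.Finite.mem_toFinset, Set.mem_ofPred_eq]
  have hq : ∀ b' ∈ S', ∃ b'' ∈ S', b'' ≠ b' ∧ Glue b' b'' := by
    intro b' hb'
    obtain ⟨b, hbS, ht⟩ := (hS' b').1 hb'
    obtain ⟨b₂, hb₂, hne, hg⟩ := hS.2 b hbS
    obtain ⟨b'', ht', hg'⟩ := lift' C F L T b b₂ hg b' ht
    refine ⟨b'', (hS' _).2 ⟨b₂, hb₂, ht'⟩, ?_, hg'⟩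
    rintro rfl
    exact hne (ht'.inj_left ht)
  have hh := half' C L _ hL S' hq
  have hfin : Finite (Σ w : WW C T, {v : NV C L // NVExt w.1 v}) :=
    Finite.of_equiv _ (sg T L).symm
  have hfin' : ∀ w : WW C T, Finite {v : NV C L // NVExt w.1 v} := fun w =>
    Finite.of_injective _ (sigma_mk_injective (β := fun w : WW C T =>
      {v : NV C L // NVExt w.1 v}) (i := w))
  let _i : ∀ w : WW C T, Fintype {v : NV C L // NVExt w.1 v} := fun w => Fintype.ofFinite _
  have fd : ∀ (w : WW C T) (v : NV C L) [NVExt w.1 v], FiniteDimensional (kap w.1) (kap v) :=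
    fun w v _ => FiniteDimensional.of_finrank_pos (((hw w).2 v).2.1 ▸ hpos v)
  let e : (Σ w : WW C T, {v : NV C L // NVExt w.1 v}) → ℤ := fun q =>
    haveI : NVExt q.1.1 (sg T L q).1 := q.2.2
    haveI := fd q.1 (sg T L q).1
    dfc T S q.1 (sg T L q).1
  have e0 : ∀ q, 0 ≤ e q := fun q => by
    haveI : NVExt q.1.1 (sg T L q).1 := q.2.2
    haveI := fd q.1 (sg T L q).1
    exact Finset.sum_nonneg fun x _ => dfc_term T q.1 (sg T L q).1 x
  have key : ∀ w : WW C T, (finrank F L : ℤ) * (2 * gen (kC C) (kap w.1) - 2 + (fib S w).ncard) +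
      ∑ v : {v : NV C L // NVExt w.1 v}, e ⟨w, v⟩ ≤ ∑ v : {v : NV C L // NVExt w.1 v},
        ((2 * gen (kC C) (kap (sg T L ⟨w, v⟩).1) - 2 : ℤ) + (fib S' (sg T L ⟨w, v⟩)).ncard) := by
    intro w
    obtain ⟨hs, hv⟩ := hw w
    rw [finsum_eq_sum_of_fintype] at hs
    rw [← hs, Nat.cast_sum, Finset.sum_mul, ← Finset.sum_add_distrib]
    refine Finset.sum_le_sum fun v _ => ?_
    obtain ⟨hG, hd', -⟩ := hv v.1
    haveI : NVExt w.1 (sg T L ⟨w, v⟩).1 := v.2
    haveI := fd w (sg T L ⟨w, v⟩).1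
    haveI : IsGalois (kap w.1) (kap (sg T L ⟨w, v⟩).1) := hG
    exact pairW T hp hk w (sg T L ⟨w, v⟩) (hd' ▸ hd (sg T L ⟨w, v⟩)) S S' hS'
  have h1 := Finset.sum_le_sum fun w (_ : w ∈ (Finset.univ : Finset (WW C T))) => key w
  rw [← Fintype.sum_sigma (fun p : Σ w : WW C T, {v : NV C L // NVExt w.1 v} =>
    ((2 * gen (kC C) (kap (sg T L p).1) - 2 : ℤ) + (fib S' (sg T L p)).ncard)),
    Equiv.sum_comp (sg T L) (fun v => ((2 * gen (kC C) (kap v.1) - 2 : ℤ) + (fib S' v).ncard)),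
    Finset.sum_add_distrib, ← Fintype.sum_sigma e,
    ← Finset.mul_sum, Finset.sum_add_distrib, Finset.sum_add_distrib, ← Nat.cast_sum,
    ← Nat.cast_sum, ← card_fib, ← card_fib, hS.1] at h1
  have h2 := hU.genus
  have h3 : ∀ {ι : Type} [Fintype ι] (a : ι → ℤ), ∑ i, (2 * a i - 2) = 2 * ∑ i, (a i - 1) := by
    intro ι _ a
    rw [Finset.mul_sum]
    exact Finset.sum_congr rfl fun i _ => by ring
  rw [h3, h3] at h1
  have h4 : 0 ≤ ∑ q, e q := Finset.sum_nonneg fun q _ => e0 q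
  have h5 : 2 * cd C (algebraMap F L T) + ∑ q, e q ≤ S'.card := by
    unfold cd at h1 ⊢
    linarith
  refine ⟨hL, S', ⟨le_antisymm hh (by linarith), hq⟩, hS', fun b' hb' τ hτ => ?_⟩
  obtain ⟨b, hbS, ht⟩ := (hS' b').1 hb'
  obtain ⟨w, x, hx⟩ := b
  obtain ⟨v, y, hy⟩ := b'
  haveI hx' : NVExt w.1 v.1 := ⟨ht.1⟩
  haveI := fd w v.1
  obtain ⟨hG, -, hbij⟩ := (hw w).2 v.1
  have h6 := (Finset.sum_eq_zero_iff_of_nonneg fun q _ => e0 q).1 (by linarith)
    ⟨w, ⟨v.1, hx'⟩⟩ (Finset.mem_univ _)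
  have h7 := (Finset.sum_eq_zero_iff_of_nonneg fun x _ => dfc_term T w v.1 x).1 h6 x
    ((Set.Finite.mem_toFinset _).2 ⟨hx, hbS⟩)
  have h8 : down (kap w.1) y = x := by
    refine Subtype.ext (ValuationSubring.ext _ _ fun z => ?_)
    obtain ⟨z, hz, rfl⟩ := NV.red_surj z
    rw [mem_down, ← red_algebraMap' (v := v.1) hz]
    exact ht.2 z hz
  have h9 : inertia (kap w.1) y = ⊥ := (ram_eq_one_iff y).1 (ram_eq_one_of_card (P := x) (by
    rw [← Set.ncard_eq_toFinset_card _ (over_finite (L := kap v.1) x)]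
    omega) h8)
  have h10 : (rho w.1 v.1 ⟨τ, hτ.1⟩)⁻¹ ∈ inertia (kap w.1) y := by
    refine Subtype.ext (ValuationSubring.ext _ _ fun z => ?_)
    obtain ⟨z, hz, rfl⟩ := NV.red_surj z
    rw [mem_conj]
    change rho w.1 v.1 ⟨τ, hτ.1⟩ (v.1.red z) ∈ y.1 ↔ _
    rw [rho_red]
    exact hτ.2 z hz
  rw [h9, Subgroup.mem_bot, inv_eq_one, ← map_one (rho w.1 v.1)] at h10
  exact congrArg Subtype.val (hbij.1 h10)

end Vale.Agent.P022K.WB.Nv
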