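import Vale.Agent.P022K.WB.NvF
import Vale.Agent.P022K.WB.Nv3
import Vale.Agent.P022K.FI.X1N

/-!
# P022K, block WB, row NV: the vertices of the curves of level `Iw1`, inertia
-/

set_option autoImplicit false
set_option linter.all false

open UpperHalfPlane IsLocalRing IntermediateField Module
open scoped MatrixGroups

noncomputable section

namespace Vale.Agent.P022K.WB.Nv

open Vale.Agent.P022K.Sh Vale.Agent.P022.H218.L3 Vale.Agent.P019P P025H746 P025H492 FI FI.Hk FI.X1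
  Vale.Agent.P027M Vale.Agent.P027M.I

section curve

variable {C : Type} [NontriviallyNormedField C] [IsUltrametricDist C] [IsAlgClosed C]
  {K₀ K : Type} [Field K₀] [Algebra C K₀] [CFF C K₀] [Field K] [Algebra C K] [CFF C K]
  [Algebra K₀ K] [IsScalarTower C K₀ K] [FiniteDimensional K₀ K] [IsGalois K₀ K]
  {w : Fin 2 → NV C K} {T : K₀} [FiniteDimensional C⟮T⟯ K₀]
  [FiniteDimensional C⟮algebraMap K₀ K T⟯ K] {v : Fin 2 → WW C T} {S : Finset (Br C T)}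

/-- one vertex over each vertex -/
theorem one_vx [CharZero C] (hd : ((finrank K₀ K : ℕ) : kC C) ≠ 0) (hu : IsUnr C K₀ K)
    (hcy : IsCyclic (K ≃ₐ[K₀] K)) (hF : Full C T) (hS : Nodal C T S) (hall : ∀ u, ∃ i, u = v i)
    (hsep : ∀ b b' : Br C T, b.w = b'.w → Glue b b' → b = b')
    (hw : ∀ i y, w i (algebraMap K₀ K y) = (v i).1 y)
    (h : ∀ g : K ≃ₐ[K₀] K, ∃ σ, X1.Inr C w σ g) :
    Full C (algebraMap K₀ K T) ∧ (∃ S', Nodal C (algebraMap K₀ K T) S') ∧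
      (∀ i (u : NV C K), (∀ y, u (algebraMap K₀ K y) = w i (algebraMap K₀ K y)) → u = w i) ∧
      ∀ u : WW C (algebraMap K₀ K T), u.1 = w 0 ∨ u.1 = w 1 := by
  have hc := X0.comm_of_cyc hcy
  obtain ⟨hF', -, S', hS', hm'⟩ := cov' C K₀ K T hF S hS hu hd fun u => I1b.cyc hcy u.1
  have key : ∀ i (u : NV C K), (∀ y, u (algebraMap K₀ K y) = w i (algebraMap K₀ K y)) → u = w i :=
    fun i u e => by
    obtain ⟨g, hg⟩ := I1b.exists_conj e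
    obtain ⟨σ, hσ⟩ := h g
    haveI : NVExt (v i).1 (w i) := ⟨hw i⟩
    exact NV.ext (AbsoluteValue.ext fun y => (hg y).trans (all_fixed hF' hS' (Lift.semi g)
      (nr_of_fix (g.commutes T)) (fun b hb => (fixes hc hS hall hsep hw hσ hF' hS' hm' b hb).1)
      ⟨w i, NVExt.overG.2 (v i).2⟩ y))
  exact ⟨hF', ⟨S', hS'⟩, key, fun u => (sides hall hw u).imp (key 0 _) (key 1 _)⟩

end curve

variable {G0 G : Type} [Group G0] [Group G] {T : Tw G0 G}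
  {O K : Type} [CommRing O] [IsDomain O] [IsDiscreteValuationRing O] [Field K] [Algebra O K]
  {w : T.Lc O K} {p : ℕ} [Fact p.Prime] {D : Emb w p} {U V : Subgroup G} {τ : ℍ} {x x' y : G}
  {v v' : NV (Cx D.ι) (LW T)} {σ : ℂ ≃+* ℂ} {θ : (G → Mer) → G → Mer}

theorem nrm2 {hT : T.Ok} (E : SR hT →+* LW T)
    (hE : ∀ a, v' (E (algebraMap ℂ (SR hT) a)) = ‖D.ι a‖)
    (H : ∀ φ, Inv V φ.1 → v (Ev x φ) ≤ 1 → v' (E φ) ≤ 1 ∧ (v (Ev x φ) = 1 ↔ v' (E φ) = 1))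
    {φ : SR hT} (hφ : Inv V φ.1) : v' (E φ) = v (Ev x φ) := by
  have key : ∀ r, 0 < r → v (Ev x φ) ≤ r → (v (Ev x φ) = r ↔ v' (E φ) = r) := fun r h0 hr => by
    obtain ⟨a, ha⟩ : ∃ a : ℂ, ‖D.ι a‖ = r⁻¹ := Cx.exists_norm_eq D.ι r⁻¹ (inv_pos.2 h0).le
    have e1 : v (Ev x (algebraMap ℂ (SR hT) a * φ)) = r⁻¹ * v (Ev x φ) := by
      rw [map_mul, map_mul, v_cst, ha]
    have e2 : v' (E (algebraMap ℂ (SR hT) a * φ)) = r⁻¹ * v' (E φ) := by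
      rw [map_mul, map_mul, hE, ha]
    have := (H _ (inv_mul (fun _ _ _ => rfl) hφ) (e1.trans_le ((inv_mul_le_one₀ h0).2 hr))).2
    rwa [e1, e2, inv_mul_eq_one₀ h0.ne', inv_mul_eq_one₀ h0.ne', eq_comm, eq_comm (a := r)] at this
  rcases lt_trichotomy (v' (E φ)) (v (Ev x φ)) with h | h | h
  · exact (key _ ((v'.av.nonneg _).trans_lt h) le_rfl).1 rfl
  · exact h
  · exact ((key _ ((v.av.nonneg _).trans_lt h) h.le).2 rfl).symm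

theorem inv_add {hT : T.Ok} {φ ψ : SR hT} (h : Inv V φ.1) (h' : Inv V ψ.1) : Inv V (φ + ψ).1 :=
  inv_Rt.2 fun u hu => by rw [map_add, inv_Rt.1 h u hu, inv_Rt.1 h' u hu]

theorem inv_pow' {hT : T.Ok} {φ : SR hT} (h : Inv V φ.1) (n : ℕ) : Inv V (φ ^ n).1 :=
  inv_Rt.2 fun u hu => by rw [map_pow, inv_Rt.1 h u hu]

theorem inv_pinv {hT : T.Ok} {φ : SR hT} (h : Inv V φ.1) : Inv V (pinv φ).1 :=
  fun y u hu => congrArg Inv.inv (h y u hu)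

theorem inv_one' {hT : T.Ok} : Inv V (1 : SR hT).1 := fun _ _ _ => rfl

theorem ex_K {hT : T.Ok} {φ : SR hT} (h : Inv V φ.1) (x : G) :
    ∃ f : Kf T V x, Kf.val f = φ.1 x := ⟨⟨_, RU_mem (sr_mem φ h) x⟩, rfl⟩

theorem Cg.quo {a d b c : LW T} (h : Cg v (a * d) b) (h' : Cg v d c) (hc : v c = 1) :
    Cg v a (b * c⁻¹) := Cg.div (by
  rwa [inv_mul_cancel_right₀ (fun e => by simp [e] at hc)]) h' hc

variable [∀ x, CFF ℂ (KX T U x)] {h : Ctx D U}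

theorem Oq.loc (o : Oq D U v x) : ∃ τ, Loc D U v τ x := o.elim fun τ e => ⟨τ, e.1 x e.2⟩

theorem Oq.dg (o : Oq D U v x) (μ : Kˣ) : Oq D U v (x * w.ι (Sh.dg μ)) :=
  o.imp fun _ e => ⟨e.1, o_dg e.2 μ⟩

theorem Oq.st (o : Oq D U v x) : Oq D U v (x * st w) := o.imp fun _ e => ⟨e.1, e.2.step⟩

theorem v_rel (h : Ctx D U) (o : Oq D U v x) (o' : Oq D U v' x') (r : T.Rel U x x') {φ : SR h.ok}
    (hφ : Inv U φ.1) : v' (Ev x' φ) = v (Ev x φ) := by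
  obtain ⟨τ, l⟩ := o.loc
  obtain ⟨τ', l'⟩ := o'.loc
  rw [v_Ev h l hφ, v_Ev h l' hφ, h.nv_rel r]

theorem froU (o : Oq D U v x) {s : T.Sl σ θ} (f : h.Fro (thU s h.lev)) {φ : SR h.ok}
    (hφ : Inv U φ.1) (h1 : v (Ev x φ) ≤ 1) : Cg v (Ev (x * st w) (Th s φ)) (Ev x φ ^ qq O) := by
  obtain ⟨τ, l, o⟩ := o
  refine ⟨?_, NV.pow_le_one' h1 _, (f.2.2 v τ x l o (toR h φ hφ)).trans (NV.red_pow h1 _).symm⟩
  rw [v_Ev h (l x o) hφ] at h1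
  rw [v_Ev h (l _ o.step) (Th_inv s h.lev hφ)]
  exact (f.2.1 x (toR h φ hφ)).trans_le h1

theorem levI (h : Ctx D U) : UI w U ∈ T.Lev := lev_set h.ok h.lev Iw1_le Iw0_le

theorem levJ (h : Ctx D U) : U1 w U ∈ T.Lev := lev_set h.ok h.lev le_rfl (Iw1_le.trans Iw0_le)

theorem ex_Th {hT : T.Ok} (s : T.Sl σ θ) (hV : V ∈ T.Lev) {ψ : SR hT} (hψ : Inv V ψ.1) :
    ∃ χ : SR hT, Inv V χ.1 ∧ Th s χ = ψ := by
  obtain ⟨χ, h1, h2⟩ := (s.bij _ hV).surjOn (sr_mem _ hψ)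
  exact ⟨mkS hT hV ⟨χ, h1⟩, h1.2, Subtype.ext h2⟩

/-- one ordinary vertex at the Iwahori level -/
theorem vuq0 {s : T.Sl σ θ} (f : h.Fro (thU s h.lev)) (o : Oq D U v x) (o' : Oq D U v' x')
    (r : T.Rel U x x') {φ : SR h.ok} (hφ : Inv (UI w U) φ.1) : v' (Ev x' φ) = v (Ev x φ) := by
  refine nrm2 (V := UI w U) (Ev x') (v_cst v' x') (fun φ hφ h1 => ?_) hφ
  obtain ⟨τ, l, o₁⟩ := id o
  obtain ⟨ψ, hψ, a1, a2, a3⟩ := sepN h l o₁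
  obtain ⟨χ, hχ, rfl⟩ := ex_Th s h.lev hψ
  have b1 : v (Ev x χ) ≤ 1 := by
    rw [v_Ev h (l _ o₁.step) hψ] at a1
    rw [v_Ev h (l x o₁) hχ]
    exact (f.2.1 x (toR h χ hχ)).symm.trans_le a1
  have key : ∃ b : SR h.ok, Inv U b.1 ∧ Cg v (Ev x φ) (Ev x b) ∧ Cg v' (Ev x' φ) (Ev x' b) := by
    refine lag v x (levI h) h.lev
      (fun a => ∃ b : SR h.ok, Inv U b.1 ∧ Cg v (Ev x a) (Ev x b) ∧ Cg v' (Ev x' a) (Ev x' b))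
      ?_ ?_ ?_ (fun a ha e => ⟨a, ha, Cg.refl e, Cg.refl ((v_rel h o o' r ha).trans_le e)⟩)
      (PP_inv h hψ) ⟨χ ^ qq O, inv_pow' hχ _, ?_, ?_⟩ a2 a3 hφ h1
    · rintro a b ⟨a', h1, h2, h3⟩ ⟨b', h4, h5, h6⟩
      refine ⟨a' + b', inv_add h1 h4, ?_, ?_⟩ <;> rw [map_add, map_add]
      exacts [h2.add h5, h3.add h6]
    · rintro a b ⟨a', h1, h2, h3⟩ ⟨b', h4, h5, h6⟩
      refine ⟨a' * b', inv_mul h1 h4, ?_, ?_⟩ <;> rw [map_mul, map_mul]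
      exacts [h2.mul h5, h3.mul h6]
    · rintro a d ⟨d', h1, h2, h3⟩ ⟨b', h4, h5, h6⟩ e
      rw [map_mul] at h5 h6
      refine ⟨b' * pinv d', inv_mul h4 (inv_pinv h1), ?_, ?_⟩ <;> rw [map_mul, Ev_inv]
      exacts [Cg.quo h5 h2 (h2.symm.one e),
        Cg.quo h6 h3 ((v_rel h o o' r h1).trans (h2.symm.one e))]
    · rw [Ev_PP h hψ, map_pow]
      exact froU o f hχ b1
    · rw [Ev_PP h hψ, map_pow]
      exact froU o' f hχ ((v_rel h o o' r hχ).trans_le b1)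
  obtain ⟨a, ha, c1, c2⟩ := key
  exact ⟨c2.1, fun e => c2.one ((v_rel h o o' r ha).trans (c1.symm.one e)),
    fun e => c1.one ((v_rel h o o' r ha).symm.trans (c2.symm.one e))⟩

theorem inv_P1 {hT : T.Ok} (hU : U ∈ T.Lev) {φ : SR hT} (hφ : Inv (U1 w U) φ.1) :
    Inv (U1 w U) (Rt (w.ι (X1.PP w)) φ).1 := inv_Rt.2 fun k hk => by
  rw [Rt_Rt]
  refine (Rt_eq hφ ?_).symm
  rw [← mul_assoc]
  exact set_conj hU (fun _ hv => PP_Iw1 w hv) hk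

theorem dg_ss (x : G) : x * w.ι (Sh.dg w.ϖ) = x * w.ι (ss O K) * w.ι (X1.PP w) := by
  rw [mul_assoc, ← map_mul, ss_PP]

theorem Ev_PP2 {hT : T.Ok} (φ : SR hT) (x : G) :
    Ev (x * w.ι (X1.PP w) * w.ι (X1.PP w)) φ = Ev x φ := by
  obtain ⟨V, hV, e⟩ := φ.2
  rw [mul_assoc, ← map_mul, Ev_mul e.2 _ (Br.Z_le hV (w.cen _ (PP_sq w)))]

theorem Ev_s1 {hT : T.Ok} (φ : SR hT) (x : G) :
    Ev (x * w.ι (ss O K)) φ = Ev (x * w.ι (Sh.dg w.ϖ)) (Rt (w.ι (X1.PP w)) φ) := by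
  rw [Ev_Rt, dg_ss, Ev_PP2]

theorem Rt_PP2 {hT : T.Ok} (φ : SR hT) : Rt (w.ι (X1.PP w)) (Rt (w.ι (X1.PP w)) φ) = φ :=
  Subtype.ext (funext fun x => congrArg Subtype.val (Ev_PP2 φ x))

/-- the curve of level `Iw1` -/
theorem crv (n : Nx h) (l : ∀ x, Ord w D.e τ x → Loc D U v τ x ∧ Tam D U v x)
    (o : Ord w D.e τ x) [CFF ℂ (KX T (UI w U) x)] [CFF ℂ (KX T (U1 w U) x)]
    {μ₀ μ₁ : NV (Cx D.ι) (K1 w U x)} (b0 : X1.Nv h.ok v x μ₀)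
    (b1 : X1.Nv h.ok v (x * w.ι (ss O K)) μ₁) :
    (∀ g : K1 w U x ≃ₐ[K0 w U x] K1 w U x, ∃ e : Oˣ, ∀ φ ∈ T.RU (U1 w U), ∀ f,
      Kf.val f = φ x → Kf.val (g f) = φ (x * w.ι (dO K e))) ∧
    (∀ u : NV (Cx D.ι) (K1 w U x), (∀ y : K0 w U x, u (algebraMap _ _ y) = μ₀ (algebraMap _ _ y)) →
      u = μ₀) ∧ ∃ (t : K1 w U x) (_ : FiniteDimensional (Cx D.ι)⟮t⟯ (K1 w U x)),
      Full (Cx D.ι) t ∧ (∃ S, Nodal (Cx D.ι) t S) ∧ ∀ u : WW (Cx D.ι) t, u.1 = μ₀ ∨ u.1 = μ₁ := by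
  have hI := levI h
  have hV := levJ h
  obtain ⟨η₀, a0⟩ := ex_nv (hT := h.ok) hI (Tw.Rel.refl x) v
  obtain ⟨η₁, a1⟩ := ex_nv (hT := h.ok) hI (rel_sa h.sa hI x (det_ss (O := O))) v
  obtain ⟨t, _, u, u0, u1, hall, hF, hsep, S, hS⟩ :=
    nodt D U h v τ x (fun y o => (l y o).1) o η₀ η₁ a0 a1
  obtain ⟨_, _, hcy, hd, hu, hG⟩ :=
    galk D h.ok U h.lev hI hV (Lv.neat_le h.neat (lev_of h Iw0_le)) x
  haveI : FiniteDimensional (Cx D.ι)⟮algebraMap (K0 w U x) (K1 w U x) t⟯ (K1 w U x) :=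
    finite_adjoin_map
  obtain ⟨h1, h2, h3, h4⟩ := one_vx (w := ![μ₀, μ₁]) hd hu hcy hF hS hall hsep
    (Fin.forall_fin_two.2 ⟨u0 ▸ a0.down hI b0, u1 ▸ a1.down hI b1⟩) fun g => by
    obtain ⟨e, he⟩ := hG g
    obtain ⟨γ, k, hk, e1⟩ : T.Rel (U1 w U) x (x * w.ι (dO K e)) := by
      obtain ⟨i, i1, i2, i3⟩ := Tw.ex_ind (T := T) (U1 w U) x
      by_contra r
      have := he i i1 1 ((map_one _).trans (i2 x (Tw.Rel.refl x)).symm)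
      rw [map_one, map_one, i3 _ r] at this
      exact one_ne_zero this
    have e2 : x⁻¹ * T.j γ * x = w.ι (dO K e) * k⁻¹ := by
      rw [eq_mul_inv_iff_mul_eq, mul_assoc, mul_assoc, inv_mul_eq_iff_eq_mul, e1, mul_assoc]
    obtain ⟨c, hc⟩ := n.sq x γ (T.mem_Gam.2 (e2 ▸ mul_mem (iota_mem' h.lev (dO_Iw0 e))
      (inv_mem (set_mono h.lev Iw1_le hk))))
    obtain ⟨σ, θ, s, d, i, a, ha, hc'⟩ := n.ine c⁻¹
    obtain ⟨σ', hσ'⟩ := ex_sig h l o s i d.iso ha hc'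
    refine ⟨σ', inr h l o s i d.iso ha hc' b0 b1 hσ' (fun φ f hφ e => ?_) hG⟩
    rw [he _ (sr_mem φ hφ) f e, inv_inv]
    refine (hφ.eq ?_ x).symm
    rw [e2, ← mul_assoc] at hc
    simpa using mul_mem hc hk
  exact ⟨hG, h3 0, _, inferInstance, h1, h2, h4⟩

/-- **VUQ** -/
theorem vuq (n : Nx h) : VUQ h := by
  intro v x v' x' o o' r φ hφ
  obtain ⟨σ, θ, s, -, f⟩ := n.fro
  obtain ⟨τ, -, o₁⟩ := id o
  obtain ⟨v₀, l⟩ := n.tam τ x o₁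
  have hI := levI h
  have hV := levJ h
  haveI := (h.cf _ (h.ok.fu _ hI x)).1
  haveI := (h.cf _ (h.ok.fu _ hV x)).1
  obtain ⟨μ₀, b0⟩ := ex_nv (hT := h.ok) hV (Tw.Rel.refl x) v₀
  obtain ⟨μ₁, b1⟩ := ex_nv (hT := h.ok) hV (rel_sa h.sa hV x (det_ss (O := O))) v₀
  obtain ⟨-, h1, -⟩ := crv n l o₁ b0 b1
  have key : ∀ v' x', Oq D U v' x' → T.Rel (U1 w U) x x' → v' (Ev x' φ) = v₀ (Ev x φ) :=
    fun v' x' o' r => by
    obtain ⟨μ, b⟩ := ex_nv (hT := h.ok) hV r v'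
    have e := h1 μ fun y => by
      obtain ⟨ψ, c1, c2⟩ := ex_SR (hT := h.ok) hI y
      have c3 : Inv (U1 w U) ψ.1 := fun z k hk => c1 z k (set_mono h.lev Iw1_le hk)
      rw [b ψ _ c3 ((Kf.val_alg y).trans c2), b0 ψ _ c3 ((Kf.val_alg y).trans c2)]
      obtain ⟨γ, k, hk, e⟩ := r
      exact vuq0 f ⟨τ, fun y o => (l y o).1, o₁⟩ o'
        ⟨γ, k, lev_of h (Iw1_le.trans Iw0_le) hk, e⟩ c1
    obtain ⟨f₀, hf⟩ := ex_K hφ x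
    rw [← b φ f₀ hφ hf, e, b0 φ f₀ hφ hf]
  exact (key v x o (Tw.Rel.refl x)).trans (key v' x' o' r).symm

/-- from the components to the tower -/
theorem eq1_of {φ φ' : SR h.ok} (hφ : Inv (U1 w U) φ.1) (hφ' : Inv (U1 w U) φ'.1)
    (H : ∀ τ x, Ord w D.e τ x → ∃ z : K1 w U x, z ≠ 0 ∧ φ.1 x = φ'.1 x * Kf.val z ^ p) :
    Eq1 h φ φ' := by
  have hV := levJ h
  have key : ∀ x, ∃ z ∈ KX T (U1 w U) x, z ≠ 0 ∧ φ.1 x = φ'.1 x * z ^ p := fun x => by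
    obtain ⟨τ, y, o, r⟩ := ordx h hV x
    obtain ⟨z, h1, h2⟩ := H τ y o
    obtain ⟨ψ, h4, h5, -⟩ := Tw.ex_RU y z.val_mem
    rw [← h5] at h2
    exact ⟨ψ x, RU_mem h4 x, fun e => h1 (Kf.val_inj (h5.symm.trans
      (((Tw.RU_zero h4 r).2 e).trans (map_zero _).symm))),
      Tw.RU_ext (sr_mem φ hφ) (mul_mem (sr_mem φ' hφ') (pow_mem h4 p)) h2 r.symm⟩
  choose z h2 h3 h4 using key
  obtain ⟨ψ, h5, h6⟩ := Tw.ex_RU_all h2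
  exact ⟨mkS h.ok hV ⟨ψ, h5⟩, h5.2,
    fun x e => h3 _ ((h6 x).symm.trans ((Tw.RU_zero h5 (Tw.rel_rp x)).2 e)),
    Subtype.ext (Tw.RU_ext_rp (sr_mem φ hφ) (mul_mem (sr_mem φ' hφ') (pow_mem h5 p))
      fun x => (h4 _).trans (by rw [← h6]; rfl))⟩

theorem Nv_eq {hT : T.Ok} {μ : NV (Cx D.ι) (Kf T V x)} (b : X1.Nv hT v y μ) {φ ψ : SR hT}
    (hφ : Inv V φ.1) (hψ : Inv V ψ.1) {f : Kf T V x} (hf : Kf.val f = φ.1 x) :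
    ∃ z, μ (f * z ^ p - 1) = v (Ev y (φ * ψ ^ p) - 1) := by
  obtain ⟨z, hz⟩ := ex_K hψ x
  exact ⟨z, (b (φ * ψ ^ p - 1) _ (inv_sub (inv_mul hφ (inv_pow' hψ p)) inv_one')
    (by rw [map_sub, map_mul, map_pow, map_one, hf, hz]; rfl)).trans (by rw [map_sub, map_one])⟩

theorem Ev_side {hT : T.Ok} (φ ψ : SR hT) (x : G) :
    Ev (x * w.ι (ss O K)) (φ * Rt (w.ι (X1.PP w)) ψ ^ p) =
      Ev (x * w.ι (Sh.dg w.ϖ)) (Rt (w.ι (X1.PP w)) φ * ψ ^ p) := by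
  rw [Ev_s1, map_mul (Rt _), map_pow (Rt _), Rt_PP2]

variable {ζ : Cx D.ι}

/-- **INF** -/
theorem inf (n : Nx h) (hz : PZ p ζ) : INF h ζ := by
  rintro σ θ s c k d i ⟨a, ha, hc⟩ c2 hk φ ⟨hφ, g, g0, hg⟩ ⟨ψ₀, p0, q0⟩ ⟨ψ₁, p1, q1⟩
  have hI := levI h
  have hV := levJ h
  have hcc : w.ι (dO K (c * c)) ∈ U1 w U := iota_mem' h.lev (dO_Iw1 c2)
  refine eq1_of (inv_dO h.lev c (Th_inv s hV hφ)) (inv_pow' hφ k) fun τ x o => ?_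
  obtain ⟨v, l⟩ := n.tam τ x o
  have oq : Oq D U v x := ⟨τ, fun y o => (l y o).1, o⟩
  haveI := (h.cf _ (h.ok.fu _ hI x)).1
  haveI := (h.cf _ (h.ok.fu _ hV x)).1
  obtain ⟨μ₀, b0⟩ := ex_nv (hT := h.ok) hV (Tw.Rel.refl x) v
  obtain ⟨μ₁, b1⟩ := ex_nv (hT := h.ok) hV (rel_sa h.sa hV x (det_ss (O := O))) v
  obtain ⟨hG, -, t, _, hF, ⟨S, hS⟩, hall⟩ := crv n l o b0 b1
  obtain ⟨σ', hσ'⟩ := ex_sig h l o s i d.iso ha hc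
  have I := inr h l o s i d.iso ha hc b0 b1 hσ' (s₁ := 1) (fun φ f hφ e => e.trans (hφ x _ (by
    rw [← mul_inv_rev, dO_inv, map_inv]; exact inv_mem hcc)).symm) hG
  have j : ∀ u : WW (Cx D.ι) t, (∀ y, u.1 (σ' y) = u.1 y) ∧ ∀ y, u.1 y ≤ 1 → u.1 (σ' y - y) < 1 :=
    fun u => by
    rcases hall u with e | e <;> rw [e]
    exacts [⟨I.n0, I.t0⟩, ⟨I.n1, I.t1⟩]
  obtain ⟨f, hf⟩ := ex_K hφ x
  have f0 : f ≠ 0 := fun e => pow_ne_zero p (g0 x) (by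
    rw [← Pi.pow_apply, ← hg, ← hf, e, map_zero])
  have hn : ∀ u : WW (Cx D.ι) t, Nr p ζ u.1 f := fun u => by
    rcases hall u with e | e <;> rw [e]
    · obtain ⟨z, hz⟩ := Nv_eq b0 hφ p0 hf
      exact ⟨z, hz.trans_le (q0 v x oq)⟩
    · obtain ⟨z, hz⟩ := Nv_eq b1 hφ (inv_P1 h.lev p1) hf
      exact ⟨z, hz.trans_le (by rw [Ev_side]; exact q1 v _ (oq.dg _))⟩
  obtain ⟨z, z0, hz'⟩ := nodeE hz hF hS (g := σ') (s := au D.ι σ) (c := k)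
    ⟨fun b => Kf.val_inj ((hσ' (algebraMap ℂ _ b) _ (fun _ _ _ => rfl) rfl).trans
      (congrFun (s.cst b) _)), d.iso⟩ hk (fun u => (j u).1)
    (fun b _ => I1b.tw_self b (j b.w).1 (j b.w).2)
    (dvd_ord h.ok hV (Lv.neat_le h.neat (lev_of h (Iw1_le.trans Iw0_le))) f0
      (hf.trans (congrFun hg x))) fun u => Or.inr ⟨hn u, (j u).2⟩
  refine ⟨z, z0, ?_⟩
  have h2 := congrArg Kf.val hz'
  rw [map_mul, map_pow, map_pow, hσ' φ f hφ hf, hf] at h2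
  refine Eq.trans ?_ h2
  refine ((Th_inv s hV hφ).eq ?_ x).symm
  rwa [dO_inv, map_inv, inv_inv, ← map_mul, ← dO_mul]

end Vale.Agent.P022K.WB.Nv
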