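import Vale.Agent.P027M.I.All0

/-!
# P022K, block WB, row NV: the Hurwitz inequality for Artin-Schreier covers
-/

set_option linter.all false

noncomputable section

open IntermediateField Vale.Agent.P019P P025H746 P025H492 Module

namespace Vale.Agent.P022K.WB.Nv

open Vale.Agent.P027M.I

namespace Hw

theorem dim_le {k W : Type} [Field k] [AddCommGroup W] [Module k W] (δ : Module.End k W)
    (V A B : Submodule k W) [FiniteDimensional k V] [FiniteDimensional k A] [FiniteDimensional k B]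
    (hV : ∀ z ∈ V, δ z ∈ V) (hA : ∀ z ∈ V, δ z = 0 → z ∈ A)
    (hB : ∀ z ∈ V, δ (δ z) = 0 → δ z ∈ B) (j : ℕ) :
    finrank k (V ⊓ LinearMap.ker (δ ^ (j + 1)) : Submodule k W) ≤ finrank k A + j * finrank k B := by
  have it : ∀ (i : ℕ), ∀ z ∈ V, (δ ^ i) z ∈ V := by
    intro i
    induction i with
    | zero => exact fun z hz => hz
    | succ i ih => exact fun z hz => by rw [pow_succ', Module.End.mul_apply]; exact hV _ (ih z hz)
  induction j with
  | zero =>
    rw [zero_mul, add_zero, zero_add, pow_one]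
    exact Submodule.finrank_mono fun z hz => hA z hz.1 hz.2
  | succ j ih =>
    let U : Submodule k W := V ⊓ LinearMap.ker (δ ^ (j + 1 + 1))
    haveI : FiniteDimensional k U := Submodule.finiteDimensional_of_le inf_le_left
    haveI : FiniteDimensional k (V ⊓ LinearMap.ker (δ ^ (j + 1)) : Submodule k W) :=
      Submodule.finiteDimensional_of_le inf_le_left
    have h1 := LinearMap.finrank_range_add_finrank_ker ((δ ^ (j + 1)).domRestrict U)
    have h2 : finrank k (LinearMap.range ((δ ^ (j + 1)).domRestrict U)) ≤ finrank k B := by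
      refine Submodule.finrank_mono ?_
      rintro _ ⟨z, rfl⟩
      have e : ∀ i : ℕ, (δ ^ (i + 1)) z.1 = δ ((δ ^ i) z.1) := fun i => by
        rw [pow_succ', Module.End.mul_apply]
      rw [LinearMap.domRestrict_apply, e]
      exact hB _ (it j _ z.2.1) (by rw [← e, ← e]; exact z.2.2)
    have h3 : finrank k (LinearMap.ker ((δ ^ (j + 1)).domRestrict U)) ≤
        finrank k (V ⊓ LinearMap.ker (δ ^ (j + 1)) : Submodule k W) := by
      rw [← Submodule.finrank_map_subtype_eq]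
      refine Submodule.finrank_mono ?_
      rintro _ ⟨z, hz, rfl⟩
      exact ⟨z.2.1, hz⟩
    change finrank k U ≤ _
    rw [add_mul, one_mul]
    omega

variable {k F₀ F₁ : Type} [Field k] [Field F₀] [Field F₁] [Algebra k F₀] [Algebra k F₁]
  [Algebra F₀ F₁] [IsScalarTower k F₀ F₁] [CFF k F₀] [CFF k F₁] [FiniteDimensional F₀ F₁]
  [IsGalois F₀ F₁] {p : ℕ}

theorem ord_in {σ : F₁ ≃ₐ[F₀] F₁} {y : Plk k F₁} (h : σ ∈ inertia F₀ y) (z : F₁) :
    ord y (σ z) = ord y z := by
  rw [ord_aut, mem_inertia.1 ((inertia F₀ y).inv_mem h)]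

theorem mge_in {σ : F₁ ≃ₐ[F₀] F₁} {y : Plk k F₁} (h : σ ∈ inertia F₀ y) {z : F₁} {n : ℤ}
    (hz : z ∈ Mge y n) : σ z ∈ Mge y n := by
  rw [mem_Mge] at hz ⊢
  rwa [ord_in h, map_eq_zero]

/-- wild inertia acts trivially on the graded pieces -/
theorem sub_mem_succ (hp : p.Prime) (hk : (p : k) = 0) {σ : F₁ ≃ₐ[F₀] F₁} (hσ : σ ^ p = 1)
    {y : Plk k F₁} (h : σ ∈ inertia F₀ y) {z : F₁} {n : ℤ} (hz : z ∈ Mge y n) :
    σ z - z ∈ Mge y (n + 1) := by
  by_cases z0 : z = 0
  · rw [z0, map_zero, sub_zero]; exact zero_mem _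
  haveI := Fact.mk hp
  haveI : CharP k p := (CharP.charP_iff_prime_eq_zero hp).2 hk
  have m : ∀ j : ℕ, (σ ^ j) z / z ∈ y.1 := fun j => by
    refine (mem_iff_ord y _).2 (Or.inr ?_)
    rw [div_eq_mul_inv, ord_mul y ((map_ne_zero _).2 z0) (inv_ne_zero z0), ord_inv,
      ord_in (pow_mem h j), add_neg_cancel]
  have m1 : σ z / z ∈ y.1 := by simpa using m 1
  have it : ∀ j : ℕ, vl y ((σ ^ j) z / z) = vl y (σ z / z) ^ j := by
    intro j
    induction j with
    | zero => rw [pow_zero, pow_zero, AlgEquiv.one_apply, div_self z0, vl_one']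
    | succ j ih =>
      have h1 := mge_in h (sub_vl (m j))
      rw [map_sub, RhcP.aut_const] at h1
      have h2 : σ z ≠ 0 := (map_ne_zero _).2 z0
      rw [show (σ ^ (j + 1)) z / z = σ ((σ ^ j) z / z) * (σ z / z) by
        rw [pow_succ', AlgEquiv.mul_apply, map_div₀]; field_simp,
        vl_mul' (mem_Mge0.1 (mge_in h (mem_Mge0.2 (m j)))) m1, vl_eq h1, ih, pow_succ]
  have h1 := it p
  rw [hσ, AlgEquiv.one_apply, div_self z0, vl_one'] at h1
  have h2 : vl y (σ z / z) = 1 := by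
    have := sub_pow_char (p := p) (vl y (σ z / z)) 1
    rw [← h1, one_pow, sub_self] at this
    exact sub_eq_zero.1 (pow_eq_zero_iff hp.ne_zero |>.1 this)
  have h3 := sub_vl m1
  rw [h2, map_one] at h3
  rw [show σ z - z = z * (σ z / z - 1) by field_simp]
  exact mul_mem_Mge hz h3

theorem mem_LL_down {D : Plk k F₀ →₀ ℤ} {u : F₀}
    (h : ∀ y : Plk k F₁, algebraMap F₀ F₁ u ∈ Mge y (-(ram F₀ y * (D (down F₀ y) + 1)) + 1)) :
    u ∈ LL k D := by
  by_cases u0 : u = 0
  · rw [u0]; exact zero_mem _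
  refine mem_LL.2 (Or.inr fun x => ?_)
  obtain ⟨y, rfl⟩ := exists_over (L := F₁) x
  have h1 := (mem_Mge.1 (h y)).resolve_left ((_root_.map_ne_zero _).2 u0)
  rw [ord_algebraMap] at h1
  have e0 : (0 : ℤ) < ram F₀ y := by exact_mod_cast ram_pos (K := F₀) y
  by_contra hc
  have h2 : ord (down F₀ y) u ≤ -(D (down F₀ y) + 1) := by omega
  nlinarith

/-- the dimension count -/
theorem dim (hp : p.Prime) (hk : (p : k) = 0) (hd : finrank F₀ F₁ = p) (D R : Plk k F₀ →₀ ℤ)
    (hR : ∀ y : Plk k F₁, R (down F₀ y) = 0 ∨ R (down F₀ y) = 1 ∧ ram F₀ y ≠ 1) :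
    finrank k (LL k (pull F₁ D)) ≤ finrank k (LL k D) + (p - 1) * finrank k (LL k (D - R)) := by
  haveI := Fact.mk hp
  haveI : CharP k p := (CharP.charP_iff_prime_eq_zero hp).2 hk
  have hc : Nat.card (F₁ ≃ₐ[F₀] F₁) = p := (IsGalois.card_aut_eq_finrank F₀ F₁).trans hd
  haveI := isCyclic_of_prime_card hc
  obtain ⟨σ, hσ⟩ := IsCyclic.exists_generator (α := F₁ ≃ₐ[F₀] F₁)
  have hσp : σ ^ p = 1 := hc ▸ pow_card_eq_one'
  let E : Module.End k F₁ := (σ.restrictScalars k).toLinearMap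
  have hE : ∀ (j : ℕ) z, (E ^ j) z = (σ ^ j) z := by
    intro j
    induction j with
    | zero => exact fun z => rfl
    | succ j ih => exact fun z => by rw [pow_succ', pow_succ', Module.End.mul_apply, ih]; rfl
  have hδ : ∀ z, (E - 1) z = σ z - z := fun z => rfl
  haveI : CharP (Module.End k F₁) p := charP_of_injective_algebraMap
    (algebraMap k (Module.End k F₁)).injective p
  have h0 : (E - 1) ^ p = 0 := by
    rw [sub_pow_char_of_commute p (Commute.one_right E), one_pow, sub_eq_zero]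
    ext z
    rw [hE, hσp]; rfl
  have fx : ∀ z, σ z - z = 0 → ∃ u, algebraMap F₀ F₁ u = z := fun z hz =>
    (IsGalois.mem_range_algebraMap_iff_fixed (F := F₀) z).2 fun τ => by
      obtain ⟨n, rfl⟩ := (mem_powers_iff_mem_zpowers.2 (hσ τ) : τ ∈ Submonoid.powers σ)
      change (σ ^ n) z = z
      induction n with
      | zero => rfl
      | succ n ih => rw [pow_succ, AlgEquiv.mul_apply, sub_eq_zero.1 hz, ih]
  let ι : F₀ →ₗ[k] F₁ := (IsScalarTower.toAlgHom k F₀ F₁).toLinearMap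
  have e0 : ∀ y : Plk k F₁, (1 : ℤ) ≤ ram F₀ y := fun y => by exact_mod_cast ram_pos (K := F₀) y
  have lo : ∀ (y : Plk k F₁) {z : F₁}, z ∈ LL k (pull F₁ D) →
      z ∈ Mge y (-(ram F₀ y * (D (down F₀ y) + 1)) + 1) := fun y z hz =>
    Mge_mono y (by rw [pull_apply]; linarith [e0 y]) (mem_LL_iff.1 hz y)
  have hV : ∀ z ∈ LL k (pull F₁ D), (E - 1) z ∈ LL k (pull F₁ D) := fun z hz =>
    sub_mem (RhcP.aut_mem σ hz) hz
  have h1 := dim_le (E - 1) (LL k (pull F₁ D)) ((LL k D).map ι) ((LL k (D - R)).map ι) hV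
    (fun z hz h => by
      obtain ⟨u, rfl⟩ := fx z h
      exact ⟨u, mem_LL_down fun y => lo y hz, rfl⟩)
    (fun z hz h => by
      obtain ⟨u, hu⟩ := fx _ h
      refine ⟨u, mem_LL_down (F₁ := F₁) fun y => ?_, hu⟩
      rw [hu, Finsupp.sub_apply]
      rcases hR y with h2 | ⟨h2, h3⟩
      · rw [h2, sub_zero]; exact lo y (hV z hz)
      · have h4 : inertia F₀ y = ⊤ :=
          ((inertia F₀ y).eq_bot_or_eq_top_of_prime_card (hp := ⟨hc ▸ hp⟩)).resolve_left
            fun e => h3 ((ram_eq_one_iff y).2 e)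
        have h5 := sub_mem_succ hp hk hσp (h4 ▸ Subgroup.mem_top σ) (mem_LL_iff.1 hz y)
        rw [pull_apply] at h5
        rw [h2, sub_add_cancel]
        exact h5) (p - 1)
  rw [Nat.sub_add_cancel hp.one_le, h0, LinearMap.ker_zero, inf_top_eq] at h1
  exact h1.trans (add_le_add (Submodule.finrank_map_le _ _)
    (Nat.mul_le_mul_left _ (Submodule.finrank_map_le _ _)))

end Hw

open Hw in
/-- Hurwitz inequality for a Galois cover of degree `1` or `p`, the characteristic -/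
theorem rhw {k F₀ F₁ : Type} [Field k] [Field F₀] [Field F₁] [Algebra k F₀] [Algebra k F₁]
    [Algebra F₀ F₁] [IsScalarTower k F₀ F₁] [CFF k F₀] [CFF k F₁] [FiniteDimensional F₀ F₁]
    [IsGalois F₀ F₁] {p : ℕ} (hp : p.Prime) (hk : (p : k) = 0) (hd : finrank F₀ F₁ ∣ p)
    (S : Finset (Plk k F₀)) : (finrank F₀ F₁ : ℤ) * (2 * gen k F₀ - 2) +
      2 * ∑ x ∈ S, ((finrank F₀ F₁ : ℤ) - Set.ncard {y : Plk k F₁ | down F₀ y = x}) ≤
        2 * gen k F₁ - 2 := by
  classical
  have pos : ∀ x, 1 ≤ Set.ncard {y : Plk k F₁ | down F₀ y = x} := fun x =>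
    (Set.ncard_pos (over_finite (L := F₁) x)).2 (exists_over (L := F₁) x)
  rcases (Nat.dvd_prime hp).1 hd with hd | hd
  · have h1 := rhc k F₀ F₁ ∅ (by
      haveI : Subsingleton (F₁ ≃ₐ[F₀] F₁) := (Nat.card_eq_one_iff_unique.1
        ((IsGalois.card_aut_eq_finrank F₀ F₁).trans hd)).1
      exact isCyclic_of_subsingleton) (by rw [hd]; simp)
    have h2 : ∑ x ∈ S, ((finrank F₀ F₁ : ℤ) - Set.ncard {y : Plk k F₁ | down F₀ y = x}) ≤ 0 :=
      Finset.sum_nonpos fun x _ => by have := pos x; omega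
    rw [Finset.sum_empty] at h1
    linarith
  let S' := S.filter fun x => ∃ y : Plk k F₁, down F₀ y = x ∧ ram F₀ y ≠ 1
  let R : Plk k F₀ →₀ ℤ := ∑ x ∈ S', Finsupp.single x 1
  have hR : ∀ x, R x = if x ∈ S' then 1 else 0 := fun x => by
    simp only [R, Finsupp.finset_sum_apply, Finsupp.single_apply, Finset.sum_ite_eq']
  have dR : dg R = S'.card := by
    simp only [R, map_sum, dg_sgl, Finset.sum_const, nsmul_eq_mul, mul_one]
  have hs : ∑ x ∈ S, ((finrank F₀ F₁ : ℤ) - Set.ncard {y : Plk k F₁ | down F₀ y = x}) ≤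
      ((p : ℤ) - 1) * S'.card := by
    rw [mul_comm, ← nsmul_eq_mul, ← Finset.sum_const, Finset.sum_filter]
    refine Finset.sum_le_sum fun x _ => ?_
    split_ifs with h
    · have := pos x
      omega
    · push Not at h
      have h1 := sum_ram (L := F₁) x
      rw [Finset.sum_congr rfl fun y hy => h y (mem_over.1 hy), ← Finset.card_eq_sum_ones,
        ← Set.ncard_eq_toFinset_card _ (over_finite (L := F₁) x)] at h1
      omega
  obtain ⟨x₀⟩ := nonempty_Plk (k := k) (F := F₀)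
  obtain ⟨N, hN⟩ : ∃ N : ℤ, N = S'.card + |dg (can k F₀)| + |dg (can k F₁)| + 1 := ⟨_, rfl⟩
  have a0 := abs_nonneg (dg (can k F₀))
  have a1 := abs_nonneg (dg (can k F₁))
  have b0 := le_abs_self (dg (can k F₀))
  have b1 := le_abs_self (dg (can k F₁))
  have r1 : (1 : ℤ) ≤ p := by exact_mod_cast hp.one_le
  have s0 : (0 : ℤ) ≤ S'.card := Int.natCast_nonneg _
  have dp := dg_pull (L := F₁) (Finsupp.single x₀ N)
  rw [hd, dg_sgl] at dp
  have e1 := RR_large (D := pull F₁ (Finsupp.single x₀ N)) (by rw [dp]; nlinarith)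
  have e2 := RR_large (k := k) (D := Finsupp.single x₀ N) (by rw [dg_sgl]; linarith)
  have e3 := RR_large (k := k) (D := Finsupp.single x₀ N - R) (by rw [map_sub, dg_sgl, dR]; linarith)
  have d := dim hp hk hd (Finsupp.single x₀ N) R fun y => by
    rw [hR]
    split_ifs with h
    · obtain ⟨y', h1, h2⟩ := (Finset.mem_filter.1 h).2
      exact Or.inr ⟨rfl, by rwa [← ram_eq_of_down_eq h1]⟩
    · exact Or.inl rfl
  have d' : (finrank k (LL k (pull F₁ (Finsupp.single x₀ N))) : ℤ) ≤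
      finrank k (LL k (Finsupp.single x₀ N)) +
        ((p : ℤ) - 1) * finrank k (LL k (Finsupp.single x₀ N - R)) := by
    have := Int.ofNat_le.2 d
    rwa [Nat.cast_add, Nat.cast_mul, Nat.cast_sub hp.one_le, Nat.cast_one] at this
  rw [e1, e2, e3, dp, map_sub, dg_sgl, dR] at d'
  rw [hd] at hs ⊢
  linarith

end Vale.Agent.P022K.WB.Nv
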