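import Vale.Agent.P022K.WB.NvG1

/-!
# P022K, block WB, row NV: the Frobenius at the ordinary valuation, level `Iw0`
-/

set_option autoImplicit false
set_option linter.unusedSectionVars false
set_option linter.style.haveILetI false

open UpperHalfPlane IsLocalRing
open scoped MatrixGroups

noncomputable section

namespace Vale.Agent.P022K.WB.Nv

open Vale.Agent.P022K.Sh Vale.Agent.P022.H218.L3 Vale.Agent.P019P P025H746 FI FI.Hk FI.X1

variable {G0 G : Type} [Group G0] [Group G] {T : Tw G0 G}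
  {O K : Type} [CommRing O] [IsDomain O] [IsDiscreteValuationRing O] [Field K] [Algebra O K]
  {w : T.Lc O K} {p : ℕ} [Fact p.Prime] {D : Emb w p} {U : Subgroup G} {τ : ℍ} {x : G}
  {v : NV (Cx D.ι) (LW T)} {σ : ℂ ≃+* ℂ} {θ : (G → Mer) → G → Mer}

theorem le_of_qq {a b : LW T} (h : Cg v a (b ^ qq O)) : v b ≤ 1 := by
  have := h.2.1
  rwa [map_pow, pow_le_one_iff_of_nonneg (v.av.nonneg _) (qq_ne w)] at this

theorem cg_add_qq {a b : LW T} (ha : v a ≤ 1) (hb : v b ≤ 1) :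
    Cg v (a ^ qq O + b ^ qq O) ((a + b) ^ qq O) := by
  obtain ⟨F, hF⟩ := D.ex_frob (kap v)
  have h1 := NV.pow_le_one' ha (qq O)
  have h2 := NV.pow_le_one' hb (qq O)
  refine ⟨NV.add_le h1 h2, NV.pow_le_one' (NV.add_le ha hb) _, ?_⟩
  rw [NV.red_add h1 h2, NV.red_pow ha, NV.red_pow hb, NV.red_pow (NV.add_le ha hb),
    NV.red_add ha hb, ← hF, ← hF, ← hF, map_add]

variable [∀ x, CFF ℂ (KX T U x)] (h : Ctx D U) (l : Vl D U v τ) (o : Ord w D.e τ x)
  (s : T.Sl σ θ) (f : h.Fro (thU s h.lev))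

include l o f

/-- **the Frobenius at level `Iw0`** -/
theorem fro1 {φ : SR h.ok} (hφ : Inv (UI w U) φ.1) (h1 : v (Ev x φ) ≤ 1) :
    Cg v (Ev (x * st w) (Th s φ)) (Ev x φ ^ qq O) := by
  obtain ⟨ψ, hψ, a1, a2, a3⟩ := sepN h l o
  refine lag v x (lev_set h.ok h.lev Iw1_le Iw0_le) h.lev
    (fun a => Cg v (Ev (x * st w) (Th s a)) (Ev x a ^ qq O))
    (fun a b ha hb => by
      simpa only [map_add] using (ha.add hb).trans (cg_add_qq (le_of_qq ha) (le_of_qq hb)))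
    (fun a b ha hb => by simpa only [map_mul, mul_pow] using ha.mul hb)
    (fun a d hd hb e => Cg.div (by simpa only [map_mul, mul_pow] using hb) hd
      (by rw [map_pow, e, one_pow]))
    (fun a ha e => froU ⟨τ, l, o⟩ f ha e) (PP_inv h hψ) ?_ a2 a3 hφ h1
  rw [Th_Rt, Ev_PP h hψ, Ev_PP h (Th_inv s h.lev hψ)]
  exact froU ⟨τ, l, o.step⟩ f hψ a1

/-- the Frobenius keeps the norms at level `Iw0` -/
theorem fro2 (hσ : ∀ c, ‖D.ι (σ c)‖ = ‖D.ι c‖) {φ : SR h.ok} (hφ : Inv (UI w U) φ.1) :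
    v (Ev (x * st w) (Th s φ)) = v (Ev x φ) :=
  nrm2 ((Ev (x * st w)).comp (Th s)) (v_Th s hσ _) (fun φ hφ h1 => by
    have c := fro1 h l o s f hφ h1
    refine ⟨c.1, fun e => c.one (by rw [map_pow, e, one_pow]), fun e => ?_⟩
    have := c.symm.one e
    rwa [map_pow, pow_eq_one_iff_of_nonneg (v.av.nonneg _) (qq_ne w)] at this) hφ

end Vale.Agent.P022K.WB.Nv
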