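import Vale.Agent.P022K.WB.NvP1
import Vale.Agent.P022K.WB.Nv6

/-!
# P022K, block WB, row NV: the Frobenius at the ordinary vertices for `q = p = 2`
-/

set_option autoImplicit false
set_option linter.all false

open UpperHalfPlane IsLocalRing
open scoped MatrixGroups

noncomputable section

namespace Vale.Agent.P022K.WB.Nv

open Vale.Agent.P022K.Sh Vale.Agent.P022.H218.L3 Vale.Agent.P019P P025H746 FI FI.Hk FI.X1

namespace P3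

section loc

variable {C L : Type} [NontriviallyNormedField C] [IsUltrametricDist C] [IsAlgClosed C]
  [Field L] [Algebra C L] {v : NV C L}

theorem v2 : v (2 : L) = ‖(2 : C)‖ := by exact_mod_cast P025H992.nv_natCast v 2

theorem v4 : v (4 : L) = ‖(2 : C)‖ ^ 2 := by
  rw [show (4 : L) = 2 ^ 2 by norm_num, map_pow, v2]

theorem two_lt (h2 : ‖(2 : C)‖ < 1) {a : L} (ha : v a ≤ 1) : v (2 * a) < 1 := by
  rw [map_mul, v2]
  exact (mul_le_of_le_one_right (norm_nonneg _) ha).trans_lt h2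

theorem sm (h2 : ‖(2 : C)‖ < 1) (h0 : (2 : C) ≠ 0) {x a b : L} (hx : v x < 1) (ha : v a ≤ 1)
    (hb : v b ≤ 1) : v (4 * (x + 2 * (a + 2 * (a * b)))) < ‖(2 : C)‖ ^ 2 := by
  rw [map_mul, v4]
  exact mul_lt_of_lt_one_right (pow_pos (norm_pos_iff.2 h0) 2) (NV.add_lt hx (two_lt h2
    (NV.add_le ha (two_lt h2 (NV.mul_le_one ha hb)).le)))

theorem loc (h2 : ‖(2 : C)‖ < 1) (h0 : (2 : C) ≠ 0) {a b c d : L} (hb : Cg v b (a ^ 2))
    (hc : Cg v c d) : v ((1 + 4 * a) * ((1 + 4 * b) * (1 + 4 * c) * (1 + 4 * d)) *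
      (1 - 2 * a)⁻¹ ^ 2 - 1) < ‖(2 : C)‖ ^ 2 := by
  have ha : v a ≤ 1 := by
    have := hb.2.1
    rwa [map_pow, pow_le_one_iff_of_nonneg (v.av.nonneg _) two_ne_zero] at this
  have h1 : v (1 - 2 * a - 1) < 1 := by
    rw [sub_sub_cancel_left, NV.map_neg']
    exact two_lt h2 ha
  have h3 := ne_zero_of h1
  have h4 : v ((1 + 4 * c) * (1 + 4 * d) - 1) < ‖(2 : C)‖ ^ 2 := by
    convert sm h2 h0 hc.lt hc.2.1 hc.1 using 2
    ring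
  have h5 : v ((1 + 4 * a) * (1 + 4 * b) * (1 - 2 * a)⁻¹ ^ 2 - 1) < ‖(2 : C)‖ ^ 2 := by
    rw [show (1 + 4 * a) * (1 + 4 * b) * (1 - 2 * a)⁻¹ ^ 2 - 1 =
      4 * (b - a ^ 2 + 2 * (a + 2 * (a * b))) * (1 - 2 * a)⁻¹ ^ 2 by
        linear_combination ((1 - 2 * a) * (1 - 2 * a)⁻¹ + 1) * mul_inv_cancel₀ h3, map_mul, map_pow,
      map_inv₀, eq_one h1, inv_one, one_pow, mul_one]
    exact sm h2 h0 hb.lt ha hb.1
  convert mul_sub_lt h5 h4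
    (eq_one (h4.trans (pow_lt_one₀ (norm_nonneg _) h2 two_ne_zero))).le using 3
  ring

theorem le_of (h0 : (2 : C) ≠ 0) {a : L} (h : v (1 + 4 * a - 1) ≤ ‖(2 : C)‖ ^ 2) : v a ≤ 1 := by
  rw [add_sub_cancel_left, map_mul, v4] at h
  exact (mul_le_iff_le_one_right (pow_pos (norm_pos_iff.2 h0) 2)).1 h

end loc

variable {G0 G : Type} [Group G0] [Group G] {T : Tw G0 G}
  {O K : Type} [CommRing O] [IsDomain O] [IsDiscreteValuationRing O] [Field K] [Algebra O K]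
  {w : T.Lc O K} {p : ℕ} [Fact p.Prime] {D : Emb w p} {U : Subgroup G} {x y : G}
  {v : NV (Cx D.ι) (LW T)} {hT : T.Ok}

theorem braid : (ss O K)⁻¹ * (X1.nn K (1 : O) * ss O K) =
    X1.nn K (-1 : O) * ss O K * X1.nn K (-1 : O) := by
  rw [inv_mul_eq_iff_eq_mul]
  ext i j
  fin_cases i <;> fin_cases j <;>
    simp [ss_val, X1.nn, un_val, Matrix.mul_apply, Fin.sum_univ_two]

theorem shift (hU : U ∈ T.Lev) {k : G} (hk : k ∈ U1 w U) : ∃ b₀ : O, ∀ b b' : O,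
    b' - (b + b₀) ∈ maximalIdeal O →
      (w.ι (X1.nn K b' * ss O K))⁻¹ * (k * w.ι (X1.nn K b * ss O K)) ∈ UI w U := by
  obtain ⟨u, hu, h1⟩ := split hU hk
  obtain ⟨k', h2, h3, rfl⟩ := Iw1_ex hu
  obtain ⟨-, ⟨d, hd⟩⟩ := diag_unit h2
  refine ⟨k' 0 1 * (d⁻¹ : Oˣ), fun b b' h => ?_⟩
  rw [← mul_assoc]
  refine h1 _ _ _ (Subgroup.mem_sup_left ?_)
  rw [nn_eq, nn_eq, ss, ← map_mul, ← map_mul, ← map_inv, ← map_mul, ← map_mul]
  refine gK_Iw0 ?_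
  convert add_mem (sub_mem (Ideal.mul_mem_right (k' 1 1) _ h) (Ideal.mul_mem_right b _ h3))
    (Ideal.mul_mem_left _ (b' * b) h2) using 1
  have : ((d⁻¹ : Oˣ) : O) * k' 1 1 = 1 := by rw [← hd, Units.inv_mul]
  simp [nO, sO, Matrix.mul_apply, Fin.sum_univ_two, Matrix.vecMul, dotProduct]
  linear_combination (k' 0 1) * this

theorem dich (hq : qq O = 2) (b : O) : b ∈ maximalIdeal O ∨ b - 1 ∈ maximalIdeal O := by
  obtain ⟨c, -, hc⟩ := (Nat.card_eq_two_iff' (0 : ResidueField O)).1 hq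
  refine or_iff_not_imp_left.2 fun h => ?_
  rw [← residue_eq_zero_iff] at h ⊢
  rw [map_sub, map_one, hc _ h, hc 1 one_ne_zero, sub_self]

theorem invI (hq : qq O = 2) (hU : U ∈ T.Lev) {φ : SR hT} (hφ : Inv (U1 w U) φ.1) :
    Inv (UI w U) φ.1 := fun y k hk => by
  obtain ⟨c, hc⟩ := lev_dO hU hk
  exact hφ y k (by simpa using mul_mem (iota_mem' hU (dO_Iw1 ((dich hq c).resolve_left
    (notMem_maximalIdeal.2 c.isUnit)))) hc)

theorem invN (hq : qq O = 2) (hU : U ∈ T.Lev) {φ : SR hT} (hφ : Inv (U1 w U) φ.1) :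
    Inv (U1 w U) (Rt (w.ι (ss O K)) φ * Rt (w.ι (X1.nn K (1 : O) * ss O K)) φ).1 :=
  inv_Rt.2 fun k hk => by
    obtain ⟨b₀, hb⟩ := shift hU hk
    have key : ∀ b b' : O, b' - (b + b₀) ∈ maximalIdeal O →
        Rt k (Rt (w.ι (X1.nn K b * ss O K)) φ) = Rt (w.ι (X1.nn K b' * ss O K)) φ :=
      fun b b' e => (Rt_Rt _ _ _).trans (Rt_eq (invI hq hU hφ) (hb b b' e)).symm
    have e : ss O K = X1.nn K (0 : O) * ss O K := by rw [nn_zero, one_mul]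
    rw [map_mul]
    nth_rw 1 3 [e]
    rcases dich hq b₀ with h | h
    · rw [key 0 0 (by simpa using h), key 1 1 (by simpa using h)]
    · have h2 : (2 : O) ∈ maximalIdeal O := (dich hq 2).resolve_right fun e =>
        notMem_maximalIdeal.2 isUnit_one (by rwa [show (2 : O) - 1 = 1 by norm_num] at e)
      rw [key 0 1 (by convert neg_mem h using 1; ring),
        key 1 0 (by convert neg_mem (add_mem h h2) using 1; ring), mul_comm]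

theorem rel_PP (hU : U ∈ T.Lev) (r : T.Rel (U1 w U) x y) :
    T.Rel (U1 w U) (x * w.ι (X1.PP w)) (y * w.ι (X1.PP w)) := by
  obtain ⟨γ, u, hu, rfl⟩ := r
  exact ⟨γ, _, set_conj hU (fun _ hv => PP_Iw1 w hv) hu, by simp [mul_assoc]⟩

variable [∀ x, CFF ℂ (KX T U x)] {h : Ctx D U} {ζ : Cx D.ι}

/-- one normalisation at both vertices -/
theorem both (hz : PZ p ζ) (vq : VUQ h) {φ : SR h.ok} (hφ : Inv (U1 w U) φ.1) (n0 : NrA h ζ φ)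
    (n1 : NrA h ζ (Rt (w.ι (X1.PP w)) φ)) : ∃ ψ : SR h.ok, Inv (U1 w U) ψ.1 ∧ ∀ v x, Oq D U v x →
      v (Ev x (φ * ψ ^ p) - 1) ≤ ‖ζ - 1‖ ^ p ∧
        v (Ev (x * w.ι (X1.PP w)) (φ * ψ ^ p) - 1) ≤ ‖ζ - 1‖ ^ p := by
  have hV := levJ h
  obtain ⟨ψ₀, p0, q0⟩ := n0
  obtain ⟨ψ₁, p1, q1⟩ := n1
  have key : ∀ x₀, ∃ ψ : SR h.ok, Inv (U1 w U) ψ.1 ∧ ∀ v x, Oq D U v x →
      (T.Rel (U1 w U) x₀ x → v (Ev x (φ * ψ ^ p - 1)) ≤ ‖ζ - 1‖ ^ p) ∧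
      (T.Rel (U1 w U) x₀ (x * w.ι (X1.PP w)) →
        v (Ev (x * w.ι (X1.PP w)) (φ * ψ ^ p - 1)) ≤ ‖ζ - 1‖ ^ p) := fun x₀ => by
    obtain ⟨τ, y, o, r⟩ := ordx h hV x₀
    obtain ⟨v₀, l⟩ := h.rd.loc τ y o
    have oq : Oq D U v₀ y := ⟨τ, l, o⟩
    have rs := rel_sa h.sa hV y (det_ss (O := O))
    obtain ⟨μ₀, b0⟩ := ex_nv (hT := h.ok) hV (Tw.Rel.refl y) v₀
    obtain ⟨μ₁, b1⟩ := ex_nv (hT := h.ok) hV rs v₀
    obtain ⟨f, hf⟩ := ex_K hφ y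
    obtain ⟨z, z0, z1⟩ := apx2 hz (w₀ := μ₀) (w₁ := μ₁) (f := f)
      ((Nv_eq b0 hφ p0 hf).imp fun z e => e.trans_le (q0 v₀ y oq))
      ((Nv_eq b1 hφ (inv_P1 h.lev p1) hf).imp fun z e => e.trans_le (by
        rw [Ev_side]; exact q1 v₀ _ (oq.dg _)))
    obtain ⟨ψ, c1, c2⟩ := ex_SR (hT := h.ok) hV z
    have c3 := inv_sub (inv_mul hφ (inv_pow' c1 p)) inv_one'
    have c4 : Kf.val (f * z ^ p - 1) = (φ * ψ ^ p - 1).1 y := by
      rw [map_sub, map_mul, map_pow, map_one, hf, c2]; rfl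
    refine ⟨ψ, c1, fun v x o' => ⟨fun r' => ?_, fun r' => ?_⟩⟩
    · rw [← vq v₀ y v x oq o' (r.symm.trans r') _ c3, ← b0 _ _ c3 c4]
      exact z0
    · have r2 := rel_PP h.lev (rs.symm.trans (r.symm.trans r'))
      rw [← dg_ss] at r2
      rw [← Ev_Rt, ← vq v₀ _ v x (oq.dg w.ϖ) o' (r2.trans ⟨1, _, inv_mem (Br.Z_le hV
        (w.cen _ (PP_sq w))), by simp [mul_assoc]⟩) _ (inv_P1 h.lev c3), ← Ev_s1, ← b1 _ _ c3 c4]
      exact z1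
  choose ψ c1 c2 using key
  obtain ⟨χ, d1, d2⟩ := Tw.ex_RU_all fun x => RU_mem (sr_mem _ (c1 x)) x
  have e : ∀ x, Ev x (φ * mkS h.ok hV ⟨χ, d1⟩ ^ p) - 1 =
      Ev x (φ * ψ (T.rp (U1 w U) x) ^ p - 1) := fun x => by
    rw [map_sub, map_one, map_mul, map_mul, map_pow, map_pow,
      show Ev x (mkS h.ok hV ⟨χ, d1⟩) = Ev x (ψ (T.rp (U1 w U) x)) from
        Subtype.ext (Tw.RU_ext d1 (sr_mem _ (c1 _)) (d2 x) (Tw.rel_rp x).symm)]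
  refine ⟨mkS h.ok hV ⟨χ, d1⟩, d1.2, fun v x o => ?_⟩
  rw [e, e]
  exact ⟨(c2 _ v x o).1 (Tw.rel_rp x).symm, (c2 _ v x o).2 (Tw.rel_rp _).symm⟩

theorem PP_ss (x : G) : x * w.ι (X1.PP w) * w.ι (ss O K) = x * st w := by
  rw [mul_assoc, ← map_mul, PP_eq, inv_mul_cancel_right]

theorem cgN (o : Oq D U v x) {g : SR h.ok} (hg : Inv (U1 w U) g.1)
    (b : v (Ev (x * w.ι (X1.PP w)) g) ≤ 1) :
    Cg v (Ev (x * w.ι (X1.PP w) * w.ι (X1.nn K (1 : O) * ss O K)) g)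
      (Ev (x * w.ι (X1.PP w)) g) := by
  have e2 : Ev (x * st w) (Rt (w.ι (ss O K)) g) = Ev (x * w.ι (X1.PP w)) g := by
    rw [Ev_Rt, ← PP_ss, mul_assoc _ (w.ι (ss O K)), ← map_mul]
    refine Ev_mul hg _ (iota_mem h.lev (Subgroup.mem_sup_right (mem_Zl.2 ⟨-1, ?_⟩)))
    rw [← mul_inv_eq_one, mul_assoc, d2_inv, inv_neg_one, ← ss_inv, mul_inv_cancel]
  have e3 : x * w.ι (X1.PP w) * w.ι (X1.nn K (1 : O) * ss O K) = x * st w *
      w.ι (X1.nn K (-1 : O)) * w.ι (ss O K) * w.ι (X1.nn K (-1 : O)) := by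
    rw [PP_eq, mul_assoc, ← map_mul, mul_assoc, braid]
    simp only [map_mul, mul_assoc]
  obtain ⟨τ, l⟩ := o.st.loc
  have := unip h l (Rt (w.ι (ss O K)) g) (-1) (e2.symm ▸ b)
  rwa [e2, Ev_Rt, ← Ev_mul hg _ (iota_mem' h.lev (nn_Iw1 (-1))), ← e3] at this

theorem ex_g {φ : SR hT} (hφ : Inv (U1 w U) φ.1) :
    ∃ g : SR hT, Inv (U1 w U) g.1 ∧ φ = 1 + 4 * g :=
  ⟨algebraMap ℂ _ 4⁻¹ * (φ - 1), inv_mul (fun _ _ _ => rfl) (inv_sub hφ inv_one'), by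
    rw [← mul_assoc, ← map_ofNat (algebraMap ℂ (SR hT)) 4, ← map_mul,
      mul_inv_cancel₀ (by norm_num), map_one, one_mul, add_sub_cancel]⟩

theorem val4 {R : Type} [CommRing R] (E : SR hT →+* R) {φ ψ g : SR hT}
    (e : φ * ψ ^ 2 = 1 + 4 * g) : E φ * E ψ ^ 2 = 1 + 4 * E g := by
  rw [← map_pow, ← map_mul, e, map_add, map_one, map_mul, map_ofNat]

end P3

open P3

variable {G0 G : Type} [Group G0] [Group G] {T : Tw G0 G}
  {O K : Type} [CommRing O] [IsDomain O] [IsDiscreteValuationRing O] [Field K] [Algebra O K]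
  {w : T.Lc O K} {p : ℕ} [Fact p.Prime] {D : Emb w p} {U : Subgroup G}
  [∀ x, CFF ℂ (KX T U x)] {h : Ctx D U} {ζ : Cx D.ι}

/-- **P3F** -/
theorem p3f (hz : PZ p ζ) (hp : p = 2) (hq : qq O = 2) (vq : VUQ h) : P3F h ζ := by
  subst hp
  intro σ θ s d f φ φ' hφ hφ' e n0 n1
  subst e
  have hr : ‖ζ - 1‖ = ‖(2 : Cx D.ι)‖ := by
    rw [hz.prim.eq_neg_one_of_two_right, ← norm_neg]
    norm_num
  have h2 : ‖(2 : Cx D.ι)‖ < 1 := hr ▸ hz.lt_one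
  obtain ⟨ψ, c1, c2⟩ := both hz vq hφ n0 n1
  obtain ⟨ψ', c3, e0⟩ := ex_Th s (levJ h) c1
  obtain ⟨g, hg, e⟩ := ex_g (inv_mul hφ' (inv_pow' c3 2))
  have e' := val4 (Th s) e
  rw [e0] at e'
  have hg' := Th_inv s (levJ h) hg
  have gI := invI hq h.lev hg
  have b : ∀ v y, Oq D U v y → v (Ev y (Th s g)) ≤ 1 ∧
      v (Ev (y * w.ι (X1.PP w)) (Th s g)) ≤ 1 := fun v y o => by
    obtain ⟨b1, b2⟩ := c2 v y o
    rw [map_mul, map_pow, val4 _ e', hr] at b1 b2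
    exact ⟨le_of two_ne_zero b1, le_of two_ne_zero b2⟩
  have i2 : Inv (U1 w U) (2 : SR h.ok).1 := fun _ _ _ => rfl
  refine ⟨ψ' * Rt (w.ι (X1.PP w)) (Rt (w.ι (ss O K)) ψ *
      Rt (w.ι (X1.nn K (1 : O) * ss O K)) ψ * ψ) * pinv (1 - 2 * g),
    inv_mul (inv_mul c3 (inv_P1 h.lev (inv_mul (invN hq h.lev c1) c1)))
      (inv_pinv (inv_sub inv_one' (inv_mul i2 hg))), fun v x o => ?_⟩
  obtain ⟨τ, l, o'⟩ := id o
  have a1 := fro1 h l o' s f gI ((fro2 h l o' s f d.iso gI).symm.trans_le (b v _ o.st).1)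
  rw [hq, ← PP_ss] at a1
  have := loc h2 two_ne_zero a1 (cgN (h := h) o hg' (b v x o).2)
  rw [← val4 _ e', ← val4 _ e', ← val4 _ e', ← val4 _ e] at this
  rw [hr]
  refine le_of_eq (congrArg (fun a => v (a - 1)) ?_) |>.trans_lt this
  simp only [map_mul (Ev x), map_mul (Rt _), map_pow, Ev_Rt, Ev_inv, map_sub, map_one, map_ofNat]
  ring

end Vale.Agent.P022K.WB.Nv
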