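import Vale.Agent.P022K.WB.NvF
import Vale.Agent.P022K.WB.Nv6
import Vale.Agent.P022K.FI.X1N

/-!
# P022K, block WB, row NV: the square of the Frobenius on the classes which split everywhere
-/

set_option autoImplicit false
set_option linter.unusedSectionVars false
set_option linter.style.haveILetI false

open UpperHalfPlane IsLocalRing
open scoped MatrixGroups

noncomputable section

namespace Vale.Agent.P022K.WB.Nv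

open Vale.Agent.P022K.Sh Vale.Agent.P022.H218.L3 Vale.Agent.P019P P025H746 FI FI.Hk FI.X1
  Vale.Agent.P027M

variable {G0 G : Type} [Group G0] [Group G] {T : Tw G0 G}
  {O K : Type} [CommRing O] [IsDomain O] [IsDiscreteValuationRing O] [Field K] [Algebra O K]
  {w : T.Lc O K} {p : ℕ} [Fact p.Prime] {D : Emb w p} {U V : Subgroup G}
  [∀ x, CFF ℂ (KX T U x)] {τ : ℍ} {x y : G} {v : NV (Cx D.ι) (LW T)} {σ : ℂ ≃+* ℂ}
  {θ : (G → Mer) → G → Mer} {ζ : Cx D.ι}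

namespace P4

theorem iw_eq (hq : qq O = 2) : Iw1 O K = Iw0 O K := le_antisymm Iw1_le fun g hg => by
  obtain ⟨k, h1, rfl⟩ := Iw0_ex hg
  obtain ⟨a, -, ha⟩ := (Nat.card_eq_two_iff' (0 : ResidueField O)).1 hq
  have key : ∀ b : O, IsUnit b → residue O b = a := fun b hb => ha _ (hb.map _).ne_zero
  refine gK_Iw1 h1 ?_
  rw [← residue_eq_zero_iff, map_sub, key _ (diag_unit h1).1, key _ (diag_unit h1).2, sub_self]

variable (h : Ctx D U)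

include h

theorem levI : UI w U ∈ T.Lev := lev_set h.ok h.lev Iw1_le Iw0_le

theorem rel2 (hV : V ∈ T.Lev) (x : G) : T.Rel V x (x * st w * st w) :=
  (rel_sa h.sa hV x (g := d2 w.ϖ⁻¹ w.ϖ) (by rw [Lv.det_d2, inv_mul_cancel])).trans
    ⟨1, w.ι (d2 w.ϖ w.ϖ), Br.Z_le hV (w.cen _ (mem_Zl.2 ⟨_, rfl⟩)), by
      rw [map_one, one_mul, mul_assoc, mul_assoc, st, ← map_mul, ← map_mul, tt, d2_mul, d2_mul,
        inv_mul_cancel, mul_one]⟩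

theorem relI (r : T.Rel U x y) : T.Rel (UI w U) x y := by
  obtain ⟨γ, u, hu, rfl⟩ := r
  rcases lev_bruhat h.lev ((set_eq h.lev h.mx).ge hu) with e | ⟨b, e⟩
  · exact ⟨γ, u, e, rfl⟩
  · exact (rel_sa h.sa (levI h) x (g := X1.nn K b * ss O K) (by
      rw [map_mul, det_ss, X1.nn, det_un, mul_one])).trans ⟨γ, _, e, by simp only [mul_assoc,
        mul_inv_cancel_left]⟩

theorem ppI {φ : SR h.ok} (hφ : Inv (UI w U) φ.1) : Inv (UI w U) (Rt (w.ι (X1.PP w)) φ).1 :=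
  inv_Rt.2 fun k hk => by
    rw [Rt_Rt]
    refine (Rt_eq hφ ?_).symm
    rw [← mul_assoc]
    exact set_conj h.lev (fun _ hv => PP_Iw0 w hv) hk

theorem PP_PP {φ : SR h.ok} (hφ : Inv (UI w U) φ.1) :
    Rt (w.ι (X1.PP w)) (Rt (w.ι (X1.PP w)) φ) = φ := by
  rw [Rt_Rt, ← map_mul]
  exact inv_Rt.1 hφ _ (iota_mem h.lev (Subgroup.mem_sup_right (PP_sq w)))

variable (s : T.Sl σ θ) (f : h.Fro (thU s h.lev))

include f

theorem kerI {φ : SR h.ok} (hφ : Inv (UI w U) φ.1) (e : φ.1 x = 0) :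
    (Th s φ).1 (x * st w) = 0 := by
  obtain ⟨x', hx⟩ := s.is.ex_comp (levI h) x
  refine (Tw.RU_zero (sr_mem _ (Th_inv s (levI h) hφ)) (relI h (Ker.rel (Θ := thU s h.lev)
    (x := x) (fun ψ => hx ψ.1 (Tw.RU_mono (lev_of h Iw0_le) ψ.2)) (f.1 x)))).2
    (hx _ (sr_mem φ hφ) e)

theorem fro0 (l : Vl D U v τ) (o : Ord w D.e τ x) {φ : SR h.ok} (hφ : Inv U φ.1)
    (h1 : v (Ev x φ) ≤ 1) : Cg v (Ev (x * st w) (Th s φ)) (Ev x φ ^ qq O) := by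
  refine ⟨?_, NV.pow_le_one' h1 _, (f.2.2 v τ x l o (toR h φ hφ)).trans (NV.red_pow h1 _).symm⟩
  rw [v_Ev h (l _ o.step) (Th_inv s h.lev hφ)]
  exact (f.2.1 x (toR h φ hφ)).trans_le (v_Ev h (l x o) hφ ▸ h1)

theorem fro2 (l : Vl D U v τ) (o : Ord w D.e τ x) {φ : SR h.ok} (hφ : Inv U φ.1)
    (h1 : v (Ev (x * w.ι (Sh.dg w.ϖ)) φ) ≤ 1) : Cg v (Ev (x * st w) (Th s (Th s φ)))
      (Ev (x * w.ι (Sh.dg w.ϖ)) φ ^ (qq O * qq O)) := by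
  have a := fro0 h s f l (o_dg o w.ϖ) hφ h1
  rw [Ev_st h (Th_inv s h.lev hφ)] at a
  rw [pow_mul]
  exact (fro0 h s f l o (Th_inv s h.lev hφ) a.1).trans (a.pow _)

theorem nv2 (x : G) (φ : T.RU U) : h.nv x (thU s h.lev (thU s h.lev φ)) = h.nv x φ := by
  have := rel2 h h.lev (x * (st w)⁻¹ * (st w)⁻¹)
  rw [← inv_mul_cancel_right x (st w), f.2.1, ← inv_mul_cancel_right (x * (st w)⁻¹) (st w), f.2.1,
    h.nv_rel this]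

omit f in
theorem surj2 (hV : V ∈ T.Lev) {ψ : SR h.ok} (hψ : Inv V ψ.1) :
    ∃ φ : SR h.ok, Inv V φ.1 ∧ Th s (Th s φ) = ψ := by
  obtain ⟨χ, h1, h2⟩ := (s.bij _ hV).surjOn (sr_mem _ hψ)
  obtain ⟨χ', h3, h4⟩ := (s.bij _ hV).surjOn h1
  exact ⟨mkS h.ok hV ⟨χ', h3⟩, h3.2, Subtype.ext ((congrArg θ h4).trans h2)⟩

theorem ex_sq (x : G) : ∃ g : K0 w U x ≃+* K0 w U x,
    Ac x g fun φ : SR h.ok => Th s (Th s φ) :=
  ex_ac (levI h) ((Th s).comp (Th s)) (fun _ hφ => Th_inv s (levI h) (Th_inv s (levI h) hφ))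
    (fun _ => surj2 h s (levI h)) fun _ hφ e =>
      (Tw.RU_zero (sr_mem _ (Th_inv s (levI h) (Th_inv s (levI h) hφ))) (rel2 h (levI h) x)).1
        (kerI h s f (Th_inv s (levI h) hφ) (kerI h s f hφ e))

omit h f in
theorem t2 {hT : T.Ok} (hV : V ∈ T.Lev) {φ : SR hT} (hφ : Inv V φ.1) :
    Inv V (Th s (Th s φ)).1 := Th_inv s hV (Th_inv s hV hφ)

omit s f in
theorem sp {η : NV (Cx D.ι) (K0 w U x)} {φ ψ : SR h.ok} (b : Nv h.ok v y η)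
    (hφ : Inv (UI w U) φ.1) (hψ : Inv (UI w U) ψ.1) (e : v (Ev y (φ * ψ ^ p) - 1) < ‖ζ - 1‖ ^ p) :
    Sp p ζ η (evF x φ hφ) :=
  ⟨evF x ψ hψ, (b (φ * ψ ^ p - 1) _ (inv_sub (inv_mul hφ (inv_pow hψ p))
    fun _ _ _ => rfl) rfl).trans_lt (by rwa [map_sub, map_one])⟩

section pt

variable {γ : K0 w U x ≃+* K0 w U x} (hγ : Ac x γ fun φ : SR h.ok => Th s (Th s φ))

include hγ

omit f in
theorem ac {φ : SR h.ok} {a : K0 w U x} (hφ : Inv (UI w U) φ.1) (e : Kf.val a = φ.1 x) :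
    Kf.val (γ a) = (Th s (Th s φ)).1 x := hγ φ a hφ e

omit f in
theorem semi (hσ : ∀ c, ‖D.ι (σ c)‖ = ‖D.ι c‖) :
    I.Semi (Cx D.ι) γ ((au D.ι σ).trans (au D.ι σ)) := by
  refine ⟨fun b : ℂ => Kf.val_inj ?_, fun b => (hσ _).trans (hσ b)⟩
  refine (ac h s hγ (φ := algebraMap ℂ _ b) (fun _ _ _ => rfl) rfl).trans ?_
  rw [Th_cst, Th_cst]
  rfl

variable [Fact (UI w U ≤ U)]

theorem low1 (y : Kf T U x) : ∃ y', γ (IsScalarTower.toAlgHom (Cx D.ι) (Kf T U x) (K0 w U x) y) =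
    IsScalarTower.toAlgHom (Cx D.ι) (Kf T U x) (K0 w U x) y' ∧ nmF h x y' = nmF h x y := by
  obtain ⟨χ, h1, h2⟩ := ex_SR (hT := h.ok) h.lev y
  exact ⟨evF x _ (t2 s h.lev h1), Kf.val_inj (ac h s hγ (inv_I h h1) h2),
    (nv2 h s f x (toR h χ h1)).trans (nmF_eq h h1 h2).symm⟩

omit f in
theorem low2 (y : Kf T U x) : ∃ y', γ (IsScalarTower.toAlgHom (Cx D.ι) (Kf T U x) (K0 w U x) y') =
    IsScalarTower.toAlgHom (Cx D.ι) (Kf T U x) (K0 w U x) y := by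
  obtain ⟨χ, h1, h2⟩ := ex_SR (hT := h.ok) h.lev y
  obtain ⟨χ', h3, rfl⟩ := surj2 h s h.lev h1
  exact ⟨evF x _ h3, Kf.val_inj ((ac h s hγ (inv_I h h3) rfl).trans h2.symm)⟩

variable (l : Vl D U v τ) (o : Ord w D.e τ x) {η₀ η₁ : NV (Cx D.ι) (K0 w U x)}
  (a0 : Nv h.ok v x η₀) (a1 : Nv h.ok v (x * w.ι (ss O K)) η₁) {y : Kf T U x}
  {y' : Kf T U (x * st w)} (b : η₁ (pS h x y') ≤ 1)

include l o a0 a1 b

theorem H0 (e : η₁ (algebraMap _ _ y - pS h x y') < 1) :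
    η₀ (γ (pS h x y') - algebraMap _ _ y ^ (qq O * qq O)) < 1 := by
  obtain ⟨χ, h1, h3⟩ := ex_SR (hT := h.ok) h.lev y
  obtain ⟨χ', h2, h4⟩ := ex_SR (hT := h.ok) h.lev y'
  have h4 := pS_eq h h2 h4
  have i1 := inv_I h h1
  have i2 := PP_inv h h2
  rw [a1 (χ - Rt _ χ') _ (inv_sub i1 i2) (by rw [map_sub, Kf.val_alg, h3, h4]; rfl), map_sub,
    Ev_ss h h1, Ev_ssP] at e
  rw [a1 _ _ i2 h4, Ev_ssP] at b
  rw [a0 (Th s (Th s (Rt _ χ')) - χ ^ (qq O * qq O)) _ (inv_sub (t2 s (levI h) i2) (inv_pow i1 _))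
    (by rw [map_sub, map_pow, ac h s hγ i2 h4, Kf.val_alg, h3]; rfl), map_sub, map_pow, Th_Rt,
    Th_Rt, Ev_PP h (t2 s h.lev h2)]
  exact ((fro2 h s f l o h2 b).trans ((Cg.of b e).symm.pow _)).lt

theorem H1 (e : η₀ (γ (pS h x y') - γ (algebraMap _ _ y)) < 1) :
    η₁ (γ (algebraMap _ _ y) - pS h x y' ^ (qq O * qq O)) < 1 := by
  obtain ⟨χ, h1, h3⟩ := ex_SR (hT := h.ok) h.lev y
  obtain ⟨χ', h2, h4⟩ := ex_SR (hT := h.ok) h.lev y'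
  have h3 := ac h s hγ (inv_I h h1) ((Kf.val_alg y).trans h3)
  have h4 := pS_eq h h2 h4
  have i1 := t2 s (levI h) (inv_I h h1)
  have i2 := PP_inv h h2
  rw [a0 (Th s (Th s (Rt _ χ')) - Th s (Th s χ)) _ (inv_sub (t2 s (levI h) i2) i1)
    (by rw [map_sub, ac h s hγ i2 h4, h3]; rfl), map_sub, Th_Rt, Th_Rt,
    Ev_PP h (t2 s h.lev h2)] at e
  rw [a1 _ _ i2 h4, Ev_ssP] at b
  rw [a1 (Th s (Th s χ) - Rt _ χ' ^ (qq O * qq O)) _ (inv_sub i1 (inv_pow i2 _))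
    (by rw [map_sub, map_pow, h3, h4]; rfl), map_sub, map_pow, Ev_ss h (t2 s h.lev h1), Ev_ssP]
  have k := fro2 h s f l o h2 b
  exact ((Cg.of (I.le_one_of_sub k.1 e) e).symm.trans k).lt

end pt

theorem pt (hz : PZ p ζ) (hσ : ∀ c, ‖D.ι (σ c)‖ = ‖D.ι c‖) {c : ℕ}
    (hc : σ (σ ζ) = (ζ ^ c : Cx D.ι)) (l : Vl D U v τ) (o : Ord w D.e τ x) {φ ψ ψ' : SR h.ok}
    (hφ : Inv (UI w U) φ.1) (hψ : Inv (UI w U) ψ.1) (hψ' : Inv (UI w U) ψ'.1) {g : Mer}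
    (hg : φ.1 x = g ^ p) (a : v (Ev x (φ * ψ ^ p) - 1) < ‖ζ - 1‖ ^ p)
    (a' : v (Ev (x * w.ι (ss O K)) (φ * ψ' ^ p) - 1) < ‖ζ - 1‖ ^ p) :
    ∃ z ∈ KX T (UI w U) x, (Th s (Th s φ)).1 x = (φ ^ c).1 x * z ^ p := by
  have hI := levI h
  haveI := (h.cf _ (h.ok.fu _ hI x)).1
  haveI : Fact (UI w U ≤ U) := ⟨lev_of h Iw0_le⟩
  obtain ⟨η₀, a0⟩ := ex_nv (hT := h.ok) hI (Tw.Rel.refl x) v
  obtain ⟨η₁, a1⟩ := ex_nv (hT := h.ok) hI (rel_sa h.sa hI x (det_ss (O := O))) v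
  have d0 := sd0 h l o a0 a1
  have d1 := sd1 h l o a0 a1
  obtain ⟨γ, hγ⟩ := ex_sq h s f x
  have sm := semi h s hγ hσ
  obtain ⟨g0, g1⟩ := sd_map d0 d0 (one_lt_qq w) γ sm.1 sm.2 (low1 h s f hγ) (low2 h s hγ)
  have s0 := sp h a0 hφ hψ a
  obtain ⟨z, -, hz⟩ := frbP hz (Cx.sph D.ι) (Cx.exists_norm_eq D.ι) d0 d1 (one_lt_qq w)
    (mul_ne_zero (qq_ne w) (qq_ne w)) sm hc g0 g1
    (fun y y' _ b e => H0 h s f hγ l o a0 a1 ((d1.e0 y').trans_le b) e)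
    (fun y y' _ b e => H1 h s f hγ l o a0 a1 ((d1.e0 y').trans_le b) (by
      rw [← map_sub, g0]
      exact e))
    (dvd_ord h.ok hI (Lv.neat_le h.neat Fact.out) (s0.nr.ne hz) hg) s0 (sp h a1 hφ hψ' a')
  exact ⟨Kf.val z, z.val_mem, (ac h s hγ hφ rfl).symm.trans (congrArg Kf.val hz)⟩

theorem all (hz : PZ p ζ) (hσ : ∀ c, ‖D.ι (σ c)‖ = ‖D.ι c‖) {c : ℕ}
    (hc : σ (σ ζ) = (ζ ^ c : Cx D.ι)) {φ ψ ψ' : SR h.ok}
    (hφ : Inv (UI w U) φ.1) (hψ : Inv (UI w U) ψ.1) (hψ' : Inv (UI w U) ψ'.1) {g : G → Mer}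
    (g0 : ∀ x, g x ≠ 0) (hg : φ.1 = g ^ p)
    (a : ∀ v x, Oq D U v x → v (Ev x (φ * ψ ^ p) - 1) < ‖ζ - 1‖ ^ p)
    (a' : ∀ v x, Oq D U v x → v (Ev x (Rt (w.ι (X1.PP w)) φ * ψ' ^ p) - 1) < ‖ζ - 1‖ ^ p) :
    ∃ χ : SR h.ok, Inv (UI w U) χ.1 ∧ (∀ x, χ.1 x ≠ 0) ∧ Th s (Th s φ) = φ ^ c * χ ^ p := by
  have hI := levI h
  have hA := sr_mem _ (Th_inv s hI (Th_inv s hI hφ))
  have hB : (φ ^ c).1 ∈ T.RU (UI w U) := pow_mem (sr_mem _ hφ) c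
  have key : ∀ x, ∃ z ∈ KX T (UI w U) x, (Th s (Th s φ)).1 x = (φ ^ c).1 x * z ^ p := fun x => by
    obtain ⟨τ, y, o, r⟩ := ordx h hI x
    obtain ⟨v, l⟩ := h.rd.loc τ y o
    obtain ⟨z, h2, h3⟩ := pt h s f hz hσ hc l o hφ hψ (ppI h hψ') (congrFun hg y)
      (a v y ⟨τ, l, o⟩) (by
        rw [← PP_PP h hφ, ← map_pow, ← map_mul, Ev_ssP]
        exact a' v _ ⟨τ, l, o_dg o w.ϖ⟩)
    obtain ⟨χ, h4, rfl, -⟩ := Tw.ex_RU y h2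
    exact ⟨χ x, RU_mem h4 x, Tw.RU_ext hA (mul_mem hB (pow_mem h4 p)) h3 r.symm⟩
  choose z h2 h3 using key
  obtain ⟨χ, h4, h5⟩ := Tw.ex_RU_all h2
  have h6 : Th s (Th s φ) = φ ^ c * mkS h.ok hI ⟨χ, h4⟩ ^ p := Subtype.ext
    (Tw.RU_ext_rp hA (mul_mem hB (pow_mem h4 p)) fun x => (h3 _).trans (by rw [← h5]; rfl))
  refine ⟨_, h4.2, fun x e => s.em.ne hI (sr_mem _ (Th_inv s hI hφ)) (s.em.ne hI (sr_mem _ hφ)
    fun y => hg ▸ pow_ne_zero p (g0 y)) x ?_, h6⟩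
  exact (congrArg (fun a : SR h.ok => a.1 x) h6).trans
    (mul_eq_zero_of_right _ ((pow_eq_zero_iff hz.hp.ne_zero).2 e))

end P4

/-- **P4F** -/
theorem p4f (h : Ctx D U) (hz : PZ p ζ) (hp : p = 2) (hq : qq O = 2) : P4F h ζ := by
  rintro σ θ s dec f φ ⟨hφ, g, g0, hg⟩ ⟨ψ, hψ, a⟩ ⟨ψ', hψ', a'⟩
  have e : U1 w U = UI w U := congrArg (w.set · U) (P4.iw_eq hq)
  have e1 : (ζ : ℂ) = -1 := by
    subst hp
    exact hz.prim.eq_neg_one_of_two_right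
  have := P4.all h s f hz dec.iso (c := 1) (by
    rw [pow_one, e1]
    exact (congrArg σ ((map_neg σ 1).trans (congrArg _ (map_one σ)))).trans
      ((map_neg σ 1).trans (congrArg _ (map_one σ)))) (e ▸ hφ) (e ▸ hψ) (e ▸ hψ') g0 hg a a'
  rwa [pow_one, ← e] at this

end Vale.Agent.P022K.WB.Nv
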