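import Vale.Agent.P022K.WB.YNf
import Vale.Agent.P022K.WB.FlAc

/-!
# The pieces of `SURJ` and `EX`: statements
-/

set_option linter.unusedSectionVars false

namespace Vale.Agent.P022K.WB

variable (p : ℕ) [Fact p.Prime] (C : Type) [NontriviallyNormedField C] [IsUltrametricDist C]
  [CharZero C] [hp : Fact (‖(p : C)‖ < 1)] [CompleteSpace C] [IsAlgClosed C]

variable {C} in
/-- the action on the tilt -/
noncomputable def gF {H : Type} [Group H] (act : H →* Iso C) : H →* Iso (Fl p C) :=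
  (Fl.galI p C).comp act

variable {p C} in
/-- finite orbit -/
def Fo {H : Type} [Group H] (act : H →* Iso C) (y : Fl p C) : Prop :=
  (Set.range fun h => (gF p act h).1 y).Finite

/-- almost invariant elements of the tilt are near elements with finite orbit -/
def DENF : Prop := ∀ (ψ : ℚ_[p] → C) (H : Type) [Group H] (act : H →* Iso C), Ok p ψ act →
  ∀ (y : Fl p C) (δ δ' : ℝ), 0 < δ → δ < δ' →
    (∀ h, (∀ a, Alg a → (act h).1 a = a) → ‖(gF p act h).1 y - y‖ ≤ δ) →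
    ∃ w, Fo act w ∧ ‖y - w‖ ≤ δ'

/-- stabilisers of algebraic elements are open for the action on the tilt -/
def KRAS : Prop := ∀ (ψ : ℚ_[p] → C) (H : Type) [Group H] (act : H →* Iso C), Ok p ψ act →
  ∀ a : C, Alg a → ∃ t : Finset (Fl p C), (∀ y ∈ t, Fo act y) ∧
    ∀ h, (∀ y ∈ t, (gF p act h).1 y = y) → (act h).1 a = a

/-- `ℤ[ε ^ b]` is dense in the invariants of `O^♭` -/
def KAP : Prop := ∀ (ψ : ℚ_[p] → C) (H : Type) [Group H] (act : H →* Iso C) (ok : Ok p ψ act)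
  (k : Fl p C), (∀ h, (gF p act h).1 k = k) → ‖k‖ ≤ 1 → ∀ η : ℝ, 0 < η →
    ∃ q ∈ AddSubgroup.closure (Set.range ok.psi.ep), ‖k - q‖ ≤ η

/-- almost purity: equivariant maps to `Y[p]` are represented by equivariant maps to the tilt -/
def APU : Prop := ∀ (ψ : ℚ_[p] → C) (H A : Type) [Group H] [AddCommGroup A] [Finite A]
  (act : H →* Iso C) (ρ : H →* AddMonoid.End A) (ok : Ok p ψ act), Opn act ρ →
  (∀ a : A, p • a = 0) → ∀ x : A →+ Y p C, Eqv act ρ x →
    ∃ d : A →+ Fl p C, (∀ h a, d (ρ h a) = (gF p act h).1 (d a)) ∧ ∀ a, ok.psi.R (x a) 8 (d a)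

/-- `SURJ` for groups killed by `p` -/
def SURJ1 : Prop := ∀ (ψ : ℚ_[p] → C) (H A : Type) [Group H]
  [AddCommGroup A] [Finite A] (act : H →* Iso C) (ρ : H →* AddMonoid.End A) (ok : Ok p ψ act),
  Opn act ρ → (∀ a : A, p • a = 0) →
  ∀ U : AddSubgroup (A →+ Y p C), (∀ u ∈ U, Eqv act ρ u) →
    (∀ u ∈ U, ∀ b, (ok.psi.n b).comp u ∈ U) →
    (∀ u ∈ U, (Y.phi p C).toAddMonoidHom.comp u ∈ U) →
    (∀ u ∈ U, (Y.phi p C).symm.toAddMonoidHom.comp u ∈ U) →
    (∀ a, (∀ u ∈ U, u a = 0) → a = 0) →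
    ∀ x, Eqv act ρ x → ∀ b, (ok.psi.n b).comp x - x ∈ U

end Vale.Agent.P022K.WB
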