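import Vale.Agent.P022K.WB.Noe

/-!
# P022K, block WB: lemma K in the strong form and lemma Z
-/

set_option autoImplicit false

noncomputable section

namespace Vale.Agent.P022K.WB

variable {p : ℕ} [Fact p.Prime]

theorem unit_eq (a : ℚ_[p]ˣ) : ∃ (n : ℤ) (u : ℚ_[p]ˣ), ‖(u : ℚ_[p])‖ = 1 ∧ a = pu p ^ n * u := by
  refine ⟨(a : ℚ_[p]).valuation, (pu p ^ (a : ℚ_[p]).valuation)⁻¹ * a, ?_, by group⟩
  rw [Units.val_mul, Units.val_inv_eq_inv_val, Units.val_zpow_eq_zpow_val, pu_val, norm_mul,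
    norm_inv, Padic.norm_p_zpow, Padic.norm_eq_zpow_neg_valuation a.ne_zero]
  exact inv_mul_cancel₀ (zpow_ne_zero _ (Nat.cast_ne_zero.2 (Fact.out : p.Prime).ne_zero))

/-- the diagonal embedding -/
def ddH : ℚ_[p]ˣ × ℚ_[p]ˣ →* G2 p where
  toFun x := dd x.1 x.2
  map_one' := dd_one
  map_mul' _ _ := dd_mul _ _ _ _

theorem dd_zpow (a d : ℚ_[p]ˣ) (n : ℤ) : dd a d ^ n = dd (a ^ n) (d ^ n) :=
  (map_zpow ddH (a, d) n).symm

/-- `B = N t ^ ℤ z ^ ℤ T(ℤ_p)` -/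
theorem BB_eq' {g : G2 p} (h : g ∈ BB p) : ∃ (b : ℚ_[p]) (i j : ℤ) (a d : ℚ_[p]ˣ),
    ‖(a : ℚ_[p])‖ = 1 ∧ ‖(d : ℚ_[p])‖ = 1 ∧ g = nn b * tt p ^ i * zz p ^ j * dd a d := by
  obtain ⟨b, a, d, rfl⟩ := BB_eq h
  obtain ⟨i, a, ha, rfl⟩ := unit_eq a
  obtain ⟨j, d, hd, rfl⟩ := unit_eq d
  refine ⟨b, i - j, j, a, d, ha, hd, ?_⟩
  rw [tt, zz, dd_zpow, dd_zpow, mul_assoc, mul_assoc, ← dd_mul, ← dd_mul, ← mul_assoc,
    ← zpow_add, sub_add_cancel, one_zpow, one_mul]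

section

variable {R M : Type*} [CommRing R] [AddCommGroup M] [Module R M]
  {ρ : Representation R (G2 p) M}

/-- stable under `N(ℚ_p)`, `t` and `z` -/
structure Pst (ρ : Representation R (G2 p) M) (U : AddSubgroup M) : Prop where
  n : ∀ b, ∀ u ∈ U, ρ (nn b) u ∈ U
  t : ∀ u ∈ U, ρ (tt p) u ∈ U
  t' : ∀ u ∈ U, ρ (tt p)⁻¹ u ∈ U
  z : ∀ u ∈ U, ρ (zz p) u ∈ U
  z' : ∀ u ∈ U, ρ (zz p)⁻¹ u ∈ U

theorem zpow_stab {U : AddSubgroup M} {g : G2 p} (h : ∀ u ∈ U, ρ g u ∈ U)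
    (h' : ∀ u ∈ U, ρ g⁻¹ u ∈ U) (n : ℤ) : ∀ u ∈ U, ρ (g ^ n) u ∈ U := by
  induction n using Int.induction_on with
  | zero => intro u hu; simpa using hu
  | succ n ih =>
    intro u hu
    rw [zpow_add_one, rho_mul]
    exact ih _ (h u hu)
  | pred n ih =>
    intro u hu
    rw [zpow_sub_one, rho_mul]
    exact ih _ (h' u hu)

/-- `G S = P S` for the invariants `S` -/
theorem Pst.mem {U : AddSubgroup M} (hU : Pst ρ U) {P : Submodule R M} (hP : Gs ρ P)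
    (hS : ∀ v ∈ P, v ∈ Fx ρ (I1 p) → v ∈ U) {v : M} (hvP : v ∈ P) (hv : v ∈ Fx ρ (I1 p))
    (g : G2 p) : ρ g v ∈ U := by
  have hB : ∀ b ∈ BB p, ∀ v ∈ P, v ∈ Fx ρ (I1 p) → ρ b v ∈ U := fun b hb v h1 h2 => by
    obtain ⟨b, i, j, a, d, ha, hd, rfl⟩ := BB_eq' hb
    rw [rho_mul, rho_mul, rho_mul]
    exact hU.n _ _ (zpow_stab hU.t hU.t' _ _ (zpow_stab hU.z hU.z' _ _
      (hS _ (hP _ _ h1) (dd_Fx ha hd h2))))
  obtain ⟨b, hb, ⟨c, hc, rfl⟩ | ⟨c, hc, rfl⟩⟩ := iwasawa g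
  · rw [rho_mul, hv _ (nl_I1 hc)]
    exact hB b hb v hvP hv
  · rw [rho_mul, hv _ (nn_I1 hc), ww_eq, ← mul_assoc, rho_mul, rho_mul (PP p)]
    exact hB _ (mul_mem hb tt_BB) _ (hP _ _ (hP _ _ hvP)) (PP_Fx (zi_Fx hv))

/-- the part killed by `p` -/
def tp (p : ℕ) (P : Submodule R M) : Submodule R M :=
  P ⊓ LinearMap.ker ((p : ℕ) • (LinearMap.id : M →ₗ[R] M))

omit [Fact p.Prime] in
theorem mem_tp {P : Submodule R M} {v : M} : v ∈ tp p P ↔ v ∈ P ∧ p • v = 0 := by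
  simp [tp]

theorem Gs.tp {P : Submodule R M} (h : Gs ρ P) : Gs ρ (tp p P) := fun g v hv =>
  mem_tp.2 ⟨h g v (mem_tp.1 hv).1, by rw [← map_nsmul, (mem_tp.1 hv).2, map_zero]⟩

/-- a non-zero admissible module has non-zero invariants -/
theorem Adm.exists_fix {P : Submodule R M} (h : Adm ρ P) {u : M} (hu : u ∈ P) (h0 : u ≠ 0) :
    ∃ v ∈ P, v ≠ 0 ∧ p • v = 0 ∧ v ∈ Fx ρ (I1 p) := by
  obtain ⟨n, h1, h2⟩ := exists_tor h0 (h.tor u hu)
  obtain ⟨v, h3, h4, h5⟩ := exists_fix_B (ρ := ρ) (tp p P).toAddSubgroup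
    (fun b _ u hu => h.gs.tp b u hu) (u := p ^ n • u) (mem_tp.2 ⟨nsmul_mem hu _, h2⟩) h1 h2
    ((h.sm u hu).nsmul _)
  exact ⟨v, (mem_tp.1 h3).1, h4, (mem_tp.1 h3).2, h5⟩

/-- the largest stable submodule of a submodule -/
def core (ρ : Representation R (G2 p) M) (U : Submodule R M) : Submodule R M :=
  ⨅ g, U.comap (ρ g)

theorem mem_core {U : Submodule R M} {v : M} : v ∈ core ρ U ↔ ∀ g, ρ g v ∈ U := by
  simp [core]

theorem core_le {U : Submodule R M} : core ρ U ≤ U := fun v hv => by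
  simpa using mem_core.1 hv 1

theorem core_gs (U : Submodule R M) : Gs ρ (core ρ U) := fun g v hv => mem_core.2 fun h => by
  rw [← rho_mul]
  exact mem_core.1 hv _

/-- the quotient by a stable submodule -/
def quo (ρ : Representation R (G2 p) M) {Q : Submodule R M} (h : Gs ρ Q) :
    Representation R (G2 p) (M ⧸ Q) := ρ.quotient Q fun g v hv => h g v hv

theorem quo_mk {Q : Submodule R M} (h : Gs ρ Q) (g : G2 p) (v : M) :
    Q.mkQ (ρ g v) = quo ρ h g (Q.mkQ v) := rfl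

end

section

variable {R M : Type*} [CommRing R] [AddCommGroup M] [Module R M]
  {ρ : Representation R (G2 p) M} {Y : Type*} [AddCommGroup Y]

/-- the kernel of an additive map as a submodule -/
def kerS (W : M →+ Y) (hR : ∀ (c : R) v, W v = 0 → W (c • v) = 0) : Submodule R M where
  carrier := {v | W v = 0}
  add_mem' {a b} ha hb := by
    have h1 : W a = 0 := ha
    have h2 : W b = 0 := hb
    show W (a + b) = 0
    rw [map_add, h1, h2, add_zero]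
  zero_mem' := map_zero W
  smul_mem' := hR

/-- the map induced on a quotient -/
def liftW (W : M →+ Y) (Q : Submodule R M) (h : ∀ v ∈ Q, W v = 0) : M ⧸ Q →+ Y :=
  QuotientAddGroup.lift Q.toAddSubgroup W h

theorem liftW_mk (W : M →+ Y) (Q : Submodule R M) (h : ∀ v ∈ Q, W v = 0) (v : M) :
    liftW W Q h (Q.mkQ v) = W v := rfl

/-- **lemma K**: the kernel is stable under the group -/
theorem Wk.strong {W : M →+ Y} {ψ : Y → Y} (h : Wk ρ W ψ)
    (hR : ∀ (c : R) v, W v = 0 → W (c • v) = 0) {P : Submodule R M} (hP : Adm ρ P) {v : M}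
    (hv : v ∈ P) (h0 : W v = 0) (g : G2 p) : W (ρ g v) = 0 := by
  set Q := core ρ (kerS W hR)
  have hQ : Gs ρ Q := core_gs _
  have h1 : ∀ v ∈ Q, W v = 0 := fun v hv => core_le hv
  have h2 : Wk (quo ρ hQ) (liftW W Q h1) ψ :=
    { bs := fun b hb v => by
        obtain ⟨v, rfl⟩ := Q.mkQ_surjective v
        exact h.bs b hb v
      ps := fun v => by
        obtain ⟨v, rfl⟩ := Q.mkQ_surjective v
        exact h.ps v
      nf := h.nf }
  by_cases e : Q.mkQ v = 0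
  · exact mem_core.1 ((Submodule.Quotient.mk_eq_zero Q).1 e) g
  · obtain ⟨_, ⟨u, -, rfl⟩, h3, h4⟩ := h2.kk (hP.map Q.mkQ fun g v _ => quo_mk hQ g v)
      (Submodule.mem_map_of_mem hv) e h0
    exact absurd ((Submodule.Quotient.mk_eq_zero Q).2 (mem_core.2 h4)) h3

/-- **lemma Z** -/
theorem zed {W : M →+ Y} (hR : ∀ (c : R) v, W v = 0 → W (c • v) = 0)
    (hk : Pst ρ W.ker) {ν : ℚ_[p] → Y → Y} {φ : Y → Y}
    (hν : ∀ b : ℚ_[p], ‖b‖ ≤ 1 → ∀ v, W (ρ (nn b) v) = ν b (W v))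
    (hφ : ∀ v, W (ρ (tt p) v) = φ (W v))
    (hY : ∀ S : Set Y, S.Finite → (∀ s ∈ S, p • s = 0) →
      S ⊆ AddSubgroup.closure {y | ∃ b : ℚ_[p], ‖b‖ ≤ 1 ∧ ∃ s ∈ S, y = ν b (φ s)} → S ⊆ {0})
    {P : Submodule R M} (hP : Adm ρ P) {v : M} (hv : v ∈ P) : W v = 0 := by
  set Q := core ρ (kerS W hR)
  have hQ : Gs ρ Q := core_gs _
  have h1 : ∀ v ∈ Q, W v = 0 := fun v hv => core_le hv
  by_cases e : Q.mkQ v = 0
  · exact h1 v ((Submodule.Quotient.mk_eq_zero Q).1 e)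
  exfalso
  have hA := hP.map Q.mkQ fun g v _ => quo_mk hQ g v
  set W' := liftW W Q h1
  set ρ' := quo ρ hQ
  have hk' : Pst ρ' W'.ker := by
    refine ⟨fun b u => ?_, fun u => ?_, fun u => ?_, fun u => ?_, fun u => ?_⟩ <;>
      obtain ⟨u, rfl⟩ := Q.mkQ_surjective u
    exacts [hk.n b u, hk.t u, hk.t' u, hk.z u, hk.z' u]
  have hS := hY (W' '' {v | v ∈ P.map Q.mkQ ∧ p • v = 0 ∧ v ∈ Fx ρ' (I1 p)}) (hA.fin.image _)
    (by
      rintro _ ⟨u, hu, rfl⟩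
      rw [← map_nsmul, hu.2.1, map_zero])
    (by
      rintro _ ⟨u, hu, rfl⟩
      have := soc_mem hA.gs.tp (AddSubgroup.closure {y | ∃ b : ℚ_[p], ‖b‖ ≤ 1 ∧
        ∃ s ∈ tp p (P.map Q.mkQ), s ∈ Fx ρ' (I1 p) ∧ y = ρ' (nn b) (ρ' (tt p) s)})
        (fun b hb a ha => by
          refine AddSubgroup.closure_induction (p := fun a _ => ρ' (nn b) a ∈ _) ?_ (by simp)
            ?_ ?_ ha
          · rintro _ ⟨c, hc, s, h2, h3, rfl⟩
            exact AddSubgroup.subset_closure ⟨b + c, nadd hb hc, s, h2, h3, by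
              rw [nn_add, rho_mul]⟩
          · intro a b _ _ h2 h3
            rw [map_add]
            exact add_mem h2 h3
          · intro a _ h2
            rw [map_neg]
            exact neg_mem h2)
        (fun s h2 h3 => AddSubgroup.subset_closure ⟨0, by simp, s, h2, h3, by simp⟩)
        (mem_tp.2 ⟨hu.1, hu.2.1⟩) hu.2.2
      refine AddSubgroup.closure_induction (p := fun a _ => W' a ∈ AddSubgroup.closure _) ?_
        (by simp) ?_ ?_ this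
      · rintro _ ⟨c, hc, s, h2, h3, rfl⟩
        refine AddSubgroup.subset_closure ⟨c, hc, _, ⟨s, ⟨(mem_tp.1 h2).1, (mem_tp.1 h2).2, h3⟩,
          rfl⟩, ?_⟩
        obtain ⟨s, rfl⟩ := Q.mkQ_surjective s
        exact (hν c hc _).trans (congrArg _ (hφ s))
      · intro a b _ _ h2 h3
        rw [map_add]
        exact add_mem h2 h3
      · intro a _ h2
        rw [map_neg]
        exact neg_mem h2)
  obtain ⟨_, ⟨u, hu, rfl⟩, h3, h4, h5⟩ := hA.exists_fix (Submodule.mem_map_of_mem hv) e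
  refine h3 ((Submodule.Quotient.mk_eq_zero Q).2 (mem_core.2 fun g => ?_))
  exact hk'.mem hA.gs.tp (fun s h6 h7 => hS ⟨s, ⟨(mem_tp.1 h6).1, (mem_tp.1 h6).2, h7⟩, rfl⟩)
    (mem_tp.2 ⟨Submodule.mem_map_of_mem hu, h4⟩) h5 g

/-- transfer: two admissible modules with `B`-maps to the same target; equal values stay equal
under the group -/
theorem transfer [Module R Y] {β : Representation R (BB p) Y} (h : NF β) {M' : Type*}
    [AddCommGroup M'] [Module R M'] {ρ' : Representation R (G2 p) M'} {P : Submodule R M}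
    {P' : Submodule R M'} (hP : Adm ρ P) (hP' : Adm ρ' P') (ι : M →ₗ[R] Y) (ι' : M' →ₗ[R] Y)
    (hι : ∀ (b : BB p) v, ι (ρ b v) = β b (ι v)) (hι' : ∀ (b : BB p) v, ι' (ρ' b v) = β b (ι' v))
    {v : M} {v' : M'} (hv : v ∈ P) (hv' : v' ∈ P') (e : ι v = ι' v') (g : G2 p) :
    ι (ρ g v) = ι' (ρ' g v') := by
  have h1 := hP.map (toCo β ι hι) fun g v _ => toCo_rho β ι hι g v
  have h2 := hP'.map (toCo β ι' hι') fun g v _ => toCo_rho β ι' hι' g v
  have := ev1_inj h (h1.sup h2) (sub_mem (Submodule.mem_sup_left (Submodule.mem_map_of_mem hv))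
    (Submodule.mem_sup_right (Submodule.mem_map_of_mem hv')))
    (by rw [map_sub, ev1_toCo, ev1_toCo, e, sub_self])
  exact congrFun (congrArg Subtype.val (sub_eq_zero.1 this)) g

end

end Vale.Agent.P022K.WB

end
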