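import Vale.Agent.P022K.WB.Gk
import Vale.Agent.P022K.WB.Sw2
import Vale.Agent.P022K.WB.YSt

/-!
# P022K, block WB: carriers, targets, transfer. Definitions and rows.

A carrier is a smooth torsion module `M` for `GL₂(ℚ_p)` over a ring `R` with a Galois module `L`
(`L = Fin 2 → R` with the matrices `r s`, see `mr`) such that the Whittaker pairings
`L × M → Y` have no common kernel in `M`.
-/

set_option autoImplicit false
set_option linter.all false

noncomputable section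

namespace Vale.Agent.P022K.WB

open Matrix Filter

/-- two by two matrices -/
abbrev Mx (R : Type) : Type := Matrix (Fin 2) (Fin 2) R

/-- the maximal compact subgroup -/
abbrev KZ (p : ℕ) [Fact p.Prime] : Type := GL (Fin 2) ℤ_[p]

/-- the inclusion of the maximal compact subgroup -/
def iK (p : ℕ) [Fact p.Prime] : KZ p →* G2 p := GeneralLinearGroup.map (algebraMap ℤ_[p] ℚ_[p])

/-- matrices as a representation -/
def mr {Γ R : Type} [Group Γ] [CommRing R] (r : Γ →* Mx R) : Representation R Γ (Fin 2 → R) :=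
  (Matrix.toLinAlgEquiv' (R := R)).toMonoidHom.comp r

theorem mr_apply {Γ R : Type} [Group Γ] [CommRing R] (r : Γ →* Mx R) (s : Γ) (a : Fin 2 → R) :
    mr r s a = (r s).mulVec a := rfl

/-- change of rings for matrices -/
def mm {Γ R A : Type} [Group Γ] [CommRing R] [CommRing A] (x : R →+* A) (r : Γ →* Mx R) :
    Γ →* Mx A := (x.mapMatrix : Mx R →+* Mx A).toMonoidHom.comp r

/-- the fibre of the discrete module `M` at the `R`-algebra `A` -/
def Hm (R A M : Type) [CommRing R] [CommRing A] [Algebra R A] [AddCommGroup M] [Module R M] :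
    Type := A →ₗ[R] M

namespace Hm

variable {R A M : Type} [CommRing R] [CommRing A] [Algebra R A] [AddCommGroup M] [Module R M]

instance : AddCommGroup (Hm R A M) := inferInstanceAs (AddCommGroup (A →ₗ[R] M))

/-- the underlying map -/
def lin (f : Hm R A M) : A →ₗ[R] M := f

instance : Module A (Hm R A M) where
  smul a f := (f.lin.comp (LinearMap.mulLeft R a) : A →ₗ[R] M)
  one_smul f := LinearMap.ext fun x => congrArg f.lin (one_mul x)
  mul_smul a b f := LinearMap.ext fun x => congrArg f.lin (by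
    show a * b * x = b * (a * x)
    ring)
  smul_zero a := rfl
  smul_add a f g := rfl
  add_smul a b f := LinearMap.ext fun x => by
    show f.lin ((a + b) * x) = f.lin (a * x) + f.lin (b * x)
    rw [add_mul, map_add]
  zero_smul f := LinearMap.ext fun x => by
    show f.lin (0 * x) = 0
    rw [zero_mul, map_zero]

theorem smul_lin (a : A) (f : Hm R A M) (x : A) : (a • f).lin x = f.lin (a * x) := rfl

variable (A) in
/-- the action on the fibre -/
def rep {G : Type} [Group G] (ρ : Representation R G M) : Representation A G (Hm R A M) where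
  toFun g :=
    { toFun := fun f => ((ρ g).comp f.lin : A →ₗ[R] M)
      map_add' := fun f f' => LinearMap.ext fun x => map_add (ρ g) _ _
      map_smul' := fun a f => rfl }
  map_one' := LinearMap.ext fun f => LinearMap.ext fun x => by
    show ρ 1 (f.lin x) = f.lin x
    simp
  map_mul' g h := LinearMap.ext fun f => LinearMap.ext fun x => by
    show ρ (g * h) (f.lin x) = ρ g (ρ h (f.lin x))
    simp

theorem rep_lin {G : Type} [Group G] (ρ : Representation R G M) (g : G) (f : Hm R A M) (x : A) :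
    (rep A ρ g f).lin x = ρ g (f.lin x) := rfl

end Hm

variable (p : ℕ) [Fact p.Prime] (C : Type) [NontriviallyNormedField C] [IsUltrametricDist C]
  [CharZero C]

/-- the local Galois datum (`Γ = Iso C` is meant) -/
structure Lo where
  Γ : Type
  [grp : Group Γ]
  ψ : ℚ_[p] → C
  act : Γ →* Iso C
  χ : Γ →* ℤ_[p]ˣ
  cyc : ∀ g b, (act g).1 (ψ b) = ψ (((χ g : ℤ_[p]) : ℚ_[p]) * b)
  ok : Ok p ψ (act.comp χ.ker.subtype)
  sur : Function.Surjective χ

attribute [instance] Lo.grp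

variable {p C}

namespace Lo

variable (D : Lo p C)

/-- `diag (χ s, 1)` -/
def d (s : D.Γ) : G2 p := dd (Units.map (algebraMap ℤ_[p] ℚ_[p]).toMonoidHom (D.χ s)) 1

/-- the unipotent action on the target -/
def n (b : ℚ_[p]) : Y p C →+ Y p C := D.ok.psi.n b

/-- the Galois action on the target -/
def g (s : D.Γ) : Y p C →+ Y p C := Y.gal (D.act s)

/-- open subsets of the group -/
def Nb (S : Set D.Γ) : Prop :=
  ∃ t : Finset C, (∀ a ∈ t, Alg a) ∧ ∀ s, (∀ a ∈ t, (D.act s).1 a = a) → s ∈ S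

end Lo

section defs

variable (D : Lo p C) {R M L : Type} [CommRing R] [AddCommGroup M] [Module R M] [AddCommGroup L]
  [Module R L] (ρ : Representation R (G2 p) M) (r : Representation R D.Γ L)

/-- **Whittaker pairings** -/
structure Wh (w : L →+ M →+ Y p C) : Prop where
  bal : ∀ (c : R) a v, w (c • a) v = w a (c • v)
  n : ∀ a b v, w a (ρ (nn b) v) = D.n b (w a v)
  t : ∀ a v, w a (ρ (tt p) v) = Y.phi p C (w a v)
  g : ∀ s a v, D.g s (w a v) = w (r s a) (ρ (D.d s) v)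

/-- periodic pairings (slices at an ordinary point) -/
structure Pw (q : ℕ) (w : L →+ M →+ Y p C) : Prop where
  bal : ∀ (c : R) a v, w (c • a) v = w a (c • v)
  n : ∀ a b v, w a (ρ (nn b) v) = D.n b (w a v)
  t : ∀ a v, w a (ρ (tt p ^ q) v) = (Y.phi p C)^[q] (w a v)
  g : ∀ s (i : ℕ), (∀ x : C, x ^ (p ^ q - 1) = 1 → (D.act s).1 x = x ^ p ^ i) →
    ∀ a v, D.g s (w a v) = (Y.phi p C)^[i] (w (r s a) (ρ ((tt p)⁻¹ ^ i * D.d s) v))

/-- **carriers** -/
structure Car : Prop where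
  cen : ∀ a v, ρ (dd a a) v = v
  lad : ∀ v, ∃ P, Adm ρ P ∧ v ∈ P
  inj : ∀ v, (∀ w, Wh D ρ r w → ∀ a, w a v = 0) → v = 0

/-- the action on `L / I L` has an open kernel -/
def Ct (I : Ideal R) : Prop := D.Nb {s | ∀ a, r s a - a ∈ I • (⊤ : Submodule R L)}

/-- continuity for the `p`-adic topology -/
def Cp : Prop := ∀ k : ℕ, Ct D r (Ideal.span {(p : R) ^ k})

variable (p M) in
/-- unbounded exponent -/
def Ub : Prop := ∀ k : ℕ, ∃ v : M, p ^ k • v ≠ 0

/-- **targets** -/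
def Tgt : Prop := ∃ c : ℕ, ∀ l : ℕ, ∃ (P : Submodule R M) (k m : ℕ)
  (w : Fin m → L →+ M →+ Y p C) (lam : Fin m → L →ₗ[R] L), Adm ρ P ∧ (∀ v ∈ P, p ^ k • v = 0) ∧
    (∀ i, Wh D ρ r (w i)) ∧ (∀ v ∈ P, (∀ i a, w i a v = 0) → v = 0) ∧
    (∀ i s a, lam i (r s a) = r s (lam i a)) ∧
    (∀ a : Fin m → L, (∀ v ∈ P, ∑ i, w i (a i) v = 0) → ∃ b, ∑ i, lam i (a i) = p ^ l • b) ∧
    ∀ b, ∃ (a : Fin m → L) (b' : L), p ^ c • b = ∑ i, lam i (a i) + p ^ l • b'

/-- **correspondences** -/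
def Cor {M' : Type} [AddCommGroup M'] [Module R M'] (ρ' : Representation R (G2 p) M') : Prop :=
  ∃ c : ℕ, ∀ (l : ℕ) w, Wh D ρ r w → ∃ Θ : Submodule R (M × M'),
    (∀ g, ∀ x ∈ Θ, (ρ g x.1, ρ' g x.2) ∈ Θ) ∧
    (∀ v, (∀ a, p ^ l • w a v = 0) → ∀ g : G2 p, g.det = 1 → ∃ v', (ρ g v - v, v') ∈ Θ) ∧
    (∀ v', (0, v') ∈ Θ → v' = 0) ∧ ∀ v, (v, 0) ∈ Θ → ∀ a, p ^ c • w a v = 0

variable {n : Type} [Fintype n] [DecidableEq n] (τ : KZ p →* Matrix n n R) (U : Subgroup (KZ p))

/-- the action of `K` on `τ ⊗ M` -/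
def ac (g : KZ p) (F : n → M) : n → M := fun j => ∑ k, τ g j k • ρ (iK p g) (F k)

/-- invariant vectors -/
def Lw (F : n → M) : Prop := ∀ g ∈ U, ac ρ τ g F = F

/-- the type `(τ, U, e)` occurs -/
def Occ (e : KZ p →₀ R) : Prop := ∀ k : ℕ, ∃ F, Lw ρ τ U F ∧
  p ^ k • (e.sum fun g c => c • ac ρ τ g F) ≠ 0

/-- no coinvariants under the elements of determinant one -/
def Nc : Prop := ∃ c : ℕ, ∀ f : n → R, p ^ c • f ∈
  Submodule.span R {x | ∃ g ∈ U, g.det = 1 ∧ ∃ f', x = f' ᵥ* τ g - f'}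

/-- absolutely irreducible up to isogeny -/
def Irr {Γ : Type} [Group Γ] (r : Γ →* Mx R) (p : ℕ) : Prop :=
  ∃ c : ℕ, ∀ x : Mx R, p ^ c • x ∈ Submodule.span R (Set.range r)

variable {ι : Type} [DecidableEq ι] (σ : ι → Representation R (G2 p) M)

/-- the actions commute -/
def Cm : Prop := ∀ v w, v ≠ w → ∀ g h z, σ v g (σ w h z) = σ w h (σ v g z)

/-- admissible for the product -/
structure MAd (P : Submodule R M) : Prop where
  gs : ∀ v, Gs (σ v) P
  sm : ∀ v, ∀ z ∈ P, Sm (σ v) z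
  tor : ∀ z ∈ P, ∃ k : ℕ, p ^ k • z = 0
  fin : {z | z ∈ P ∧ p • z = 0 ∧ ∀ v, z ∈ Fx (σ v) (Kn p 2)}.Finite

/-- the type `τ` of `K` occurs at all places -/
def MOcc : Prop := ∀ k : ℕ, ∃ F : (ι → n) → M,
  (∀ v g x, ∑ j, τ g (x v) j • σ v (iK p g) (F (Function.update x v j)) = F x) ∧ p ^ k • F ≠ 0

end defs

/-- the coefficient rings -/
class Cr (p : ℕ) (O : Type) [CommRing O] : Prop where
  dom : IsDomain O
  dvr : IsDiscreteValuationRing O
  fin : ∀ k : ℕ, Finite (O ⧸ Ideal.span {(p : O) ^ k})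
  ne : (p : O) ≠ 0
  nu : ¬ IsUnit (p : O)

variable (p C)

/-- row HON: honest pairings from periodic pairings -/
def HON : Prop := ∀ [IsAlgClosed C] (D : Lo p C) (R M L : Type) [CommRing R] [AddCommGroup M]
  [Module R M] [AddCommGroup L] [Module R L] (ρ : Representation R (G2 p) M)
  (r : Representation R D.Γ L) (q : ℕ) (w : L →+ M →+ Y p C), 0 < q → Pw D ρ r q w →
  ∀ v, (∃ k : ℕ, p ^ k • v = 0) → (∀ w', Wh D ρ r w' → ∀ a, w' a v = 0) → ∀ a, w a v = 0

/-- row KER: the common kernel is stable under the group -/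
def KER : Prop := ∀ (D : Lo p C) (R M L : Type) [CommRing R] [AddCommGroup M]
  [Module R M] [AddCommGroup L] [Module R L] (ρ : Representation R (G2 p) M)
  (r : Representation R D.Γ L) (w : L →+ M →+ Y p C), (∀ a v, ρ (dd a a) v = v) →
  (∀ v, ∃ P, Adm ρ P ∧ v ∈ P) → Wh D ρ r w → ∀ (l : ℕ) v, (∀ a, p ^ l • w a v = 0) →
    ∀ g a, p ^ l • w a (ρ g v) = 0

/-- row LIM: patching of the pairings -/
def LIM : Prop := ∀ (D : Lo p C) (R M L : Type) [CommRing R] [AddCommGroup M]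
  [Module R M] [AddCommGroup L] [Module R L] (ρ : Representation R (G2 p) M)
  (r : Representation R D.Γ L) (N : ℕ → Type) [∀ i, AddCommGroup (N i)] [∀ i, Module R (N i)]
  (β : ∀ i, Representation R (G2 p) (N i)) (U : Ultrafilter ℕ) (j : ∀ i, M → N i),
  (∀ a v, ρ (dd a a) v = v) → (∀ v, ∃ P, Adm ρ P ∧ v ∈ P) →
  (∀ i v, (∀ w, Wh D (β i) r w → ∀ a, w a v = 0) → v = 0) →
  (∀ v v', ∀ᶠ i in (U : Filter ℕ), j i (v + v') = j i v + j i v') →
  (∀ (c : R) v, ∀ᶠ i in (U : Filter ℕ), j i (c • v) = c • j i v) →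
  (∀ g v, ∀ᶠ i in (U : Filter ℕ), j i (ρ g v) = β i g (j i v)) →
  (∀ v, v ≠ 0 → ∀ᶠ i in (U : Filter ℕ), j i v ≠ 0) → Car D ρ r

/-- row MC1: admissible for the product implies locally admissible at each place -/
def MC1 : Prop := ∀ (R M ι : Type) [CommRing R] [AddCommGroup M] [Module R M] [Fintype ι]
  [DecidableEq ι] (σ : ι → Representation R (G2 p) M) (P : Submodule R M), Cm σ → MAd σ P →
  ∀ v, ∀ z ∈ P, ∃ Q, Adm (σ v) Q ∧ z ∈ Q

/-- row FG: admissible submodules of a carrier are finitely generated -/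
def FG : Prop := ∀ (D : Lo p C) (R M L : Type) [CommRing R] [AddCommGroup M]
  [Module R M] [AddCommGroup L] [Module R L] (ρ : Representation R (G2 p) M)
  (r : Representation R D.Γ L) (I : Ideal R) (P : Submodule R M), Car D ρ r → Ct D r I →
  Finite (L ⧸ I • (⊤ : Submodule R L)) → Adm ρ P → (∀ c ∈ I, ∀ v ∈ P, c • v = 0) → Fg ρ P

/-- row GKW (export): finite invariants under the elliptic elements -/
def GKW : Prop := ∀ (D : Lo p C) (R M L ι : Type) [CommRing R] [AddCommGroup M]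
  [Module R M] [AddCommGroup L] [Module R L] [Fintype ι] [DecidableEq ι]
  (σ : ι → Representation R (G2 p) M) (r : ι → Representation R D.Γ L) (I : Ideal R)
  (P : Submodule R M) (γ : ι → G2 p), Cm σ → (∀ v, Car D (σ v) (r v)) → (∀ v, Ct D (r v) I) →
  Finite (L ⧸ I • (⊤ : Submodule R L)) → (p : R) ∈ I → MAd σ P → (∀ c ∈ I, ∀ z ∈ P, c • z = 0) →
  (∀ v, Ell 2 (γ v)) → {z | z ∈ P ∧ ∀ v, σ v (γ v) z = z}.Finite

/-- row PT (export): the fibre of a carrier -/
def PT : Prop := ∀ (D : Lo p C) (R A M : Type) [CommRing R] [CommRing A] [Algebra R A]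
  [Module.Finite R A] [AddCommGroup M] [Module R M] (ρ : Representation R (G2 p) M)
  (r : D.Γ →* Mx R), Car D ρ (mr r) → Car D (Hm.rep A ρ) (mr (mm (algebraMap R A) r))

/-- row TGI: irreducible points are targets -/
def TGI : Prop := ∀ (D : Lo p C) (O M : Type) [CommRing O] [Cr p O] [AddCommGroup M] [Module O M]
  (ρ : Representation O (G2 p) M) (r : D.Γ →* Mx O), Car D ρ (mr r) → Irr r p → Ub p M →
  Tgt D ρ (mr r)

/-- row COR: the transfer -/
def COR : Prop := ∀ (D : Lo p C) (O M M' : Type) [CommRing O] [Cr p O] [AddCommGroup M]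
  [Module O M] [AddCommGroup M'] [Module O M'] (ρ : Representation O (G2 p) M)
  (ρ' : Representation O (G2 p) M') (r r' : D.Γ →* Mx O) (h : Mx O), Car D ρ (mr r) →
  (∀ a v, ρ' (dd a a) v = v) → Tgt D ρ' (mr r') → Cp D (mr r') → h.det ≠ 0 →
  (∀ s, r s * h = h * r' s) → Cor D ρ (mr r) ρ'

/-- row OCC: types pass along a correspondence -/
def OCC : Prop := ∀ (D : Lo p C) (O M M' L n : Type) [CommRing O] [AddCommGroup M]
  [Module O M] [AddCommGroup M'] [Module O M'] [AddCommGroup L] [Module O L] [Fintype n]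
  [DecidableEq n] (ρ : Representation O (G2 p) M) (ρ' : Representation O (G2 p) M')
  (r : Representation O D.Γ L) (τ : KZ p →* Matrix n n O) (U : Subgroup (KZ p)) (e : KZ p →₀ O),
  Car D ρ r → Cor D ρ r ρ' → Nc τ U → Occ ρ τ U e → Occ ρ' τ U e

/-- row TR (export): one place -/
def TR : Prop := ∀ (D : Lo p C) (O M M' n : Type) [CommRing O] [Cr p O] [AddCommGroup M]
  [Module O M] [AddCommGroup M'] [Module O M'] [Fintype n] [DecidableEq n]
  (ρ : Representation O (G2 p) M) (ρ' : Representation O (G2 p) M') (r r' : D.Γ →* Mx O)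
  (h : Mx O) (τ : KZ p →* Matrix n n O) (U : Subgroup (KZ p)) (e : KZ p →₀ O), Car D ρ (mr r) →
  (∀ a v, ρ' (dd a a) v = v) → Tgt D ρ' (mr r') → Cp D (mr r') → h.det ≠ 0 →
  (∀ s, r s * h = h * r' s) → Nc τ U → Occ ρ τ U e → Occ ρ' τ U e

/-- row SAT (export): all places, irreducible target -/
def SAT : Prop := ∀ (D : Lo p C) (O M ι n : Type) [CommRing O] [Cr p O] [AddCommGroup M]
  [Module O M] [Fintype ι] [DecidableEq ι] [Fintype n] [DecidableEq n]
  (σ : ι → Representation O (G2 p) M) (r : ι → D.Γ →* Mx O) (τ : KZ p →* Matrix n n O)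
  (N : ι → Type) [∀ v, AddCommGroup (N v)] [∀ v, Module O (N v)]
  (β : ∀ v, Representation O (G2 p) (N v)) (t : ι → D.Γ →* Mx O) (h : ι → Mx O), Cm σ →
  (∀ v, Car D (σ v) (mr (r v))) → (∀ v, Irr (r v) p) → (∀ v, Cp D (mr (r v))) → Ub p M →
  (∀ v, Car D (β v) (mr (t v))) → (∀ v, (h v).det ≠ 0) → (∀ v s, t v s * h v = h v * r v s) →
  Nc τ ⊤ → (∀ v, Occ (β v) τ ⊤ (Finsupp.single 1 1)) → MOcc τ σ

theorem tr_of (h1 : COR p C) (h2 : OCC p C) : TR p C :=
  fun D O M M' n _ _ _ _ _ _ _ _ ρ ρ' r r' h τ U e a b c d f g i j =>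
    h2 D O M M' _ n ρ ρ' (mr r) τ U e a (h1 D O M M' ρ ρ' r r' h a b c d f g) i j

end Vale.Agent.P022K.WB
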