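import Mathlib

/-!
# P022K, block WB: the group `GL₂(ℚ_p)`, its Iwahori subgroup and the basic identities
-/

set_option autoImplicit false

noncomputable section

namespace Vale.Agent.P022K.WB

open Matrix

/-- the group -/
abbrev G2 (p : ℕ) [Fact p.Prime] : Type := GL (Fin 2) ℚ_[p]

variable {p : ℕ} [Fact p.Prime]

/-- the matrix `(a b; c d)` -/
def mk (a b c d : ℚ_[p]) (h : a * d - b * c ≠ 0) : G2 p :=
  Matrix.GeneralLinearGroup.mkOfDetNeZero !![a, b; c, d] (by simpa [Matrix.det_fin_two] using h)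

@[simp] theorem mk_val (a b c d : ℚ_[p]) (h : a * d - b * c ≠ 0) :
    (mk a b c d h : Matrix (Fin 2) (Fin 2) ℚ_[p]) = !![a, b; c, d] := rfl

/-- `(1 b; 0 1)` -/
def nn (b : ℚ_[p]) : G2 p := mk 1 b 0 1 (by simp)

/-- `(1 0; c 1)` -/
def nl (c : ℚ_[p]) : G2 p := mk 1 0 c 1 (by simp)

/-- `diag (a, d)` -/
def dd (a d : ℚ_[p]ˣ) : G2 p := mk a 0 0 d (by simp)

variable (p)

/-- `(0 1; 1 0)` -/
def ww : G2 p := mk 0 1 1 0 (by simp)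

theorem p_ne : (p : ℚ_[p]) ≠ 0 := Nat.cast_ne_zero.2 (Fact.out : p.Prime).ne_zero

/-- `p` as a unit -/
def pu : ℚ_[p]ˣ := Units.mk0 p (p_ne p)

/-- `diag (p, 1)` -/
def tt : G2 p := dd (pu p) 1

/-- `diag (p, p)` -/
def zz : G2 p := dd (pu p) (pu p)

/-- `(0 1; p 0)` -/
def PP : G2 p := ww p * tt p

variable {p}

@[simp] theorem pu_val : ((pu p : ℚ_[p]ˣ) : ℚ_[p]) = p := rfl
@[simp] theorem nn_val (b : ℚ_[p]) : (nn b : Matrix (Fin 2) (Fin 2) ℚ_[p]) = !![1, b; 0, 1] := rfl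
@[simp] theorem nl_val (c : ℚ_[p]) : (nl c : Matrix (Fin 2) (Fin 2) ℚ_[p]) = !![1, 0; c, 1] := rfl
@[simp] theorem dd_val (a d : ℚ_[p]ˣ) :
    (dd a d : Matrix (Fin 2) (Fin 2) ℚ_[p]) = !![(a : ℚ_[p]), 0; 0, (d : ℚ_[p])] := rfl
@[simp] theorem ww_val : (ww p : Matrix (Fin 2) (Fin 2) ℚ_[p]) = !![0, 1; 1, 0] := rfl
@[simp] theorem tt_val : (tt p : Matrix (Fin 2) (Fin 2) ℚ_[p]) = !![(p : ℚ_[p]), 0; 0, 1] := rfl
@[simp] theorem zz_val :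
    (zz p : Matrix (Fin 2) (Fin 2) ℚ_[p]) = !![(p : ℚ_[p]), 0; 0, (p : ℚ_[p])] := rfl
@[simp] theorem PP_val : (PP p : Matrix (Fin 2) (Fin 2) ℚ_[p]) = !![0, 1; (p : ℚ_[p]), 0] := by
  simp [PP]

theorem G2_ext {g h : G2 p}
    (e : (g : Matrix (Fin 2) (Fin 2) ℚ_[p]) = (h : Matrix (Fin 2) (Fin 2) ℚ_[p])) : g = h :=
  Units.ext e

theorem nn_add (a b : ℚ_[p]) : nn (a + b) = nn a * nn b := G2_ext (by simp [add_comm])
@[simp] theorem nn_zero : nn (0 : ℚ_[p]) = 1 := G2_ext (by simp [Matrix.one_fin_two])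
theorem nl_add (a b : ℚ_[p]) : nl (a + b) = nl a * nl b := G2_ext (by simp)
@[simp] theorem nl_zero : nl (0 : ℚ_[p]) = 1 := G2_ext (by simp [Matrix.one_fin_two])
theorem nn_neg (a : ℚ_[p]) : nn (-a) = (nn a)⁻¹ :=
  eq_inv_of_mul_eq_one_left (by rw [← nn_add, neg_add_cancel, nn_zero])
theorem nl_neg (a : ℚ_[p]) : nl (-a) = (nl a)⁻¹ :=
  eq_inv_of_mul_eq_one_left (by rw [← nl_add, neg_add_cancel, nl_zero])
theorem nn_natCast (k : ℕ) : nn (k : ℚ_[p]) = nn 1 ^ k := by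
  induction k with
  | zero => simp
  | succ k ih => rw [Nat.cast_succ, nn_add, ih, pow_succ]
theorem dd_mul (a d a' d' : ℚ_[p]ˣ) : dd (a * a') (d * d') = dd a d * dd a' d' := G2_ext (by simp)
@[simp] theorem dd_one : dd (1 : ℚ_[p]ˣ) 1 = 1 := G2_ext (by simp [Matrix.one_fin_two])
theorem dd_inv (a d : ℚ_[p]ˣ) : dd a⁻¹ d⁻¹ = (dd a d)⁻¹ :=
  eq_inv_of_mul_eq_one_left (by rw [← dd_mul, inv_mul_cancel, inv_mul_cancel, dd_one])
theorem ww_ww : ww p * ww p = 1 := G2_ext (by simp [Matrix.one_fin_two])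
theorem ww_inv : (ww p)⁻¹ = ww p := (eq_inv_of_mul_eq_one_left ww_ww).symm
theorem ww_PP : ww p * PP p = tt p := by rw [PP, ← mul_assoc, ww_ww, one_mul]
theorem PP_PP : PP p * PP p = zz p := G2_ext (by simp)
theorem tt_PP : tt p * PP p = zz p * ww p := G2_ext (by simp)
theorem ww_nn (a : ℚ_[p]) : ww p * nn a = nl a * ww p := G2_ext (by simp)
theorem ww_nl (a : ℚ_[p]) : ww p * nl a = nn a * ww p := G2_ext (by simp)
theorem ww_dd (a d : ℚ_[p]ˣ) : ww p * dd a d = dd d a * ww p := G2_ext (by simp)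
theorem PP_dd (a d : ℚ_[p]ˣ) : PP p * dd a d = dd d a * PP p := G2_ext (by simp [mul_comm])
theorem dd_nn (a d : ℚ_[p]ˣ) (b : ℚ_[p]) :
    dd a d * nn b = nn ((a : ℚ_[p]) * b / (d : ℚ_[p])) * dd a d :=
  G2_ext (by simp)
theorem dd_nl (a d : ℚ_[p]ˣ) (c : ℚ_[p]) :
    dd a d * nl c = nl ((d : ℚ_[p]) * c / (a : ℚ_[p])) * dd a d :=
  G2_ext (by simp)
theorem tt_nn (b : ℚ_[p]) : tt p * nn b = nn ((p : ℚ_[p]) * b) * tt p := G2_ext (by simp)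
theorem nl_tt (c : ℚ_[p]) : nl c * tt p = tt p * nl ((p : ℚ_[p]) * c) :=
  G2_ext (by simp [mul_comm])
theorem dd_comm (a : ℚ_[p]ˣ) (g : G2 p) : dd a a * g = g * dd a a := by
  refine G2_ext ?_
  ext i j
  fin_cases i <;> fin_cases j <;> simp [Matrix.mul_apply, Fin.sum_univ_two, mul_comm]
theorem zz_comm (g : G2 p) : zz p * g = g * zz p := dd_comm _ g

/-- the lower unipotent elements in the big cell -/
theorem nl_eq (l : ℚ_[p]ˣ) : nl (l : ℚ_[p]) =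
    nn ((l⁻¹ : ℚ_[p]ˣ) : ℚ_[p]) * ww p * dd l (-l⁻¹) * nn ((l⁻¹ : ℚ_[p]ˣ) : ℚ_[p]) :=
  G2_ext (by simp)

/-! ## norms -/

theorem nadd {a b : ℚ_[p]} {r : ℝ} (ha : ‖a‖ ≤ r) (hb : ‖b‖ ≤ r) : ‖a + b‖ ≤ r :=
  (Padic.nonarchimedean a b).trans (max_le ha hb)

theorem nadd' {a b : ℚ_[p]} {r : ℝ} (ha : ‖a‖ < r) (hb : ‖b‖ < r) : ‖a + b‖ < r :=
  (Padic.nonarchimedean a b).trans_lt (max_lt ha hb)

theorem nsub {a b : ℚ_[p]} {r : ℝ} (ha : ‖a‖ ≤ r) (hb : ‖b‖ ≤ r) : ‖a - b‖ ≤ r := by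
  rw [sub_eq_add_neg]
  exact nadd ha (by rwa [norm_neg])

theorem nsub' {a b : ℚ_[p]} {r : ℝ} (ha : ‖a‖ < r) (hb : ‖b‖ < r) : ‖a - b‖ < r := by
  rw [sub_eq_add_neg]
  exact nadd' ha (by rwa [norm_neg])

theorem nmul {a b : ℚ_[p]} {r s : ℝ} (ha : ‖a‖ ≤ r) (hb : ‖b‖ ≤ s) : ‖a * b‖ ≤ r * s := by
  rw [norm_mul]
  exact mul_le_mul ha hb (norm_nonneg _) ((norm_nonneg _).trans ha)

theorem nmul1 {a b : ℚ_[p]} {r : ℝ} (ha : ‖a‖ ≤ 1) (hb : ‖b‖ ≤ r) : ‖a * b‖ ≤ r := by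
  simpa using nmul ha hb

theorem nmul2 {a b : ℚ_[p]} {r : ℝ} (ha : ‖a‖ ≤ r) (hb : ‖b‖ ≤ 1) : ‖a * b‖ ≤ r := by
  simpa using nmul ha hb

theorem nmul1' {a b : ℚ_[p]} {r : ℝ} (ha : ‖a‖ ≤ 1) (hb : ‖b‖ < r) : ‖a * b‖ < r :=
  (nmul1 ha le_rfl).trans_lt hb

theorem nmul2' {a b : ℚ_[p]} {r : ℝ} (ha : ‖a‖ < r) (hb : ‖b‖ ≤ 1) : ‖a * b‖ < r :=
  (nmul2 le_rfl hb).trans_lt ha

theorem norm_of_near {a : ℚ_[p]} (h : ‖a - 1‖ < 1) : ‖a‖ = 1 := by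
  have := IsUltrametricDist.norm_add_eq_max_of_norm_ne_norm (x := a - 1) (y := 1)
    (by rw [norm_one]; exact h.ne)
  rwa [sub_add_cancel, norm_one, max_eq_right h.le] at this

theorem norm_le_inv {a : ℚ_[p]} (h : ‖a‖ < 1) : ‖a‖ ≤ (p : ℝ)⁻¹ := by
  have := (Padic.norm_le_pow_iff_norm_lt_pow_add_one a (-1)).2 (by simpa using h)
  simpa using this

theorem norm_div_p {a : ℚ_[p]} (h : ‖a‖ < 1) : ‖a / p‖ ≤ 1 := by
  rw [norm_div, div_le_one (norm_pos_iff.2 (p_ne p)), Padic.norm_p]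
  exact norm_le_inv h

theorem norm_nat (k : ℕ) : ‖(k : ℚ_[p])‖ ≤ 1 := IsUltrametricDist.norm_natCast_le_one _ k

theorem norm_nat_eq {k : ℕ} (h0 : 0 < k) (h : k < p) : ‖(k : ℚ_[p])‖ = 1 := by
  rw [Padic.norm_natCast_eq_one_iff]
  exact (Nat.coprime_of_lt_prime h0.ne' h Fact.out)

theorem exists_digit {b : ℚ_[p]} (h : ‖b‖ ≤ 1) : ∃ x : ZMod p, ‖b - (x.val : ℚ_[p])‖ < 1 := by
  obtain ⟨n, hn, h'⟩ := PadicInt.exists_mem_range (⟨b, h⟩ : ℤ_[p])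
  refine ⟨n, ?_⟩
  rw [ZMod.val_cast_of_lt hn]
  exact PadicInt.mem_nonunits.1 h'

theorem norm_val_add (x y : ZMod p) :
    ‖(x.val : ℚ_[p]) + (y.val : ℚ_[p]) - ((x + y).val : ℚ_[p])‖ < 1 := by
  have h : (x.val : ℚ_[p]) + (y.val : ℚ_[p]) - ((x + y).val : ℚ_[p]) =
      ((((x.val + y.val) / p : ℕ) : ℚ_[p])) * p := by
    have := congrArg (Nat.cast : ℕ → ℚ_[p]) (Nat.mod_add_div (x.val + y.val) p)
    rw [ZMod.val_add]
    push_cast at this ⊢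
    linear_combination -this
  rw [h]
  exact nmul1' (norm_nat _) Padic.norm_p_lt_one

/-! ## subgroups -/

theorem det_ne (g : G2 p) : g 0 0 * g 1 1 - g 0 1 * g 1 0 ≠ 0 := by
  have := g.det_ne_zero
  rwa [Matrix.det_fin_two] at this

theorem inv_val (g : G2 p) : ((g⁻¹ : G2 p) : Matrix (Fin 2) (Fin 2) ℚ_[p]) =
    (g 0 0 * g 1 1 - g 0 1 * g 1 0)⁻¹ • !![g 1 1, -g 0 1; -g 1 0, g 0 0] := by
  have h := det_ne g
  rw [Matrix.GeneralLinearGroup.coe_inv]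
  refine Matrix.inv_eq_left_inv ?_
  ext i j
  fin_cases i <;> fin_cases j <;> simp [Matrix.mul_apply, Fin.sum_univ_two] <;> field_simp <;> ring

theorem mul_ap (g h : G2 p) (i j : Fin 2) : (g * h) i j = g i 0 * h 0 j + g i 1 * h 1 j := by
  simp [Matrix.mul_apply, Fin.sum_univ_two]

variable (p)

/-- the Borel subgroup -/
def BB : Subgroup (G2 p) where
  carrier := {g | g 1 0 = 0}
  mul_mem' {a b} ha hb := by
    simp only [Set.mem_ofPred_eq] at *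
    rw [mul_ap, ha, hb]
    simp
  one_mem' := by simp
  inv_mem' {a} ha := by
    simp only [Set.mem_ofPred_eq] at *
    rw [inv_val]
    simp [ha]

/-- the pro-`p` Iwahori subgroup -/
def I1 : Subgroup (G2 p) where
  carrier := {g | ‖g 0 0 - 1‖ < 1 ∧ ‖g 0 1‖ ≤ 1 ∧ ‖g 1 0‖ < 1 ∧ ‖g 1 1 - 1‖ < 1}
  mul_mem' {a b} ha hb := by
    obtain ⟨a1, a2, a3, a4⟩ := ha
    obtain ⟨b1, b2, b3, b4⟩ := hb
    have a1' := (norm_of_near a1).le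
    have a4' := (norm_of_near a4).le
    have b1' := (norm_of_near b1).le
    have b4' := (norm_of_near b4).le
    simp only [Set.mem_ofPred_eq, mul_ap]
    refine ⟨?_, nadd (nmul1 a1' b2) (nmul1 a2 b4'), nadd' (nmul2' a3 b1') (nmul1' a4' b3), ?_⟩
    · rw [show a 0 0 * b 0 0 + a 0 1 * b 1 0 - 1 =
        (a 0 0 - 1) * b 0 0 + (b 0 0 - 1) + a 0 1 * b 1 0 by ring]
      exact nadd' (nadd' (nmul2' a1 b1') b1) (nmul1' a2 b3)
    · rw [show a 1 0 * b 0 1 + a 1 1 * b 1 1 - 1 =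
        (a 1 1 - 1) * b 1 1 + (b 1 1 - 1) + a 1 0 * b 0 1 by ring]
      exact nadd' (nadd' (nmul2' a4 b4') b4) (nmul2' a3 b2)
  one_mem' := by simp
  inv_mem' {a} ha := by
    obtain ⟨a1, a2, a3, a4⟩ := ha
    have a1' := (norm_of_near a1).le
    have a4' := (norm_of_near a4).le
    have hd := det_ne a
    have h1 : ‖a 0 0 * a 1 1 - a 0 1 * a 1 0 - 1‖ < 1 := by
      rw [show a 0 0 * a 1 1 - a 0 1 * a 1 0 - 1 =
        (a 0 0 - 1) * a 1 1 + (a 1 1 - 1) - a 0 1 * a 1 0 by ring]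
      exact nsub' (nadd' (nmul2' a1 a4') a4) (nmul1' a2 a3)
    have h2 : ‖(a 0 0 * a 1 1 - a 0 1 * a 1 0)⁻¹‖ ≤ 1 := by rw [norm_inv, norm_of_near h1]; simp
    have h3 : ∀ x : ℚ_[p], ‖x - 1‖ < 1 → ‖(a 0 0 * a 1 1 - a 0 1 * a 1 0)⁻¹ * x - 1‖ < 1 := by
      intro x hx
      rw [show (a 0 0 * a 1 1 - a 0 1 * a 1 0)⁻¹ * x - 1 = (a 0 0 * a 1 1 - a 0 1 * a 1 0)⁻¹ *
        ((x - 1) - (a 0 0 * a 1 1 - a 0 1 * a 1 0 - 1)) by field_simp; ring]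
      exact nmul1' h2 (nsub' hx h1)
    simp only [Set.mem_ofPred_eq, inv_val, Matrix.smul_apply, smul_eq_mul, Matrix.of_apply,
      Matrix.cons_val', Matrix.cons_val_zero, Matrix.cons_val_one, Matrix.cons_val_fin_one]
    exact ⟨h3 _ a4, nmul1 h2 (by rwa [norm_neg]), nmul1' h2 (by rwa [norm_neg]), h3 _ a1⟩

variable {p}

theorem mem_BB {g : G2 p} : g ∈ BB p ↔ g 1 0 = 0 := Iff.rfl

theorem mem_I1 {g : G2 p} :
    g ∈ I1 p ↔ ‖g 0 0 - 1‖ < 1 ∧ ‖g 0 1‖ ≤ 1 ∧ ‖g 1 0‖ < 1 ∧ ‖g 1 1 - 1‖ < 1 := Iff.rfl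

theorem nn_BB (b : ℚ_[p]) : nn b ∈ BB p := by simp [mem_BB]
theorem dd_BB (a d : ℚ_[p]ˣ) : dd a d ∈ BB p := by simp [mem_BB]
theorem tt_BB : tt p ∈ BB p := dd_BB _ _
theorem zz_BB : zz p ∈ BB p := dd_BB _ _
theorem nn_I1 {b : ℚ_[p]} (h : ‖b‖ ≤ 1) : nn b ∈ I1 p := by simp [mem_I1, h]
theorem nl_I1 {c : ℚ_[p]} (h : ‖c‖ < 1) : nl c ∈ I1 p := by simp [mem_I1, h]

/-- an element of the Borel subgroup is a unipotent times a diagonal matrix -/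
theorem BB_eq {g : G2 p} (h : g ∈ BB p) : ∃ b a d, g = nn b * dd a d := by
  have hd := det_ne g
  rw [mem_BB.1 h, mul_zero, sub_zero] at hd
  have h0 := left_ne_zero_of_mul hd
  have h1 := right_ne_zero_of_mul hd
  refine ⟨g 0 1 / g 1 1, Units.mk0 _ h0, Units.mk0 _ h1, G2_ext ?_⟩
  ext i j
  fin_cases i <;> fin_cases j <;> simp [h1, mem_BB.1 h]

theorem fac_nl (g : G2 p) (h : g 1 1 ≠ 0) : g * (nl (g 1 0 / g 1 1))⁻¹ ∈ BB p := by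
  rw [← nl_neg, mem_BB, mul_ap]
  simp [mul_div_cancel₀ _ h]

/-- the Iwahori factorisation -/
theorem I1_fac {g : G2 p} (h : g ∈ I1 p) :
    ∃ b ∈ BB p, b ∈ I1 p ∧ ∃ c, ‖c‖ < 1 ∧ ‖c‖ = ‖g 1 0‖ ∧ g = b * nl c := by
  have h1 := norm_of_near h.2.2.2
  have h2 : ‖g 1 0 / g 1 1‖ = ‖g 1 0‖ := by rw [norm_div, h1, div_one]
  have h3 : ‖g 1 0 / g 1 1‖ < 1 := h2 ▸ h.2.2.1
  exact ⟨_, fac_nl g (norm_pos_iff.1 (h1 ▸ one_pos)), mul_mem h (inv_mem (nl_I1 h3)), _, h3, h2,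
    by group⟩

/-- `G = B I₁ ∪ B w I₁` -/
theorem iwasawa (g : G2 p) : ∃ b ∈ BB p, (∃ c, ‖c‖ < 1 ∧ g = b * nl c) ∨
    ∃ c, ‖c‖ ≤ 1 ∧ g = b * ww p * nn c := by
  by_cases h : ‖g 1 0‖ < ‖g 1 1‖
  · have h0 : 0 < ‖g 1 1‖ := (norm_nonneg _).trans_lt h
    exact ⟨_, fac_nl g (norm_pos_iff.1 h0), Or.inl ⟨_, by rwa [norm_div, div_lt_one h0],
      by group⟩⟩
  · have h0 : g 1 0 ≠ 0 := fun e => by
      have hd := det_ne g
      rw [e, norm_zero, not_lt, norm_le_zero_iff] at h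
      rw [e, h] at hd
      simp at hd
    refine ⟨g * (nn (g 1 1 / g 1 0))⁻¹ * (ww p)⁻¹, ?_, Or.inr ⟨g 1 1 / g 1 0, ?_, by group⟩⟩
    · rw [← nn_neg, ww_inv, mem_BB, mul_ap, mul_ap, mul_ap]
      simp [mul_div_cancel₀ _ h0]
    · rw [norm_div, div_le_one (norm_pos_iff.2 h0)]
      exact not_lt.1 h

theorem PP_conj {g : G2 p} (h : g ∈ I1 p) : (PP p)⁻¹ * g * PP p ∈ I1 p := by
  have e : ((PP p)⁻¹ * g * PP p : G2 p) = mk (g 1 1) (g 1 0 / p) (p * g 0 1) (g 0 0) (by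
      have := det_ne g
      have h2 := p_ne p
      rwa [show g 1 1 * g 0 0 - g 1 0 / p * (p * g 0 1) = g 0 0 * g 1 1 - g 0 1 * g 1 0 by
        field_simp]) := by
    rw [mul_assoc, inv_mul_eq_iff_eq_mul]
    refine G2_ext ?_
    have h2 := p_ne p
    ext i j
    fin_cases i <;> fin_cases j <;> simp [Matrix.mul_apply, Fin.sum_univ_two, mul_comm] <;>
      field_simp
  rw [e, mem_I1]
  simpa using ⟨h.2.2.2, by simpa using norm_div_p h.2.2.1,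
    by simpa using nmul2' Padic.norm_p_lt_one h.2.1, h.1⟩

theorem dd_conj {a d : ℚ_[p]ˣ} (ha : ‖(a : ℚ_[p])‖ = 1) (hd : ‖(d : ℚ_[p])‖ = 1) {g : G2 p}
    (h : g ∈ I1 p) : (dd a d)⁻¹ * g * dd a d ∈ I1 p := by
  rw [← dd_inv, mem_I1]
  simp only [mul_ap]
  simpa [ha, hd, mul_comm, mul_left_comm] using mem_I1.1 h

theorem nw_conj {g : G2 p} (h : g ∈ I1 p) {l l' : ℚ_[p]} (hl : ‖l‖ ≤ 1) (hl' : ‖l'‖ ≤ 1)
    (e : ‖l + g 0 1 - l'‖ < 1) : (nn l' * ww p)⁻¹ * g * (nn l * ww p) ∈ I1 p := by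
  obtain ⟨a1, a2, a3, a4⟩ := h
  have hD : ‖g 1 0 * l + g 1 1 - 1‖ < 1 := by
    rw [add_sub_assoc]
    exact nadd' (nmul2' a3 hl) a4
  rw [_root_.mul_inv_rev, ← nn_neg, ww_inv, mem_I1]
  simp only [mul_ap]
  simp only [ww_val, nn_val, Matrix.of_apply, Matrix.cons_val', Matrix.cons_val_zero,
    Matrix.cons_val_one, Matrix.cons_val_fin_one]
  refine ⟨?_, ?_, ?_, ?_⟩
  · convert hD using 2
    ring
  · simpa using a3.le
  · convert nsub' (nadd' (nmul2' a1 hl) e) (nmul1' hl' hD) using 2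
    ring
  · convert nsub' a1 (nmul1' hl' a3) using 2
    ring

/-! ## congruence subgroups -/

/-- all entries have norm at most `r` -/
def En (r : ℝ) (X : Matrix (Fin 2) (Fin 2) ℚ_[p]) : Prop := ∀ i j, ‖X i j‖ ≤ r

theorem En.add {r : ℝ} {X Y : Matrix (Fin 2) (Fin 2) ℚ_[p]} (h : En r X) (h' : En r Y) :
    En r (X + Y) := fun i j => nadd (h i j) (h' i j)

theorem En.neg {r : ℝ} {X : Matrix (Fin 2) (Fin 2) ℚ_[p]} (h : En r X) : En r (-X) :=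
  fun i j => by simpa using h i j

theorem En.mul {r s : ℝ} {X Y : Matrix (Fin 2) (Fin 2) ℚ_[p]} (h : En r X) (h' : En s Y) :
    En (r * s) (X * Y) := fun i j => by
  rw [Matrix.mul_apply, Fin.sum_univ_two]
  exact nadd (nmul (h _ _) (h' _ _)) (nmul (h _ _) (h' _ _))

theorem En.mono {r s : ℝ} {X : Matrix (Fin 2) (Fin 2) ℚ_[p]} (h : En r X) (e : r ≤ s) : En s X :=
  fun i j => (h i j).trans e

theorem En.smul {r s : ℝ} {a : ℚ_[p]} {X : Matrix (Fin 2) (Fin 2) ℚ_[p]} (ha : ‖a‖ ≤ r)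
    (h : En s X) : En (r * s) (a • X) := fun i j => nmul ha (h i j)

theorem En.one : En 1 (1 : Matrix (Fin 2) (Fin 2) ℚ_[p]) := fun i j => by
  rw [Matrix.one_apply]
  split_ifs <;> simp

theorem En.of_sub {r : ℝ} (hr : r ≤ 1) {X : Matrix (Fin 2) (Fin 2) ℚ_[p]} (h : En r (X - 1)) :
    En 1 X := by
  simpa using (h.mono hr).add En.one

/-- the radius `p ^ (-n)` -/
def rad (p n : ℕ) : ℝ := ((p : ℝ)⁻¹) ^ n

theorem pinv_pos : 0 < (p : ℝ)⁻¹ := inv_pos.2 (Nat.cast_pos.2 (Fact.out : p.Prime).pos)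

theorem pinv_lt : (p : ℝ)⁻¹ < 1 :=
  inv_lt_one_of_one_lt₀ (Nat.one_lt_cast.2 (Fact.out : p.Prime).one_lt)

theorem rad_le {m n : ℕ} (h : m ≤ n) : rad p n ≤ rad p m :=
  pow_le_pow_of_le_one pinv_pos.le pinv_lt.le h

theorem rad_le_one (n : ℕ) : rad p n ≤ 1 := pow_le_one₀ pinv_pos.le pinv_lt.le

theorem rad_lt_one {n : ℕ} (h : 0 < n) : rad p n < 1 := pow_lt_one₀ pinv_pos.le pinv_lt h.ne'

theorem norm_pow_p (n : ℕ) : ‖(p : ℚ_[p]) ^ n‖ = rad p n := by rw [norm_pow, Padic.norm_p, rad]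

variable (p)

/-- the principal congruence subgroups; `Kn p 0 = GL₂(ℤ_p)` -/
def Kn (n : ℕ) : Subgroup (G2 p) where
  carrier := {g | En (rad p n) ((g : Matrix (Fin 2) (Fin 2) ℚ_[p]) - 1) ∧
    En 1 ((g⁻¹ : G2 p) : Matrix (Fin 2) (Fin 2) ℚ_[p])}
  mul_mem' {a b} ha hb := by
    refine ⟨?_, ?_⟩
    · rw [Units.val_mul, show (a : Matrix (Fin 2) (Fin 2) ℚ_[p]) * b - 1 =
        (a - 1) * b + (b - 1) by noncomm_ring]
      exact En.add (by simpa using ha.1.mul (hb.1.of_sub (rad_le_one n))) hb.1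
    · rw [_root_.mul_inv_rev, Units.val_mul]
      simpa using hb.2.mul ha.2
  one_mem' := ⟨fun i j => by simp [rad], by simpa using En.one⟩
  inv_mem' {a} ha := by
    refine ⟨?_, by simpa using ha.1.of_sub (rad_le_one n)⟩
    have e : ((a⁻¹ : G2 p) : Matrix (Fin 2) (Fin 2) ℚ_[p]) - 1 =
        -(((a⁻¹ : G2 p) : Matrix (Fin 2) (Fin 2) ℚ_[p]) * (a - 1)) := by
      rw [mul_sub, Units.inv_mul, mul_one, neg_sub]
    rw [e]
    exact En.neg (by simpa only [one_mul] using ha.2.mul ha.1)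

variable {p}

theorem mem_Kn {n : ℕ} {g : G2 p} : g ∈ Kn p n ↔
    En (rad p n) ((g : Matrix (Fin 2) (Fin 2) ℚ_[p]) - 1) ∧
      En 1 ((g⁻¹ : G2 p) : Matrix (Fin 2) (Fin 2) ℚ_[p]) := Iff.rfl

theorem Kn_anti {m n : ℕ} (h : m ≤ n) : Kn p n ≤ Kn p m :=
  fun _ hg => ⟨hg.1.mono (rad_le h), hg.2⟩

theorem Kn_en {n : ℕ} {g : G2 p} (h : g ∈ Kn p n) : En 1 (g : Matrix (Fin 2) (Fin 2) ℚ_[p]) :=
  h.1.of_sub (rad_le_one n)

theorem mem_K0 {g : G2 p} : g ∈ Kn p 0 ↔ En 1 (g : Matrix (Fin 2) (Fin 2) ℚ_[p]) ∧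
    En 1 ((g⁻¹ : G2 p) : Matrix (Fin 2) (Fin 2) ℚ_[p]) :=
  ⟨fun h => ⟨Kn_en h, h.2⟩, fun h => ⟨by
    rw [sub_eq_add_neg]
    simpa [rad] using h.1.add En.one.neg, h.2⟩⟩

theorem I1_en {g : G2 p} (h : g ∈ I1 p) : En 1 (g : Matrix (Fin 2) (Fin 2) ℚ_[p]) := fun i j => by
  fin_cases i <;> fin_cases j
  exacts [(norm_of_near h.1).le, h.2.1, h.2.2.1.le, (norm_of_near h.2.2.2).le]

theorem I1_le_K0 : I1 p ≤ Kn p 0 := fun _ h => mem_K0.2 ⟨I1_en h, I1_en (inv_mem h)⟩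

theorem Kn_le_I1 {n : ℕ} (hn : 0 < n) : Kn p n ≤ I1 p := fun g h => by
  have := fun i j => (h.1 i j).trans_lt (rad_lt_one hn)
  exact ⟨by simpa using this 0 0, by simpa using (this 0 1).le, by simpa using this 1 0,
    by simpa using this 1 1⟩

theorem Kn_conj {n : ℕ} {k g : G2 p} (hk : k ∈ Kn p 0) (h : g ∈ Kn p n) :
    k⁻¹ * g * k ∈ Kn p n := by
  refine ⟨?_, (mul_mem (mul_mem (inv_mem hk) (Kn_anti n.zero_le h)) hk).2⟩
  have e : ((k⁻¹ * g * k : G2 p) : Matrix (Fin 2) (Fin 2) ℚ_[p]) - 1 =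
      ((k⁻¹ : G2 p) : Matrix (Fin 2) (Fin 2) ℚ_[p]) * (g - 1) * k := by
    rw [mul_sub, sub_mul, mul_one, Units.inv_mul, Units.val_mul, Units.val_mul]
  rw [e]
  simpa only [one_mul, mul_one] using (hk.2.mul h.1).mul (Kn_en hk)

theorem ww_K0 : ww p ∈ Kn p 0 := by
  have : En 1 (ww p : Matrix (Fin 2) (Fin 2) ℚ_[p]) := fun i j => by
    fin_cases i <;> fin_cases j <;> simp
  exact mem_K0.2 ⟨this, by rwa [ww_inv]⟩

theorem nl_Kn {n : ℕ} {c : ℚ_[p]} (h : ‖c‖ ≤ rad p n) : nl c ∈ Kn p n := by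
  have h0 : 0 ≤ rad p n := (pow_pos pinv_pos n).le
  refine ⟨fun i j => ?_, fun i j => ?_⟩
  · fin_cases i <;> fin_cases j <;> simp [h, h0]
  · rw [← nl_neg]
    fin_cases i <;> fin_cases j <;> simp [h.trans (rad_le_one n)]

theorem nn_Kn {n : ℕ} {c : ℚ_[p]} (h : ‖c‖ ≤ rad p n) : nn c ∈ Kn p n := by
  have := Kn_conj ww_K0 (nl_Kn h)
  rwa [ww_inv, ww_nl, mul_assoc, ww_ww, mul_one] at this

theorem pow_expand {X : Matrix (Fin 2) (Fin 2) ℚ_[p]} (h : En 1 X) (n : ℕ) :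
    ∃ Y, En 1 Y ∧ (1 + X) ^ n = 1 + (n : ℚ_[p]) • X + X * X * Y := by
  induction n with
  | zero => exact ⟨0, fun i j => by simp, by simp⟩
  | succ n ih =>
    obtain ⟨Y, h1, h2⟩ := ih
    refine ⟨(n : ℚ_[p]) • 1 + Y + Y * X, ?_, ?_⟩
    · exact En.add (En.add (by simpa using En.smul (norm_nat n) En.one) h1)
        (by simpa using h1.mul h)
    · rw [pow_succ, h2, Nat.cast_succ, add_smul, one_smul]
      simp only [mul_add, add_mul, mul_one, one_mul, smul_mul_assoc, mul_smul_comm, mul_assoc]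
      abel

theorem pow_mem_aux {g : G2 p} (h : g ∈ Kn p 0) {m : ℕ}
    (h1 : En (rad p m) ((g : Matrix (Fin 2) (Fin 2) ℚ_[p]) - 1))
    (h2 : En (rad p (m + 1)) (((g : Matrix (Fin 2) (Fin 2) ℚ_[p]) - 1) *
      ((g : Matrix (Fin 2) (Fin 2) ℚ_[p]) - 1))) :
    g ^ p ∈ Kn p (m + 1) := by
  refine ⟨?_, (pow_mem h p).2⟩
  obtain ⟨Y, hY, e⟩ := pow_expand (h1.mono (rad_le_one m)) p
  rw [add_sub_cancel] at e
  rw [Units.val_pow_eq_pow_val, e, add_assoc, add_sub_cancel_left]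
  refine En.add ?_ (by simpa using h2.mul hY)
  have := En.smul (Padic.norm_p (p := p)).le h1
  rwa [rad, ← pow_succ'] at this

theorem pow_mem_Kn {g : G2 p} (h : g ∈ I1 p) (n : ℕ) : g ^ p ^ (n + 1) ∈ Kn p (n + 1) := by
  induction n with
  | zero =>
    rw [zero_add, pow_one]
    refine pow_mem_aux (I1_le_K0 h) (I1_le_K0 h).1 fun i j => ?_
    obtain ⟨a1, a2, a3, a4⟩ := h
    rw [zero_add, rad, pow_one, Matrix.mul_apply, Fin.sum_univ_two]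
    refine norm_le_inv ?_
    fin_cases i <;> fin_cases j
    · simpa using nadd' (nmul2' a1 a1.le) (nmul1' a2 a3)
    · simpa using nadd' (nmul2' a1 a2) (nmul1' a2 a4)
    · simpa using nadd' (nmul2' a3 a1.le) (nmul2' a4 a3.le)
    · simpa using nadd' (nmul2' a3 a2) (nmul2' a4 a4.le)
  | succ n ih =>
    rw [pow_succ p, pow_mul]
    refine pow_mem_aux (Kn_anti (Nat.zero_le _) ih) ih.1 ((ih.1.mul ih.1).mono ?_)
    rw [rad, ← pow_add]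
    exact rad_le (by omega)

theorem norm_of_zmod (n : ℕ) (x y : ℤ_[p]) (h : PadicInt.toZModPow n x = PadicInt.toZModPow n y) :
    ‖(x : ℚ_[p]) - y‖ ≤ rad p n := by
  have e4 : x - y ∈ RingHom.ker (PadicInt.toZModPow n) := by
    rw [RingHom.mem_ker, map_sub, sub_eq_zero]
    exact h
  rw [PadicInt.ker_toZModPow, ← PadicInt.norm_le_pow_iff_mem_span_pow] at e4
  simpa [rad, PadicInt.norm_def] using e4

/-- the congruence subgroups have finite index in `GL₂(ℤ_p)` -/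
theorem Kn_fin (n : ℕ) : ∃ S : Finset (G2 p), (∀ s ∈ S, s ∈ Kn p 0) ∧
    ∀ g ∈ Kn p 0, ∃ s ∈ S, s⁻¹ * g ∈ Kn p n := by
  classical
  let f : Kn p 0 → Fin 2 → Fin 2 → ZMod (p ^ n) := fun g i j =>
    PadicInt.toZModPow n ⟨(g.1 : Matrix (Fin 2) (Fin 2) ℚ_[p]) i j, Kn_en g.2 i j⟩
  have hfin : (Set.range f).Finite := Set.toFinite _
  refine ⟨hfin.toFinset.attach.image fun y => (hfin.mem_toFinset.1 y.2).choose.1, ?_, ?_⟩
  · intro s hs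
    obtain ⟨y, -, rfl⟩ := Finset.mem_image.1 hs
    exact (hfin.mem_toFinset.1 y.2).choose.2
  · intro g hg
    have hy : f ⟨g, hg⟩ ∈ hfin.toFinset := hfin.mem_toFinset.2 ⟨_, rfl⟩
    refine ⟨_, Finset.mem_image.2 ⟨⟨_, hy⟩, Finset.mem_attach _ _, rfl⟩, ?_⟩
    have e := (hfin.mem_toFinset.1 hy).choose_spec
    generalize (hfin.mem_toFinset.1 hy).choose = s at e
    refine ⟨?_, (mul_mem (inv_mem s.2) hg).2⟩
    have e1 : ((s.1⁻¹ * g : G2 p) : Matrix (Fin 2) (Fin 2) ℚ_[p]) - 1 =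
        ((s.1⁻¹ : G2 p) : Matrix (Fin 2) (Fin 2) ℚ_[p]) * (g - s.1) := by
      rw [mul_sub, Units.inv_mul, Units.val_mul]
    have e2 : En (rad p n) ((g : Matrix (Fin 2) (Fin 2) ℚ_[p]) -
        (s.1 : Matrix (Fin 2) (Fin 2) ℚ_[p])) := fun i j =>
      norm_of_zmod n ⟨_, Kn_en hg i j⟩ ⟨_, Kn_en s.2 i j⟩ (congrFun (congrFun e i) j).symm
    rw [e1]
    simpa only [one_mul] using s.2.2.mul e2

end Vale.Agent.P022K.WB

end
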