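import Vale.Agent.P022K.WB.Ep

/-!
# `A_inf`, the maps `θ ∘ φ ^ i`, their kernels, ghost vectors
-/

set_option linter.unusedSectionVars false

namespace Vale.Agent.P022K.WB

open Finset Filter Topology

variable (p : ℕ) [Fact p.Prime] (C : Type) [NontriviallyNormedField C] [IsUltrametricDist C]
  [CharZero C] [hp : Fact (‖(p : C)‖ < 1)] [CompleteSpace C]

/-- `A_inf` -/
abbrev Ai : Type := WittVector p (Ot p C)

variable {p C} {ψ : ℚ_[p] → C}

/-- Teichmueller lift -/
noncomputable def tm : Ot p C →* Ai p C := WittVector.teichmuller p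

/-- reduction mod `p` -/
noncomputable def bar : Ai p C →+* Ot p C := WittVector.constantCoeff

theorem bar_tm (a : Ot p C) : bar (tm a) = a := rfl

theorem bar_p : bar (p : Ai p C) = 0 := by rw [map_natCast, CharP.cast_eq_zero]

theorem exists_tm (x : Ai p C) : ∃ y, x = tm (bar x) + p * y := by
  have : x - tm (bar x) ∈ Ideal.span {(p : Ai p C)} := by
    rw [WittVector.mem_span_p_iff_coeff_zero_eq_zero]
    show bar (x - tm (bar x)) = 0
    rw [map_sub, bar_tm, sub_self]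
  obtain ⟨y, hy⟩ := Ideal.mem_span_singleton.1 this
  exact ⟨y, by rw [← hy]; ring⟩

/-- powers of Frobenius -/
noncomputable def fA (i : ℤ) : Ai p C →+* Ai p C :=
  WittVector.map (fr (p := p) (C := C) i).toRingHom

theorem fA_add (i j : ℤ) (x : Ai p C) : fA (i + j) x = fA i (fA j x) := by
  ext n; simp only [fA, WittVector.map_coeff]; exact fr_add i j _

theorem fA_zero (x : Ai p C) : fA 0 x = x := by
  ext n; simp only [fA, WittVector.map_coeff]; exact fr_zero _

theorem fA_tm (i : ℤ) (a : Ot p C) : fA i (tm a) = tm (fr i a) := WittVector.map_teichmuller ..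

theorem bar_fA (i : ℤ) (x : Ai p C) : bar (fA i x) = fr i (bar x) := rfl

/-- Galois action -/
noncomputable def gA (s : Iso C) : Ai p C →+* Ai p C := WittVector.map (gal0 s)

theorem gA_tm (s : Iso C) (a : Ot p C) : gA s (tm a) = tm (gal0 s a) :=
  WittVector.map_teichmuller ..

theorem bar_gA (s : Iso C) (x : Ai p C) : bar (gA s x) = gal0 s (bar x) := rfl

/-- `θ ∘ φ ^ i` -/
noncomputable def th (i : ℤ) : Ai p C →+* C :=
  (Oc C).subtype.comp ((WittVector.fontaineTheta (Oc C) p).comp (fA i))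

theorem th_le (i : ℤ) (x : Ai p C) : ‖th i x‖ ≤ 1 :=
  (WittVector.fontaineTheta (Oc C) p (fA i x)).2

theorem th_tm (i : ℤ) (a : Ot p C) : th i (tm a) = sh0 (fr i a) := by
  show ((WittVector.fontaineTheta (Oc C) p (fA i (tm a)) : Oc C) : C) = _
  rw [fA_tm, tm, WittVector.fontaineTheta_teichmuller, sh0_def]

theorem th_fA (i j : ℤ) (x : Ai p C) : th i (fA j x) = th (i + j) x := by
  show ((WittVector.fontaineTheta (Oc C) p (fA i (fA j x)) : Oc C) : C) = _
  rw [← fA_add]; rfl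

theorem th_gA (s : Iso C) (i : ℤ) (x : Ai p C) : th i (gA s x) = s.1 (th i x) := by
  refine sub_eq_zero.1 (eq_zero_of_le_pow p fun n => ?_)
  induction n generalizing x with
  | zero =>
    rw [pow_zero]
    exact nsub_le (th_le _ _) ((s.2 _).trans_le (th_le _ _))
  | succ n ih =>
    obtain ⟨y, hy⟩ := exists_tm x
    have : th i (gA s x) - s.1 (th i x) = p * (th i (gA s y) - s.1 (th i y)) := by
      rw [hy]
      simp only [map_add, map_mul, map_natCast, gA_tm, th_tm, ← gal0_fr, sh0_gal0]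
      ring
    rw [this, norm_mul, pow_succ']
    exact mul_le_mul_of_nonneg_left (ih y) (norm_nonneg _)

theorem th_bar (x : Ai p C) : ‖th 0 x - sh0 (bar x)‖ ≤ ‖(p : C)‖ := by
  obtain ⟨y, hy⟩ := exists_tm x
  have : th 0 x - sh0 (bar x) = p * th 0 y := by
    conv_lhs => lhs; rw [hy]
    rw [map_add, map_mul, map_natCast, th_tm, fr_zero]; ring
  rw [this, norm_mul]
  exact mul_le_of_le_one_right (norm_nonneg _) (th_le _ _)

namespace Psi

/-- `[ε ^ (p ^ n)] - 1` -/
noncomputable def mA (h : Psi p ψ) (n : ℤ) : Ai p C := tm (h.ep0 ((p : ℚ_[p]) ^ n)) - 1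

/-- `μ_n / μ_(n-1)` -/
noncomputable def xi (h : Psi p ψ) (n : ℤ) : Ai p C :=
  ∑ t ∈ range p, tm (h.ep0 ((p : ℚ_[p]) ^ (n - 1))) ^ t

theorem bar_mA (h : Psi p ψ) (n : ℤ) : bar (h.mA n) = h.X0 n := by
  rw [mA, map_sub, map_one, bar_tm, X0]

theorem xi_mul (h : Psi p ψ) (n : ℤ) : h.xi n * h.mA (n - 1) = h.mA n := by
  rw [xi, mA, geom_sum_mul, ← map_pow, ← fr_one, fr_ep0, ← zpow_add₀ qp_ne, sub_add_cancel, mA]

theorem fA_xi (h : Psi p ψ) (n i : ℤ) : fA i (h.xi n) = h.xi (n + i) := by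
  simp only [xi, map_sum, map_pow, fA_tm, fr_ep0, ← zpow_add₀ (qp_ne (p := p))]
  rw [show n - 1 + i = n + i - 1 by ring]

theorem th_xi (h : Psi p ψ) (n i : ℤ) :
    th i (h.xi n) = ∑ t ∈ range p, ψ ((p : ℚ_[p]) ^ (n + i - 1)) ^ t := by
  simp only [xi, map_sum, map_pow, th_tm, sh0_ep0, ← zpow_add₀ (qp_ne (p := p))]
  rw [show n - 1 + i = n + i - 1 by ring]

theorem th_xi_pos (h : Psi p ψ) {n i : ℤ} (hi : 0 < n + i) : th i (h.xi n) = p := by
  rw [th_xi, h.sum_pos (by omega)]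

theorem th_xi_zero (h : Psi p ψ) {n i : ℤ} (hi : n + i = 0) : th i (h.xi n) = 0 := by
  rw [th_xi, hi, zero_sub, h.sum_zero]

variable [IsAlgClosed C]

theorem bar_xi (h : Psi p ψ) (n : ℤ) : Fl.io (bar (h.xi n)) * h.X (n - 1) = h.X n := by
  rw [X, X, ← bar_mA, ← bar_mA, ← map_mul, ← map_mul, xi_mul]

theorem norm_bar_xi (h : Psi p ψ) : ‖sh0 (bar (h.xi 0))‖ = ‖(p : C)‖ := by
  have h1 := congrArg Norm.norm (h.bar_xi 0)
  have h2 : h.X 0 = h.X (-1) ^ (p - 1) * h.X (-1) := by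
    rw [← pow_succ, Nat.sub_add_cancel (Fact.out : p.Prime).pos, ← X_succ]; norm_num
  rw [h2, norm_mul, norm_mul, zero_sub, norm_pow, norm_X1, Fl.norm_io] at h1
  exact mul_right_cancel₀ (h.X_pos _).ne' h1

theorem ker_step (h : Psi p ψ) {x : Ai p C} (hx : th 0 x = 0) :
    ∃ y z, x = h.xi 0 * y + p * z ∧ th 0 z = 0 := by
  have h1 := th_bar x
  rw [hx, zero_sub, norm_neg, ← h.norm_bar_xi] at h1
  obtain ⟨c, hc⟩ := dvd_of_le h1
  obtain ⟨z, hz⟩ := exists_tm (x - h.xi 0 * tm c)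
  rw [map_sub, map_mul, bar_tm, ← hc, sub_self, show tm (0 : Ot p C) = 0 from
    WittVector.teichmuller_zero p, zero_add] at hz
  refine ⟨tm c, z, by rw [← hz]; ring, ?_⟩
  have h2 := congrArg (th 0) hz
  rw [map_sub, map_mul, hx, h.th_xi_zero (by simp), zero_mul, sub_self, map_mul,
    map_natCast] at h2
  exact (mul_eq_zero.1 h2.symm).resolve_left (norm_pos_iff.1 (np_pos p C))

theorem ker_zero (h : Psi p ψ) {x : Ai p C} (hx : th 0 x = 0) : h.xi 0 ∣ x := by
  have key : ∀ w : {x : Ai p C // th 0 x = 0}, ∃ (y : Ai p C) (z : {x : Ai p C // th 0 x = 0}),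
      w.1 = h.xi 0 * y + p * z.1 := fun w => by
    obtain ⟨y, z, h1, h2⟩ := h.ker_step w.2
    exact ⟨y, ⟨z, h2⟩, h1⟩
  choose Yf Zf hYZ using key
  let w : ℕ → {x : Ai p C // th 0 x = 0} := fun n => Zf^[n] ⟨x, hx⟩
  let S : ℕ → Ai p C := fun N => ∑ n ∈ range N, (p : Ai p C) ^ n * Yf (w n)
  have hS : ∀ N, x = h.xi 0 * S N + (p : Ai p C) ^ N * (w N).1 := by
    intro N
    induction N with
    | zero => simp [S, w]
    | succ N ih =>
      have : w (N + 1) = Zf (w N) := Function.iterate_succ_apply' _ _ _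
      rw [ih, hYZ (w N), this]
      simp only [S, sum_range_succ]
      ring
  have hm : ∀ (n : ℕ) (a b : Ai p C),
      a ≡ b [SMOD ((Ideal.span {(p : Ai p C)}) ^ n • ⊤ : Submodule (Ai p C) (Ai p C))] ↔
        (p : Ai p C) ^ n ∣ a - b := fun n a b => by
    rw [SModEq.sub_mem, smul_eq_mul, Ideal.mul_top, Ideal.span_singleton_pow,
      Ideal.mem_span_singleton]
  obtain ⟨L, hL⟩ := IsPrecomplete.prec (I := Ideal.span {(p : Ai p C)}) inferInstance (f := S)
    (fun {m n} hmn => by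
      rw [hm, ← dvd_neg, neg_sub, ← sum_Ico_eq_sub _ hmn]
      exact dvd_sum fun i hi => (pow_dvd_pow _ (mem_Ico.1 hi).1).mul_right _)
  refine ⟨L, sub_eq_zero.1 (IsHausdorff.haus (I := Ideal.span {(p : Ai p C)}) inferInstance _
    fun n => ?_)⟩
  rw [hm, sub_zero]
  have h1 := (hm _ _ _).1 (hL n)
  have : x - h.xi 0 * L = h.xi 0 * (S n - L) + (p : Ai p C) ^ n * (w n).1 := by
    conv_lhs => rw [hS n]
    ring
  rw [this]
  exact dvd_add (h1.mul_left _) (dvd_mul_right _ _)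

theorem ker_one (h : Psi p ψ) {i : ℤ} {x : Ai p C} (hx : th i x = 0) : h.xi (-i) ∣ x := by
  obtain ⟨z, hz⟩ := h.ker_zero (x := fA i x) (by rw [th_fA, zero_add, hx])
  refine ⟨fA (-i) z, ?_⟩
  have := congrArg (fA (-i)) hz
  rwa [← fA_add, neg_add_cancel, fA_zero, map_mul, fA_xi, zero_add] at this

theorem ker_many (h : Psi p ψ) (k : ℕ) (a : ℤ) (x : Ai p C)
    (hx : ∀ i, a ≤ i → i < a + k → th i x = 0) : ∃ z, x * h.mA (-a - k) = h.mA (-a) * z := by
  induction k generalizing a x with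
  | zero => exact ⟨x, by simp [mul_comm]⟩
  | succ k ih =>
    obtain ⟨x', rfl⟩ := h.ker_one (hx a le_rfl (by push_cast; omega))
    obtain ⟨z, hz⟩ := ih (a + 1) x' fun i h1 h2 => by
      have := hx i (by omega) (by push_cast; omega)
      rw [map_mul, h.th_xi_pos (by omega)] at this
      exact (mul_eq_zero.1 this).resolve_left (norm_pos_iff.1 (np_pos p C))
    refine ⟨z, ?_⟩
    have e1 : -a - ((k + 1 : ℕ) : ℤ) = -(a + 1) - k := by push_cast; ring
    have e2 : -(a + 1) = -a - 1 := by ring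
    rw [e1, mul_assoc, hz, e2, ← mul_assoc, xi_mul]

omit [IsAlgClosed C] in
theorem exists_ann (h : Psi p ψ) (k : ℕ) (a : ℤ) : ∃ P : Ai p C,
    P * h.mA (-a - k) = h.mA (-a) ∧ ∀ i, a ≤ i → i < a + k → th i P = 0 := by
  induction k generalizing a with
  | zero => exact ⟨1, by simp, fun i h1 h2 => by push_cast at h2; omega⟩
  | succ k ih =>
    obtain ⟨P, h1, h2⟩ := ih (a + 1)
    refine ⟨h.xi (-a) * P, ?_, fun i h3 h4 => ?_⟩
    · have e1 : -a - ((k + 1 : ℕ) : ℤ) = -(a + 1) - k := by push_cast; ring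
      have e2 : -(a + 1) = -a - 1 := by ring
      rw [e1, mul_assoc, h1, e2, xi_mul]
    · rw [map_mul]
      rcases h3.eq_or_lt with rfl | h5
      · rw [h.th_xi_zero (by ring), zero_mul]
      · rw [h2 i (by omega) (by push_cast at h4; omega), mul_zero]

end Psi

omit hp [CompleteSpace C] [CharZero C] [IsUltrametricDist C] [Fact p.Prime] in
theorem ghs_succ (a : ℕ → C) (i : ℕ) :
    ghs p a (i + 1) = a 0 ^ p ^ (i + 1) + p * ghs p (fun j => a (j + 1)) i := by
  rw [ghs, sum_range_succ', ghs, mul_sum, add_comm]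
  simp only [pow_zero, one_mul, Nat.sub_zero, Nat.add_sub_add_right, pow_succ', mul_assoc]

variable [IsAlgClosed C]

theorem exists_tm_th (i : ℤ) {a : C} (ha : ‖a‖ ≤ 1) :
    ∃ x : Ai p C, ∀ k : ℕ, th (i + k) x = a ^ p ^ k := by
  obtain ⟨b, hb⟩ := sh0_surj (p := p) ha
  refine ⟨tm (fr (-i) b), fun k => ?_⟩
  rw [th_tm, ← fr_add, show i + k + -i = k by ring, fr_nat, map_pow, hb]

/-- finite pieces of ghost vectors come from `A_inf` -/
theorem Psi.gh_th (h : Psi p ψ) (k : ℕ) (a : ℤ) {c : ℕ → C} (hc : c ∈ Gh p C) :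
    ∃ x : Ai p C, ∀ j < k, th (a + j) x = c j := by
  induction k generalizing a c with
  | zero => exact ⟨0, fun j hj => absurd hj (Nat.not_lt_zero j)⟩
  | succ k ih =>
    obtain ⟨u, hu, hc⟩ := mem_Gh.1 hc
    obtain ⟨x', hx'⟩ := ih (a + 1) (c := ghs p fun j => u (j + 1))
      (mem_Gh.2 ⟨_, fun j => hu _, fun _ => rfl⟩)
    obtain ⟨x0, hx0⟩ := exists_tm_th (p := p) a (hu 0)
    refine ⟨x0 + h.xi (-a) * x', fun j hj => ?_⟩
    rw [map_add, map_mul, hx0, hc]
    cases j with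
    | zero => rw [h.th_xi_zero (by simp), ghs_zero]; simp
    | succ j =>
      rw [h.th_xi_pos (by push_cast; omega), ghs_succ, ← hx' j (by omega)]
      have e : a + ((j + 1 : ℕ) : ℤ) = a + 1 + j := by push_cast; ring
      rw [e]

/-- conversely -/
theorem Psi.mem_gh (h : Psi p ψ) (a : ℤ) (c : ℕ → C)
    (hc : ∀ k : ℕ, ∃ x : Ai p C, ∀ j < k, th (a + j) x = c j) : c ∈ Gh p C := by
  have hp0 : (p : C) ≠ 0 := norm_pos_iff.1 (np_pos p C)
  let T : (ℕ → C) → ℕ → C := fun c j => (c (j + 1) - c 0 ^ p ^ (j + 1)) / p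
  let G : ℤ → (ℕ → C) → Prop := fun a c => ∀ k : ℕ, ∃ x : Ai p C, ∀ j < k, th (a + j) x = c j
  have h0 : ∀ a c, G a c → ‖c 0‖ ≤ 1 := fun a c hG => by
    obtain ⟨x, hx⟩ := hG 1
    rw [← hx 0 one_pos]; exact th_le _ _
  have h1 : ∀ a c, G a c → G (a + 1) (T c) := fun a c hG k => by
    obtain ⟨x, hx⟩ := hG (k + 1)
    obtain ⟨x0, hx0⟩ := exists_tm_th (p := p) a (h0 a c hG)
    obtain ⟨x', hx'⟩ := h.ker_one (i := a) (x := x - x0) (by
      have h2 := hx 0 (Nat.succ_pos k)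
      have h3 := hx0 0
      simp only [Nat.cast_zero, add_zero, pow_zero, pow_one] at h2 h3
      rw [map_sub, h2, h3, sub_self])
    refine ⟨x', fun j hj => ?_⟩
    have h2 := congrArg (th (a + (j + 1 : ℕ))) hx'
    rw [map_sub, map_mul, hx _ (by omega), hx0, h.th_xi_pos (by push_cast; omega)] at h2
    simp only [T]
    rw [h2, mul_div_cancel_left₀ _ hp0]
    exact congrArg (fun t => th t x') (by push_cast; ring)
  have h2 : ∀ (j : ℕ) a c, G a c → ‖(T^[j] c) 0‖ ≤ 1 := fun j => by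
    induction j with
    | zero => exact h0
    | succ j ih => exact fun a c hG => ih _ _ (h1 a c hG)
  have h3 : ∀ (i : ℕ) c, c i = ghs p (fun j => (T^[j] c) 0) i := fun i => by
    induction i with
    | zero => intro c; rw [ghs_zero]; rfl
    | succ i ih =>
      intro c
      rw [ghs_succ]
      simp only [Function.iterate_succ_apply, Function.iterate_zero_apply]
      rw [← ih (T c)]
      simp only [T]
      field_simp
      ring
  exact mem_Gh.2 ⟨_, fun j => h2 j a c hc, fun i => h3 i c⟩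

end Vale.Agent.P022K.WB
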