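import Vale.Agent.P022K.WB.SjSt
import Vale.Agent.P022K.WB.YAx0

/-!
# Untilts of perfect subrings of the tilt
-/

set_option linter.unusedSectionVars false

namespace Vale.Agent.P022K.WB

open Finset Filter Topology

variable {p : ℕ} [Fact p.Prime] {C : Type} [NontriviallyNormedField C] [IsUltrametricDist C]
  [CharZero C] [hp : Fact (‖(p : C)‖ < 1)] [CompleteSpace C] [IsAlgClosed C] {ψ : ℚ_[p] → C}

namespace Psi

/-- `ξ` mod `p` -/
noncomputable def x0 (h : Psi p ψ) : Fl p C := Fl.io (bar (h.xi 0))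

theorem norm_x0 (h : Psi p ψ) : ‖h.x0‖ = ‖(p : C)‖ := by rw [x0, Fl.norm_io, norm_bar_xi]

theorem x0_ne (h : Psi p ψ) : h.x0 ≠ 0 := norm_pos_iff.1 (h.norm_x0 ▸ np_pos p C)

theorem x0_eq (h : Psi p ψ) : h.x0 = h.X (-1) ^ (p - 1) := by
  have h1 := h.bar_xi 0
  have h2 : h.X 0 = h.X (-1) ^ (p - 1) * h.X (-1) := by
    rw [← pow_succ, Nat.sub_add_cancel (Fact.out : p.Prime).pos, ← X_succ]; norm_num
  rw [h2, zero_sub] at h1
  exact mul_right_cancel₀ (h.X_ne _) h1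

end Psi

/-- perfect subrings of the tilt in which small elements are divisible by `ξ` mod `p` -/
structure Gd (h : Psi p ψ) (S : Subring (Fl p C)) : Prop where
  rt : ∀ x ∈ S, Fl.rt 1 x ∈ S
  ep : h.ep ((p : ℚ_[p]) ^ (-1 : ℤ)) ∈ S
  dv : ∀ x ∈ S, ‖x‖ ≤ ‖(p : C)‖ → x / h.x0 ∈ S

/-- Witt vectors with coordinates in `S` -/
noncomputable def Wo (S : Subring (Fl p C)) : Subring (Ai p C) :=
  (WittVector.map (S.comap Fl.io).subtype).range

/-- the image under `θ` -/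
noncomputable def Tz (S : Subring (Fl p C)) : Subring C := (Wo S).map (th 0)

/-- the same, tensored with `ℚ` -/
noncomputable def Tq (S : Subring (Fl p C)) : Subring C where
  carrier := {z | ∃ N : ℕ, N ≠ 0 ∧ (N : C) * z ∈ Tz S}
  zero_mem' := ⟨1, one_ne_zero, by simp⟩
  one_mem' := ⟨1, one_ne_zero, by simp⟩
  neg_mem' := fun ⟨N, h, h1⟩ => ⟨N, h, by rw [mul_neg]; exact neg_mem h1⟩
  mul_mem' := fun ⟨N, h, h1⟩ ⟨M, h', h2⟩ => ⟨N * M, mul_ne_zero h h', by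
    rw [Nat.cast_mul, mul_mul_mul_comm]; exact mul_mem h1 h2⟩
  add_mem' := fun {a b} ⟨N, h, h1⟩ ⟨M, h', h2⟩ => ⟨N * M, mul_ne_zero h h', by
    have : ((N * M : ℕ) : C) * (a + b) = M * (N * a) + N * (M * b) := by push_cast; ring
    rw [this]
    exact add_mem (mul_mem (natCast_mem _ _) h1) (mul_mem (natCast_mem _ _) h2)⟩

/-- the untilt of `S` -/
noncomputable def Tc (S : Subring (Fl p C)) : Subring C := (Tq S).topologicalClosure

variable {h : Psi p ψ} {S : Subring (Fl p C)}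

theorem tm_Wo {a : Ot p C} (ha : Fl.io a ∈ S) : tm a ∈ Wo S :=
  ⟨WittVector.teichmuller p ⟨a, ha⟩, WittVector.map_teichmuller ..⟩

theorem bar_Wo {x : Ai p C} (hx : x ∈ Wo S) : Fl.io (bar x) ∈ S := by
  obtain ⟨y, rfl⟩ := hx
  exact (y.coeff 0).2

theorem sharp_Tz {x : Fl p C} (hx : x ∈ S) (h1 : ‖x‖ ≤ 1) : Fl.sharp x ∈ Tz S := by
  obtain ⟨a, rfl⟩ := Fl.exists_io h1
  exact ⟨tm a, tm_Wo hx, by rw [th_tm, fr_zero, Fl.sharp_io]⟩

theorem Tz_Tc {z : C} (hz : z ∈ Tz S) : z ∈ Tc S :=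
  Subring.le_topologicalClosure _ ⟨1, one_ne_zero, by simpa using hz⟩

theorem sharp_Tc {x : Fl p C} (hx : x ∈ S) (h1 : ‖x‖ ≤ 1) : Fl.sharp x ∈ Tc S :=
  Tz_Tc (sharp_Tz hx h1)

theorem inv_Tc (N : ℕ) : (N : C)⁻¹ ∈ Tc S := by
  rcases eq_or_ne N 0 with rfl | hN
  · simp
  · exact Subring.le_topologicalClosure _
      ⟨N, hN, by rw [mul_inv_cancel₀ (Nat.cast_ne_zero.2 hN)]; exact one_mem _⟩

theorem zpow_Tc (k : ℤ) : (p : C) ^ k ∈ Tc S := by
  obtain ⟨n, rfl | rfl⟩ := k.eq_nat_or_neg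
  · rw [zpow_natCast]; exact pow_mem (natCast_mem _ _) _
  · rw [zpow_neg, zpow_natCast, ← inv_pow]; exact pow_mem (inv_Tc p) _

theorem closed_Tc : IsClosed (Tc S : Set C) := Subring.isClosed_topologicalClosure _

namespace Gd

theorem rtn (G : Gd h S) (n : ℕ) {x : Fl p C} (hx : x ∈ S) : Fl.rt n x ∈ S := by
  induction n with
  | zero => rwa [Fl.rt_zero]
  | succ n ih => rw [← Fl.rt_rt]; exact G.rt _ ih

theorem ex_tm (G : Gd h S) {x : Ai p C} (hx : x ∈ Wo S) : ∃ y ∈ Wo S, x = tm (bar x) + p * y := by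
  obtain ⟨w, rfl⟩ := hx
  have : PerfectRing (S.comap Fl.io) p := ⟨⟨fun a b e => Subtype.ext (pow_inj0 1 (by
    simpa using congrArg Subtype.val e)), fun a => ⟨⟨rt0 1 a, by
      show Fl.io _ ∈ S
      rw [← Fl.rt_io]; exact G.rt _ a.2⟩, Subtype.ext (by simpa using rt0_pow 1 a.1)⟩⟩⟩
  have : w - WittVector.teichmuller p (w.coeff 0) ∈
      Ideal.span {(p : WittVector p (S.comap Fl.io))} := by
    rw [WittVector.mem_span_p_iff_coeff_zero_eq_zero]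
    show WittVector.constantCoeff (w - WittVector.teichmuller p (w.coeff 0)) = 0
    rw [map_sub]; exact sub_self _
  obtain ⟨y, hy⟩ := Ideal.mem_span_singleton.1 this
  refine ⟨_, ⟨y, rfl⟩, ?_⟩
  have h2 := congrArg (WittVector.map (S.comap Fl.io).subtype) hy
  rw [map_sub, map_mul, map_natCast, WittVector.map_teichmuller] at h2
  rw [← h2]
  exact (add_sub_cancel _ _).symm

theorem xi_mem (G : Gd h S) : h.xi 0 ∈ Wo S :=
  sum_mem fun _ _ => pow_mem (tm_Wo (by rw [zero_sub]; exact G.ep)) _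

theorem x0_mem (G : Gd h S) : h.x0 ∈ S := bar_Wo G.xi_mem

theorem div_p (G : Gd h S) {t : C} (ht : t ∈ Tz S) (h1 : ‖t‖ ≤ ‖(p : C)‖) :
    ∃ t' ∈ Tz S, t = p * t' := by
  obtain ⟨w, hw, rfl⟩ := ht
  obtain ⟨y, hy, e⟩ := G.ex_tm hw
  obtain ⟨z, hz, e'⟩ := G.ex_tm G.xi_mem
  have h2 : ‖Fl.io (bar w)‖ ≤ ‖(p : C)‖ := by
    have := nsub_le h1 (th_bar w)
    rwa [sub_sub_cancel, ← Fl.norm_io] at this
  obtain ⟨a, ha⟩ := Fl.exists_io (x := Fl.io (bar w) / h.x0) (by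
    rw [norm_div, h.norm_x0]; exact div_le_one_of_le₀ h2 (norm_nonneg _))
  have h3 : bar w = bar (h.xi 0) * a := Fl.io_inj (by
    rw [map_mul, ha]; exact (mul_div_cancel₀ _ h.x0_ne).symm)
  refine ⟨th 0 (y - z * tm a), ⟨_, sub_mem hy (mul_mem hz (tm_Wo ?_)), rfl⟩, ?_⟩
  · rw [ha]; exact G.dv _ (bar_Wo hw) h2
  · have h4 := congrArg (th 0) e'
    rw [h.th_xi_zero rfl, map_add, map_mul, map_natCast] at h4
    rw [e, h3, map_mul, map_add, map_mul, map_mul, map_natCast, map_sub, map_mul]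
    linear_combination (-th 0 (tm a)) * h4

theorem div_pow (G : Gd h S) (k : ℕ) {t : C} (ht : t ∈ Tz S) (h1 : ‖t‖ ≤ ‖(p : C)‖ ^ k) :
    ∃ t' ∈ Tz S, t = (p : C) ^ k * t' := by
  induction k with
  | zero => exact ⟨t, ht, by simp⟩
  | succ k ih =>
    obtain ⟨t', h2, rfl⟩ := ih (h1.trans (pow_le_pow_of_le_one (norm_nonneg _) hp.out.le
      (Nat.le_succ k)))
    rw [norm_mul, norm_pow, pow_succ] at h1
    obtain ⟨t'', h3, rfl⟩ := G.div_p h2 (le_of_mul_le_mul_left h1 (pow_pos (np_pos p C) k))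
    exact ⟨t'', h3, by ring⟩

/-- integral elements of the untilt are untilts modulo `p` -/
theorem star (G : Gd h S) {t : C} (ht : t ∈ Tc S) (h1 : ‖t‖ ≤ 1) :
    ∃ x ∈ S, ‖x‖ ≤ 1 ∧ ‖t - Fl.sharp x‖ ≤ ‖(p : C)‖ := by
  obtain ⟨z, ⟨N, hN, hz⟩, h2⟩ := Metric.mem_closure_iff.1 ht _ (np_pos p (C := C))
  rw [dist_eq_norm] at h2
  have h3 : ‖z‖ ≤ 1 := by
    have := nsub_le h1 (h2.le.trans hp.out.le)
    rwa [sub_sub_cancel] at this
  obtain ⟨k, m, hm, rfl⟩ := Nat.exists_eq_pow_mul_and_not_dvd hN p (Fact.out : p.Prime).ne_one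
  obtain ⟨t', h4, h5⟩ := G.div_pow k hz (by
    rw [Nat.cast_mul, Nat.cast_pow, norm_mul, norm_mul, norm_pow, mul_assoc]
    exact mul_le_of_le_one_right (by positivity) (mul_le_one₀ (IsUltrametricDist.norm_natCast_le_one
      C m) (norm_nonneg _) h3))
  rw [Nat.cast_mul, Nat.cast_pow, mul_assoc] at h5
  have h6 := mul_left_cancel₀ (pow_ne_zero k pc_ne) h5
  have h7 := Nat.gcd_eq_gcd_ab m p
  rw [((Fact.out : p.Prime).coprime_iff_not_dvd.2 hm).symm.gcd_eq_one] at h7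
  have h8 := congrArg (Int.cast : ℤ → C) h7
  push_cast at h8
  obtain ⟨w, hw, e⟩ := mul_mem (intCast_mem (Tz S) (m.gcdA p)) h4
  refine ⟨_, bar_Wo hw, Fl.norm_io_le _, ntri h2.le (ntri (y := th 0 w) ?_ ?_)⟩
  · have : z - th 0 w = p * (m.gcdB p * z) := by rw [e, ← h6]; linear_combination z * h8
    rw [this, norm_mul, norm_mul]
    exact mul_le_of_le_one_right (norm_nonneg _)
      (mul_le_one₀ (IsUltrametricDist.norm_intCast_le_one C _) (norm_nonneg _) h3)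
  · rw [Fl.sharp_io]; exact th_bar w

end Gd

end Vale.Agent.P022K.WB
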