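import Vale.Agent.P022K.WB.TlOm

/-!
# Row `KAP`
-/

set_option linter.unusedSectionVars false

namespace Vale.Agent.P022K.WB

open Finset Filter Topology

variable {p : ℕ} [Fact p.Prime] {C : Type} [NontriviallyNormedField C] [IsUltrametricDist C]
  [CharZero C] [hp : Fact (‖(p : C)‖ < 1)] [CompleteSpace C] [IsAlgClosed C] {ψ : ℚ_[p] → C}

theorem int_eq_zero {c : ℤ} (h : ‖(c : Fl p C)‖ < 1) : (c : Fl p C) = 0 := by
  by_contra h0
  have h1 : (c : Fl p C) ^ p = c := map_intCast (frobenius (Fl p C) p) c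
  have h2 := pow_lt_self_of_lt_one₀ (norm_pos_iff.2 h0) h (Fact.out : p.Prime).one_lt
  rw [← norm_pow, h1] at h2
  exact h2.false

theorem cl_le {π : Fl p C} (h : ‖π‖ ≤ 1) {x : Fl p C} (hx : x ∈ Subring.closure {π}) :
    ‖x‖ ≤ 1 := by
  induction hx using Subring.closure_induction with
  | mem x hx => rwa [hx]
  | zero => simp
  | one => simp
  | add a b _ _ ha hb => exact nadd_le ha hb
  | neg a _ ha => rwa [norm_neg]
  | mul a b _ _ ha hb => rw [norm_mul]; exact mul_le_one₀ ha (norm_nonneg _) hb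

theorem cl_div {π : Fl p C} (h : ‖π‖ < 1) (h0 : π ≠ 0) (M : ℕ) {x : Fl p C}
    (hx : x ∈ Subring.closure {π}) (h1 : ‖x‖ ≤ ‖π‖ ^ M) : x / π ^ M ∈ Subring.closure {π} := by
  have hπ : π ∈ Subring.closure {π} := Subring.subset_closure rfl
  have key : ∀ x ∈ Subring.closure {π}, ∃ c : ℤ, ∃ y ∈ Subring.closure {π}, x = c + π * y := by
    intro x hx
    induction hx using Subring.closure_induction with
    | mem x hx => exact ⟨0, 1, one_mem _, by rw [hx]; simp⟩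
    | zero => exact ⟨0, 0, zero_mem _, by simp⟩
    | one => exact ⟨1, 0, zero_mem _, by simp⟩
    | add a b _ _ ha hb =>
      obtain ⟨c, y, hy, rfl⟩ := ha
      obtain ⟨c', y', hy', rfl⟩ := hb
      exact ⟨c + c', y + y', add_mem hy hy', by push_cast; ring⟩
    | neg a _ ha =>
      obtain ⟨c, y, hy, rfl⟩ := ha
      exact ⟨-c, -y, neg_mem hy, by push_cast; ring⟩
    | mul a b _ _ ha hb =>
      obtain ⟨c, y, hy, rfl⟩ := ha
      obtain ⟨c', y', hy', rfl⟩ := hb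
      exact ⟨c * c', c * y' + c' * y + π * (y * y'), add_mem (add_mem
        (mul_mem (intCast_mem _ _) hy') (mul_mem (intCast_mem _ _) hy))
        (mul_mem hπ (mul_mem hy hy')), by push_cast; ring⟩
  induction M with
  | zero => simpa using hx
  | succ M ih =>
    obtain ⟨c, y, hy, e⟩ := key _ (ih (h1.trans (pow_le_pow_of_le_one (norm_nonneg _) h.le
      (Nat.le_succ M))))
    have h2 : ‖x / π ^ M‖ ≤ ‖π‖ := by
      rw [norm_div, norm_pow, div_le_iff₀' (pow_pos (norm_pos_iff.2 h0) M), ← pow_succ]; exact h1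
    have h3 : ‖π * y‖ ≤ ‖π‖ := by
      rw [norm_mul]; exact mul_le_of_le_one_right (norm_nonneg _) (cl_le h.le hy)
    have h4 := nsub_le h2 h3
    rw [e, add_sub_cancel_right] at h4
    rw [int_eq_zero (h4.trans_lt h), zero_add] at e
    rwa [pow_succ, ← div_div, e, mul_div_cancel_left₀ _ h0]

namespace Psi

theorem cl_mono (h : Psi p ψ) {n m : ℕ} (hn : n ≤ m) :
    Subring.closure {h.X (-n)} ≤ Subring.closure {h.X (-m)} := by
  obtain ⟨k, rfl⟩ := Nat.exists_eq_add_of_le hn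
  refine Subring.closure_le.2 ?_
  rintro _ rfl
  rw [show (-n : ℤ) = -((n + k : ℕ) : ℤ) + k by push_cast; ring, X_add]
  exact pow_mem (Subring.subset_closure (Set.mem_singleton _)) _

/-- `F_p[ε ^ (1 / p ^ ∞)]` -/
noncomputable def Re (h : Psi p ψ) : Subring (Fl p C) where
  carrier := {x | ∃ n : ℕ, x ∈ Subring.closure {h.X (-n)}}
  zero_mem' := ⟨0, zero_mem _⟩
  one_mem' := ⟨0, one_mem _⟩
  neg_mem' := fun ⟨n, h1⟩ => ⟨n, neg_mem h1⟩
  add_mem' := fun ⟨n, h1⟩ ⟨m, h2⟩ => ⟨max n m,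
    add_mem (h.cl_mono (le_max_left _ _) h1) (h.cl_mono (le_max_right _ _) h2)⟩
  mul_mem' := fun ⟨n, h1⟩ ⟨m, h2⟩ => ⟨max n m,
    mul_mem (h.cl_mono (le_max_left _ _) h1) (h.cl_mono (le_max_right _ _) h2)⟩

theorem ep_Re (h : Psi p ψ) (n : ℕ) : h.ep ((p : ℚ_[p]) ^ (-n : ℤ)) ∈ h.Re :=
  ⟨n, by
    rw [← sub_add_cancel (h.ep _) 1, ← X_eq]
    exact add_mem (Subring.subset_closure (Set.mem_singleton _)) (one_mem _)⟩

theorem gd_Re (h : Psi p ψ) : Gd h h.Re where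
  rt := by
    rintro x ⟨n, hx⟩
    refine ⟨n + 1, Subring.mem_comap.1 (Subring.closure_le.2 ?_ hx)⟩
    rintro _ rfl
    refine Subring.subset_closure (Fl.pow_inj 1 ?_)
    rw [Fl.rt_pow, ← X_add]; congr 1; push_cast; ring
  ep := h.ep_Re 1
  dv := by
    rintro x ⟨n, hx⟩ h1
    have e : h.x0 = h.X (-(n + 1 : ℕ)) ^ (p ^ n * (p - 1)) := by
      rw [x0_eq, pow_mul, ← X_add]; congr 2; push_cast; ring
    refine ⟨n + 1, ?_⟩
    rw [e]
    exact cl_div (h.X_lt _) (h.X_ne _) _ (h.cl_mono (Nat.le_succ n) hx)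
      (by rwa [← norm_pow, ← e, norm_x0])

theorem Re_sub (h : Psi p ψ) {x : Fl p C} (hx : x ∈ h.Re) :
    x ∈ AddSubgroup.closure (Set.range h.ep) := by
  obtain ⟨n, hx⟩ := hx
  have h1 : x ∈ Subring.closure (Set.range h.ep) := Subring.closure_le.2 (by
    rintro _ rfl
    rw [X_eq]
    exact sub_mem (Subring.subset_closure ⟨_, rfl⟩) (one_mem _)) hx
  refine AddSubgroup.closure_mono (fun y hy => ?_) (Subring.mem_closure_iff.1 h1)
  induction hy using Submonoid.closure_induction with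
  | mem _ hy => exact hy
  | one => exact ⟨0, h.ep_zero⟩
  | mul _ _ _ _ ha hb =>
    obtain ⟨a, rfl⟩ := ha
    obtain ⟨b, rfl⟩ := hb
    exact ⟨a + b, h.ep_add a b⟩

theorem Kh_sub (h : Psi p ψ) {b : C} (hb : b ∈ Kh p ψ) : b ∈ Tc h.Re := by
  refine closure_minimal (fun z hz => ?_) closed_Tc hb
  induction hz using Algebra.adjoin_induction with
  | mem _ hz =>
    obtain ⟨n, rfl⟩ := hz
    have := sharp_Tc (h.ep_Re n) (h.norm_ep _).le
    rwa [sharp_ep, zpow_neg, zpow_natCast, ← inv_pow] at this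
  | algebraMap q =>
    rw [eq_ratCast, Rat.cast_def, div_eq_mul_inv]
    exact mul_mem (intCast_mem (Tc h.Re) _) (inv_Tc _)
  | add _ _ _ _ ha hb => exact add_mem (s := Tc h.Re) ha hb
  | mul _ _ _ _ ha hb => exact mul_mem (s := Tc h.Re) ha hb

end Psi

variable (p C) in
theorem kap_row : KAP p C := by
  intro ψ H _ act ok k hk h1 η h0
  obtain ⟨j, hj⟩ := ((Fl.tends_pp (p := p) (C := C)).eventually (gt_mem_nhds h0)).exists
  obtain ⟨c, c0, hc⟩ := ax0 p C hp.out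
  have p0 := np_pos p C
  have h4 := Fl.norm_rt_le_one (n := j) h1
  have h2 : ∀ h, (act h).1 (Fl.sharp (Fl.rt j k)) = Fl.sharp (Fl.rt j k) := fun h => by
    rw [← sharp_gF, gF_rt, hk]
  obtain ⟨a, ha, h5⟩ := ok.den (Fl.sharp (Fl.rt j k)) 0 (‖(p : C)‖ / (1 + c)) le_rfl
    (by positivity) fun h _ => by rw [h2, sub_self, norm_zero]
  obtain ⟨b, hb, h6, h7⟩ := hc H act a (‖(p : C)‖ / (1 + c)) ha fun h => by
    refine ntri (y := Fl.sharp (Fl.rt j k)) ?_ h5
    rw [← h2 h, ← map_sub, (act h).2, norm_sub_rev]; exact h5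
  have h8 : ‖Fl.sharp (Fl.rt j k) - b‖ ≤ ‖(p : C)‖ :=
    ntri (h5.trans (div_le_self p0.le (by linarith))) (h7.trans (by
      rw [mul_div_assoc', div_le_iff₀ (by linarith)]; nlinarith))
  obtain ⟨x, hx, hx1, h9⟩ := ok.psi.gd_Re.star (ok.psi.Kh_sub (ok.fix b hb h6)) (by
    have := nsub_le (x := Fl.sharp (Fl.rt j k)) h4 (h8.trans hp.out.le)
    rwa [sub_sub_cancel] at this)
  refine ⟨x ^ p ^ j, ok.psi.Re_sub (pow_mem hx _), le_trans ?_ hj.le⟩
  rw [← Fl.norm_rt_le p0.le, map_sub, Fl.rt_pow']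
  exact (Fl.sharp_close h4 hx1 le_rfl).1 (ntri h8 h9)

end Vale.Agent.P022K.WB
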