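import Vale.Agent.P022K.WB.Tl

/-!
# Rows `DENF` and `KRAS`
-/

set_option linter.unusedSectionVars false

namespace Vale.Agent.P022K.WB

open Finset Filter Topology Polynomial

variable {p : ℕ} [Fact p.Prime] {C : Type} [NontriviallyNormedField C] [IsUltrametricDist C]
  [CharZero C] [hp : Fact (‖(p : C)‖ < 1)] [CompleteSpace C] [IsAlgClosed C] {ψ : ℚ_[p] → C}
  {H : Type} [Group H] {act : H →* Iso C}

variable (p act) in
/-- the invariants of the tilt -/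
def Kf : Subfield (Fl p C) where
  carrier := {k | ∀ h, (gF p act h).1 k = k}
  zero_mem' := fun _ => map_zero _
  one_mem' := fun _ => map_one _
  add_mem' := fun ha hb h => by rw [map_add, ha h, hb h]
  mul_mem' := fun ha hb h => by rw [map_mul, ha h, hb h]
  neg_mem' := fun ha h => by rw [map_neg, ha h]
  inv_mem' := fun _ ha h => by rw [map_inv₀, ha h]

theorem mem_Kf {k : Fl p C} : k ∈ Kf p act ↔ ∀ h, (gF p act h).1 k = k := Iff.rfl

theorem sharp_gF (h : H) (x : Fl p C) : Fl.sharp ((gF p act h).1 x) = (act h).1 (Fl.sharp x) :=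
  Fl.sharp_galI _ _

theorem gF_rt (h : H) (n : ℕ) (x : Fl p C) :
    (gF p act h).1 (Fl.rt n x) = Fl.rt n ((gF p act h).1 x) := Fl.galI_rt _ _ _

theorem Ok.ep_Kf (ok : Ok p ψ act) (b : ℚ_[p]) : ok.psi.ep b ∈ Kf p act :=
  fun h => ok.psi.galI_ep' _ (ok.fixψ h) b

theorem Ok.X_Kf (ok : Ok p ψ act) (n : ℤ) : ok.psi.X n ∈ Kf p act :=
  fun h => ok.psi.galI_X _ (ok.fixψ h) n

variable (p act) in
/-- elements which are algebraic over the invariants -/
noncomputable def Om : Subfield (Fl p C) := (algebraicClosure (Kf p act) (Fl p C)).toSubfield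

theorem mem_Om {y : Fl p C} : y ∈ Om p act ↔ IsAlgebraic (Kf p act) y := mem_algebraicClosure_iff

theorem Kf_Om {k : Fl p C} (hk : k ∈ Kf p act) : k ∈ Om p act :=
  mem_Om.2 (isAlgebraic_algebraMap (⟨k, hk⟩ : Kf p act))

theorem fo_of_Om {y : Fl p C} (hy : y ∈ Om p act) : Fo act y := by
  refine ((minpoly (Kf p act) y).rootSet_finite (Fl p C)).subset ?_
  rintro _ ⟨h, rfl⟩
  rw [mem_rootSet_of_ne (minpoly.ne_zero (mem_Om.1 hy).isIntegral)]
  let f : Fl p C →ₐ[Kf p act] Fl p C :=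
    { ((gF p act h).1 : Fl p C →+* Fl p C) with commutes' := fun k => k.2 h }
  exact (aeval_algHom_apply f y _).trans (by rw [minpoly.aeval, map_zero])

theorem Om_root {Q : (Fl p C)[X]} (hQ : ∀ i, Q.coeff i ∈ Om p act) (h0 : Q ≠ 0) {y : Fl p C}
    (hy : Q.eval y = 0) : y ∈ Om p act := by
  obtain ⟨Q', rfl⟩ := (mem_lifts Q).1 ((lifts_iff_coeff_lifts
    (f := algebraMap (algebraicClosure (Kf p act) (Fl p C)) (Fl p C)) Q).2
    fun n => ⟨⟨_, hQ n⟩, rfl⟩)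
  refine mem_Om.2 (IsAlgebraic.restrictScalars (S := algebraicClosure (Kf p act) (Fl p C)) _
    ⟨Q', fun e => h0 (by rw [e, Polynomial.map_zero]), by rwa [eval_map_algebraMap] at hy⟩)

theorem Om_pow {y : Fl p C} {n : ℕ} (hn : 0 < n) (hy : y ^ n ∈ Om p act) : y ∈ Om p act :=
  mem_Om.2 ((mem_Om.1 hy).of_pow hn)

namespace Ok

theorem x0_Om (ok : Ok p ψ act) : ok.psi.x0 ∈ Om p act := by
  rw [Psi.x0_eq]; exact pow_mem (Kf_Om (ok.X_Kf _)) _

theorem gd (ok : Ok p ψ act) : Gd ok.psi (Om p act).toSubring where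
  rt x hx := Om_pow (pow_pos (Fact.out : p.Prime).pos 1) (by rw [Fl.rt_pow]; exact hx)
  ep := Kf_Om (ok.ep_Kf _)
  dv _ hx _ := (Om p act).div_mem hx ok.x0_Om

theorem ex_norm (ok : Ok p ψ act) {b : C} (hb : b ∈ Tc (Om p act).toSubring) (h0 : b ≠ 0) :
    ∃ x ∈ Om p act, ‖x‖ = ‖b‖ := by
  have p0 := np_pos p C
  obtain ⟨n, h1, h2⟩ := exists_mem_Ioc_zpow (norm_pos_iff.2 h0) ((one_lt_inv₀ p0).2 hp.out)
  rw [inv_zpow] at h1 h2
  have e : ‖b * (p : C) ^ (n + 1)‖ = ‖b‖ * ‖(p : C)‖ ^ (n + 1) := by rw [norm_mul, norm_zpow]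
  obtain ⟨x, hx, -, h3⟩ := ok.gd.star (mul_mem hb (zpow_Tc (n + 1)))
    (by rw [e]; exact (le_inv_mul_iff₀' (by positivity)).1 (by simpa using h2))
  have h4 := neq_sub (h3.trans_lt (by
    rw [e, zpow_add_one₀ p0.ne', ← mul_assoc]
    exact lt_mul_of_one_lt_left p0 ((inv_mul_lt_iff₀' (by positivity)).1 (by simpa using h1))))
  refine ⟨x / ok.psi.x0 ^ (n + 1), div_mem hx (zpow_mem ok.x0_Om _), ?_⟩
  rw [norm_div, norm_zpow, Psi.norm_x0, ← Fl.norm_sharp, h4, e, mul_div_cancel_right₀]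
  positivity

theorem ex_Tc (ok : Ok p ψ act) {x : Fl p C} (hx : x ∈ Om p act) :
    ∃ c ∈ Tc (Om p act).toSubring, ‖c‖ = ‖x‖ := by
  obtain ⟨k, hk⟩ := ((tendsto_pow_atTop_nhds_zero_of_lt_one (norm_nonneg _) hp.out).const_mul
    ‖x‖).eventually (gt_mem_nhds (show ‖x‖ * 0 < 1 by simp)) |>.exists
  refine ⟨Fl.sharp (x * ok.psi.x0 ^ k) * (p : C) ^ (-k : ℤ), mul_mem (sharp_Tc
    (mul_mem (s := Om p act) hx (pow_mem ok.x0_Om k)) ?_) (zpow_Tc _), ?_⟩
  · rw [norm_mul, norm_pow, Psi.norm_x0]; exact hk.le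
  · rw [norm_mul, Fl.norm_sharp, norm_mul, norm_pow, Psi.norm_x0, zpow_neg, zpow_natCast, norm_inv,
      norm_pow, mul_inv_cancel_right₀ (pow_pos (np_pos p C) k).ne']

theorem inv_mem (ok : Ok p ψ act) (b : C) (hb : b ∈ Tc (Om p act).toSubring) :
    b⁻¹ ∈ Tc (Om p act).toSubring := by
  have h1 : ∀ u ∈ Tc (Om p act).toSubring, ‖u‖ = 1 → u⁻¹ ∈ Tc (Om p act).toSubring := by
    intro u hu h1
    obtain ⟨x, hx, -, h3⟩ := ok.gd.star hu h1.le
    have h4 := neq_sub (h3.trans_lt (h1 ▸ hp.out))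
    rw [h1] at h4
    have h5 : Fl.sharp x ≠ 0 := norm_pos_iff.1 (h4 ▸ one_pos)
    have h6 : (Fl.sharp x)⁻¹ ∈ Tc (Om p act).toSubring := by
      rw [← map_inv₀]
      exact sharp_Tc ((Om p act).inv_mem hx) (by rw [norm_inv, ← Fl.norm_sharp, h4, inv_one])
    have h7 : ‖1 - u * (Fl.sharp x)⁻¹‖ < 1 := by
      rw [← mul_inv_cancel₀ h5, ← sub_mul, norm_mul, norm_inv, h4, inv_one, mul_one, norm_sub_rev]
      exact h3.trans_lt hp.out
    have h8 := closed_Tc.mem_of_tendsto (hasSum_geometric_of_norm_lt_one h7).tendsto_sum_nat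
      (Eventually.of_forall fun n => sum_mem fun i _ =>
        pow_mem (sub_mem (one_mem _) (mul_mem hu h6)) i)
    have := mul_mem h8 h6
    rwa [sub_sub_cancel, mul_inv, inv_inv, mul_inv_cancel_right₀ h5] at this
  rcases eq_or_ne b 0 with rfl | h0
  · simp
  obtain ⟨x, hx, e⟩ := ok.ex_norm hb h0
  obtain ⟨c, hc, e'⟩ := ok.ex_Tc ((Om p act).inv_mem hx)
  have h2 : ‖b * c‖ = 1 := by
    rw [norm_mul, e', norm_inv, e, mul_inv_cancel₀ (norm_ne_zero_iff.2 h0)]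
  have h3 : c ≠ 0 := fun h => by simp [h] at h2
  have := mul_mem (h1 _ (mul_mem hb hc) h2) hc
  rwa [mul_inv, inv_mul_cancel_right₀ h3] at this

theorem root (ok : Ok p ψ act) (P : C[X]) (hP : ∀ i, P.coeff i ∈ Tc (Om p act).toSubring)
    (hm : P.Monic) (hd : 0 < P.natDegree) : ∃ y ∈ Tc (Om p act).toSubring, P.eval y = 0 := by
  refine newt _ closed_Tc ‖(p : C)‖ (norm_nonneg _) hp.out (fun b hb b' hb' h0 h0' i hi => ?_)
    ok.inv_mem (fun Q hQ h1 h2 => ?_) P hP hm hd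
  · obtain ⟨x, hx, e⟩ := ok.ex_norm hb h0
    obtain ⟨x', hx', e'⟩ := ok.ex_norm hb' h0'
    obtain ⟨z, hz⟩ := IsAlgClosed.exists_pow_nat_eq (x / x') hi
    obtain ⟨c, hc, e''⟩ := ok.ex_Tc (Om_pow hi (hz ▸ div_mem hx hx'))
    refine ⟨c, hc, ?_⟩
    rw [e'', ← norm_pow, hz, norm_div, e, e', div_mul_cancel₀ _ (norm_ne_zero_iff.2 h0')]
  · choose x hx hx1 hx2 using fun i => ok.gd.star (hQ i) (h1 i)
    let Q' : (Fl p C)[X] := ∑ i ∈ range (Q.natDegree + 1), monomial i (x i)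
    have e : ∀ i, Q'.coeff i = if i < Q.natDegree + 1 then x i else 0 := fun i => by
      simp only [Q', finsetSum_coeff, coeff_monomial, sum_ite_eq', mem_range]
    obtain ⟨i0, hi0, h2⟩ := h2
    have h3 : ‖Q'.coeff i0‖ = 1 := by
      rw [e, if_pos (Nat.lt_succ_of_le (le_natDegree_of_ne_zero (norm_pos_iff.1 (h2 ▸ one_pos)))),
        ← Fl.norm_sharp, neq_sub ((hx2 i0).trans_lt (h2 ▸ hp.out)), h2]
    have h4 : ∀ i, ‖Q'.coeff i‖ ≤ 1 := fun i => by
      rw [e]; split_ifs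
      exacts [hx1 i, by simp]
    obtain ⟨y, hy1, hy⟩ := root_le Q' h4 ⟨i0, hi0, h3⟩
    have h5 : y ∈ Om p act := Om_root (fun i => by
      rw [e]; split_ifs
      exacts [hx i, zero_mem _]) (fun e0 => by simp [e0] at h3) hy
    refine ⟨Fl.sharp y, sharp_Tc h5 hy1, hy1, ?_⟩
    have h6 := Fl.sharp_sum (range (Q.natDegree + 1)) (fun i => x i * y ^ i) fun i _ => by
      rw [norm_mul, norm_pow]
      exact mul_le_one₀ (hx1 i) (by positivity) (pow_le_one₀ (norm_nonneg _) hy1)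
    simp only [Q', eval_finsetSum, eval_monomial] at hy
    rw [hy, map_zero] at h6
    rw [← norm_neg, ← zero_sub]
    refine ntri h6 ?_
    rw [eval_eq_sum_range, ← sum_sub_distrib]
    refine IsUltrametricDist.norm_sum_le_of_forall_le_of_nonneg (norm_nonneg _) fun i _ => ?_
    rw [map_mul, map_pow, ← sub_mul, norm_mul, norm_sub_rev, norm_pow]
    exact (mul_le_of_le_one_right (norm_nonneg _) (pow_le_one₀ (norm_nonneg _) hy1)).trans (hx2 i)

theorem alg_mem (ok : Ok p ψ act) {a : C} (ha : Alg a) : a ∈ Tc (Om p act).toSubring := by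
  let T : Subfield C := { Tc (Om p act).toSubring with inv_mem' := ok.inv_mem }
  have hle : Qh C ≤ T := Subfield.topologicalClosure_minimal _ bot_le closed_Tc
  have h1 : IsIntegral T a :=
    IsIntegral.map_of_comp_eq (Subfield.inclusion hle) (RingHom.id C) rfl ha.isIntegral
  obtain ⟨y, hy, h2⟩ := ok.root ((minpoly T a).map (algebraMap T C))
    (fun i => by rw [coeff_map]; exact Subtype.property _) ((minpoly.monic h1).map _)
    (by rw [natDegree_map]; exact minpoly.natDegree_pos h1)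
  obtain ⟨z, rfl⟩ := minpoly.degree_eq_one_iff.1 (degree_eq_one_of_irreducible_of_root
    (minpoly.irreducible h1) (x := ⟨y, hy⟩) (by
      refine (algebraMap T C).injective ?_
      rw [map_zero, ← h2, ← eval_map_apply]; rfl))
  exact z.2

theorem app (ok : Ok p ψ act) (n : ℕ) {t : C} (ht : t ∈ Tc (Om p act).toSubring) (h1 : ‖t‖ ≤ 1) :
    ∃ F : Finset (Fl p C), (∀ y ∈ F, Fo act y) ∧
      ∀ h, (∀ y ∈ F, (gF p act h).1 y = y) → ‖(act h).1 t - t‖ ≤ ‖(p : C)‖ ^ n := by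
  classical
  induction n generalizing t with
  | zero => exact ⟨∅, by simp, fun h _ => by
      rw [pow_zero]; exact nsub_le (((act h).2 t).trans_le h1) h1⟩
  | succ n ih =>
    obtain ⟨x, hx, hx1, h2⟩ := ok.gd.star ht h1
    obtain ⟨F, h3, h4⟩ := ih (t := (t - Fl.sharp x) * (p : C)⁻¹)
      (mul_mem (sub_mem ht (sharp_Tc hx hx1)) (inv_Tc p))
      (by rw [norm_mul, norm_inv]; exact mul_inv_le_one_of_le₀ h2 (norm_nonneg _))
    refine ⟨insert x F, by simpa using ⟨fo_of_Om hx, h3⟩, fun h h5 => ?_⟩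
    have h6 := h4 h fun y hy => h5 y (mem_insert_of_mem hy)
    rw [map_mul, map_inv₀, map_natCast, map_sub, ← sharp_gF, h5 x (mem_insert_self _ _), ← sub_mul,
      sub_sub_sub_cancel_right, norm_mul, norm_inv, mul_inv_le_iff₀ (np_pos p C)] at h6
    rwa [pow_succ]

end Ok

variable (p C) in
theorem kras : KRAS p C := by
  intro ψ H _ act ok a ha
  obtain ⟨k, hk⟩ := ((tendsto_pow_atTop_nhds_zero_of_lt_one (norm_nonneg _) hp.out).mul_const
    ‖a‖).eventually (gt_mem_nhds (show 0 * ‖a‖ < 1 by simp)) |>.exists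
  obtain ⟨ε, h0, hε⟩ := Metric.isOpen_iff.1 (((Ax.orb_fin ha).sdiff (t := {a})).isClosed).isOpen_compl
    a (by simp)
  obtain ⟨n, hn⟩ := exists_pow_lt_of_lt_one (mul_pos (pow_pos (np_pos p C) k) h0) hp.out
  obtain ⟨F, h1, h2⟩ := ok.app n (t := (p : C) ^ k * a)
    (mul_mem (pow_mem (natCast_mem _ _) _) (ok.alg_mem ha)) (by rw [norm_mul, norm_pow]; exact hk.le)
  refine ⟨F, h1, fun h h3 => ?_⟩
  have h4 := (h2 h h3).trans_lt hn
  rw [map_mul, map_pow, map_natCast, ← mul_sub, norm_mul, norm_pow] at h4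
  by_contra h5
  exact hε (mem_ball_iff_norm.2 (lt_of_mul_lt_mul_left h4 (by positivity))) ⟨⟨_, rfl⟩, h5⟩

theorem ex_root {δ : ℝ} (h0 : 0 ≤ δ) {n : ℕ} (hn : n ≠ 0) : ∃ r : ℝ, 0 ≤ r ∧ r ^ n = δ :=
  ⟨δ ^ (n⁻¹ : ℝ), by positivity, Real.rpow_inv_natCast_pow h0 hn⟩

variable (p C) in
theorem denf : DENF p C := by
  intro ψ H _ act ok
  have key : ∀ (y : Fl p C) (δ δ' : ℝ), ‖y‖ ≤ 1 → 0 < δ → δ < δ' →
      (∀ h, (∀ a, Alg a → (act h).1 a = a) → ‖(gF p act h).1 y - y‖ ≤ δ) →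
      ∃ w ∈ Om p act, ‖y - w‖ ≤ δ' := by
    intro y δ δ' h1 d0 d1 hy
    rcases le_total 1 δ' with d2 | d2
    · exact ⟨0, zero_mem _, by rw [sub_zero]; exact h1.trans d2⟩
    obtain ⟨j, hj⟩ := ((Fl.tends_pp (p := p) (C := C)).eventually (gt_mem_nhds d0)).exists
    have q0 : p ^ j ≠ 0 := pow_ne_zero j (Fact.out : p.Prime).ne_zero
    obtain ⟨r, r0, rfl⟩ := ex_root d0.le q0
    obtain ⟨r', r0', rfl⟩ := ex_root (d0.trans d1).le q0
    have h2 := (lt_of_pow_lt_pow_left₀ _ r0 hj).le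
    have h3 := lt_of_pow_lt_pow_left₀ _ r0' d1
    have h4 := Fl.norm_rt_le_one (n := j) h1
    obtain ⟨a, ha, h5⟩ := ok.den (Fl.sharp (Fl.rt j y)) r r' r0 h3 fun h hh => by
      rw [← sharp_gF, Fl.sharp_close (((gF p act h).2 _).trans_le h4) h4 h2, gF_rt, ← map_sub,
        Fl.norm_rt_le r0]
      exact hy h hh
    have h6 : ‖a‖ ≤ 1 := by
      have := nsub_le (x := Fl.sharp (Fl.rt j y)) h4 (h5.trans ((pow_le_one_iff_of_nonneg r0' q0).1 d2))
      rwa [sub_sub_cancel] at this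
    obtain ⟨x, hx, hx1, h7⟩ := ok.gd.star (ok.alg_mem ha) h6
    have h8 := (Fl.sharp_close h4 hx1 (h2.trans h3.le)).1 (ntri h5 (h7.trans (h2.trans h3.le)))
    refine ⟨x ^ p ^ j, (Om p act).pow_mem hx _, ?_⟩
    rwa [← Fl.norm_rt_le r0', map_sub, Fl.rt_pow']
  intro y δ δ' d0 d1 hy
  have x0 := ok.psi.X_pos 0
  obtain ⟨k, hk⟩ := ((tendsto_pow_atTop_nhds_zero_of_lt_one (norm_nonneg _)
    (ok.psi.X_lt 0)).mul_const ‖y‖).eventually (gt_mem_nhds (show 0 * ‖y‖ < 1 by simp)) |>.exists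
  obtain ⟨w, hw, h1⟩ := key (ok.psi.X 0 ^ k * y) (‖ok.psi.X 0‖ ^ k * δ) (‖ok.psi.X 0‖ ^ k * δ')
    (by rw [norm_mul, norm_pow]; exact hk.le) (by positivity) (by gcongr) fun h hh => by
      rw [map_mul, map_pow, ok.X_Kf 0 h, ← mul_sub, norm_mul, norm_pow]
      exact mul_le_mul_of_nonneg_left (hy h hh) (by positivity)
  refine ⟨w / ok.psi.X 0 ^ k, fo_of_Om (div_mem hw (pow_mem (Kf_Om (ok.X_Kf 0)) _)), ?_⟩
  rw [← mul_div_cancel_left₀ y (pow_ne_zero k (ok.psi.X_ne 0)), ← sub_div, norm_div, norm_pow,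
    div_le_iff₀' (by positivity)]
  exact h1

end Vale.Agent.P022K.WB
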