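import Vale.Agent.P022K.WB.Fg

/-!
# P022K, block WB: patterns, the local condition `Loc`, the transfer
-/

set_option autoImplicit false

noncomputable section

namespace Vale.Agent.P022K.WB

open Matrix Noe

variable {p : ℕ} [Fact p.Prime]

/-! ## patterns -/

section pat

variable {M M' : Type*} [AddCommGroup M] [AddCommGroup M']

/-- the value of a relation on a family indexed by the group and the index set -/
def evr {I K : Type} [Zero K] (μ : K → M → M) (y : G2 p × I → M) (r : G2 p × I →₀ K) : M :=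
  r.sum fun q c => μ c (y q)

theorem map_evr {I K : Type} [Zero K] (f : M →+ M') (μ : K → M → M) (y : G2 p × I → M)
    (r : G2 p × I →₀ K) : f (evr μ y r) = r.sum fun q c => f (μ c (y q)) := map_finsuppSum f r _

/-- the coefficients of a set of relations -/
def Cfs {I K : Type} [Zero K] (rel : Set (G2 p × I →₀ K)) : Set K :=
  {c | ∃ r ∈ rel, ∃ q ∈ r.support, r q = c}

/-- scalar multiplication through a map of the coefficients -/
def smf {K R : Type*} (φ : K → R) {X : Type*} [SMul R X] (c : K) (a : X) : X := φ c • a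

variable {R : Type*} [CommRing R] [Module R M]

/-- solutions of a set of relations -/
def Sl {I K : Type} [Zero K] (ρ : Representation R (G2 p) M) (μ : K → M → M)
    (rel : Set (G2 p × I →₀ K)) (x : I → M) : Prop :=
  ∀ r ∈ rel, evr μ (fun q => ρ q.1 (x q.2)) r = 0

/-- the same with the module structure -/
def SlO {I K : Type} [Zero K] (φ : K → R) (ρ : Representation R (G2 p) M)
    (rel : Set (G2 p × I →₀ K)) : Submodule R (I → M) where
  carrier := {x | ∀ r ∈ rel, (r.sum fun q c => φ c • ρ q.1 (x q.2)) = 0}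
  zero_mem' r _ := by simp [Finsupp.sum]
  add_mem' {a b} ha hb r hr := by
    have := congrArg₂ (· + ·) (ha r hr) (hb r hr)
    simpa only [Finsupp.sum, Pi.add_apply, map_add, smul_add, Finset.sum_add_distrib,
      add_zero] using this
  smul_mem' o a ha r hr := by
    have := congrArg (o • ·) (ha r hr)
    simpa only [Finsupp.sum, Pi.smul_apply, map_smul, Finset.smul_sum, smul_zero,
      smul_comm o] using this

theorem mem_SlO {I K : Type} [Zero K] {φ : K → R} {ρ : Representation R (G2 p) M}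
    {rel : Set (G2 p × I →₀ K)} {x : I → M} : x ∈ SlO φ ρ rel ↔ Sl ρ (smf φ) rel x := Iff.rfl

/-- the part generated by the unipotent differences -/
def Nq (ρ : Representation R (G2 p) M) (P : Submodule R M) : Submodule R M :=
  Gen ρ {y | ∃ b, ∃ v ∈ P, y = ρ (nn b) v - v}

theorem Adm.prod [Module R M'] {ρ : Representation R (G2 p) M} {ρ' : Representation R (G2 p) M'}
    (h : Adm ρ ⊤) (h' : Adm ρ' ⊤) : Adm (ρ.prod ρ') ⊤ := by
  refine ⟨fun _ _ _ => trivial, fun v _ => ?_, fun v _ => ?_,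
    (h.fin.prod h'.fin).subset fun v hv => ⟨⟨trivial, congrArg Prod.fst hv.2.1, fun g hg =>
      congrArg Prod.fst (hv.2.2 g hg)⟩, trivial, congrArg Prod.snd hv.2.1, fun g hg =>
      congrArg Prod.snd (hv.2.2 g hg)⟩⟩
  · obtain ⟨n, hn⟩ := h.sm v.1 trivial
    obtain ⟨m, hm⟩ := h'.sm v.2 trivial
    exact ⟨max n m, fun g hg => Prod.ext (hn g (Kn_anti (le_max_left n m) hg))
      (hm g (Kn_anti (le_max_right n m) hg))⟩
  · obtain ⟨n, hn⟩ := h.tor v.1 trivial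
    obtain ⟨m, hm⟩ := h'.tor v.2 trivial
    refine ⟨n + m, Prod.ext ?_ ?_⟩
    · show p ^ (n + m) • v.1 = 0
      rw [add_comm, pow_add, mul_smul, hn, smul_zero]
    · show p ^ (n + m) • v.2 = 0
      rw [pow_add, mul_smul, hm, smul_zero]

end pat

/-! ## maps to `Hom (T, Y)` -/

variable {C : Type} [NontriviallyNormedField C] [IsUltrametricDist C]
  [CharZero C] {ψ : ℚ_[p] → C} {Γ : Type} [Group Γ] {act : Γ →* Iso C} {χ : Γ →* ℤ_[p]ˣ}

/-- units of `ℤ_p` in `ℚ_p` -/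
def uq : ℤ_[p]ˣ →* ℚ_[p]ˣ := Units.map (PadicInt.Coe.ringHom (p := p)).toMonoidHom

theorem uq_surj {a : ℚ_[p]ˣ} (h : ‖(a : ℚ_[p])‖ = 1) : ∃ u, uq u = a :=
  ⟨PadicInt.mkUnits h, Units.ext rfl⟩

/-- the hypotheses on the group -/
abbrev Og (ψ : ℚ_[p] → C) (act : Γ →* Iso C) (χ : Γ →* ℤ_[p]ˣ) : Prop :=
  Ok p ψ (act.comp χ.ker.subtype)

variable {R M : Type*} [CommRing R] [AddCommGroup M] [Module R M]

/-- a functional, equivariant on `P` -/
structure Wg (ok : Og ψ act χ) (ρ : Representation R (G2 p) M) (γ : Γ → M → M) (P : Submodule R M)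
    (W : M →+ Y p C) : Prop where
  n : ∀ b, ∀ v ∈ P, W (ρ (nn b) v) = ok.psi.n b (W v)
  t : ∀ v ∈ P, W (ρ (tt p) v) = Y.phi p C (W v)
  s : ∀ s, ∀ v ∈ P, W (ρ (dd (uq (χ s)) 1) (γ s v)) = Y.gal (act s) (W v)

/-- an equivariant map to `Hom (T, Y)` -/
structure Bm (ok : Og ψ act χ) (ρ : Representation R (G2 p) M) {T : Type} [AddCommGroup T]
    (α : Γ →* AddMonoid.End T) (ι : M →+ T →+ Y p C) : Prop where
  n : ∀ b v a, ι (ρ (nn b) v) a = ok.psi.n b (ι v a)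
  t : ∀ v a, ι (ρ (tt p) v) a = Y.phi p C (ι v a)
  s : ∀ s v a, ι (ρ (dd (uq (χ s)) 1) v) (α s a) = Y.gal (act s) (ι v a)

/-- a lattice with a continuous action -/
structure Lat (p : ℕ) (act : Γ →* Iso C) {T : Type} [AddCommGroup T] (α : Γ →* AddMonoid.End T) :
    Prop where
  fin : ∀ N : ℕ, ∃ S : Set T, S.Finite ∧ ∀ a, ∃ s ∈ S, ∃ a', a = s + p ^ N • a'
  opn : ∀ N : ℕ, ∃ s : Finset C, (∀ a ∈ s, Alg a) ∧
    ∀ h, (∀ a ∈ s, (act h).1 a = a) → ∀ a, ∃ a', α h a = a + p ^ N • a'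

/-- the coefficients in `S` act in the same way on both sides -/
def Bal {K Θ T Z : Type*} [AddCommGroup Θ] [AddCommGroup T] [AddCommGroup Z] (S : Set K)
    (μ : K → Θ → Θ) (τ : K → T → T) (ι : Θ →+ T →+ Z) : Prop :=
  ∀ c ∈ S, ∀ v a, ι (μ c v) a = ι v (τ c a)

/-- **the local condition** -/
def Loc (ok : Og ψ act χ) {T : Type} [AddCommGroup T] (α : Γ →* AddMonoid.End T) {I K : Type}
    [Zero K] (τ : K → T → T) (rel : Set (G2 p × I →₀ K)) : Prop :=
  ∃ c : ℕ, ∀ N : ℕ, ∃ (Θ : Type) (_ : AddCommGroup Θ) (ρ : Representation ℤ (G2 p) Θ)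
    (μ : K → Θ → Θ) (ι : Θ →+ T →+ Y p C) (x : I → Θ), Adm ρ ⊤ ∧ (∀ a v, ρ (dd a a) v = v) ∧
    (∀ v : Θ, p ^ (N + c) • v = 0) ∧ Bm ok ρ α ι ∧ Bal (Cfs rel) μ τ ι ∧ Sl ρ μ rel x ∧
    (∀ i, x i ∈ Nq ρ ⊤) ∧ ∃ i, p ^ N • ι (x i) ≠ 0

variable {ok : Og ψ act χ} {ρ : Representation R (G2 p) M} {T T' : Type} [AddCommGroup T]
  [AddCommGroup T'] {α : Γ →* AddMonoid.End T} {α' : Γ →* AddMonoid.End T'}
  {ι : M →+ T →+ Y p C}

theorem al_mul (α : Γ →* AddMonoid.End T) (s t : Γ) (a : T) : α (s * t) a = α s (α t a) := by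
  rw [map_mul]
  rfl

theorem al_inv (α : Γ →* AddMonoid.End T) (s : Γ) (a : T) : α s (α s⁻¹ a) = a := by
  rw [← al_mul, mul_inv_cancel, map_one]
  rfl

theorem Bm.comp (h : Bm ok ρ α ι) (f : T' →+ T) (hf : ∀ s a, f (α' s a) = α s (f a)) :
    Bm ok ρ α' ((AddMonoidHom.compHom' f).comp ι) :=
  ⟨fun b v a => h.n b v (f a), fun v a => h.t v (f a), fun s v a =>
    (congrArg (ι _) (hf s a)).trans (h.s s v (f a))⟩

theorem Bm.t' (h : Bm ok ρ α ι) (v : M) (a : T) :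
    ι (ρ (tt p)⁻¹ v) a = (Y.phi p C).symm (ι v a) := by
  rw [AddEquiv.eq_symm_apply, ← h.t, rho_inv']

theorem Bm.eqv (h : Bm ok ρ α ι) (v : M) :
    Eqv (act.comp χ.ker.subtype) (α.comp χ.ker.subtype) (ι v) := fun s a => by
  have := h.s s v a
  rwa [show χ s = 1 from s.2, map_one, dd_one, map_one, Module.End.one_apply] at this

/-- change of the lattice, of the coefficients, conjugation -/
theorem Loc.of_map {I K : Type} [Zero K] {rel : Set (G2 p × I →₀ K)} {τ : K → T → T}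
    {τ' : K → T' → T'} (h : Loc ok α τ rel) {J : Type*} (f : J → T' →+ T)
    (hf : ∀ j s a, f j (α' s a) = α s (f j a))
    (hτ : ∀ j, ∀ c ∈ Cfs rel, ∀ a, f j (τ' c a) = τ c (f j a)) (c' : ℕ)
    (hs : ∀ a, p ^ c' • a ∈ ⨆ j, (f j).range) : Loc ok α' τ' rel := by
  obtain ⟨c, h⟩ := h
  refine ⟨c' + c, fun N => ?_⟩
  obtain ⟨Θ, _, ρ, μ, ι, x, h1, h2, h3, h4, hb, h5, h6, i, h7⟩ := h (N + c')
  by_contra hn
  refine h7 (AddMonoidHom.ext fun a => ?_)
  have : ⨆ j, (f j).range ≤ (p ^ N • ι (x i)).ker := iSup_le fun j => by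
    rintro _ ⟨b, rfl⟩
    by_contra e
    exact hn ⟨Θ, _, ρ, μ, _, x, h1, h2, by rwa [← add_assoc], h4.comp (f j) (hf j),
      fun c hc v a => (hb c hc v (f j a)).trans (congrArg (ι v) (hτ j c hc a).symm), h5, h6, i,
      fun e' => e (DFunLike.congr_fun e' b)⟩
  have h8 : (p ^ N • ι (x i)) (p ^ c' • a) = 0 := this (hs a)
  rwa [map_nsmul, ← AddMonoidHom.nsmul_apply, ← mul_smul, ← pow_add, add_comm] at h8

/-- change of the pattern: the new solutions are made from the old ones -/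
theorem Loc.of_rel {I K K' : Type} [Zero K] [Zero K'] {rel : Set (G2 p × I →₀ K)}
    {rel' : Set (G2 p × I →₀ K')} {τ : K → T → T} {τ' : K' → T → T} (h : Loc ok α τ rel)
    (f : K' → K) (hf : ∀ r' ∈ rel', ∃ r ∈ rel, r.support = r'.support ∧
      ∀ q ∈ r.support, f (r' q) = r q ∧ τ' (r' q) = τ (r q)) : Loc ok α τ' rel' := by
  refine h.imp fun c h N => ?_
  obtain ⟨Θ, _, ρ, μ, ι, x, h1, h2, h3, h4, hb, h5, h6⟩ := h N
  refine ⟨Θ, _, ρ, fun c => μ (f c), ι, x, h1, h2, h3, h4, ?_, fun r' hr' => ?_, h6⟩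
  · rintro _ ⟨r', hr', q, hq, rfl⟩ v a
    obtain ⟨r, hr, e, e'⟩ := hf r' hr'
    rw [← e] at hq
    rw [(e' q hq).2]
    exact (congrArg (fun c => ι (μ c v) a) (e' q hq).1).trans (hb _ ⟨r, hr, q, hq, rfl⟩ v a)
  · obtain ⟨r, hr, e, e'⟩ := hf r' hr'
    rw [← h5 r hr, evr, evr, Finsupp.sum, Finsupp.sum, ← e]
    exact Finset.sum_congr rfl fun q hq => by rw [(e' q hq).1]

omit [Fact p.Prime] [IsUltrametricDist C] [CharZero C] in
theorem Lat.pi (h : Lat p act α) (J : Type) [Finite J] (β : Γ →* AddMonoid.End (J → T))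
    (hβ : ∀ s a j, β s a j = α s (a j)) : Lat p act β := by
  refine ⟨fun N => ?_, fun N => (h.opn N).imp fun s hs => ⟨hs.1, fun g hg a => ?_⟩⟩
  · obtain ⟨S, h1, h2⟩ := h.fin N
    refine ⟨Set.pi Set.univ fun _ => S, Set.Finite.pi fun _ => h1, fun a => ?_⟩
    choose s s1 a' s2 using fun j => h2 (a j)
    exact ⟨s, fun j _ => s1 j, a', funext s2⟩
  · choose a' s2 using fun j => hs.2 g hg (a j)
    exact ⟨a', funext fun j => (hβ g a j).trans (s2 j)⟩

theorem Wk.of_sub {Z : Type*} [AddCommGroup Z] {W : M →+ Z} {φ : Z → Z} (S : Set Z)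
    (h0 : (0 : Z) ∈ S) (h1 : ∀ v, W v ∈ S) (h2 : ∀ z ∈ S, φ z ∈ S)
    (bs : ∀ b ∈ BB p, ∀ v, W v = 0 → W (ρ b v) = 0)
    (ps : ∀ v, W (ρ (tt p * (zz p)⁻¹) v) = φ (W v))
    (nf : ∀ E ⊆ S, E.Finite → E ⊆ φ '' E → E ⊆ {0}) : ∃ φ', Wk ρ W φ' := by
  classical
  refine ⟨fun z => if z ∈ S then φ z else 0, bs, fun v => by rw [ps, if_pos (h1 v)],
    fun E hE h => ?_⟩
  have h3 : E ⊆ S := fun z hz => by
    obtain ⟨y, -, rfl⟩ := h hz
    by_cases e : y ∈ S
    · simpa only [if_pos e] using h2 y e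
    · simpa only [if_neg e] using h0
  refine nf E h3 hE fun z hz => ?_
  obtain ⟨y, hy, rfl⟩ := h hz
  exact ⟨y, hy, (if_pos (h3 hy)).symm⟩

variable [CompleteSpace C] [IsAlgClosed C]

/-- lemma K for an equivariant map -/
theorem Bm.wk (hF : PHI p C) (sur : Function.Surjective χ) (h : Bm ok ρ α ι)
    (hz : ∀ a v, ρ (dd a a) v = v) (tor : ∀ v : M, ∃ N : ℕ, p ^ N • v = 0) : ∃ φ, Wk ρ ι φ := by
  refine Wk.of_sub (φ := fun x => (Y.phi p C).toAddMonoidHom.comp x) {x | ∀ a, Tor (x a)}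
    (fun _ => ⟨0, smul_zero _⟩) (fun v a => (tor v).imp fun N hN => ?_)
    (fun x hx a => (hx a).imp fun N hN => ?_) (fun b hb v hv => ?_)
    (fun v => AddMonoidHom.ext fun a => ?_) fun E hS hE hh x hx => ?_
  · rw [← AddMonoidHom.nsmul_apply, ← map_nsmul, hN, map_zero, AddMonoidHom.zero_apply]
  · show p ^ N • Y.phi p C (x a) = 0
    rw [← map_nsmul, hN, map_zero]
  · have h1 : ∀ g, (∀ u a, ι u a = 0 → ι (ρ g u) a = 0) → ∀ u ∈ ι.ker, ρ g u ∈ ι.ker :=
      fun g hg u hu => AddMonoidHom.ext fun a => hg u a (DFunLike.congr_fun hu a)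
    obtain ⟨b, a, d, rfl⟩ := BB_eq hb
    obtain ⟨n, u, hu, e⟩ := unit_eq (a / d)
    have e' : dd a d = tt p ^ n * dd u 1 * dd d d := by
      rw [tt, dd_zpow, ← dd_mul, ← dd_mul, ← e]
      simp
    obtain ⟨u, rfl⟩ := uq_surj hu
    obtain ⟨s, rfl⟩ := sur u
    rw [e', rho_mul, rho_mul, rho_mul, hz]
    refine h1 _ (fun u a e => by rw [h.n, e, map_zero]) _
      (zpow_stab (h1 _ fun u a e => by rw [h.t, e, map_zero])
        (h1 _ fun u a e => by rw [h.t', e, map_zero]) n _ (AddMonoidHom.ext fun a => ?_))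
    have := h.s s v (α s⁻¹ a)
    rwa [hv, AddMonoidHom.zero_apply, map_zero, al_inv] at this
  · rw [rho_mul, zz, ← dd_inv, hz]
    exact h.t v a
  · obtain ⟨k, hk, e⟩ := periodic_of_finite hE hh hx
    have : ∀ (j : ℕ) (x : T →+ Y p C) (a : T),
        ((fun x => (Y.phi p C).toAddMonoidHom.comp x)^[j] x) a = (Y.phi p C)^[j] (x a) :=
      fun j => by
        induction j with
        | zero => exact fun _ _ => rfl
        | succ j ih => exact fun x a => ih _ a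
    exact AddMonoidHom.ext fun a => hF ψ ok.psi ok.np _ k (hS hx a) hk (by rw [← this, e])

/-- the kernel is stable under the group -/
theorem Bm.ker {Θ : Type*} [AddCommGroup Θ] {σ : Representation ℤ (G2 p) Θ}
    {ι : Θ →+ T →+ Y p C} (hF : PHI p C) (sur : Function.Surjective χ) (h : Bm ok σ α ι)
    (hA : Adm σ ⊤) (hz : ∀ a v, σ (dd a a) v = v) {v : Θ} (h0 : ι v = 0) (g : G2 p) :
    ι (σ g v) = 0 := by
  obtain ⟨φ, hφ⟩ := h.wk hF sur hz fun v => hA.tor v trivial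
  exact hφ.strong (fun c v hv => by rw [map_zsmul, hv, smul_zero]) hA trivial h0 g

/-- `SURJ` for lattices -/
theorem SURJ.lat (hS : SURJ p C) (hl : Lat p act α) (h : Bm ok ρ α ι) {N : ℕ}
    (hN : ∀ v : M, p ^ N • v = 0) {x : T →+ Y p C}
    (hx : Eqv (act.comp χ.ker.subtype) (α.comp χ.ker.subtype) x)
    (h0 : ∀ a, (∀ u, ι u a = 0) → x a = 0) (b : ℚ_[p]) :
    ∃ u, ι u = (ok.psi.n b).comp x - x := by
  let B : AddSubgroup T := (nsmulAddMonoidHom (p ^ N)).range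
  have hB : ∀ s, ∀ a ∈ B, (α.comp χ.ker.subtype) s a ∈ B := by
    rintro s _ ⟨a, rfl⟩
    exact ⟨_, (map_nsmul _ _ _).symm⟩
  have h1 : ∀ u, ∀ a ∈ B, ι u a = 0 := by
    rintro u _ ⟨a, rfl⟩
    show ι u (p ^ N • a) = 0
    rw [map_nsmul, ← AddMonoidHom.nsmul_apply, ← map_nsmul, hN, map_zero, AddMonoidHom.zero_apply]
  have : Finite (T ⧸ B) := by
    obtain ⟨S, s1, s2⟩ := hl.fin N
    refine Set.finite_univ_iff.1 ((s1.image QuotientAddGroup.mk).subset fun a _ => ?_)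
    obtain ⟨a, rfl⟩ := QuotientAddGroup.mk_surjective a
    obtain ⟨s, hs, a', rfl⟩ := s2 a
    exact ⟨s, hs, QuotientAddGroup.eq.2 ⟨a', by simp⟩⟩
  let ι' : M →+ T ⧸ B →+ Y p C :=
    { toFun := fun u => QuotientAddGroup.lift B (ι u) (h1 u)
      map_zero' := QuotientAddGroup.addMonoidHom_ext _ (AddMonoidHom.ext fun a =>
        DFunLike.congr_fun (map_zero ι) a)
      map_add' := fun u v => QuotientAddGroup.addMonoidHom_ext _ (AddMonoidHom.ext fun a =>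
        DFunLike.congr_fun (map_add ι u v) a) }
  have hw : Wm ok ρ (quoA _ B hB) ι' := by
    refine ⟨(hl.opn N).imp fun s hs => ⟨hs.1, fun g hg => AddMonoidHom.ext fun a => ?_⟩,
      ⟨N, fun a => ?_⟩, fun v s a => ?_, fun b v a => ?_, fun v a => ?_⟩ <;>
      obtain ⟨a, rfl⟩ := QuotientAddGroup.mk_surjective a
    · obtain ⟨a', e⟩ := hs.2 g hg a
      exact (QuotientAddGroup.eq.2 (show -a + α g a ∈ B from ⟨a', by
        rw [e, neg_add_cancel_left]
        rfl⟩)).symm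
    · exact (QuotientAddGroup.eq_zero_iff (p ^ N • a)).2 ⟨a, rfl⟩
    · exact h.eqv v s a
    · exact h.n b v a
    · exact h.t v a
  obtain ⟨u, -, e⟩ := hw.surj hS (Q := ⊤) (fun _ _ _ => trivial)
    (x := QuotientAddGroup.lift B x fun a ha => h0 a fun u => h1 u a ha)
    (fun s a => by
      obtain ⟨a, rfl⟩ := QuotientAddGroup.mk_surjective a
      exact hx s a)
    (fun a ha => by
      obtain ⟨a, rfl⟩ := QuotientAddGroup.mk_surjective a
      exact h0 a fun u => ha u trivial) b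
  exact ⟨u, AddMonoidHom.ext fun a => DFunLike.congr_fun e (QuotientAddGroup.mk a)⟩

section core

variable {Θ Θ' : Type*} [AddCommGroup Θ] [AddCommGroup Θ'] {σ : Representation ℤ (G2 p) Θ}
  {σ' : Representation ℤ (G2 p) Θ'} {κ : Θ →+ T →+ Y p C} {κ' : Θ' →+ T →+ Y p C}

/-- equal values stay equal under the group -/
theorem Bm.transfer (hF : PHI p C) (sur : Function.Surjective χ) (h : Bm ok σ α κ)
    (h' : Bm ok σ' α κ') (hA : Adm σ ⊤) (hA' : Adm σ' ⊤) (hz : ∀ a v, σ (dd a a) v = v)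
    (hz' : ∀ a v, σ' (dd a a) v = v) {v : Θ} {v' : Θ'} (e : κ v = κ' v') (g : G2 p) :
    κ (σ g v) = κ' (σ' g v') := by
  have h1 : Bm ok (σ.prod σ') α (κ.coprod (-κ')) := by
    refine ⟨fun b v a => ?_, fun v a => ?_, fun s v a => ?_⟩
    · show κ (σ _ v.1) a + -κ' (σ' _ v.2) a = ok.psi.n b (κ v.1 a + -κ' v.2 a)
      rw [h.n, h'.n, map_add, map_neg]
    · show κ (σ _ v.1) a + -κ' (σ' _ v.2) a = Y.phi p C (κ v.1 a + -κ' v.2 a)
      rw [h.t, h'.t, map_add, map_neg]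
    · show κ (σ _ v.1) _ + -κ' (σ' _ v.2) _ = Y.gal _ (κ v.1 a + -κ' v.2 a)
      rw [h.s, h'.s, map_add, map_neg]
  exact add_neg_eq_zero.1 (h1.ker hF sur (hA.prod hA') (fun a v => Prod.ext (hz a v.1) (hz' a v.2))
    (v := (v, v')) (add_neg_eq_zero.2 e) g)

/-- **the transfer of solutions** -/
theorem tr_core (hS : SURJ p C) (hF : PHI p C) (sur : Function.Surjective χ) (hl : Lat p act α)
    (h : Bm ok σ α κ) (h' : Bm ok σ' α κ') (hA : Adm σ ⊤) (hA' : Adm σ' ⊤)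
    (hz : ∀ a v, σ (dd a a) v = v) (hz' : ∀ a v, σ' (dd a a) v = v) {N : ℕ}
    (hN : ∀ v : Θ', p ^ N • v = 0) (inj : ∀ v, κ' v = 0 → v = 0)
    (ker : ∀ a, (∀ u, κ' u a = 0) → ∀ v, κ v a = 0) {I K : Type} [Zero K]
    {rel : Set (G2 p × I →₀ K)} {μ : K → Θ → Θ} {μ' : K → Θ' → Θ'} {τ : K → T → T}
    (hb : Bal (Cfs rel) μ τ κ) (hb' : Bal (Cfs rel) μ' τ κ') {x : I → Θ} (hx : Sl σ μ rel x)
    (hn : ∀ i, x i ∈ Nq σ ⊤) : ∃ y : I → Θ', Sl σ' μ' rel y ∧ ∀ i, κ' (y i) = κ (x i) := by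
  have h1 : Nq σ ⊤ ≤ (κ'.range.comap κ).toIntSubmodule := by
    refine Gen_le ?_ ?_
    · rintro g v ⟨u, e⟩
      exact ⟨_, (h.transfer hF sur h' hA hA' hz hz' e.symm g).symm⟩
    · rintro _ ⟨b, v, -, rfl⟩
      obtain ⟨u, e⟩ := hS.lat hl h' hN (h.eqv v) (fun a ha => ker a ha v) b
      refine ⟨u, e.trans ?_⟩
      rw [map_sub]
      congr 1
      exact AddMonoidHom.ext fun a => (h.n b v a).symm
  choose y hy using fun i => h1 (hn i)
  refine ⟨y, fun r hr => inj _ ?_, hy⟩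
  have := congrArg κ (hx r hr)
  rw [map_zero, map_evr] at this
  rw [map_evr, ← this]
  refine Finsupp.sum_congr fun q hq => AddMonoidHom.ext fun a => ?_
  rw [hb _ ⟨r, hr, q, hq, rfl⟩, hb' _ ⟨r, hr, q, hq, rfl⟩,
    h.transfer hF sur h' hA hA' hz hz' (hy q.2).symm q.1]

end core

end Vale.Agent.P022K.WB

end
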