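import Vale.Agent.P022K.WB.Grp
import Vale.Agent.P022K.WB.Pw

/-!
# P022K, block WB: slices on an exhausting family of submodules
-/

set_option autoImplicit false

open Filter

noncomputable section

namespace Vale.Agent.P022K.WB.Hon

variable {p : ℕ} [Fact p.Prime] {C : Type} [NontriviallyNormedField C] [IsUltrametricDist C]
  [CharZero C] [CompleteSpace C] [IsAlgClosed C] {ψ : ℚ_[p] → C} {Γ : Type} [Group Γ]
  {act : Γ →* Iso C} {χ : Γ →* ℤ_[p]ˣ} {R M : Type*} [CommRing R] [AddCommGroup M] [Module R M]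
  {ρ : Representation R (G2 p) M} {γ : Γ → M → M} {w : ℕ → ℚ_[p] → M →+ Y p C} {J : Type*}
  {P : J → Submodule R M}

theorem fin_of_dir (dir : Directed (· ≤ ·) P) (ex : ∀ v, ∃ j, v ∈ P j) (s : Finset M) :
    ∃ j, ∀ v ∈ s, v ∈ P j := by
  classical
  induction s using Finset.induction_on with
  | empty => exact (ex 0).imp fun j _ => by simp
  | insert a s _ ih =>
    obtain ⟨i, hi⟩ := ih
    obtain ⟨j, hj⟩ := ex a
    obtain ⟨k, h1, h2⟩ := dir i j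
    exact ⟨k, Finset.forall_mem_insert _ _ _ |>.2 ⟨h2 hj, fun v hv => h1 (hi v hv)⟩⟩

theorem ex_ultra (fin : ∀ s : Finset M, ∃ j, ∀ v ∈ s, v ∈ P j) :
    ∃ U : Ultrafilter J, ∀ v, ∀ᶠ j in (U : Filter J), v ∈ P j := by
  classical
  obtain ⟨U, hU⟩ := Ultrafilter.exists_ultrafilter_of_finite_inter_nonempty
    (Set.range fun v => {j | v ∈ P j}) fun T hT => by
      choose! f hf using fun t (ht : t ∈ T) => hT (Finset.mem_coe.2 ht)
      obtain ⟨j, hj⟩ := fin (T.image f)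
      exact ⟨j, fun t ht => hf t ht ▸ hj _ (Finset.mem_image_of_mem f ht)⟩
  exact ⟨U, fun v => hU ⟨v, rfl⟩⟩

/-- functionals on the members of the family give a functional on everything -/
theorem glue (ok : Og ψ act χ) (adm : ∀ v, ∃ Q, Adm ρ Q ∧ v ∈ Q) (hz : ∀ a v, ρ (dd a a) v = v)
    (fin : ∀ s : Finset M, ∃ j, ∀ v ∈ s, v ∈ P j) {v : M}
    (h : ∀ W, Wg ok ρ γ ⊤ W → ∀ u, W (ρ (dd (uq u) 1) v) = 0) :
    ∃ j, v ∈ P j ∧ ∀ W, Wg ok ρ γ (P j) W → ∀ u, W (ρ (dd (uq u) 1) v) = 0 := by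
  by_contra e
  push Not at e
  choose! W h1 u h2 using e
  obtain ⟨U, hU⟩ := ex_ultra fin
  obtain ⟨W', h3, h4⟩ := ult ok (γ := γ) adm hz U (fun j => W j)
    (fun a b => Eventually.of_forall fun j => map_add _ a b)
    (fun b x => ((hU v).and (hU x)).mono fun j hj => (h1 j hj.1).n b x hj.2)
    (fun x => ((hU v).and (hU x)).mono fun j hj => (h1 j hj.1).t x hj.2)
    (fun s x => ((hU v).and (hU x)).mono fun j hj => (h1 j hj.1).s s x hj.2)
  obtain ⟨Q, q1, q2⟩ := adm v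
  obtain ⟨j, h5, h6⟩ := ((hU v).and ((eventually_all_finite (q1.sm v q2).orbit).2
    fun z _ => h4 z)).exists
  exact h2 j h5 ((h6 _ ⟨_, Du_Kn (k := 0) (by simp), rfl⟩).trans (h W' h3 (u j)))

/-- **WT** -/
theorem wt (ok : Og ψ act χ) (adm : ∀ v, ∃ Q, Adm ρ Q ∧ v ∈ Q) (hz : ∀ a v, ρ (dd a a) v = v)
    (fin : ∀ s : Finset M, ∃ j, ∀ v ∈ s, v ∈ P j) (A : ∀ j, Ac ρ γ (P j))
    (H : ∀ j, Sc ok ρ γ (P j) w) {v : M}
    (h : ∀ W, Wg ok ρ γ ⊤ W → ∀ u, W (ρ (dd (uq u) 1) v) = 0) :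
    ∃ k1, ∀ k, k1 ≤ k → ∀ a, ‖a‖ = 1 → w k a v = 0 := by
  obtain ⟨j, h1, h2⟩ := glue ok adm hz fin h
  exact (H j).inj (A j).gs (fun z _ => (adm z).elim fun _ q => q.1.sm z q.2) (A j).tor (A j).mem
    (A j).com (A j).one h1 h2

end Vale.Agent.P022K.WB.Hon
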