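import Vale.Agent.P022K.WB.Wk
import Vale.Agent.P022K.WB.Slc
import Vale.Agent.P022K.WB.Wt

/-!
# P022K, block WB: the slices of completed cohomology at an ordinary point
-/

set_option autoImplicit false
set_option linter.unusedSectionVars false

open PowerSeries LaurentSeries

noncomputable section

namespace Vale.Agent.P022K.WB.Wf

open Sh Vale.Agent.P022.H218.L3 Vale.Agent.P022K.FI Slc Hon

variable {G0 G : Type} [Group G0] [Group G] {T : Tw G0 G} {A : T.Ax} {p : ℕ} [Fact p.Prime]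
  {H : Type} [Group H] [TopologicalSpace H] {th : H → (G → Mer) → G → Mer}
  {M : Type} [AddCommGroup M] {a : Representation ℤ G M} {g : Representation ℤ H M}
  {im : ∀ k U, T.Hn (p ^ k) U →+ M}
  {C : Type} [NontriviallyNormedField C] [IsUltrametricDist C] [CharZero C]

/-- invariance under the unipotent matrices of level `n` -/
def Lv (ι : G2 p →* G) (n : ℕ) (φ : G → Mer) : Prop :=
  ∀ b : ℚ_[p], ‖b‖ ≤ ‖(p : ℚ_[p]) ^ n‖ → rt (ι (nn b)) φ = φ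

variable (T) in
/-- **expansions at an ordinary point** -/
structure Xp (ι : G2 p →* G) (ψ : ℚ_[p] → C) (E : ℕ → (G → Mer) → C⸨X⸩) : Prop where
  np : ‖(p : C)‖ < 1
  psi : Psi p ψ
  opn : ∀ U ∈ T.Lev, ∃ m : ℕ, ∀ b : ℚ_[p], ‖b‖ ≤ ‖(p : ℚ_[p]) ^ m‖ → ι (nn b) ∈ U
  mul : ∀ U ∈ T.Lev, ∀ φ ∈ T.RU U, ∀ φ' ∈ T.RU U, ∀ n, E n (φ * φ') = E n φ * E n φ'
  succ : ∀ n φ, E (n + 1) φ = sub ((1 + X) ^ p - 1) (E n φ)
  fac : ∀ U ∈ T.Lev, ∀ φ ∈ T.RU U, (∀ x, φ x ≠ 0) → ∀ n, Lv ι n φ → Fc (E n φ)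
  un : ∀ U ∈ T.Lev, ∀ φ ∈ T.RU U, ∀ n, Lv ι n φ → ∀ b : ℚ_[p],
    FI.Cm (PowerSeries.C (ψ (b / (p : ℚ_[p]) ^ n)) * (1 + X) - 1) (E n φ) (E n (rt (ι (nn b)) φ))
  dvd : ∀ U ∈ T.Lev, ∀ φ ∈ T.RU U, ∀ n, Lv ι n φ → ∀ (h : G → Mer) (N : ℕ), h ^ N = φ →
    ∀ c D, Fac (E n φ) c D → ∀ b, (N : ℤ) ∣ D b

theorem cl_add (m : ℕ) (l l' : ℤ → C) : cl p m (l + l') = cl p m l + cl p m l' := by
  rw [cl, cl, cl, smul_add, map_add]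

theorem cl_sum (m : ℕ) {I : Type*} (s : Finset I) (l : I → ℤ → C) :
    cl p m (∑ i ∈ s, l i) = ∑ i ∈ s, cl p m (l i) := by
  simp only [cl, Finset.smul_sum, map_sum]

theorem cl_tor {m : ℕ} {l : ℤ → C} (hl : l ∈ BW p C) : p ^ m • cl p m l = 0 := by
  rwa [cl, ← map_nsmul, ← Nat.cast_smul_eq_nsmul C, Nat.cast_pow,
    smul_inv_smul₀ (pow_ne_zero _ Fs.p_ne), Y.mk_eq_zero]

variable [CompleteSpace C] [IsAlgClosed C]

theorem cl_smul (hp : ‖(p : C)‖ < 1) (f : ℤ_[p] →+* C) (hf : ∀ x, ‖f x‖ ≤ 1) (c : ℤ_[p]) (m : ℕ)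
    {l : ℤ → C} (hl : l ∈ BW p C) : cl p m (f c • l) = zs c (cl p m l) := by
  obtain ⟨d, hd⟩ := dvd_appr c m
  have h1 : f d • l ∈ BW p C := Slc.smul_mem hp (fun N => ⟨d.appr N, by
    obtain ⟨e, he⟩ := dvd_appr d N
    rw [← map_natCast f, ← map_sub, he, map_mul, map_pow, map_natCast, norm_mul, norm_pow]
    exact mul_le_of_le_one_right (by positivity) (hf e)⟩) hl
  have h2 : f c • l = p ^ m • f d • l + c.appr m • l := by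
    conv_lhs => rw [← sub_add_cancel c (c.appr m), hd]
    rw [map_add, map_mul, map_pow, map_natCast, map_natCast, add_smul, mul_smul, ← Nat.cast_pow,
      Nat.cast_smul_eq_nsmul, Nat.cast_smul_eq_nsmul]
  rw [zs_eq c (cl_tor hl), h2, cl_add, cl_eq_zero.2 ⟨_, h1, rfl⟩, zero_add, cl, cl, smul_comm,
    map_nsmul]

variable {ι : G2 p →* G} {ψ : ℚ_[p] → C} {E E' : ℕ → (G → Mer) → C⸨X⸩} {U U' : Subgroup G}
  {φ φ' : G → Mer} {n k m : ℕ} {t : ℚ_[p]} {v v' : M}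

theorem Lv.mono {n' : ℕ} (h : Lv ι n φ) (e : n ≤ n') : Lv ι n' φ := fun b hb => h b (hb.trans (by
  rw [norm_pow, norm_pow]
  exact pow_le_pow_of_le_one (norm_nonneg _) (Fs.nrm_nat p) e))

open Classical in
variable (p ψ E) in
/-- the slices of a function -/
def La (k : ℕ) (t : ℚ_[p]) (φ : G → Mer) : ℤ → C :=
  if h : (0 < k ∧ ‖t‖ = 1) ∧ ∃ n, Fc (E n φ) then sl p ψ h.2.choose k t (E h.2.choose φ) else 0

namespace Xp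

variable (B : Xp T ι ψ E)
include B

theorem st : ST p C ψ := fst p C ψ B.psi B.np

theorem lv (hU : U ∈ T.Lev) : ∃ n, ∀ φ ∈ T.RU U, Lv ι n φ :=
  (B.opn U hU).imp fun _ h _ hφ b hb => funext fun x => hφ.2 x _ (h b hb)

theorem up (hk : 0 < k) (ht : ‖t‖ = 1) (h : Fc (E n φ)) (j : ℕ) :
    Fc (E (n + j) φ) ∧ sl p ψ (n + j) k t (E (n + j) φ) = sl p ψ n k t (E n φ) := by
  induction j with
  | zero => exact ⟨h, rfl⟩
  | succ j ih =>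
    have d := dg_frob B.np
    have h0 : constantCoeff ((1 + X) ^ p - 1 : C⟦X⟧) = 0 := by simp
    have h1 := (d.sb_iff_cm h0 ih.1.choose_spec.choose_spec).1
      ((sb_eq_sub h0 d.ne).2 (B.succ (n + j) φ))
    exact ⟨ih.1.cm d h1, (sl_lvl B.st B.np hk ht ih.1 h1).trans ih.2⟩

theorem fc_mono (h : Fc (E n φ)) {n' : ℕ} (e : n ≤ n') : Fc (E n' φ) := by
  obtain ⟨j, rfl⟩ := Nat.exists_eq_add_of_le e
  exact (B.up (t := 1) one_pos norm_one h j).1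

theorem La_eq (hk : 0 < k) (ht : ‖t‖ = 1) (h : Fc (E n φ)) :
    La p ψ E k t φ = sl p ψ n k t (E n φ) := by
  have h1 : (0 < k ∧ ‖t‖ = 1) ∧ ∃ n, Fc (E n φ) := ⟨⟨hk, ht⟩, n, h⟩
  rw [La, dif_pos h1, ← (B.up hk ht h1.2.choose_spec n).2, ← (B.up hk ht h h1.2.choose).2, add_comm]

variable (th) in
theorem kl (k : ℕ) (t : ℚ_[p]) : Kl T p th (fun _ => True) (La p ψ E k t) := by
  refine ⟨fun _ _ _ _ _ _ => trivial, fun _ _ _ _ _ _ _ _ _ _ => trivial,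
    fun U hU φ hφ φ' hφ' h0 h0' _ _ => ⟨trivial, ?_⟩, fun U hU φ hφ h0 _ => ?_⟩
  · by_cases c : 0 < k ∧ ‖t‖ = 1
    · obtain ⟨n, hn⟩ := B.lv hU.1
      have h1 := B.fac U hU.1 φ hφ h0 n (hn _ hφ)
      have h2 := B.fac U hU.1 φ' hφ' h0' n (hn _ hφ')
      have h3 := B.mul U hU.1 φ hφ φ' hφ' n
      rw [B.La_eq c.1 c.2 h1, B.La_eq c.1 c.2 h2, B.La_eq (n := n) c.1 c.2 (h3 ▸ h1.mul h2), h3,
        sl_mul B.st h1 h2]
    · simp [La, c]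
  · unfold La
    split_ifs with c
    exacts [sl_mem B.st c.1.1 c.1.2 _, zero_mem _]

variable (K : A.Kk p th a g im)
include K

/-- **the slices at a point** -/
def wp (k : ℕ) (t : ℚ_[p]) : M →+ Y p C := ((B.kl th k t).exW K).choose

theorem wp_La (d : A.Kd im U m φ v) : B.wp K k t v = cl p m (La p ψ E k t φ) :=
  ((B.kl th k t).exW K).choose_spec U m φ v d trivial

theorem wp_eq (d : A.Kd im U m φ v) (hk : 0 < k) (ht : ‖t‖ = 1) (h : Fc (E n φ)) :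
    B.wp K k t v = cl p m (sl p ψ n k t (E n φ)) := by rw [B.wp_La K d, B.La_eq hk ht h]

theorem kd_lv (d : A.Kd im U m φ v) : ∃ n0, ∀ n, n0 ≤ n → Lv ι n φ ∧ Fc (E n φ) :=
  (B.lv d.1.1).imp fun _ h n hn => have := (h φ (d.mem K)).mono hn
    ⟨this, B.fac U d.1.1 φ (d.mem K) d.ne n this⟩

omit B in
theorem ex_kd (v : M) : ∃ U m φ, A.Kd im U m φ v := by
  obtain ⟨k, hk⟩ := K.cc.tor v
  obtain ⟨U₀, h0, -⟩ := K.ok.neat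
  obtain ⟨U, -, φ, d, -⟩ := K.ex v 1 h0 hk
  exact ⟨U, k, φ, d⟩

theorem wp_zero (c : ¬ (0 < k ∧ ‖t‖ = 1)) (v : M) : B.wp K k t v = 0 := by
  obtain ⟨U, m, φ, d⟩ := ex_kd K v
  simp [B.wp_La K d, La, c, cl]

theorem wp_ref (hk : 0 < k) (ht : ‖t‖ = 1) (v : M) : B.wp K k t v =
    ∑ j ∈ Finset.range p, B.wp K (k + 1) (t + j * (p : ℚ_[p]) ^ k) v := by
  obtain ⟨U, m, φ, d⟩ := ex_kd K v
  obtain ⟨n, hn⟩ := B.kd_lv K d
  have h := (hn n le_rfl).2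
  rw [B.wp_eq K d hk ht h, sl_ref B.st ht.le, cl_sum]
  refine Finset.sum_congr rfl fun j _ => (B.wp_eq K d k.succ_pos ?_ h).symm
  have : ‖(j : ℚ_[p]) * (p : ℚ_[p]) ^ k‖ < ‖t‖ := by
    rw [ht, norm_mul, norm_pow]
    exact mul_lt_one_of_nonneg_of_lt_one_right (Fs.nrm_nat j) (by positivity)
      (pow_lt_one₀ (norm_nonneg _) Padic.norm_p_lt_one hk.ne')
  rw [IsUltrametricDist.norm_add_eq_max_of_norm_ne_norm this.ne', max_eq_left this.le, ht]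

theorem wp_cong {t' : ℚ_[p]} (e : ‖t - t'‖ ≤ ‖(p : ℚ_[p]) ^ k‖) (v : M) :
    B.wp K k t v = B.wp K k t' v := by
  have key : ∀ t t' : ℚ_[p], ‖t - t'‖ ≤ ‖(p : ℚ_[p]) ^ k‖ → 0 < k ∧ ‖t‖ = 1 → 0 < k ∧ ‖t'‖ = 1 :=
    fun t t' e c => by
      have : ‖t' - t‖ < ‖t‖ := by
        rw [c.2, norm_sub_rev]
        refine e.trans_lt ?_
        rw [norm_pow]
        exact pow_lt_one₀ (norm_nonneg _) Padic.norm_p_lt_one c.1.ne'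
      rw [← sub_add_cancel t' t, IsUltrametricDist.norm_add_eq_max_of_norm_ne_norm this.ne,
        max_eq_right this.le]
      exact c
  by_cases c : 0 < k ∧ ‖t‖ = 1
  · obtain ⟨U, m, φ, d⟩ := ex_kd K v
    obtain ⟨n, hn⟩ := B.kd_lv K d
    have h := (hn n le_rfl).2
    rw [B.wp_eq K d c.1 c.2 h, B.wp_eq K d c.1 (key t t' e c).2 h, sl_cong B.st e]
  · rw [B.wp_zero K c, B.wp_zero K fun c' => c (key t' t (by rwa [norm_sub_rev]) c')]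

theorem wp_n (r : ℝ) (v : M) : ∃ k0, ∀ k, k0 ≤ k → ∀ t b, ‖t‖ = 1 → ‖b‖ ≤ r →
    B.wp K k t (a (ι (nn b)) v) = B.psi.n (t * b) (B.wp K k t v) := by
  obtain ⟨U, m, φ, d⟩ := ex_kd K v
  obtain ⟨n, hn⟩ := B.kd_lv K d
  obtain ⟨h1, h2⟩ := hn n le_rfl
  have p1 : (1 : ℝ) < p := by exact_mod_cast (Fact.out : p.Prime).one_lt
  have p0 : (p : ℚ_[p]) ≠ 0 := Fs.qp_ne
  obtain ⟨j, hj⟩ := pow_unbounded_of_one_lt r p1
  refine ⟨n + j + 1, fun k hk t b ht hb => ?_⟩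
  obtain ⟨i, rfl⟩ : ∃ i, k = n + j + i := ⟨k - (n + j), by omega⟩
  have h3 := B.un U d.1.1 φ (d.mem K) n h1 b
  have h4 : ‖b / (p : ℚ_[p]) ^ n * (p : ℚ_[p]) ^ (n + j + i)‖ ≤ 1 := by
    rw [pow_add, pow_add, show b / (p : ℚ_[p]) ^ n * (p ^ n * p ^ j * p ^ i) = b * p ^ j * p ^ i by
      field_simp]
    refine Fs.nrm_mul ?_ (Fs.nrm_ppow i)
    rw [norm_mul, norm_pow, Padic.norm_p, inv_pow]
    exact mul_inv_le_one_of_le₀ (hb.trans hj.le) (by positivity)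
  rw [B.wp_eq K (d.rt K _) (by omega) ht (h2.cm (dg_tr (Fs.psi_sub_one B.psi B.np _)) h3),
    B.wp_eq K d (by omega) ht h2, cl, cl, Psi.n_mk]
  congr 1
  funext i
  rw [Pi.smul_apply, Pi.smul_apply, sl_tr B.st B.psi B.np ht.le h4 h2 h3, smul_eq_mul, smul_eq_mul,
    mul_left_comm, zpow_add₀ p0, zpow_natCast]
  congr 2
  field_simp

/-- **the end** -/
theorem wp_et {k1 : ℕ} (h : ∀ k, k1 ≤ k → ∀ t, ‖t‖ = 1 → B.wp K k t v = 0) (d : A.Kd im U m φ v)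
    (l : Lv ι n φ) : Et (p ^ m) (E n φ) := by
  obtain ⟨c, D, h1⟩ := B.fac U d.1.1 φ (d.mem K) d.ne n l
  have m1 := d.mem K
  obtain ⟨-, -, f, -, -, -, e⟩ := id d
  refine sl_inj (n := n) (k0 := k1) B.psi B.np h1 (B.dvd U d.1.1 φ m1 n l f _ e c D h1)
    fun k t hk ht => cl_eq_zero.1 ?_
  rw [← B.wp_eq K d (by omega) ht ⟨c, D, h1⟩, h k hk.le t ht]

theorem wp_et' {k1 : ℕ} (h : ∀ k, k1 ≤ k → ∀ t, ‖t‖ = 1 → B.wp K k t v = 0) (d : A.Kd im U m φ v)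
    {c : C} {D : C →₀ ℤ} (h1 : Fac (E n φ) c D) (hN : ∀ b, ((p ^ m : ℕ) : ℤ) ∣ D b) :
    Et (p ^ m) (E n φ) :=
  sl_inj (n := n) (k0 := k1) B.psi B.np h1 hN fun k t hk ht => cl_eq_zero.1 (by
    rw [← B.wp_eq K d (by omega) ht ⟨c, D, h1⟩, h k hk.le t ht])

variable (B' : Xp T ι ψ E')
include B'

theorem two (d : A.Kd im U m φ v) (d' : A.Kd im U' m φ' v') :
    ∃ n, Lv ι n φ ∧ Fc (E n φ) ∧ Fc (E' n φ') ∧ Fc (E' (n + 1) φ') := by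
  obtain ⟨n, hn⟩ := B.kd_lv K d
  obtain ⟨n', hn'⟩ := B'.kd_lv K d'
  exact ⟨n + n', (hn _ (by omega)).1, (hn _ (by omega)).2, (hn' _ (by omega)).2,
    (hn' _ (by omega)).2⟩

/-- equal expansions -/
theorem wp_of (d : A.Kd im U m φ v) (d' : A.Kd im U' m φ' v') (e : ∀ n, E' n φ' = E n φ) (k : ℕ)
    (t : ℚ_[p]) : B'.wp K k t v' = B.wp K k t v := by
  by_cases c : 0 < k ∧ ‖t‖ = 1
  · obtain ⟨n, -, h1, h2, -⟩ := B.two K B' d d'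
    rw [B.wp_eq K d c.1 c.2 h1, B'.wp_eq K d' c.1 c.2 h2, e]
  · rw [B.wp_zero K c, B'.wp_zero K c]

/-- translation of the point -/
theorem wp_mv {x : G} (e : ∀ U ∈ T.Lev, ∀ φ ∈ T.RU U, ∀ n, E' n φ = E n (rt x φ)) (k : ℕ)
    (t : ℚ_[p]) (v : M) : B'.wp K k t v = B.wp K k t (a x v) := by
  obtain ⟨U, m, φ, d⟩ := ex_kd K v
  exact B.wp_of K B' (d.rt K x) d (e U d.1.1 φ (d.mem K)) k t

/-- the forward step -/
theorem wp_tt {x : G} (e : ∀ U ∈ T.Lev, ∀ φ ∈ T.RU U, ∀ n, E' (n + 1) φ = E n (rt x φ)) (k : ℕ)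
    (t : ℚ_[p]) (v : M) : B'.wp K k t v = Y.phi p C (B.wp K k t (a x v)) := by
  by_cases c : 0 < k ∧ ‖t‖ = 1
  · obtain ⟨U, m, φ, d⟩ := ex_kd K v
    obtain ⟨n, -, h1, -, h2⟩ := B.two K B' (d.rt K x) d
    rw [B.wp_eq K (d.rt K x) c.1 c.2 h1, B'.wp_eq K d c.1 c.2 h2, e U d.1.1 φ (d.mem K), cl, cl,
      Y.phi_mk]
    congr 1
    funext i
    rw [Pi.smul_apply, Pi.smul_apply, sl_shift B.st]
  · rw [B.wp_zero K c, B'.wp_zero K c, map_zero]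

/-- the backward step -/
theorem wp_pi {x : G} (e : ∀ U ∈ T.Lev, ∀ φ ∈ T.RU U, ∀ n, E' n φ = E (n + 1) (rt x φ)) (k : ℕ)
    (t : ℚ_[p]) (v : M) : B.wp K k t (a x v) = Y.phi p C (B'.wp K k t v) := by
  by_cases c : 0 < k ∧ ‖t‖ = 1
  · obtain ⟨U, m, φ, d⟩ := ex_kd K v
    obtain ⟨n, -, h1, -, h2⟩ := B'.two K B d (d.rt K x)
    rw [B.wp_eq K (d.rt K x) c.1 c.2 h2, B'.wp_eq K d c.1 c.2 h1, e U d.1.1 φ (d.mem K), cl, cl,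
      Y.phi_mk]
    congr 1
    funext i
    rw [Pi.smul_apply, Pi.smul_apply, sl_shift B.st]
  · rw [B.wp_zero K c, B'.wp_zero K c, map_zero]

/-- the torus -/
theorem wp_tor (f : ℤ_[p] →+* C) (hf : ∀ x, ‖f x‖ ≤ 1) (c : ℤ_[p]ˣ) {Φ : C⟦X⟧} (hΦ : Dg Φ 1)
    (h0 : constantCoeff Φ = 0)
    (h1 : ∀ b, An4.ev (ψ b - 1) Φ = ψ (((c : ℤ_[p]) : ℚ_[p]) * b) - 1)
    (h2 : (1 + X) * d⁄dX C Φ = PowerSeries.C (f c) * (1 + Φ)) {x : G}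
    (e : ∀ U ∈ T.Lev, ∀ φ ∈ T.RU U, ∀ n, E' n φ = sub Φ (E n (rt x φ))) (hk : 0 < k)
    (ht : ‖t‖ = 1) (v : M) :
    B'.wp K k t v = zs (c : ℤ_[p]) (B.wp K k (t / ((c : ℤ_[p]) : ℚ_[p])) (a x v)) := by
  obtain ⟨U, m, φ, d⟩ := ex_kd K v
  have d' := d.rt K x
  obtain ⟨n, l, ⟨b, D, h3⟩, h4, -⟩ := B.two K B' d' d
  have c1 := norm_u c
  have t1 : ‖t / ((c : ℤ_[p]) : ℚ_[p])‖ = 1 := by rw [norm_div, ht, c1, div_one]
  have m1 := d'.mem K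
  obtain ⟨-, -, z, -, -, -, e1⟩ := id d'
  obtain ⟨l', h5, h6⟩ := sl_tor (n := n) B.st hk t1 c1 hΦ h0 h1 h2 h3
    (B.dvd _ d'.1.1 _ m1 n l z _ e1 b D h3)
    ((hΦ.sb_iff_cm h0 h3).1 ((sb_eq_sub h0 hΦ.ne).2 (e U d.1.1 φ (d.mem K) n)))
  rw [mul_div_cancel₀ _ (norm_pos_iff.1 (c1.symm ▸ one_pos))] at h6
  rw [B.wp_eq K d' hk t1 ⟨b, D, h3⟩, B'.wp_eq K d hk ht h4, h6, cl_add,
    cl_eq_zero.2 ⟨l', h5, rfl⟩, add_zero, cl_smul B.np f hf _ _ (sl_mem B.st hk t1 _)]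

theorem wp_tor' (f : ℤ_[p] →+* C) (hf : ∀ x, ‖f x‖ ≤ 1) (c : ℤ_[p]ˣ) {Φ : C⟦X⟧} (hΦ : Dg Φ 1)
    (h0 : constantCoeff Φ = 0)
    (h1 : ∀ b, An4.ev (ψ b - 1) Φ = ψ (((c : ℤ_[p]) : ℚ_[p]) * b) - 1)
    (h2 : (1 + X) * d⁄dX C Φ = PowerSeries.C (f c) * (1 + Φ)) {x : G}
    (e : ∀ U ∈ T.Lev, ∀ φ ∈ T.RU U, ∀ n, E' n φ = sub Φ (E n (rt x φ))) (k : ℕ)
    (ht : ‖t‖ = 1) (v : M) : B'.wp K k (((c : ℤ_[p]) : ℚ_[p]) * t) v =
      zs (c : ℤ_[p]) (B.wp K k t (a x v)) := by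
  have c1 := norm_u c
  rcases k.eq_zero_or_pos with rfl | hk
  · rw [B.wp_zero K (by simp), B'.wp_zero K (by simp), zs_eq _ (N := 0) (smul_zero _), smul_zero]
  · rw [B.wp_tor K B' f hf c hΦ h0 h1 h2 e hk (by rw [norm_mul, c1, ht, one_mul]),
      mul_div_cancel_left₀ _ (norm_pos_iff.1 (c1.symm ▸ one_pos))]

/-- conjugation of the coefficients -/
theorem wp_gal (s : Iso C) {c : ℚ_[p]} (hc : ‖c‖ = 1) (hs : ∀ b, s.1 (ψ b) = ψ (c * b))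
    (μ : C⸨X⸩ →+* C⸨X⸩) (hμ : ∀ f, μ (am C f) = am C (PowerSeries.map (s.1 : C →+* C) f))
    (d : A.Kd im U m φ v) (d' : A.Kd im U' m φ' v') (e : ∀ n, E' n φ' = μ (E n φ)) (k : ℕ)
    (t : ℚ_[p]) : Y.gal s (B.wp K k t v) = B'.wp K k t v' := by
  by_cases c : 0 < k ∧ ‖t‖ = 1
  · obtain ⟨n, -, h1, h2, -⟩ := B.two K B' d d'
    rw [B.wp_eq K d c.1 c.2 h1, B'.wp_eq K d' c.1 c.2 h2, e, cl, cl, Y.gal_mk]
    congr 1
    funext i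
    rw [Pi.smul_apply, Pi.smul_apply, sl_gal B.st s hc hs μ hμ c.2.le h1, smul_eq_mul, smul_eq_mul,
      map_mul, map_inv₀, map_pow, map_natCast]
  · rw [B.wp_zero K c, B'.wp_zero K c, map_zero]

end Xp

end Vale.Agent.P022K.WB.Wf
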