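import Vale.Agent.P022K.WB.Wf
import Vale.Agent.P022K.WB.WfSt
import Vale.Agent.P022K.WB.Psi
import Vale.Agent.P022K.FI.Wf3
import Vale.Agent.P022K.F0.Galh

/-!
# P022K, block WB: the slices at the ordinary points of a tower satisfy the laws `Ml`
-/

set_option autoImplicit false
set_option linter.all false

open PowerSeries UpperHalfPlane
open scoped MatrixGroups LaurentSeries

noncomputable section

namespace Vale.Agent.P022K.WB.Gl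

open Vale.Agent.P022K.Sh Hon Vale.Agent.P022.H218.L3 Vale.Agent.P022K.WB.Wf
open Vale.Agent.P022K.FI Vale.Agent.P022K.FI.Wf Vale.Agent.P022K.FI.Hk Vale.Agent.P022K.FI.Br

variable {G0 G : Type} [Group G0] [Group G] {T : Tw G0 G} {p : ℕ} [Fact p.Prime] {A : T.Ax}
  {H : Type} [Group H] [TopologicalSpace H] {th : H → (G → Mer) → G → Mer}
  {M : Type} [AddCommGroup M] {a : Representation ℤ G M} {g : Representation ℤ H M}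
  {im : ∀ k U, T.Hn (p ^ k) U →+ M}

theorem kd_gal (K : A.Kk p th a g im) (ok : T.Ok) {U : Subgroup G} {k : ℕ} {φ : G → Mer} {v : M}
    (d : A.Kd im U k φ v) {σ : ℂ ≃+* ℂ} {θ : (G → Mer) → G → Mer} (s : T.Sl σ θ) {t : H}
    (ht : ∀ b b', T.Ga θ (p ^ k) U b b' → T.Ga (th t) (p ^ k) U b b') :
    A.Kd im U k (θ φ) (g t v) := by
  obtain ⟨hU, z, h, m, rfl, e, rfl⟩ := d
  have : NeZero p := ⟨K.hp.ne_zero⟩
  have := K.ok.finHn hU.1 (p ^ k)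
  have ex := Tw.ex_isGal (Λ := ZMod (p ^ k)) (B := ZMod (p ^ k)) s hU.1 (K.pos k) ok T.cf T.poi hU.2
  obtain ⟨b', r⟩ := ex (Submodule.Quotient.mk z)
  have e1 := K.lk.gal U hU k t _ _ (ht _ _ r)
  have m' := K.gc.ne hU (fun c _ => (ex c).imp fun _ => ht _ _) (ht _ _ r) m
  obtain ⟨y, z', e0, rfl, r⟩ := r
  obtain ⟨u, u', l, l', r⟩ := r (AddMonoidHom.id _)
  obtain ⟨ψ, hψ, e2⟩ := (e.cob (K.pos k) l).1 (Tw.mk_eq_mk.1 e0.symm)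
  have ψ0 : ∀ x, ψ x ≠ 0 := fun x e3 => e.pow_ne x (by
    rw [e2, Pi.mul_apply, Pi.pow_apply ψ, e3, zero_pow (K.pos k).ne', mul_zero])
  refine ⟨hU, z', u' * θ ψ, m', e1, l'.mul_RU (K.pos k) (s.mem U hU.1 ψ hψ) (s.em.ne hU.1 hψ ψ0),
    ?_⟩
  rw [e2, s.mul U hU.1 _ (l.pow_mem (K.pos k)) _ (pow_mem hψ _), r, s.em.pow hU.1 hψ, mul_pow]

variable {w : T.Lc ℤ_[p] ℚ_[p]} {hT : T.Ok} {D : Emb w p}

theorem fix_e {σ : ℂ ≃+* ℂ} (hσ : ∀ c, ‖D.ι (σ c)‖ = ‖D.ι c‖) (c : ℚ_[p]) :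
    σ (D.e c) = D.e c := by
  refine RingHom.congr_fun (IsFractionRing.ringHom_ext (A := ℤ_[p])
    (f1 := (σ : ℂ →+* ℂ).comp D.e) (f2 := D.e) fun a => D.ι.injective ?_) c
  refine sub_eq_zero.1 (norm_le_zero_iff.1 (ge_of_tendsto' (tendsto_pow_atTop_nhds_zero_of_lt_one
    (norm_nonneg _) (CS.norm_p_lt p)) fun k => ?_))
  obtain ⟨b, hb⟩ := Ideal.mem_span_singleton'.1 (a.appr_spec k)
  have h1 := (D.int _).2 (show ig ℤ_[p] (algebraMap ℤ_[p] ℚ_[p] b) from ⟨b, rfl⟩)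
  have h2 := IsUltrametricDist.norm_add_le_max (D.ι (σ (D.e (algebraMap ℤ_[p] ℚ_[p] b))))
    (-D.ι (D.e (algebraMap ℤ_[p] ℚ_[p] b)))
  rw [norm_neg, hσ, max_self] at h2
  rw [eq_sub_iff_add_eq.1 hb |>.symm]
  simp only [RingHom.comp_apply, map_add, map_mul, map_pow, map_natCast, RingHom.coe_coe]
  rw [add_sub_add_right_eq_sub, ← sub_mul, norm_mul, norm_pow, sub_eq_add_neg]
  exact mul_le_of_le_one_left (by positivity) (h2.trans h1)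

theorem nn_un (b : ℚ_[p]) : nn b = FI.un b := Units.ext rfl

theorem dd_dg (c : ℚ_[p]ˣ) : dd c 1 = dg c := (Units.ext rfl : dd c 1 = d2 c 1).trans (Gn.dg_eq c).symm

theorem val_pow {ϖ : ℚ_[p]ˣ} (hϖ : (ϖ : ℚ_[p]) = p) (n : ℕ) :
    ((ϖ ^ (n : ℤ) : ℚ_[p]ˣ) : ℚ_[p]) = (p : ℚ_[p]) ^ n := by
  rw [zpow_natCast, Units.val_pow_eq_pow_val, hϖ]

theorem io_iff {ϖ : ℚ_[p]ˣ} (hϖ : (ϖ : ℚ_[p]) = p) (n : ℕ) (b : ℚ_[p]) :
    Io ℤ_[p] (b / (ϖ ^ (n : ℤ) : ℚ_[p]ˣ)) ↔ ‖b‖ ≤ ‖(p : ℚ_[p]) ^ n‖ := by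
  rw [io_p, norm_div, val_pow hϖ, div_le_one (norm_pos_iff.2 (pow_ne_zero _ Fs.qp_ne))]

variable [Algebra ℚ_[p] (Cx D.ι)] {LD : LTD (Cx D.ι) ℤ_[p] ℚ_[p]} {ψ : ℚ_[p] → Cx D.ι}
  (h : Cf hT D LD) (m : Mu LD w.ϖ ψ) (hϖ : (w.ϖ : ℚ_[p]) = p) {τ : ℍ} {y : G}

include h hϖ in
theorem ln_of {U : Subgroup G} (hU : U ∈ T.Lev) {φ : G → Mer} (hφ : φ ∈ T.RU U) {n : ℕ}
    (l : Wf.Lv w.ι n φ) (y : G) : lw T (φ y) ∈ (tw w hT D.ι).Ln (w.π y) n :=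
  (h.mem_Ln hU hφ).2 fun c hc => congrFun (l c ((io_iff hϖ n c).1 hc)) y

include h m hϖ

/-- the expansions at an ordinary point -/
theorem xp (o : Ord w D.e τ y) : Xp T w.ι ψ fun n => Ex hT D LD n τ y where
  np := Cx.norm_p_lt D.ι
  psi := m.psi
  opn U hU := (h.ex_lev hU).imp fun k e b hb => e k le_rfl b ((io_iff hϖ k b).2 hb)
  mul U hU φ hφ φ' hφ' n := Ex_mul (val_mem hT hU hφ y) (val_mem hT hU hφ' y)
  succ n φ := by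
    rw [← m.f, ← h.Ex_succ o]
    rfl
  fac U hU φ hφ h0 n l := h.fac o (ln_of h hϖ hU hφ l y) (val_mem hT hU hφ y) (h0 y)
  un U hU φ hφ n l b := by
    rw [← m.tr, ← val_pow hϖ]
    exact h.Ex_un o hU hφ (ln_of h hϖ hU hφ l y) b
  dvd U hU φ hφ n l f N e c Dv hf b :=
    h.dvd o (ln_of h hϖ hU hφ l y) (val_mem hT hU hφ y) (congrFun e y).symm hf b

omit m hϖ in
theorem alg_le (x : ℤ_[p]) : ‖algebraMap ℚ_[p] (Cx D.ι) x‖ ≤ 1 := (h.ok.lf.nrm _).2 ⟨x, rfl⟩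

omit hϖ in
theorem dg_br (c : ℤ_[p]ˣ) : Dg (LD.br c) 1 := by
  have h0 := m.ok.br0 c
  refine ⟨m.ok.br_ig c, one_pos, fun n hn => ?_, ?_⟩
  · obtain rfl : n = 0 := by omega
    simp [h0]
  · have h1 := congrArg constantCoeff (m.br_der c)
    rw [map_mul, map_mul, map_add, map_add, h0, ← coeff_zero_eq_constantCoeff_apply (d⁄dX _ _),
      coeff_derivative] at h1
    have h2 : coeff 1 (LD.br c) = algebraMap ℚ_[p] (Cx D.ι) (c : ℤ_[p]) := by simpa using h1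
    have h3 : ‖algebraMap ℚ_[p] (Cx D.ι) (c : ℤ_[p])‖ *
        ‖algebraMap ℚ_[p] (Cx D.ι) ((c⁻¹ : ℤ_[p]ˣ) : ℤ_[p])‖ = 1 := by
      rw [← norm_mul, ← map_mul, ← PadicInt.coe_mul, c.mul_inv, PadicInt.coe_one, map_one, norm_one]
    rw [h2]
    exact le_antisymm (alg_le h _) (h3.ge.trans (mul_le_of_le_one_right (norm_nonneg _) (alg_le h _)))

variable (K : A.Kk p th a g im)

open Classical in
/-- **the slices at the points of the tower** -/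
def Wx (τ : ℍ) (y : G) (k : ℕ) (b : ℚ_[p]) : M →+ Y p (CS p) :=
  if o : Ord w D.e τ y then (Y.chg p (Cx.iso D.ι) (Cx.norm_iso _)).comp ((xp h m hϖ o).wp K k b)
  else 0

theorem Wx_eq (o : Ord w D.e τ y) (k : ℕ) (b : ℚ_[p]) (v : M) : Wx h m hϖ K τ y k b v =
    Y.chg p (Cx.iso D.ι) (Cx.norm_iso _) ((xp h m hϖ o).wp K k b v) := by
  rw [Wx, dif_pos o]
  rfl

/-- **ML** -/
theorem ml (d : Iso (CS p) →* H) {R : Iso (CS p) → ℍ → G → ℍ → G → Prop}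
    (hR : ∀ s τ y τ' y', R s τ y τ' y' → ∃ σ θ y0, T.Sl σ θ ∧ (∀ c, D.ι (σ c) = s.1 (D.ι c)) ∧
      (∀ U ∈ T.Nl, ∀ k b b', T.Ga θ (p ^ k) U b b' → T.Ga (th (d s)) (p ^ k) U b b') ∧
      T.Pt σ θ τ y τ' y0 ∧ y' = y0 * w.ι (dg (uq (chi0 p s))⁻¹)) :
    Ml w D.e (Psi.chg (Cx.iso D.ι) m.psi).og a (fun s => g (d s)) (Wx h m hϖ K) R := by
  refine ⟨fun τ y k b b' e => ?_, fun τ y o k b hk hb v => ?_, fun τ y o r v => ?_,
    fun τ y o δ k b => ?_, fun τ y o u hu k b v => ?_, fun τ y o k b v => ?_,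
    fun τ y o c k b hb v => ?_, fun s τ y τ' y' r o k b v => ?_⟩
  · by_cases o : Ord w D.e τ y
    · ext v
      rw [Wx_eq h m hϖ K o, Wx_eq h m hϖ K o, (xp h m hϖ o).wp_cong K e]
    · rw [Wx, Wx, dif_neg o, dif_neg o]
  · simp only [Wx_eq h m hϖ K o]
    rw [(xp h m hϖ o).wp_ref K hk hb, map_sum]
  · refine ((xp h m hϖ o).wp_n K r v).imp fun k0 e k hk b c hb hc => ?_
    rw [Wx_eq h m hϖ K o, Wx_eq h m hϖ K o, e k hk b c hb hc]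
    exact Y.chg_n _ _ _ _ (fun _ => rfl) _ _
  · ext v
    obtain ⟨U, n, φ, f⟩ := Xp.ex_kd K v
    rw [Wx_eq h m hϖ K o, Wx_eq h m hϖ K (o.left δ),
      (xp h m hϖ o).wp_of K (xp h m hϖ (o.left δ)) f f fun n => ?_]
    simpa using h.Ex_act (n := n) o f.1.1 (f.mem K) δ (one_mem U) (by rw [map_one]; exact one_mem _)
  · obtain ⟨c, hc⟩ := mem_Zl.1 hu
    rw [Wx_eq h m hϖ K o, Wx_eq h m hϖ K (o.right hc),
      (xp h m hϖ o).wp_mv K (xp h m hϖ (o.right hc)) fun U _ φ _ n => h.Ex_z o hu]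
  · have e : tt p = dg (w.ϖ ^ (1 : ℤ)) := by
      rw [← dd_dg, zpow_one]
      exact congrArg (dd · 1) (Units.ext hϖ.symm)
    have o' : Ord w D.e τ (y * w.ι (tt p)) := o.right (w.πι _)
    rw [Wx_eq h m hϖ K o, Wx_eq h m hϖ K o', ← Y.chg_phi,
      (xp h m hϖ o).wp_pi K (xp h m hϖ o') fun U _ φ _ n => ?_]
    rw [e]
    exact h.Ex_pi o 1
  · have o' : Ord w D.e τ (y * w.ι (dd (uq c) 1)) := o.right (w.πι _)
    obtain ⟨N, t⟩ := tor_w' (K.cc.tor (a (w.ι (dd (uq c) 1)) v)) ((xp h m hϖ o).wp K k b)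
    rw [Wx_eq h m hϖ K o, Wx_eq h m hϖ K o', ← map_zs _ _ t, (xp h m hϖ o).wp_tor' K (xp h m hϖ o')
      ((algebraMap ℚ_[p] (Cx D.ι)).comp PadicInt.Coe.ringHom) (alg_le h) c (dg_br h m c)
      (m.ok.br0 c) (m.br_ev c) (m.br_der c) (fun U _ φ _ n => ?_) k hb]
    rw [dd_dg]
    exact h.Ex_o o rfl
  · obtain ⟨σ, θ, y0, s1, s2, s3, s4, rfl⟩ := hR s τ y τ' y' r
    have hn : ∀ c, ‖D.ι (σ c)‖ = ‖D.ι c‖ := fun c => (congrArg _ (s2 c)).trans (s.2 _)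
    have hs : ∀ b, au D.ι σ (ψ b) = ψ (((chi0 p s : ℤ_[p]) : ℚ_[p]) * b) := fun b =>
      (Cx.iso D.ι).injective ((s2 _).trans ((Psi.chg (Cx.iso D.ι) m.psi).cyc0 s b))
    obtain ⟨o0, e⟩ := h.gal s1 s4 o hn (fix_e hn) (m.map_lg _) (c := chi0 p s)
      (χ := uq (chi0 p s)) rfl (m.map_tr _ hs)
    have o' : Ord w D.e τ' (y0 * w.ι (dg (uq (chi0 p s))⁻¹)) :=
      o0.right ((w.πι _).trans (Gn.dg_eq _))
    obtain ⟨U, n, φ, f⟩ := Xp.ex_kd K v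
    rw [Wx_eq h m hϖ K o, Wx_eq h m hϖ K o', dd_dg, ← (xp h m hϖ o).wp_gal K (xp h m hϖ o')
      ⟨au D.ι σ, hn⟩ (norm_u _) hs (mp _) (mp_am _) f ((kd_gal K hT f s1 (s3 U f.1 n)).rt K _)
      fun n => e n U f.1.1 φ (f.mem K)]
    exact Y.chg_gal _ _ s2 _

end Vale.Agent.P022K.WB.Gl
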