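import Vale.Agent.P022K.WB.Ij1

/-!
# Row `INJS`: a unit whose Serre-Tate slices are divisible by `p ^ m` is a `p ^ m`-th power
(up to a constant and a power of `y`)
-/

open PowerSeries Finset

namespace Vale.Agent.P022K.WB

open Vale.Agent.P022K.FI Vale.Agent.P022K.FI.An4

variable {p : ℕ} [Fact p.Prime] {C : Type} [NontriviallyNormedField C] [IsUltrametricDist C]
  [CharZero C] [CompleteSpace C] {ψ : ℚ_[p] → C}

namespace Ij

/-- all slices of level `> k0` are divisible by `p` -/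
def Dv (ψ : ℚ_[p] → C) (n k0 : ℕ) (u : C⟦X⟧) : Prop :=
  ∀ k a, k0 < k → ‖a‖ = 1 → ∃ l ∈ BW p C, st p ψ n k a u = p • l

variable {n k0 : ℕ} {u v w : C⟦X⟧}

theorem st_pow (S : ST p C ψ) (n k : ℕ) (a : ℚ_[p]) (hu : Unit u) (j : ℕ) :
    st p ψ n k a (u ^ j) = j • st p ψ n k a u := by
  induction j with
  | zero => simpa using S.cst n k a 1
  | succ j ih => rw [pow_succ, S.mul _ _ _ _ _ (upow hu j) hu, ih, succ_nsmul]

theorem st_cy (S : ST p C ψ) (n : ℕ) {k : ℕ} {a : ℚ_[p]} (hk : 0 < k) (ha : ‖a‖ = 1) {c : C}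
    (hc : ‖c‖ = 1) (i : ℕ) (hw : Unit w) :
    st p ψ n k a (PowerSeries.C c * (1 + X) ^ i * w) = st p ψ n k a w := by
  rw [S.mul _ _ _ _ _ (umul (uC hc) (upow uy i)) hw, S.mul _ _ _ _ _ (uC hc) (upow uy i), S.cst,
    st_pow S _ _ _ uy, S.yy _ _ _ hk ha]
  simp

theorem Dv.of_pow (S : ST p C ψ) (hv : Unit v) (hw : Unit w) (h : Dv ψ n k0 (v ^ p * w)) :
    Dv ψ n k0 w := by
  intro k a hk ha
  obtain ⟨l, hl, e⟩ := h k a hk ha
  rw [S.mul _ _ _ _ _ (upow hv p) hw, st_pow S _ _ _ hv] at e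
  refine ⟨l - st p ψ n k a v, sub_mem hl (S.mem _ _ _ _ (by omega) ha hv), ?_⟩
  rw [smul_sub, ← e, add_sub_cancel_left]

omit [CompleteSpace C] in
theorem Dv.gh (h : Dv ψ n k0 u) {k a : ℕ} (hk : k0 < k) (ha : ¬ p ∣ a) :
    ∃ α : ℕ → C, (∀ j, ‖α j‖ ≤ 1) ∧
      ∀ i, mu p ψ (dl u) (i + k) ((p ^ i * a : ℕ) : ℚ_[p]) = p * ghs p α i := by
  have h1 : ‖(a : ℚ_[p])‖ = 1 := nn_cop (by
    rw [Padic.norm_p]
    exact inv_lt_one_of_one_lt₀ (by exact_mod_cast (Fact.out : p.Prime).one_lt)) ha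
  obtain ⟨l, hl, e⟩ := h k a hk h1
  obtain ⟨α, h2, h3⟩ := ext_gh hl e
  refine ⟨α, h2, fun i => ?_⟩
  push_cast
  exact h3 i

/-- the slices of `dl w` for `w` close to `1` -/
theorem mu_dl (h : Psi p ψ) (hp : ‖(p : C)‖ < 1) (hw : Unit w) {R : ℝ} (hR : R ≤ ‖(p : C)‖)
    (h1 : Bnd 1 R (w - 1)) (i K a : ℕ) (hK : i ≤ K) (ha : p ^ i ∣ a) :
    ‖mu p ψ (dl w) K a‖ ≤ ‖(p : C)‖ ^ i * R := by
  have hR0 := h1.nonneg
  have hp0 : 0 < ‖(p : C)‖ := np_pos
  have key : ∀ M : ℕ, ∃ H, Bnd 1 R H ∧ dl w = DD H + (1 - w) ^ M * dl w := by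
    intro M
    induction M with
    | zero => exact ⟨0, bnd_zero 1 hR0, by simp [DD]⟩
    | succ M ih =>
      obtain ⟨H, hH, e⟩ := ih
      have hM : ((M + 1 : ℕ) : C) ≠ 0 := Nat.cast_ne_zero.2 M.succ_ne_zero
      have h2 : Bnd 1 R (1 - w) := by simpa using h1.neg
      refine ⟨H - PowerSeries.C ((M + 1 : ℕ) : C)⁻¹ * (1 - w) ^ (M + 1),
        hH.sub zero_le_one (((bnd_C 1 _).mul zero_le_one (h2.pow zero_le_one _)).mono ?_), ?_⟩
      · rw [norm_inv, inv_mul_le_iff₀ (norm_pos_iff.2 hM), pow_succ]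
        exact mul_le_mul_of_nonneg_right ((pow_le_pow_left₀ hR0 hR M).trans (nn_ge hp M)) hR0
      · have h3 : PowerSeries.C ((M + 1 : ℕ) : C)⁻¹ * ((M + 1 : ℕ) : C⟦X⟧) = 1 := by
          rw [← map_natCast (PowerSeries.C (R := C)), ← map_mul, inv_mul_cancel₀ hM, map_one]
        rw [DD_sub, DD_mul, DD_C, DD_pow, DD_sub, DD_one, ← dl_mul_self hw]
        linear_combination e - ((1 - w) ^ M * dl w * w) * h3
  obtain ⟨H, hH, e⟩ := key (i + 1)
  have h2 : Bnd 1 R (1 - w) := by simpa using h1.neg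
  have h3 := bmul (h2.pow zero_le_one (i + 1)) (b_dl hw)
  rw [e, mu_add h hp (b_DD hH) h3]
  refine (IsUltrametricDist.norm_add_le_max _ _).trans (max_le ?_ ((mu_le h hp h3 _ _).trans ?_))
  · rw [← sub_add_cancel (mu p ψ (DD H) K a) (a * mu p ψ H K a)]
    refine (IsUltrametricDist.norm_add_le_max _ _).trans (max_le ((mu_DD h hp hH _ _).trans ?_) ?_)
    · exact mul_le_mul_of_nonneg_right (pow_le_pow_of_le_one hp0.le hp.le hK) hR0
    · have h4 := nn_dvd (C := C) ha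
      rw [Nat.cast_pow, norm_pow] at h4
      rw [norm_mul]
      exact mul_le_mul h4 (mu_le h hp hH _ _) (norm_nonneg _) (by positivity)
  · rw [pow_succ]
    exact mul_le_mul_of_nonneg_right (pow_le_pow_left₀ hR0 hR i) hR0

/-- modulo `p` the logarithmic derivative is an integer -/
theorem dl_int (h : Psi p ψ) (hp : ‖(p : C)‖ < 1) (hu : Unit u) (hD : Dv ψ n k0 u) :
    ∃ i : ℕ, Bnd 1 ‖(p : C)‖ (dl u - (i : C⟦X⟧)) := by
  have hq := (Fact.out : p.Prime)
  have hp0 : 0 < ‖(p : C)‖ := np_pos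
  have hν := b_dl hu
  have h1 : Bnd 1 ‖(p : C)‖ (DD (dl u)) := by
    refine bnd_of_mu h hp (b_DD hν) k0 fun k a hk => ?_
    rw [← sub_add_cancel (mu p ψ (DD (dl u)) k a) (a * mu p ψ (dl u) k a)]
    refine (IsUltrametricDist.norm_add_le_max _ _).trans (max_le ((mu_DD h hp hν _ _).trans ?_) ?_)
    · rw [mul_one]
      exact pow_le_of_le_one hp0.le hp.le (by omega)
    · rw [norm_mul]
      by_cases ha : p ∣ a
      · exact (mul_le_of_le_one_right (norm_nonneg _) (mu_le h hp hν _ _)).trans (nn_dvd ha)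
      · obtain ⟨α, h2, h3⟩ := hD.gh hk ha
        have h4 := h3 0
        rw [zero_add, pow_zero, one_mul, ghs_zero] at h4
        rw [h4, norm_mul, nn_cop hp ha, one_mul]
        exact mul_le_of_le_one_right hp0.le (h2 0)
  have hP : ∀ k : ℕ, Bnd 1 1 (∏ j ∈ range k, (dl u - (j : C⟦X⟧))) ∧
      Bnd 1 ‖(p : C)‖ (DD (∏ j ∈ range k, (dl u - (j : C⟦X⟧)))) := by
    intro k
    induction k with
    | zero => exact ⟨by simpa using bnd_one 1, by simpa [DD_one] using bnd_zero 1 hp0.le⟩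
    | succ k ih =>
      have h2 := hν.sub zero_le_one (b_nat1 k)
      rw [prod_range_succ, DD_mul, DD_sub, DD_nat, sub_zero]
      exact ⟨bmul ih.1 h2, (bmul ih.2 h2).add zero_le_one (bmul' ih.1 h1)⟩
  have hT : ∀ k : ℕ, Bnd 1 ‖(p : C)‖
      ((1 + X) ^ k * (d⁄dX C)^[k] u - (∏ j ∈ range k, (dl u - (j : C⟦X⟧))) * u) := by
    intro k
    induction k with
    | zero => simpa using bnd_zero 1 hp0.le
    | succ k ih =>
      have h2 := ((b_DD ih).add zero_le_one (bmul (hP k).2 (ub hu))).sub zero_le_one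
        (bmul' (b_nat1 k) ih)
      convert h2 using 1
      rw [Function.iterate_succ_apply', prod_range_succ, DD_sub, DD_mul, DD_mul, DD_ypow,
        ← dl_mul_self hu]
      simp only [DD]
      ring
  have h2 : Bnd 1 ‖(p : C)‖ ((d⁄dX C)^[p] u) := bnd1.2 fun k => by
    rw [coeff_iterate_derivative, norm_mul]
    exact (mul_le_of_le_one_right (norm_nonneg _) (hu.1 _)).trans
      (nn_dvd ((Nat.dvd_factorial hq.pos le_rfl).trans (Nat.factorial_dvd_ascFactorial _ _)))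
  have h3 : Bnd 1 ‖(p : C)‖ (∏ j ∈ range p, (dl u - (j : C⟦X⟧))) := by
    have := bmul ((bmul' (bpow b_y p) h2).sub zero_le_one (hT p)) (ub (uinv hu))
    rwa [sub_sub_cancel, mul_assoc, uci hu, mul_one] at this
  have h4 : ∀ j : ℕ, ‖constantCoeff (dl u - (j : C⟦X⟧))‖ ≤ 1 := fun j => by
    simpa using bnd1.1 (hν.sub zero_le_one (b_nat1 j)) 0
  obtain ⟨i, hi, h5⟩ : ∃ i ∈ range p, ‖constantCoeff (dl u - (i : C⟦X⟧))‖ < 1 := by
    by_contra hc
    push Not at hc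
    have h5 := bnd1.1 h3 0
    rw [coeff_zero_eq_constantCoeff, map_prod, norm_prod,
      prod_eq_one fun j hj => le_antisymm (h4 j) (hc j hj)] at h5
    exact absurd hp (not_lt.2 h5)
  have h6 : ∀ j ∈ (range p).erase i, Unit (dl u - (j : C⟦X⟧)) := by
    intro j hj
    obtain ⟨hne, hj⟩ := mem_erase.1 hj
    refine umk (hν.sub zero_le_one (b_nat1 j)) (le_antisymm (h4 j) (not_lt.1 fun h7 => ?_))
    have h8 : ‖(i : C) - j‖ < 1 := by
      have e : (i : C) - j = constantCoeff (dl u - (j : C⟦X⟧)) + -constantCoeff (dl u - (i : C⟦X⟧)) := by simp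
      rw [e]
      exact (IsUltrametricDist.norm_add_le_max _ _).trans_lt (max_lt h7 (by rwa [norm_neg]))
    have hi' := mem_range.1 hi
    have hj' := mem_range.1 hj
    rcases lt_or_gt_of_ne hne with h9 | h9
    · rw [← Nat.cast_sub h9.le, nn_cop hp (Nat.not_dvd_of_pos_of_lt (by omega) (by omega))] at h8
      exact lt_irrefl _ h8
    · rw [norm_sub_rev, ← Nat.cast_sub h9.le,
        nn_cop hp (Nat.not_dvd_of_pos_of_lt (by omega) (by omega))] at h8
      exact lt_irrefl _ h8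
  have h7 : Unit (∏ j ∈ (range p).erase i, (dl u - (j : C⟦X⟧))) :=
    prod_induction _ Unit (fun _ _ => umul) (by simpa using uC (c := (1 : C)) norm_one) h6
  refine ⟨i, ?_⟩
  have := bmul h3 (ub (uinv h7))
  rwa [← mul_prod_erase _ _ hi, mul_assoc, uci h7, mul_one] at this

variable [IsAlgClosed C]

/-- a normalised unit with `u' = 0` modulo `p` and divisible slices is a `p`-th power -/
theorem pow_of (S : ST p C ψ) (h : Psi p ψ) (hp : ‖(p : C)‖ < 1) (hu : Unit u)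
    (h0 : constantCoeff u = 1) (hd : Bnd 1 ‖(p : C)‖ (d⁄dX C u)) (hD : Dv ψ n k0 u) :
    ∃ W, Unit W ∧ u = W ^ p := by
  have hq := (Fact.out : p.Prime)
  have hp0 : 0 < ‖(p : C)‖ := np_pos
  obtain ⟨q, hq1⟩ : ∃ q, p = q + 1 := ⟨p - 1, by have := hq.pos; omega⟩
  have hq0 : 0 < q := by have := hq.two_le; omega
  obtain ⟨β, hβ⟩ := IsAlgClosed.exists_pow_nat_eq (p : C) hq0
  set b := ‖β‖ with hbd
  have hb : b ^ q = ‖(p : C)‖ := by rw [hbd, ← norm_pow, hβ]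
  have hb0 : 0 < b := by
    refine (norm_nonneg β).lt_of_ne fun h1 => ?_
    rw [hbd, ← h1, zero_pow hq0.ne'] at hb
    exact hp0.ne hb
  have hb1 : b ≤ 1 := le_of_pow_le_pow_left₀ hq0.ne' zero_le_one (by rw [hb, one_pow]; exact hp.le)
  have hbp : b ^ p = ‖(p : C)‖ * b := by rw [← hb, ← pow_succ, ← hq1]
  choose rt hrt using fun x : C => IsAlgClosed.exists_pow_nat_eq x hq.pos
  obtain ⟨τ, τ0, τs⟩ : ∃ τ : ℕ → C, τ 0 = 1 ∧ ∀ k, τ (k + 1) ^ p = p * τ k :=
    ⟨fun k => Nat.rec 1 (fun _ t => rt (p * t)) k, rfl, fun k => hrt _⟩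
  have r1 : ∀ k, ‖τ (k + 1)‖ ^ p = ‖(p : C)‖ * ‖τ k‖ := fun k => by rw [← norm_pow, τs, norm_mul]
  have r2 : ∀ k, (‖τ k‖ / b) ^ p ^ k = b⁻¹ := by
    intro k
    induction k with
    | zero => simp [τ0]
    | succ k ih =>
      rw [pow_succ' p, pow_mul, div_pow, r1, hbp, mul_div_mul_left _ _ hp0.ne', ih]
  have r3 : ∀ k, b ≤ ‖τ k‖ := fun k => by
    rw [← one_le_div hb0]
    refine le_of_pow_le_pow_left₀ (pow_ne_zero k hq.ne_zero) (by positivity) ?_
    rw [r2, one_pow]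
    exact (one_le_inv₀ hb0).2 hb1
  have r4 : ∀ k, ‖τ (k + 1)‖ ≤ ‖τ k‖ := fun k => by
    refine le_of_pow_le_pow_left₀ hq.ne_zero (norm_nonneg _) ?_
    rw [r1, ← hb]
    conv_rhs => rw [hq1, pow_succ]
    exact mul_le_mul_of_nonneg_right (pow_le_pow_left₀ hb0.le (r3 k) q) (norm_nonneg _)
  have r5 : Antitone fun k => ‖τ k‖ := antitone_nat_of_succ_le r4
  have r6 : ∀ k, ‖τ k‖ ≤ 1 := fun k => by simpa [τ0] using r5 (Nat.zero_le k)
  have r7 : ∀ k, τ k ≠ 0 := fun k => norm_pos_iff.1 (hb0.trans_le (r3 k))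
  have gh : ∀ (k : ℕ) (α : ℕ → C), (∀ j, ‖α j‖ ≤ 1) →
      (∀ i, ‖ghs p α i‖ ≤ ‖(p : C)‖ ^ i * ‖τ k‖) → ∀ k' ≤ k + 1, ∀ j, ‖α j‖ ≤ ‖τ k'‖ := by
    intro k α h1 h2 k'
    induction k' with
    | zero => intro _ j; simpa [τ0] using h1 j
    | succ k' ih =>
      intro hk j
      refine le_of_pow_le_pow_left₀ hq.ne_zero (norm_nonneg _) ?_
      rw [r1]
      exact gh_step hp (r6 k') (ih (by omega)) (fun i => (h2 i).trans
        (mul_le_mul_of_nonneg_left (r5 (by omega)) (by positivity))) j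
  have it : ∀ k : ℕ, ∃ v w, Unit v ∧ Unit w ∧ constantCoeff v = 1 ∧ constantCoeff w = 1 ∧
      u = v ^ p * w ∧ Bnd 1 (‖(p : C)‖ * ‖τ k‖) (w - 1) := by
    intro k
    induction k with
    | zero =>
      rw [τ0]
      exact step hp one_ne_zero norm_one.le hu h0
        (by simpa using (ub hu).sub zero_le_one (bnd_one 1)) (by simpa using hd)
    | succ k ih =>
      obtain ⟨v, w, hv, hw, v0, w0, e, hb2⟩ := ih
      have hDw : Dv ψ n k0 w := Dv.of_pow S hv hw (e ▸ hD)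
      have hR : ‖(p : C)‖ * ‖τ k‖ ≤ ‖(p : C)‖ := mul_le_of_le_one_right hp0.le (r6 k)
      have h1 : Bnd 1 (‖(p : C)‖ * ‖τ (k + 1)‖) (dl w) := by
        refine bnd_of_mu h hp (b_dl hw) k0 fun K a hK => ?_
        by_cases ha : p ∣ a
        · refine (mu_dl h hp hw hR hb2 1 K a (by omega) (by simpa using ha)).trans ?_
          rw [pow_one, ← r1]
          exact mul_le_mul_of_nonneg_left (pow_le_of_le_one (norm_nonneg _) (r6 _) hq.ne_zero) hp0.le
        · obtain ⟨α, h2, h3⟩ := hDw.gh hK ha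
          have h4 := gh k α h2 (fun i => by
            have h5 := mu_dl h hp hw hR hb2 i (i + K) (p ^ i * a) (by omega) (dvd_mul_right _ _)
            rw [h3, norm_mul, mul_left_comm] at h5
            exact le_of_mul_le_mul_left h5 hp0) (k + 1) le_rfl 0
          have h5 := h3 0
          rw [zero_add, pow_zero, one_mul, ghs_zero] at h5
          rw [h5, norm_mul]
          exact mul_le_mul_of_nonneg_left h4 hp0.le
      have h2 := bmul h1 (ub hw)
      rw [dl_mul_self hw] at h2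
      obtain ⟨v', w', hv', hw', v0', w0', e', hb'⟩ :=
        step hp (r7 (k + 1)) (r6 _) hw w0 (by rwa [r1]) (b_der_of h2)
      exact ⟨v * v', w', umul hv hv', hw', by rw [map_mul, v0, v0', mul_one], w0',
        by rw [e, e', mul_pow, mul_assoc], hb'⟩
  obtain ⟨W, W0, hW⟩ := exists_root (p := p) h0
  refine ⟨W, umk (bnd1.2 fun N => ?_) (by rw [W0, norm_one]), hW.symm⟩
  obtain ⟨v, w, hv, hw, v0, w0, e, hb2⟩ := it N
  have hN : N < p ^ N := Nat.lt_pow_self hq.one_lt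
  have h1 : (W * v⁻¹) ^ p = w := by
    rw [mul_pow, hW, e, mul_right_comm, ← mul_pow, uci hv, one_pow, one_mul]
  have h2 := root_bd hb0 hb1 hbp (r3 N) (W := W * v⁻¹)
    (by rw [map_mul, constantCoeff_inv, W0, v0, inv_one, mul_one]) (by rwa [h1])
  have hτ : 0 < ‖τ N‖ := hb0.trans_le (r3 N)
  have h3 : BndT 1 1 (N + 1) (W * v⁻¹) := by
    intro j hj
    have h4 := h2 j
    have h5 : b ≤ (b / ‖τ N‖) ^ j := by
      have h6 : (b / ‖τ N‖) ^ p ^ N = b := by rw [← inv_div, inv_pow, r2, inv_inv]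
      calc b = (b / ‖τ N‖) ^ p ^ N := h6.symm
        _ ≤ _ := pow_le_pow_of_le_one (by positivity) ((div_le_one hτ).2 (r3 N)) (by omega)
    have h7 : ‖coeff j (W * v⁻¹ - 1)‖ ≤ 1 := by
      refine le_of_mul_le_mul_right ?_ hb0
      rw [one_mul]
      exact (mul_le_mul_of_nonneg_left h5 (norm_nonneg _)).trans h4
    rw [one_pow, mul_one, ← sub_add_cancel (W * v⁻¹) 1, map_add]
    exact (IsUltrametricDist.norm_add_le_max _ _).trans (max_le h7 (bnd1.1 (bnd_one 1) j))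
  have h4 := h3.mul zero_le_one zero_le_one zero_le_one ((ub hv).t _) N N.lt_succ_self
  rwa [mul_assoc, mul_comm v⁻¹, uci hv, mul_one, one_pow, mul_one, mul_one] at h4

theorem one_step (S : ST p C ψ) (h : Psi p ψ) (hp : ‖(p : C)‖ < 1) (hu : Unit u)
    (hD : Dv ψ n k0 u) :
    ∃ (c : C) (i : ℕ) (W : C⟦X⟧), ‖c‖ = 1 ∧ Unit W ∧ u = PowerSeries.C c * (1 + X) ^ i * W ^ p := by
  obtain ⟨i, hi⟩ := dl_int h hp hu hD
  obtain ⟨c, hc0⟩ : ∃ c, c = constantCoeff u := ⟨_, rfl⟩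
  have hc : ‖c‖ = 1 := hc0 ▸ u0 hu
  have hU : Unit (PowerSeries.C c * (1 + X) ^ i) := umul (uC hc) (upow uy i)
  obtain ⟨w, hw, w0, e⟩ : ∃ w, Unit w ∧ constantCoeff w = 1 ∧
      u = PowerSeries.C c * (1 + X) ^ i * w :=
    ⟨u * (PowerSeries.C c * (1 + X) ^ i)⁻¹, umul hu (uinv hU),
      by rw [map_mul, constantCoeff_inv]; simp [hc0, une hu],
      by rw [mul_left_comm, uci hU, mul_one]⟩
  have h1 : DD w = (dl u - (i : C⟦X⟧)) * w := by
    have h2 := dl_mul_self hu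
    have h3 := congrArg DD e
    rw [DD_mul, DD_mul, DD_C, DD_ypow] at h3
    have h4 := uci hU
    generalize (PowerSeries.C c * (1 + X) ^ i : C⟦X⟧)⁻¹ = V at h4
    linear_combination -V * h2 - V * h3 + V * dl u * e -
      (DD w - (dl u - (i : C⟦X⟧)) * w) * h4
  have hDw : Dv ψ n k0 w := fun k a hk ha => by
    rw [← st_cy S n (by omega) ha hc i hw, ← e]
    exact hD k a hk ha
  obtain ⟨W, hW, e'⟩ := pow_of S h hp hw w0 (b_der_of (h1 ▸ bmul hi (ub hw))) hDw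
  exact ⟨c, i, W, hc, hW, by rw [← e', ← e]⟩

end Ij

omit [CompleteSpace C] in
open Ij in
/-- row `INJS` -/
theorem injs (hS : FST p C) : INJS p C := by
  intro _ _ ψ h hp n m k0
  have S := hS ψ h hp
  have hp0 : (p : C) ≠ 0 := Nat.cast_ne_zero.2 (Fact.out : p.Prime).ne_zero
  induction m with
  | zero => exact fun u hu _ => ⟨1, 0, u, hu, by simp⟩
  | succ m ih =>
    intro u hu hl
    obtain ⟨c, i, W, hc, hW, e⟩ := one_step (n := n) (k0 := k0) S h hp hu fun k a hk ha => by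
      obtain ⟨l, h1, h2⟩ := hl k a hk ha
      exact ⟨p ^ m • l, nsmul_mem h1 _, by rw [h2, pow_succ', mul_smul]⟩
    obtain ⟨c', i', w, hw, e'⟩ := ih W hW fun k a hk ha => by
      obtain ⟨l, h1, h2⟩ := hl k a hk ha
      refine ⟨l, h1, funext fun j => ?_⟩
      rw [e, st_cy S n (by omega) ha hc i (upow hW p), st_pow S _ _ _ hW, pow_succ', mul_smul] at h2
      have h3 := congrFun h2 j
      rw [Pi.smul_apply, Pi.smul_apply, nsmul_eq_mul, nsmul_eq_mul] at h3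
      exact mul_left_cancel₀ hp0 h3
    refine ⟨c * c' ^ p, i + i' * p, w, hw, ?_⟩
    rw [e, e', map_mul, map_pow, pow_succ p m, pow_mul, pow_add, pow_mul]
    ring

end Vale.Agent.P022K.WB
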